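import Vale.Agent.P158.Any.Bypass
import Vale.Agent.P158.V4.StripTime

/-!
P158, arbitrary laws (notes 1452, 1453): from bounds on animals of bad sites to clusters, gates, hubs
and passage times between hubs.
-/

namespace Vale.Agent.P158.Any

open SimpleGraph

/-- Every animal of bad sites grown from `roots` has at most `M` sites. -/
def NoAnimals (b : ℝ) (ω : Cfg) (roots : Finset Pt) (M : ℕ) : Prop :=
  ∀ U : Finset Pt, Rooted U roots → (∀ u ∈ U, Bad b ω u) → U.card ≤ M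

/-- The animals meeting the ray to the right of `p` at distance less than their size have at most
`N` sites. -/
def RayOK (b : ℝ) (ω : Cfg) (p : Pt) (N : ℕ) : Prop :=
  ∀ (k : ℕ) (U : Finset Pt), Rooted U {(p.1 + k, p.2)} → (∀ u ∈ U, Bad b ω u) → k < U.card →
    U.card ≤ N

variable {b : ℝ} {ω ω' : Cfg} {S : Set Pt}

theorem Rooted.mono {U r r' : Finset Pt} (h : Rooted U r) (hr : r ⊆ r') : Rooted U r' :=
  fun y hy => by
    obtain ⟨x, hx, h'⟩ := h y hy
    exact ⟨x, hr hx, h'⟩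

theorem IsClu.rooted {C : Finset Pt} (h : IsClu b ω S C) {c : Pt} (hc : c ∈ C) : Rooted C {c} :=
  fun y hy => ⟨c, Finset.mem_singleton_self c, hc, h.conn c hc y hy⟩

theorem NoAnimals.exists_clu {roots : Finset Pt} {M : ℕ} (h : NoAnimals b ω roots M) {z : Pt}
    (hz : z ∈ roots) (hzS : z ∈ S) (hbad : Bad b ω z) : ∃ C, IsClu b ω S C ∧ z ∈ C ∧ C.card ≤ M :=
  Any.exists_clu hzS hbad fun U hU hr =>
    h U (hr.mono (Finset.singleton_subset_iff.2 hz)) fun u hu => (hU u hu).2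

theorem RayOK.tame (hS : Reg S) {p : Pt} {N : ℕ} (h : RayOK b ω p N) (hp : p ∈ S) :
    Tame b ω S p N := by
  refine ⟨fun hbad => Any.exists_clu hp hbad fun U hU hr => ?_, fun C hC hCp => ?_⟩
  · rcases U.eq_empty_or_nonempty with rfl | hne
    · simp
    · exact h 0 U (by simpa using hr) (fun u hu => (hU u hu).2) hne.card_pos
  -- the ray to the right meets the cluster
  obtain ⟨M, hM⟩ := (C.image fun c : Pt => c.1).bddAbove
  have hmax : ∀ c ∈ C, c.1 ≤ M := fun c hc => hM (Finset.mem_image_of_mem _ hc)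
  obtain ⟨c, hc, hcr, hcx⟩ : ∃ c ∈ C, c.2 = p.2 ∧ p.1 ≤ c.1 := by
    by_contra hno
    push Not at hno
    refine hCp ⟨(max p.1 (M + 1), p.2), Or.inl fun c hc => ?_, joined_hor fun t h1 h2 => ⟨hS.level hp rfl, fun hc => ?_⟩⟩
    · have := hmax c hc
      show c.1 < max p.1 (M + 1)
      omega
    · have := hno (t, p.2) hc rfl
      simp only at this
      omega
  obtain ⟨k, hk⟩ := Int.le.dest hcx
  have hd := (dist_lt_card hC.conn hp hCp hc).1
  refine h k C ?_ hC.bad ?_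
  · rw [hk, ← hcr]
    exact hC.rooted hc
  · rw [abs_lt] at hd
    omega

/-- A walk between hubs can avoid the edges heavier than a level. -/
theorem NoAnimals.bypass (hS : Reg S) (hb : 0 ≤ b) (h0 : ∀ e, 0 ≤ ω' e)
    (hlow : ∀ e, ω e ≤ b → ω' e ≤ b) {t : ℝ} (ht : b ≤ t) {x y : Pt} (hx : Hub b ω S x)
    (hy : Hub b ω S y) (p : grid.Walk x y) (hp : ∀ z ∈ p.support, z ∈ S) {roots : Finset Pt} {M : ℕ}
    (hroots : ∀ e ∈ p.edges, t < ω e → ∀ s, s ∈ e → s ∈ roots) (hA : NoAnimals b ω roots M) :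
    ∃ q : grid.Walk x y, (∀ z ∈ q.support, z ∈ S ∧ (z ∈ p.support ∨ ∃ r ∈ roots,
        |r.1 - z.1| ≤ M + 1 ∧ |r.2 - z.2| ≤ M + 1)) ∧
      (∀ e ∈ q.edges, ω e ≤ t) ∧ V4.wt ω' q ≤ V4.wt ω' p + 9 * b * M := by
  classical
  have hclu : ∀ e ∈ p.edges, t < ω e → ∀ s, s ∈ e → ∃ C, IsClu b ω S C ∧ s ∈ C ∧ C.card ≤ M := by
    intro e he hlt s hs
    refine hA.exists_clu (hroots e he hlt s hs) (hp s (p.mem_support_of_mem_edges he hs)) ?_
    obtain ⟨n, rfl⟩ := Sym2.mem_iff_exists.1 hs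
    exact ⟨n, p.adj_of_mem_edges he, ht.trans_lt hlt⟩
  choose! clu hclu using hclu
  set U : Finset Pt := (p.edges.toFinset.filter fun e => t < ω e).biUnion fun e =>
    e.toFinset.biUnion fun s => clu e s
  have hmem : ∀ u ∈ U, ∃ e ∈ p.edges, t < ω e ∧ ∃ s, s ∈ e ∧ u ∈ clu e s := fun u hu => by
    simp only [U, Finset.mem_biUnion, Finset.mem_filter, List.mem_toFinset, Sym2.mem_toFinset] at hu
    obtain ⟨e, ⟨he, hlt⟩, s, hs, hus⟩ := hu
    exact ⟨e, he, hlt, s, hs, hus⟩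
  have hsub : ∀ e ∈ p.edges, t < ω e → ∀ s, s ∈ e → clu e s ⊆ U := fun e he hlt s hs u hu => by
    simp only [U, Finset.mem_biUnion, Finset.mem_filter, List.mem_toFinset, Sym2.mem_toFinset]
    exact ⟨e, ⟨he, hlt⟩, s, hs, hu⟩
  have hrootU : Rooted U roots := fun u hu => by
    obtain ⟨e, he, hlt, s, hs, hus⟩ := hmem u hu
    obtain ⟨hC, hsC, -⟩ := hclu e he hlt s hs
    exact ⟨s, hroots e he hlt s hs, hsub e he hlt s hs hsC,
      starConn_mono (hsub e he hlt s hs) (hC.conn s hsC u hus)⟩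
  have hUM : U.card ≤ M := hA U hrootU fun u hu => by
    obtain ⟨e, he, hlt, s, hs, hus⟩ := hmem u hu
    exact (hclu e he hlt s hs).1.bad u hus
  obtain ⟨q, hq, hqHi, hqw⟩ := exists_bypass hS h0 hlow hb (Hi := {e | t < ω e})
    (fun e he => ht.trans_lt he) hx hy U p hp fun e he hlt s hs =>
      ⟨clu e s, (hclu e he hlt s hs).1, (hclu e he hlt s hs).2.1, hsub e he hlt s hs⟩
  refine ⟨q, fun z hz => ⟨(hq z hz).1, (hq z hz).2.imp id fun hzU => ?_⟩,
    fun e he => le_of_not_gt (hqHi e he), hqw.trans ?_⟩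
  · obtain ⟨u, hu, huz⟩ := mem_starHood.1 hzU
    obtain ⟨e, he, hlt, s, hs, hus⟩ := hmem u hu
    obtain ⟨hC, hsC, hcard⟩ := hclu e he hlt s hs
    refine ⟨s, hroots e he hlt s hs, ?_⟩
    obtain ⟨h1, h2⟩ := starConn_diam hC.conn hsC hus
    obtain ⟨h3, h4⟩ := huz
    have h5 : ((clu e s).card : ℤ) ≤ M := by exact_mod_cast hcard
    simp only [abs_lt, abs_le] at *
    omega
  · have : (U.card : ℝ) ≤ M := Nat.cast_le.2 hUM
    have := mul_le_mul_of_nonneg_left this (show 0 ≤ 9 * b by linarith)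
    linarith

/-- The passage time between hubs of a region, from a walk and the animals grown from its sites. -/
theorem NoAnimals.seg_bound (hS : Reg S) (hb : 0 ≤ b) (h0 : ∀ e, 0 ≤ ω e) {x y : Pt}
    (hx : Hub b ω S x) (hy : Hub b ω S y) (p : grid.Walk x y) (hp : ∀ z ∈ p.support, z ∈ S) {M : ℕ}
    (hA : NoAnimals b ω p.support.toFinset M) :
    ∃ q : grid.Walk x y, (∀ z ∈ q.support, z ∈ S ∧ (z ∈ p.support ∨ ∃ r ∈ p.support,
        |r.1 - z.1| ≤ M + 1 ∧ |r.2 - z.2| ≤ M + 1)) ∧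
      V4.wt ω q ≤ b * (p.length + 9 * M) := by
  obtain ⟨q, hq, hql, hqw⟩ := hA.bypass (ω' := fun e => min (ω e) b) hS hb
    (fun e => le_min (h0 e) hb) (fun e _ => min_le_right _ _) le_rfl hx hy p hp
    fun e he _ s hs => List.mem_toFinset.2 (p.mem_support_of_mem_edges he hs)
  refine ⟨q, fun z hz => ⟨(hq z hz).1, (hq z hz).2.imp id fun ⟨r, hr, h⟩ => ⟨r, List.mem_toFinset.1 hr, h⟩⟩, ?_⟩
  have e1 : V4.wt ω q = V4.wt (fun e => min (ω e) b) q :=
    congrArg List.sum (List.map_congr_left fun e he => (min_eq_left (hql e he)).symm)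
  have e2 := V4.wt_le_length (ω := fun e => min (ω e) b) (fun e => min_le_right _ _) p
  rw [e1]
  linarith

/-- A hub on the line at most `N + 1` to the right. -/
theorem exists_hub_right (hS : Reg S) {p : Pt} (hp : p ∈ S) {N : ℕ} (h : RayOK b ω p N) :
    ∃ k : ℕ, k ≤ N + 1 ∧ Hub b ω S (p.1 + k, p.2) := by
  obtain ⟨w, -, hw⟩ := V4.exists_box_walk p (p.1 + (N + 1 : ℕ), p.2)
  have hws : ∀ z ∈ w.support, z.2 = p.2 ∧ p.1 ≤ z.1 := fun z hz => by
    have := hw z hz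
    simp only at this
    omega
  obtain ⟨d, hd, hdw, hdn, -⟩ := gate hS hp (h.tame hS hp) w (fun z hz => hS.level hp (hws z hz).1)
    fun hn => by
      simp only [Near, abs_le] at hn
      omega
  obtain ⟨h2, h1⟩ := hws d hdw
  obtain ⟨k, hk⟩ := Int.le.dest h1
  refine ⟨k, ?_, ?_⟩
  · simp only [Near, abs_le] at hdn
    omega
  · rw [hk, ← h2]
    exact hd

end Vale.Agent.P158.Any
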