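import Vale.Agent.P158.Any.Parity

/-!
P158, arbitrary laws (note 1452, U1): the outer boundary in a region of a finite king-connected set
is connected by steps of the lattice.
-/

namespace Vale.Agent.P158.Any

open SimpleGraph

variable {S : Set Pt} {C : Finset Pt}

/-- `q` is outside the bounding box of `C`. -/
def Far (C : Finset Pt) (q : Pt) : Prop :=
  (∀ c ∈ C, c.1 < q.1) ∨ (∀ c ∈ C, q.1 < c.1) ∨ (∀ c ∈ C, c.2 < q.2) ∨ ∀ c ∈ C, q.2 < c.2

/-- `u` and `v` are joined in the region avoiding `C`. -/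
def Joined (S : Set Pt) (C : Finset Pt) (u v : Pt) : Prop :=
  ∃ p : grid.Walk u v, ∀ z ∈ p.support, z ∈ S ∧ z ∉ C

/-- `z` is joined in the region to outside the bounding box of `C` avoiding `C`. -/
def Out (S : Set Pt) (C : Finset Pt) (z : Pt) : Prop := ∃ q, Far C q ∧ Joined S C z q

theorem Joined.symm {u v : Pt} (h : Joined S C u v) : Joined S C v u := by
  obtain ⟨p, hp⟩ := h
  exact ⟨p.reverse, fun z hz => hp z (by simpa using hz)⟩

theorem Joined.trans {u v w : Pt} (h : Joined S C u v) (h' : Joined S C v w) : Joined S C u w := by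
  obtain ⟨p, hp⟩ := h
  obtain ⟨q, hq⟩ := h'
  exact ⟨p.append q, fun z hz =>
    ((Walk.mem_support_append_iff _ _).1 hz).elim (hp z) (hq z)⟩

theorem Joined.refl {u : Pt} (hu : u ∈ S) (hC : u ∉ C) : Joined S C u u :=
  ⟨.nil, fun z hz => by simp at hz; exact hz ▸ ⟨hu, hC⟩⟩

theorem Joined.step {u v : Pt} (hu : u ∈ S) (huC : u ∉ C) (hv : v ∈ S) (hvC : v ∉ C)
    (h : grid.Adj u v) : Joined S C u v :=
  ⟨.cons h .nil, fun z hz => by
    simp at hz
    rcases hz with rfl | rfl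
    exacts [⟨hu, huC⟩, ⟨hv, hvC⟩]⟩

/-- A straight segment avoiding `C` joins its ends. -/
theorem joined_line (a : Pt) (ha : |a.1| + |a.2| = 1) :
    ∀ (n : ℕ) (u : Pt), (∀ i : ℕ, i ≤ n → u + (i : ℤ) • a ∈ S ∧ u + (i : ℤ) • a ∉ C) →
      Joined S C u (u + (n : ℤ) • a)
  | 0, u, h => by simpa using Joined.refl (h 0 le_rfl).1 (h 0 le_rfl).2
  | n + 1, u, h => by
    have h1 := h n (by omega)
    have h2 := h (n + 1) le_rfl
    refine (joined_line a ha n u fun i hi => h i (by omega)).trans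
      (Joined.step h1.1 h1.2 h2.1 h2.2 ?_)
    rw [grid_adj_iff]
    simp only [Prod.fst_add, Prod.snd_add, Prod.smul_fst, Prod.smul_snd, smul_eq_mul, Nat.cast_succ]
    rw [show u.1 + n * a.1 - (u.1 + (n + 1) * a.1) = -a.1 by ring,
      show u.2 + n * a.2 - (u.2 + (n + 1) * a.2) = -a.2 by ring, abs_neg, abs_neg, ha]

theorem joined_hor {u : Pt} {x : ℤ}
    (h : ∀ t, min u.1 x ≤ t → t ≤ max u.1 x → (t, u.2) ∈ S ∧ (t, u.2) ∉ C) :
    Joined S C u (x, u.2) := by
  rcases le_total u.1 x with hx | hx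
  · obtain ⟨n, rfl⟩ := Int.le.dest hx
    have e : u + (n : ℤ) • ((1, 0) : Pt) = (u.1 + n, u.2) := by ext <;> simp
    rw [← e]
    refine joined_line _ (by simp) n u fun i hi => ?_
    have e' : u + (i : ℤ) • ((1, 0) : Pt) = (u.1 + i, u.2) := by ext <;> simp
    rw [e']
    exact h _ (by omega) (by omega)
  · obtain ⟨n, rfl⟩ : ∃ n : ℕ, x = u.1 - n := ⟨(u.1 - x).toNat, by omega⟩
    have e : u + (n : ℤ) • ((-1, 0) : Pt) = (u.1 - n, u.2) := by ext <;> simp [sub_eq_add_neg]
    rw [← e]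
    refine joined_line _ (by simp) n u fun i hi => ?_
    have e' : u + (i : ℤ) • ((-1, 0) : Pt) = (u.1 - i, u.2) := by ext <;> simp [sub_eq_add_neg]
    rw [e']
    exact h _ (by omega) (by omega)

theorem joined_ver {u : Pt} {y : ℤ}
    (h : ∀ t, min u.2 y ≤ t → t ≤ max u.2 y → (u.1, t) ∈ S ∧ (u.1, t) ∉ C) :
    Joined S C u (u.1, y) := by
  rcases le_total u.2 y with hx | hx
  · obtain ⟨n, rfl⟩ := Int.le.dest hx
    have e : u + (n : ℤ) • ((0, 1) : Pt) = (u.1, u.2 + n) := by ext <;> simp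
    rw [← e]
    refine joined_line _ (by simp) n u fun i hi => ?_
    have e' : u + (i : ℤ) • ((0, 1) : Pt) = (u.1, u.2 + i) := by ext <;> simp
    rw [e']
    exact h _ (by omega) (by omega)
  · obtain ⟨n, rfl⟩ : ∃ n : ℕ, y = u.2 - n := ⟨(u.2 - y).toNat, by omega⟩
    have e : u + (n : ℤ) • ((0, -1) : Pt) = (u.1, u.2 - n) := by ext <;> simp [sub_eq_add_neg]
    rw [← e]
    refine joined_line _ (by simp) n u fun i hi => ?_
    have e' : u + (i : ℤ) • ((0, -1) : Pt) = (u.1, u.2 - i) := by ext <;> simp [sub_eq_add_neg]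
    rw [e']
    exact h _ (by omega) (by omega)

/-- The sites outside the bounding box are joined to each other. -/
theorem Far.joined (hS : Reg S) {q q' : Pt} (hq : Far C q) (hqS : q ∈ S) (hq' : Far C q')
    (hqS' : q' ∈ S) : Joined S C q q' := by
  obtain ⟨M, hM⟩ : ∃ M : ℤ, ∀ c ∈ insert q (insert q' C), |c.1| < M ∧ |c.2| < M := by
    obtain ⟨M, hM⟩ := ((insert q (insert q' C)).image fun c : Pt => |c.1| + |c.2|).bddAbove
    refine ⟨M + 1, fun c hc => ?_⟩
    have : |c.1| + |c.2| ≤ M := hM (Finset.mem_image_of_mem _ hc)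
    constructor <;> linarith [abs_nonneg c.1, abs_nonneg c.2]
  -- a level in the region beyond all sites involved
  obtain ⟨Y, hY, hYS⟩ : ∃ Y : ℤ, (∀ c ∈ insert q (insert q' C), c.2 ≠ Y) ∧
      ∀ p ∈ S, ∀ t, min p.2 Y ≤ t → t ≤ max p.2 Y → ∀ x, (x, t) ∈ S := by
    have hne : ∀ Y : ℤ, (M ≤ Y ∨ Y ≤ -M) → ∀ c ∈ insert q (insert q' C), c.2 ≠ Y := fun Y hY c hc e => by
      have h := abs_lt.1 (hM c hc).2
      omega
    rcases hS with rfl | ⟨h, rfl⟩ | ⟨h, rfl⟩
    · exact ⟨M, hne M (Or.inl le_rfl), fun p _ t _ _ x => trivial⟩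
    · refine ⟨max M h, hne _ (Or.inl (le_max_left _ _)), fun p hp t h1 h2 x => ?_⟩
      change h ≤ p.2 at hp
      change h ≤ t
      omega
    · refine ⟨min (-M) h, hne _ (Or.inr (min_le_left _ _)), fun p hp t h1 h2 x => ?_⟩
      change p.2 ≤ h at hp
      change t ≤ h
      omega
  have hYC : ∀ x : ℤ, (x, Y) ∉ C := fun x hx =>
    hY _ (Finset.mem_insert_of_mem (Finset.mem_insert_of_mem hx)) rfl
  suffices h : ∀ p ∈ insert q (insert q' C), Far C p → p ∈ S → Joined S C p (M, Y) from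
    (h q (Finset.mem_insert_self _ _) hq hqS).trans
      (h q' (Finset.mem_insert_of_mem (Finset.mem_insert_self _ _)) hq' hqS').symm
  intro p hp hpf hpS
  have hCM : ∀ c ∈ C, |c.1| < M := fun c hc =>
    (hM c (Finset.mem_insert_of_mem (Finset.mem_insert_of_mem hc))).1
  -- up or down a column free of `C`, then along the level
  have col : ∀ p : Pt, p ∈ S → (∀ c ∈ C, c.1 ≠ p.1) → Joined S C p (M, Y) := fun p hpS hcol =>
    (joined_ver fun t h1 h2 => ⟨hYS p hpS t h1 h2 p.1, fun hc => hcol _ hc rfl⟩).trans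
      (joined_hor (u := (p.1, Y)) fun t _ _ =>
        ⟨hYS p hpS Y (min_le_right _ _) (le_max_right _ _) t, hYC t⟩)
  rcases hpf with h | h | h | h
  · exact col p hpS fun c hc e => (h c hc).ne e
  · exact col p hpS fun c hc e => (h c hc).ne' e
  all_goals
    refine (joined_hor (x := M) fun t _ _ =>
      ⟨hS.level hpS rfl, fun hc => (h _ hc).ne (by rfl)⟩).trans
      (col (M, p.2) (hS.level hpS rfl) fun c hc e => ?_)
    have := abs_lt.1 (hCM c hc)
    simp only at e
    omega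

theorem Out.mem {z : Pt} (h : Out S C z) : z ∈ S ∧ z ∉ C := by
  obtain ⟨q, -, p, hp⟩ := h
  exact hp z p.start_mem_support

theorem Out.of_joined {u v : Pt} (h : Out S C u) (hj : Joined S C v u) : Out S C v := by
  obtain ⟨q, hq, hw⟩ := h
  exact ⟨q, hq, hj.trans hw⟩

theorem Out.adj {u v : Pt} (h : Out S C u) (hv : v ∈ S) (hvC : v ∉ C) (ha : grid.Adj v u) :
    Out S C v :=
  h.of_joined (Joined.step hv hvC h.mem.1 h.mem.2 ha)

theorem Out.joined (hS : Reg S) {u v : Pt} (hu : Out S C u) (hv : Out S C v) : Joined S C u v := by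
  obtain ⟨q, hq, hw⟩ := hu
  obtain ⟨q', hq', hw'⟩ := hv
  obtain ⟨p, hp⟩ := hw
  obtain ⟨p', hp'⟩ := hw'
  exact (Joined.trans ⟨p, hp⟩ (hq.joined hS (hp q p.end_mem_support).1 hq'
    (hp' q' p'.end_mem_support).1)).trans (Joined.symm ⟨p', hp'⟩)

/-- The outer boundary. -/
def Bdry (S : Set Pt) (C : Finset Pt) (d : Pt) : Prop := Out S C d ∧ ∃ c ∈ C, Star c d

/-- `u` and `v` are joined inside the outer boundary. -/
def BJoined (S : Set Pt) (C : Finset Pt) (u v : Pt) : Prop :=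
  ∃ p : grid.Walk u v, ∀ z ∈ p.support, Bdry S C z

theorem BJoined.snoc {u v w : Pt} (h : BJoined S C u v) (hw : Bdry S C w) (ha : grid.Adj v w) :
    BJoined S C u w := by
  obtain ⟨p, hp⟩ := h
  exact ⟨p.concat ha, fun z hz => by
    rw [Walk.support_concat, List.mem_append, List.mem_singleton] at hz
    rcases hz with hz | rfl
    exacts [hp z hz, hw]⟩

/-- The mark of an edge: it leaves `C` towards a boundary site joined to `d₀`. -/
noncomputable def mark (S : Set Pt) (C : Finset Pt) (d₀ : Pt) (u v : Pt) : ZMod 2 :=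
  open Classical in
  (if u ∈ C ∧ BJoined S C d₀ v then 1 else 0) + (if v ∈ C ∧ BJoined S C d₀ u then 1 else 0)

/-- `mark` as a function of the edge. -/
noncomputable def markE (S : Set Pt) (C : Finset Pt) (d₀ : Pt) : Sym2 Pt → ZMod 2 :=
  Sym2.lift ⟨mark S C d₀, fun _ _ => add_comm _ _⟩

theorem markE_mk (d₀ u v : Pt) : markE S C d₀ s(u, v) = mark S C d₀ u v := rfl

/-- The states of the corners of a square, and the parity they give. -/
theorem square_parity : ∀ c₁ c₂ c₃ c₄ k₁ k₂ k₃ k₄ : Bool,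
    (k₁ → ¬c₁) → (k₂ → ¬c₂) → (k₃ → ¬c₃) → (k₄ → ¬c₄) →
    ((c₁ || c₂ || c₃ || c₄) →
      ((!c₁ && !c₂) → k₁ = k₂) ∧ ((!c₂ && !c₃) → k₂ = k₃) ∧ ((!c₄ && !c₃) → k₄ = k₃) ∧
        ((!c₁ && !c₄) → k₁ = k₄)) →
    ((if c₁ && k₂ then (1 : ZMod 2) else 0) + (if c₂ && k₁ then 1 else 0)) +
      ((if c₂ && k₃ then 1 else 0) + (if c₃ && k₂ then 1 else 0)) +
      ((if c₄ && k₃ then 1 else 0) + (if c₃ && k₄ then 1 else 0)) +
      ((if c₁ && k₄ then 1 else 0) + (if c₄ && k₁ then 1 else 0)) = 0 := by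
  intro c₁ c₂ c₃ c₄ k₁ k₂ k₃ k₄
  cases c₁ <;> cases c₂ <;> cases c₃ <;> cases c₄ <;> cases k₁ <;> cases k₂ <;> cases k₃ <;> cases k₄ <;>
    first | (intros; rfl) | simp

theorem closed_mark (hS : Reg S) (d₀ : Pt) : Closed S (markE S C d₀) := by
  classical
  intro x y h1 h4
  have h2 : (x + 1, y) ∈ S := hS.level h1 rfl
  have h3 : (x + 1, y + 1) ∈ S := hS.level h4 rfl
  set K : Pt → Prop := fun z => BJoined S C d₀ z
  have hK : ∀ z, K z → Bdry S C z := fun z ⟨p, hp⟩ => hp z p.end_mem_support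
  -- along an edge of the square avoiding `C` membership propagates, if some corner is in `C`
  have move : ∀ u v : Pt, grid.Adj u v → v ∈ S → v ∉ C → (∃ c ∈ C, Star c v) → K u → K v :=
    fun u v ha hv hvC hc hu =>
      hu.snoc ⟨(hK u hu).1.adj hv hvC ha.symm, hc⟩ ha
  have ha12 : grid.Adj (x, y) (x + 1, y) := by rw [grid_adj_iff]; simp
  have ha23 : grid.Adj (x + 1, y) (x + 1, y + 1) := by rw [grid_adj_iff]; simp
  have ha43 : grid.Adj (x, y + 1) (x + 1, y + 1) := by rw [grid_adj_iff]; simp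
  have ha14 : grid.Adj (x, y) (x, y + 1) := by rw [grid_adj_iff]; simp
  have hkC : ∀ z, K z → z ∉ C := fun z hz => (hK z hz).1.mem.2
  have key := square_parity (decide ((x, y) ∈ C)) (decide ((x + 1, y) ∈ C))
    (decide ((x + 1, y + 1) ∈ C)) (decide ((x, y + 1) ∈ C)) (decide (K (x, y)))
    (decide (K (x + 1, y))) (decide (K (x + 1, y + 1))) (decide (K (x, y + 1)))
    (by simpa using hkC _) (by simpa using hkC _) (by simpa using hkC _) (by simpa using hkC _)
    (by
      intro hsome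
      simp only [Bool.or_eq_true, decide_eq_true_eq] at hsome
      have star : ∀ z : Pt, (z.1 = x ∨ z.1 = x + 1) → (z.2 = y ∨ z.2 = y + 1) → ∃ c ∈ C, Star c z := by
        intro z hz1 hz2
        rcases hsome with ((h | h) | h) | h <;> refine ⟨_, h, ?_⟩ <;>
          simp only [Star, abs_le] <;> omega
      have both : ∀ u v : Pt, grid.Adj u v → u ∈ S → v ∈ S → (∃ c ∈ C, Star c u) →
          (∃ c ∈ C, Star c v) → (!decide (u ∈ C) && !decide (v ∈ C)) → decide (K u) = decide (K v) := by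
        intro u v ha hu hv su sv hn
        simp only [Bool.and_eq_true, Bool.not_eq_true', decide_eq_false_iff_not] at hn
        rw [decide_eq_decide]
        exact ⟨move u v ha hv hn.2 sv, move v u ha.symm hu hn.1 su⟩
      refine ⟨both _ _ ha12 h1 h2 ?_ ?_, both _ _ ha23 h2 h3 ?_ ?_, both _ _ ha43 h4 h3 ?_ ?_,
        both _ _ ha14 h1 h4 ?_ ?_⟩ <;> exact star _ (by simp) (by simp))
  simpa only [markE_mk, mark, Bool.and_eq_true, decide_eq_true_eq] using key

/-- `C` is connected by king's moves. -/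
def StarConn (C : Finset Pt) : Prop :=
  ∀ a ∈ C, ∀ c ∈ C, Relation.ReflTransGen (fun x y => x ∈ C ∧ y ∈ C ∧ Star x y) a c

theorem psum_append {ψ : Sym2 Pt → ZMod 2} {u v w : Pt} (p : grid.Walk u v) (q : grid.Walk v w) :
    psum ψ (p.append q) = psum ψ p + psum ψ q := by
  simp [psum]

/-- The outer boundary of a finite king-connected set is connected. -/
theorem bdry_connected (hS : Reg S) (hC : StarConn C) (hCS : ∀ c ∈ C, c ∈ S) {d₁ d₂ : Pt}
    (h₁ : Bdry S C d₁) (h₂ : Bdry S C d₂) : BJoined S C d₁ d₂ := by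
  classical
  set K : Pt → Prop := fun z => BJoined S C d₁ z with hKdef
  have hK₁ : K d₁ := ⟨.nil, fun z hz => by simp at hz; exact hz ▸ h₁⟩
  have hK : ∀ z, K z → Bdry S C z := fun z ⟨p, hp⟩ => hp z p.end_mem_support
  -- every boundary site is joined in the boundary to one next to `C`
  have edge : ∀ d, Bdry S C d → ∃ c ∈ C, ∃ e, Bdry S C e ∧ grid.Adj c e ∧ (K d ↔ K e) := by
    rintro d ⟨hd, c, hc, hcd⟩
    obtain ⟨hdS, hdC⟩ := hd.mem
    by_cases ha : grid.Adj c d
    · exact ⟨c, hc, d, ⟨hd, c, hc, hcd⟩, ha, Iff.rfl⟩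
    have hcd' : (c.1 = d.1 + 1 ∨ c.1 = d.1 - 1) ∧ (c.2 = d.2 + 1 ∨ c.2 = d.2 - 1) := by
      rw [grid_adj_iff] at ha
      obtain ⟨a1, a2⟩ := hcd
      have hne : c ≠ d := fun e => hdC (e ▸ hc)
      rw [ne_eq, Prod.ext_iff] at hne
      simp only [abs_eq_max_neg] at ha a1 a2
      omega
    by_cases hm : (c.1, d.2) ∈ C
    · refine ⟨_, hm, d, ⟨hd, c, hc, hcd⟩, ?_, Iff.rfl⟩
      rw [grid_adj_iff]
      simp only [abs_eq_max_neg]
      omega
    have hmS : (c.1, d.2) ∈ S := hS.level hdS rfl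
    have hmd : grid.Adj (c.1, d.2) d := by
      rw [grid_adj_iff]; simp only [abs_eq_max_neg]; omega
    have hcm : grid.Adj c (c.1, d.2) := by
      rw [grid_adj_iff]; simp only [abs_eq_max_neg]; omega
    have hB : Bdry S C (c.1, d.2) := ⟨hd.adj hmS hm hmd, c, hc, star_of_adj hcm⟩
    exact ⟨c, hc, _, hB, hcm, fun hk => hk.snoc hB hmd.symm, fun hk => hk.snoc ⟨hd, c, hc, hcd⟩ hmd⟩
  by_contra hno
  obtain ⟨c₁, hc₁, e₁, he₁, ha₁, hi₁⟩ := edge d₁ h₁
  obtain ⟨c₂, hc₂, e₂, he₂, ha₂, hi₂⟩ := edge d₂ h₂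
  have hk₁ : K e₁ := hi₁.1 hK₁
  have hk₂ : ¬ K e₂ := fun h => hno (hi₂.2 h)
  have hkC : ∀ z, K z → z ∉ C := fun z hz => (hK z hz).1.mem.2
  -- outside `C` nothing is marked
  obtain ⟨p, hp⟩ := he₁.1.joined hS he₂.1
  have hpz : psum (markE S C d₁) p = 0 := by
    unfold psum
    refine List.sum_eq_zero fun x hx => ?_
    obtain ⟨e, he, rfl⟩ := List.mem_map.1 hx
    induction e using Sym2.ind with
    | _ u v =>
      simp [markE_mk, mark, (hp u (p.fst_mem_support_of_mem_edges he)).2,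
        (hp v (p.snd_mem_support_of_mem_edges he)).2]
  -- inside `C` the marks cancel
  have inside : ∀ {a : Pt}, Relation.ReflTransGen (fun u v => u ∈ C ∧ v ∈ C ∧ Star u v) c₁ a →
      ∃ q : grid.Walk c₁ a, (∀ z ∈ q.support, z ∈ S) ∧ psum (markE S C d₁) q = 0 := by
    intro a h
    induction h with
    | refl => exact ⟨.nil, fun z hz => by simp at hz; exact hz ▸ hCS c₁ hc₁, rfl⟩
    | @tail u v _ huv ih =>
      obtain ⟨q, hq, hq0⟩ := ih
      obtain ⟨hu, hv, hs⟩ := huv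
      suffices hw : ∃ w : grid.Walk u v, (∀ z ∈ w.support, z ∈ S) ∧ psum (markE S C d₁) w = 0 by
        obtain ⟨w, hw, hw0⟩ := hw
        exact ⟨q.append w, fun z hz => ((Walk.mem_support_append_iff _ _).1 hz).elim (hq z) (hw z),
          by rw [psum_append, hq0, hw0, add_zero]⟩
      by_cases he : u = v
      · subst he
        exact ⟨.nil, fun z hz => by simp at hz; exact hz ▸ hCS u hu, rfl⟩
      by_cases ha : grid.Adj u v
      · refine ⟨.cons ha .nil, fun z hz => ?_, ?_⟩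
        · simp at hz; rcases hz with rfl | rfl <;> exact hCS _ (by assumption)
        · have n₁ : ¬ K u := fun h => hkC u h hu
          have n₂ : ¬ K v := fun h => hkC v h hv
          simp only [hKdef] at n₁ n₂
          simp [psum, markE_mk, mark, n₁, n₂]
      -- a diagonal step through the corner
      have hm1 : grid.Adj u (v.1, u.2) ∧ grid.Adj (v.1, u.2) v := by
        rw [grid_adj_iff] at ha
        obtain ⟨a1, a2⟩ := hs
        rw [Prod.ext_iff] at he
        simp only [grid_adj_iff, abs_eq_max_neg] at ha a1 a2 ⊢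
        omega
      refine ⟨.cons hm1.1 (.cons hm1.2 .nil), fun z hz => ?_, ?_⟩
      · simp at hz
        rcases hz with rfl | rfl | rfl
        exacts [hCS _ hu, hS.level (hCS u hu) rfl, hCS _ hv]
      · have n₁ : ¬ K u := fun h => hkC u h hu
        have n₂ : ¬ K v := fun h => hkC v h hv
        simp only [hKdef] at n₁ n₂
        simp [psum, markE_mk, mark, n₁, n₂, hu, hv]
        exact CharTwo.add_self_eq_zero _
  obtain ⟨q, hq, hq0⟩ := inside (hC c₁ hc₁ c₂ hc₂)
  have heq := psum_eq hS (closed_mark (C := C) hS d₁) p ((Walk.cons ha₁.symm q).concat ha₂)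
    (fun z hz => (hp z hz).1) fun z hz => by
      rw [Walk.support_concat, List.mem_append, List.mem_singleton,
        Walk.support_cons, List.mem_cons] at hz
      rcases hz with (rfl | hz) | rfl
      exacts [he₁.1.mem.1, hq z hz, he₂.1.mem.1]
  rw [hpz] at heq
  have n₁ : ¬ K c₁ := fun h => hkC _ h hc₁
  have n₂ : ¬ K c₂ := fun h => hkC _ h hc₂
  simp only [hKdef] at n₁ n₂ hk₁ hk₂
  unfold psum at hq0
  simp [psum, Walk.edges_concat, List.concat_eq_append, hq0, markE_mk, mark, hk₁, hk₂, n₁, n₂, hc₁,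
    hc₂, he₁.1.mem.2] at heq

end Vale.Agent.P158.Any
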