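import Vale.Agent.P158.V4.Passage
import Vale.Agent.P158.Any.Hull

/-!
P158, arbitrary laws (note 1452, U1): clusters of the sites next to a heavy edge, hubs, and gates:
every long walk meets a hub near its start.
-/

namespace Vale.Agent.P158.Any

open SimpleGraph

/-- Weights. -/
abbrev Cfg : Type := Sym2 Pt → ℝ

/-- A site with an edge heavier than `b`. -/
def Bad (b : ℝ) (ω : Cfg) (z : Pt) : Prop := ∃ n, grid.Adj z n ∧ b < ω s(z, n)

theorem edge_le_of_not_bad {b : ℝ} {ω : Cfg} {u v : Pt} (h : grid.Adj u v) (hu : ¬ Bad b ω u) :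
    ω s(u, v) ≤ b :=
  le_of_not_gt fun hlt => hu ⟨v, h, hlt⟩

/-- Every site of `U` is joined inside `U` by king's moves to a root. -/
def Rooted (U roots : Finset Pt) : Prop :=
  ∀ y ∈ U, ∃ r ∈ roots, r ∈ U ∧
    Relation.ReflTransGen (fun u v => u ∈ U ∧ v ∈ U ∧ Star u v) r y

/-- A finite cluster of bad sites of the region. -/
structure IsClu (b : ℝ) (ω : Cfg) (S : Set Pt) (C : Finset Pt) : Prop where
  nonempty : C.Nonempty
  sub : ∀ c ∈ C, c ∈ S
  bad : ∀ c ∈ C, Bad b ω c
  conn : StarConn C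
  closed : ∀ c ∈ C, ∀ y ∈ S, Bad b ω y → Star c y → y ∈ C

/-- A good site enclosed by no cluster of the region. -/
def Hub (b : ℝ) (ω : Cfg) (S : Set Pt) (p : Pt) : Prop :=
  p ∈ S ∧ ¬ Bad b ω p ∧ ∀ C, IsClu b ω S C → Out S C p

variable {b : ℝ} {ω : Cfg} {S : Set Pt} {C C' : Finset Pt}

theorem starConn_mono {U V : Finset Pt} (h : U ⊆ V) {a c : Pt}
    (hr : Relation.ReflTransGen (fun u v => u ∈ U ∧ v ∈ U ∧ Star u v) a c) :
    Relation.ReflTransGen (fun u v => u ∈ V ∧ v ∈ V ∧ Star u v) a c := by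
  induction hr with
  | refl => exact .refl
  | tail _ h' ih => exact ih.tail ⟨h h'.1, h h'.2.1, h'.2.2⟩

theorem reach_symm {U : Finset Pt} {a c : Pt}
    (hr : Relation.ReflTransGen (fun u v => u ∈ U ∧ v ∈ U ∧ Star u v) a c) :
    Relation.ReflTransGen (fun u v => u ∈ U ∧ v ∈ U ∧ Star u v) c a := by
  induction hr with
  | refl => exact .refl
  | @tail u v _ h ih => exact .head ⟨h.2.1, h.1, h.2.2.symm⟩ ih

/-- If the bad animals at `z` are bounded then `z` lies in a cluster with the same bound. -/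
theorem exists_clu {z : Pt} (hzS : z ∈ S) (hz : Bad b ω z) {N : ℕ}
    (hN : ∀ U : Finset Pt, (∀ u ∈ U, u ∈ S ∧ Bad b ω u) → Rooted U {z} → U.card ≤ N) :
    ∃ C, IsClu b ω S C ∧ z ∈ C ∧ C.card ≤ N := by
  classical
  set P : ℕ → Prop := fun k => ∃ U : Finset Pt, (∀ u ∈ U, u ∈ S ∧ Bad b ω u) ∧ z ∈ U ∧
    Rooted U {z} ∧ U.card = k
  have hroot : ∀ {U : Finset Pt}, z ∈ U → Rooted U {z} → StarConn U := fun {U} _ hr a ha c hc => by
    obtain ⟨r, hr1, -, h1⟩ := hr a ha
    obtain ⟨r', hr2, -, h2⟩ := hr c hc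
    rw [Finset.mem_singleton] at hr1 hr2
    subst hr1 hr2
    exact (reach_symm h1).trans h2
  have h1 : P 1 := ⟨{z}, fun u hu => by simp at hu; subst hu; exact ⟨hzS, hz⟩, by simp,
    fun y hy => ⟨z, by simp, by simp, by simp at hy; subst hy; exact .refl⟩, by simp⟩
  have hPN : ∀ k, P k → k ≤ N := fun k ⟨U, hU, _, hr, hk⟩ => hk ▸ hN U hU hr
  obtain ⟨U, hU, hzU, hr, hk⟩ := Nat.findGreatest_spec (P := P) (hPN 1 h1) h1
  refine ⟨U, ⟨⟨z, hzU⟩, fun c hc => (hU c hc).1, fun c hc => (hU c hc).2, hroot hzU hr,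
    fun c hc y hy hby hcy => ?_⟩, hzU, hN U hU hr⟩
  by_contra hyU
  have hP : P (U.card + 1) := by
    refine ⟨insert y U, fun u hu => ?_, Finset.mem_insert_of_mem hzU, fun u hu => ?_,
      Finset.card_insert_of_notMem hyU⟩
    · rcases Finset.mem_insert.1 hu with rfl | h
      exacts [⟨hy, hby⟩, hU u h]
    · refine ⟨z, by simp, Finset.mem_insert_of_mem hzU, ?_⟩
      have up : ∀ w ∈ U, Relation.ReflTransGen
          (fun a a' => a ∈ insert y U ∧ a' ∈ insert y U ∧ Star a a') z w := fun w hw => by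
        obtain ⟨r, hr', -, hreach⟩ := hr w hw
        rw [Finset.mem_singleton] at hr'
        subst hr'
        exact starConn_mono (Finset.subset_insert _ _) hreach
      rcases Finset.mem_insert.1 hu with rfl | h
      · exact (up c hc).tail ⟨Finset.mem_insert_of_mem hc, Finset.mem_insert_self _ _, hcy⟩
      · exact up u h
  have := Nat.le_findGreatest (P := P) (hPN _ hP) hP
  omega

theorem IsClu.subset (h : IsClu b ω S C) (h' : IsClu b ω S C') {c : Pt} (hc : c ∈ C) (hc' : c ∈ C') :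
    C ⊆ C' := by
  intro y hy
  have hr := h.conn c hc y hy
  clear hy
  induction hr with
  | refl => exact hc'
  | @tail u v _ huv ih => exact h'.closed u ih v (h.sub v huv.2.1) (h.bad v huv.2.1) huv.2.2

/-- Different clusters are not adjacent. -/
theorem IsClu.eq_of_star (h : IsClu b ω S C) (h' : IsClu b ω S C') {c c' : Pt} (hc : c ∈ C)
    (hc' : c' ∈ C') (hs : Star c c') : C = C' := by
  have hm : c' ∈ C := h.closed c hc c' (h'.sub c' hc') (h'.bad c' hc') hs
  exact Finset.Subset.antisymm (h.subset h' hm hc') (h'.subset h hc' hm)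

theorem IsClu.bdry_good (h : IsClu b ω S C) {d : Pt} (hd : Bdry S C d) : ¬ Bad b ω d := by
  obtain ⟨hout, c, hc, hs⟩ := hd
  exact fun hb => hout.mem.2 (h.closed c hc d hout.mem.1 hb hs)

/-- A step from the enclosed sites to the others starts in the cluster. -/
theorem mem_of_exit {s d : Pt} (hs : ¬ Out S C s) (hsS : s ∈ S) (hd : Out S C d) (ha : grid.Adj s d) :
    s ∈ C ∧ Bdry S C d := by
  have hsC : s ∈ C := by_contra fun h => hs (hd.adj hsS h ha)
  exact ⟨hsC, hd, s, hsC, star_of_adj ha⟩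

/-- Intermediate values along king's moves. -/
theorem exists_fst {U : Finset Pt} {a c : Pt}
    (hr : Relation.ReflTransGen (fun u v => u ∈ U ∧ v ∈ U ∧ Star u v) a c) (ha : a ∈ U) :
    ∀ x, min a.1 c.1 ≤ x → x ≤ max a.1 c.1 → ∃ z ∈ U, z.1 = x := by
  induction hr with
  | refl => exact fun x h1 h2 => ⟨a, ha, by omega⟩
  | @tail u v _ huv ih =>
    intro x h1 h2
    have := huv.2.2.1
    rw [abs_le] at this
    by_cases hx : x = v.1
    · exact ⟨v, huv.2.1, hx.symm⟩
    · exact ih x (by omega) (by omega)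

theorem exists_snd {U : Finset Pt} {a c : Pt}
    (hr : Relation.ReflTransGen (fun u v => u ∈ U ∧ v ∈ U ∧ Star u v) a c) (ha : a ∈ U) :
    ∀ x, min a.2 c.2 ≤ x → x ≤ max a.2 c.2 → ∃ z ∈ U, z.2 = x := by
  induction hr with
  | refl => exact fun x h1 h2 => ⟨a, ha, by omega⟩
  | @tail u v _ huv ih =>
    intro x h1 h2
    have := huv.2.2.2
    rw [abs_le] at this
    by_cases hx : x = v.2
    · exact ⟨v, huv.2.1, hx.symm⟩
    · exact ih x (by omega) (by omega)

theorem starConn_diam (hC : StarConn C) {a c : Pt} (ha : a ∈ C) (hc : c ∈ C) :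
    |a.1 - c.1| < C.card ∧ |a.2 - c.2| < C.card := by
  constructor
  · have hsub : Finset.Icc (min a.1 c.1) (max a.1 c.1) ⊆ C.image Prod.fst := fun x hx => by
      rw [Finset.mem_Icc] at hx
      obtain ⟨z, hz, hzx⟩ := exists_fst (hC a ha c hc) ha x hx.1 hx.2
      exact Finset.mem_image.2 ⟨z, hz, hzx⟩
    have := (Finset.card_le_card hsub).trans Finset.card_image_le
    rw [Int.card_Icc] at this
    rw [abs_lt]
    omega
  · have hsub : Finset.Icc (min a.2 c.2) (max a.2 c.2) ⊆ C.image Prod.snd := fun x hx => by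
      rw [Finset.mem_Icc] at hx
      obtain ⟨z, hz, hzx⟩ := exists_snd (hC a ha c hc) ha x hx.1 hx.2
      exact Finset.mem_image.2 ⟨z, hz, hzx⟩
    have := (Finset.card_le_card hsub).trans Finset.card_image_le
    rw [Int.card_Icc] at this
    rw [abs_lt]
    omega

/-- An enclosed site is in the bounding box. -/
theorem not_far_of_not_out {p : Pt} (hp : p ∈ S) (h : ¬ Out S C p) :
    (∃ c ∈ C, p.1 ≤ c.1) ∧ (∃ c ∈ C, c.1 ≤ p.1) ∧ (∃ c ∈ C, p.2 ≤ c.2) ∧ ∃ c ∈ C, c.2 ≤ p.2 := by
  by_cases hpC : p ∈ C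
  · exact ⟨⟨p, hpC, le_rfl⟩, ⟨p, hpC, le_rfl⟩, ⟨p, hpC, le_rfl⟩, ⟨p, hpC, le_rfl⟩⟩
  have hf : ¬ Far C p := fun hf => h ⟨p, hf, Joined.refl hp hpC⟩
  simp only [Far, not_or, not_forall, not_lt, exists_prop] at hf
  exact hf

/-- An enclosed site is near every site of the cluster. -/
theorem dist_lt_card (hC : StarConn C) {p c : Pt} (hp : p ∈ S) (h : ¬ Out S C p)
    (hc : c ∈ C) : |p.1 - c.1| < C.card ∧ |p.2 - c.2| < C.card := by
  obtain ⟨⟨a, ha, ha'⟩, ⟨a₂, ha₂, ha₂'⟩, ⟨a₃, ha₃, ha₃'⟩, ⟨a₄, ha₄, ha₄'⟩⟩ := not_far_of_not_out hp h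
  have h1 := abs_lt.1 (starConn_diam hC ha hc).1
  have h2 := abs_lt.1 (starConn_diam hC ha₂ hc).1
  have h3 := abs_lt.1 (starConn_diam hC ha₃ hc).2
  have h4 := abs_lt.1 (starConn_diam hC ha₄ hc).2
  constructor <;> rw [abs_lt] <;> omega

/-- A cluster enclosing one site of another cluster encloses all that this one encloses. -/
theorem enclosed_mono (hS : Reg S) (h : IsClu b ω S C) (h' : IsClu b ω S C') (hne : C ≠ C') {s : Pt}
    (hs : s ∈ C) (hs' : ¬ Out S C' s) {z : Pt} (hz : z ∈ S) (hzC : ¬ Out S C z) : ¬ Out S C' z := by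
  classical
  have hdis : ∀ c ∈ C, ∀ m, Star c m → m ∉ C' := fun c hc m hcm hm =>
    hne (h.eq_of_star h' hc hm hcm)
  -- all of `C` is enclosed
  have hall : ∀ c ∈ C, ¬ Out S C' c := by
    intro c hc hout
    have hr := h.conn c hc s hs
    refine hs' ?_
    clear hs hs'
    induction hr with
    | refl => exact hout
    | @tail u v _ huv ih =>
      obtain ⟨hu, hv, huv⟩ := huv
      have huS := h.sub u hu
      have hvS := h.sub v hv
      have huC' : u ∉ C' := hdis u hu u (star_self u)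
      have hvC' : v ∉ C' := hdis v hv v (star_self v)
      by_cases he : u = v
      · exact he ▸ ih
      by_cases ha : grid.Adj u v
      · exact ih.adj hvS hvC' ha.symm
      have hm : grid.Adj (v.1, u.2) u ∧ grid.Adj v (v.1, u.2) := by
        rw [grid_adj_iff] at ha
        obtain ⟨a1, a2⟩ := huv
        rw [Prod.ext_iff] at he
        simp only [grid_adj_iff, abs_eq_max_neg] at ha a1 a2 ⊢
        omega
      have hmC : (v.1, u.2) ∉ C' := hdis u hu _ (star_of_adj hm.1.symm)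
      exact ((ih.adj (hS.level (z := (v.1, u.2)) huS rfl) hmC hm.1).adj hvS hvC' hm.2)
  intro hout
  obtain ⟨M, hM⟩ := ((C ∪ C').image fun c : Pt => c.1).bddAbove
  have hfar : ∀ D : Finset Pt, D ⊆ C ∪ C' → Far D (M + 1, z.2) := fun D hD => Or.inl fun c hc => by
    have : c.1 ≤ M := hM (Finset.mem_image_of_mem _ (hD hc))
    show c.1 < M + 1
    omega
  have hqS : (M + 1, z.2) ∈ S := hS.level hz rfl
  have hq' : (M + 1, z.2) ∉ C' := fun hc => by
    have : M + 1 ≤ M := hM (Finset.mem_image_of_mem (fun c : Pt => c.1) (Finset.mem_union_right _ hc))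
    omega
  obtain ⟨p, hp⟩ := hout.joined hS ⟨_, hfar C' Finset.subset_union_right, Joined.refl hqS hq'⟩
  by_cases hmeet : ∃ c ∈ p.support, c ∈ C
  · obtain ⟨c, hcp, hcC⟩ := hmeet
    exact hall c hcC ⟨_, hfar C' Finset.subset_union_right, p.dropUntil c hcp,
      fun w hw => hp w (p.support_dropUntil_subset_support hcp hw)⟩
  · push Not at hmeet
    exact hzC ⟨_, hfar C Finset.subset_union_left, p, fun w hw => ⟨(hp w hw).1, hmeet w hw⟩⟩

/-- A walk from outside a set to inside has a first step into it. -/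
theorem exists_entry (P : Pt → Prop) {x y : Pt} (w : grid.Walk x y) (hx : ¬ P x)
    (h : ∃ z ∈ w.support, P z) :
    ∃ (a : Pt) (q : grid.Walk x a) (s : Pt) (ha : grid.Adj a s) (r : grid.Walk s y), P s ∧
      s ∈ w.support ∧ (∀ z ∈ q.support, ¬ P z) ∧ q.support ⊆ w.support ∧
      r.support ⊆ w.support ∧ (q.concat ha).edges ++ r.edges = w.edges := by
  classical
  induction w with
  | nil =>
    obtain ⟨z, hz, hP⟩ := h
    simp at hz
    exact absurd (hz ▸ hP) hx
  | @cons x m y ha w ih =>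
    by_cases hm : P m
    · exact ⟨x, .nil, m, ha, w, hm, by simp, fun z hz => by simp at hz; exact hz ▸ hx, by simp,
        by simp, by simp [Walk.edges_concat]⟩
    obtain ⟨a, q, s, h1, r, h2, h3, h4, h5, h5', h6⟩ := ih hm (by
      obtain ⟨z, hz, hP⟩ := h
      rw [Walk.support_cons, List.mem_cons] at hz
      rcases hz with rfl | hz
      exacts [absurd hP hx, ⟨z, hz, hP⟩])
    refine ⟨a, .cons ha q, s, h1, r, h2, by simp [h3], fun z hz => ?_, ?_,
      fun z hz => by simp [h5' hz], ?_⟩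
    · rw [Walk.support_cons, List.mem_cons] at hz
      rcases hz with rfl | hz
      exacts [hx, h4 z hz]
    · simp only [Walk.support_cons]
      exact List.cons_subset_cons _ h5
    · rw [Walk.concat_cons, Walk.edges_cons, Walk.edges_cons, List.cons_append, h6]

/-- The square of half-width `N` around `p`. -/
def Near (N : ℕ) (p z : Pt) : Prop := |z.1 - p.1| ≤ N ∧ |z.2 - p.2| ≤ N

/-- The clusters touching or enclosing `p` have at most `N` sites. -/
structure Tame (b : ℝ) (ω : Cfg) (S : Set Pt) (p : Pt) (N : ℕ) : Prop where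
  bad : Bad b ω p → ∃ C, IsClu b ω S C ∧ p ∈ C ∧ C.card ≤ N
  small : ∀ C, IsClu b ω S C → ¬ Out S C p → C.card ≤ N

/-- Every walk of the region leaving the square of half-width `N` meets a hub in the square of
half-width `N + 1`, with the walk up to it inside that square. -/
theorem gate (hS : Reg S) {p : Pt} (hp : p ∈ S) {N : ℕ} (hT : Tame b ω S p N) {q : Pt}
    (w : grid.Walk p q) (hw : ∀ z ∈ w.support, z ∈ S) (hq : ¬ Near N p q) :
    ∃ d, Hub b ω S d ∧ d ∈ w.support ∧ Near (N + 1) p d ∧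
      ∃ w' : grid.Walk p d, w'.edges.Sublist w.edges ∧ ∀ z ∈ w'.support, z ∈ S ∧ Near (N + 1) p z := by
  classical
  have hself : Near (N + 1) p p := by unfold Near; simp; positivity
  by_cases hhub : Hub b ω S p
  · exact ⟨p, hhub, w.start_mem_support, hself, .nil, by simp, fun z hz => by
      simp at hz; subst hz; exact ⟨hp, hself⟩⟩
  -- the enclosing clusters
  have henc : ∃ C, IsClu b ω S C ∧ ¬ Out S C p := by
    by_cases hbad : Bad b ω p
    · obtain ⟨C, hC, hpC, -⟩ := hT.bad hbad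
      exact ⟨C, hC, fun h => h.mem.2 hpC⟩
    · by_contra hno
      push Not at hno
      exact hhub ⟨hp, hbad, hno⟩
  set box : Finset Pt :=
    Finset.Icc (p.1 - 2 * N) (p.1 + 2 * N) ×ˢ Finset.Icc (p.2 - 2 * N) (p.2 + 2 * N)
  have hloc : ∀ C, IsClu b ω S C → ¬ Out S C p → ∀ c ∈ C, |p.1 - c.1| < N ∧ |p.2 - c.2| < N :=
    fun C hC hCp c hc => by
      have h1 := dist_lt_card hC.conn hp hCp hc
      have h2 : (C.card : ℤ) ≤ N := by exact_mod_cast hT.small C hC hCp
      exact ⟨h1.1.trans_le h2, h1.2.trans_le h2⟩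
  set cands : Finset (Finset Pt) := box.powerset.filter fun C => IsClu b ω S C ∧ ¬ Out S C p
  have hcand : ∀ C, IsClu b ω S C → ¬ Out S C p → C ∈ cands := fun C hC hCp => by
    refine Finset.mem_filter.2 ⟨Finset.mem_powerset.2 fun c hc => ?_, hC, hCp⟩
    have := hloc C hC hCp c hc
    simp only [abs_lt] at this
    simp only [box, Finset.mem_product, Finset.mem_Icc]
    omega
  obtain ⟨C₀, hC₀, hC₀p⟩ := henc
  obtain ⟨C, hCm, hmax⟩ := cands.exists_max_image
    (fun C => (box.filter fun z => z ∈ S ∧ ¬ Out S C z).card) ⟨C₀, hcand C₀ hC₀ hC₀p⟩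
  obtain ⟨-, hC, hCp⟩ := Finset.mem_filter.1 hCm
  have hnear : ∀ C, IsClu b ω S C → ¬ Out S C p → ∀ z ∈ S, ¬ Out S C z → Near N p z := by
    intro C hC hCp z hz hzC
    obtain ⟨⟨a, ha, ha'⟩, ⟨a₂, ha₂, ha₂'⟩, ⟨a₃, ha₃, ha₃'⟩, ⟨a₄, ha₄, ha₄'⟩⟩ :=
      not_far_of_not_out hz hzC
    have h1 := (hloc C hC hCp a ha).1
    have h2 := (hloc C hC hCp a₂ ha₂).1
    have h3 := (hloc C hC hCp a₃ ha₃).2
    have h4 := (hloc C hC hCp a₄ ha₄).2
    simp only [Near, abs_lt, abs_le] at *
    omega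
  have hqout : Out S C q :=
    by_contra fun h => hq (hnear C hC hCp q (hw q w.end_mem_support) h)
  obtain ⟨a, w₁, d, had, r, hd, hdw, hw₁, hsub, -, hedge⟩ := exists_entry (fun z => Out S C z) w hCp
    ⟨q, w.end_mem_support, hqout⟩
  have haS : a ∈ S := hw a (hsub w₁.end_mem_support)
  obtain ⟨haC, hbd⟩ := mem_of_exit (hw₁ a w₁.end_mem_support) haS hd had
  have hdS := hd.mem.1
  have hdnear : Near (N + 1) p d := by
    have h1 := hnear C hC hCp a haS (hw₁ a w₁.end_mem_support)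
    have h2 := star_of_adj had
    simp only [Near, Star, abs_le] at *
    omega
  refine ⟨d, ⟨hdS, hC.bdry_good hbd, fun C' hC' => ?_⟩, hdw, hdnear, ?_⟩
  · by_contra hd'
    have hne : C ≠ C' := fun e => hd' (e ▸ hd)
    have hdC' : d ∉ C' := fun hm => hne (hC.eq_of_star hC' haC hm (star_of_adj had))
    have ha' : ¬ Out S C' a := fun ho => hd' (ho.adj hdS hdC' had.symm)
    have hp' : ¬ Out S C' p := enclosed_mono hS hC hC' hne haC ha' hp hCp
    have hlt : (box.filter fun z => z ∈ S ∧ ¬ Out S C z).card <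
        (box.filter fun z => z ∈ S ∧ ¬ Out S C' z).card := by
      refine Finset.card_lt_card ⟨fun z hz => ?_, fun hsub' => ?_⟩
      · simp only [Finset.mem_filter] at hz ⊢
        exact ⟨hz.1, hz.2.1, enclosed_mono hS hC hC' hne haC ha' hz.2.1 hz.2.2⟩
      · have hdb : d ∈ box := by
          have := hnear C' hC' hp' d hdS hd'
          simp only [Near, abs_le] at this
          simp only [box, Finset.mem_product, Finset.mem_Icc]
          omega
        exact ((Finset.mem_filter.1 (hsub' (Finset.mem_filter.2 ⟨hdb, hdS, hd'⟩))).2.2) hd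
    exact absurd (hmax C' (hcand C' hC' hp')) (not_le.2 hlt)
  · refine ⟨w₁.concat had, hedge ▸ List.sublist_append_left _ _, fun z hz => ?_⟩
    rw [Walk.support_concat, List.mem_append, List.mem_singleton] at hz
    rcases hz with hz | rfl
    · have h1 := hnear C hC hCp z (hw z (hsub hz)) (hw₁ z hz)
      refine ⟨hw z (hsub hz), ?_⟩
      simp only [Near, abs_le] at *
      omega
    · exact ⟨hdS, hdnear⟩

end Vale.Agent.P158.Any
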