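import Mathlib
import Vale.Agent.P158.V4.Trails
import Vale.Agent.P158.Any.Cluster

/-!
P158, every atomless law (note 1452, module U2): rooted lattice animals are at most exponentially many, a
set of sites is all bad with probability at most exponentially small in its size, so clusters of bad
sites have exponential tails.
-/

namespace Vale.Agent.P158.Any

open MeasureTheory

section Count

variable {V : Type*} [DecidableEq V] {N : V → Finset V}

/-- `a` is reached from `R` by steps of `N` that land in `B`. -/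
inductive Reach (N : V → Finset V) (R B : Set V) : V → Prop
  | root {a : V} : a ∈ R → Reach N R B a
  | step {x a : V} : Reach N R B x → a ∈ N x → a ∈ B → Reach N R B a

omit [DecidableEq V] in
theorem Reach.mono {R R' B B' : Set V} (hR : R ⊆ R') (hB : B ⊆ B') {a : V} (h : Reach N R B a) :
    Reach N R' B' a := by
  induction h with
  | root h => exact .root (hR h)
  | step _ hn hb ih => exact .step ih hn (hB hb)

omit [DecidableEq V] in
theorem Reach.mem {R B : Set V} (hR : R ⊆ B) {a : V} (h : Reach N R B a) : a ∈ B := by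
  induction h with
  | root h => exact hR h
  | step _ _ hb _ => exact hb

/-- Every point of `A` is reached inside `A` from a point of `S` in `A`. -/
def Grown (N : V → Finset V) (S A : Finset V) : Prop :=
  ∀ a ∈ A, Reach N ↑(S ∩ A) ↑A a

/-- Sets of `m` sites grown from a given set: at most exponentially many. -/
theorem exists_layers (K : ℕ) (hK : ∀ v, (N v).card ≤ K) :
    ∀ (m : ℕ) (R : Finset V), ∃ F : Finset (Finset V), F.card ≤ 2 ^ (K * (R.card + m)) ∧
      ∀ B : Finset V, B.card = m → Disjoint B R → (∀ a ∈ B, Reach N ↑R ↑B a) → B ∈ F := by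
  intro m
  induction m using Nat.strong_induction_on with
  | _ m ih =>
    intro R
    rcases Nat.eq_zero_or_pos m with rfl | hm
    · refine ⟨{∅}, by simpa using Nat.one_le_two_pow, fun B hB _ _ => ?_⟩
      simp [Finset.card_eq_zero.1 hB]
    · choose! F hFc hF using ih
      set P := (R.biUnion N).powerset.filter fun L => L.Nonempty ∧ L.card ≤ m with hP
      refine ⟨P.biUnion fun L => (F (m - L.card) L).image (L ∪ ·), ?_, fun B hB hd hr => ?_⟩
      · refine (Finset.card_biUnion_le_card_mul _ _ (2 ^ (K * m)) fun L hL => ?_).trans ?_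
        · obtain ⟨hLne, hLm⟩ := (Finset.mem_filter.1 hL).2
          refine Finset.card_image_le.trans ((hFc _ (by have := hLne.card_pos; omega) L).trans ?_)
          exact Nat.pow_le_pow_right two_pos (Nat.mul_le_mul_left K (by omega))
        · rw [mul_add, pow_add]
          refine Nat.mul_le_mul_right _ ((Finset.card_filter_le _ _).trans ?_)
          rw [Finset.card_powerset]
          refine Nat.pow_le_pow_right two_pos ?_
          exact (Finset.card_biUnion_le_card_mul _ _ K fun v _ => hK v).trans_eq (mul_comm _ _)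
      · set L := B.filter fun x => x ∈ R.biUnion N with hL
        have key : ∀ a, Reach N ↑R ↑B a → a ∈ R ∨ Reach N ↑L ↑(B \ L) a := by
          intro a ha
          induction ha with
          | root h => exact Or.inl h
          | @step x a _ hn hb ih =>
            refine Or.inr ?_
            rcases ih with hx | hx
            · exact .root (Finset.mem_filter.2 ⟨hb, Finset.mem_biUnion.2 ⟨x, hx, hn⟩⟩)
            · by_cases haL : a ∈ L
              · exact .root haL
              · exact .step hx hn (Finset.mem_sdiff.2 ⟨hb, haL⟩)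
        have hLB : L ⊆ B := Finset.filter_subset _ _
        have hLne : L.Nonempty := by
          obtain ⟨a, ha⟩ := Finset.card_pos.1 (hB ▸ hm)
          rcases key a (hr a ha) with h | h
          · exact absurd h (Finset.disjoint_left.1 hd ha)
          · clear ha
            induction h with
            | root h => exact ⟨_, h⟩
            | step _ _ _ ih => exact ih
        have hLm : L.card ≤ m := hB ▸ Finset.card_le_card hLB
        refine Finset.mem_biUnion.2 ⟨L, Finset.mem_filter.2 ⟨Finset.mem_powerset.2 fun x hx =>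
          (Finset.mem_filter.1 hx).2, hLne, hLm⟩, Finset.mem_image.2 ⟨B \ L, ?_, ?_⟩⟩
        · refine hF _ (by have := hLne.card_pos; omega) L _ ?_ Finset.sdiff_disjoint fun a ha => ?_
          · rw [Finset.card_sdiff_of_subset hLB, hB]
          · obtain ⟨haB, -⟩ := Finset.mem_sdiff.1 ha
            exact (key a (hr a haB)).resolve_left (Finset.disjoint_left.1 hd haB)
        · exact Finset.union_sdiff_of_subset hLB

/-- Rooted animals of size `M`. -/
theorem exists_animals (K : ℕ) (hK : ∀ v, (N v).card ≤ K) (S : Finset V) (M : ℕ) :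
    ∃ F : Finset (Finset V), F.card ≤ 2 ^ S.card * 2 ^ (K * M) ∧
      ∀ A : Finset V, A.card = M → Grown N S A → A ∈ F := by
  choose F hFc hF using exists_layers K hK
  refine ⟨(S.powerset.filter fun R => R.card ≤ M).biUnion fun R =>
    (F (M - R.card) R).image (R ∪ ·), ?_, fun A hA hr => ?_⟩
  · refine (Finset.card_biUnion_le_card_mul _ _ (2 ^ (K * M)) fun R hR => ?_).trans ?_
    · refine Finset.card_image_le.trans ((hFc _ R).trans (le_of_eq ?_))
      rw [Nat.add_sub_cancel' (Finset.mem_filter.1 hR).2]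
    · refine Nat.mul_le_mul_right _ ((Finset.card_filter_le _ _).trans ?_)
      rw [Finset.card_powerset]
  · have hRA : S ∩ A ⊆ A := Finset.inter_subset_right
    refine Finset.mem_biUnion.2 ⟨S ∩ A, Finset.mem_filter.2
      ⟨Finset.mem_powerset.2 Finset.inter_subset_left, hA ▸ Finset.card_le_card hRA⟩,
      Finset.mem_image.2 ⟨A \ (S ∩ A), ?_, Finset.union_sdiff_of_subset hRA⟩⟩
    refine hF _ _ _ (by rw [Finset.card_sdiff_of_subset hRA, hA]) Finset.sdiff_disjoint fun a ha => ?_
    have h := hr a (Finset.mem_sdiff.1 ha).1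
    clear ha
    induction h with
    | root h => exact .root h
    | @step x a _ hn hb ih =>
      by_cases haR : a ∈ S ∩ A
      · exact .root haR
      · exact .step ih hn (Finset.mem_sdiff.2 ⟨hb, haR⟩)

/-- A large set reached from `S` inside itself contains a rooted animal of each smaller size. -/
theorem exists_rooted_card {S : Finset V} {C : Set V} (hC : ∀ a ∈ C, Reach N (↑S ∩ C) C a)
    {T : Finset V} (hT : ↑T ⊆ C) {M : ℕ} (hM : M ≤ T.card) :
    ∃ A : Finset V, ↑A ⊆ C ∧ A.card = M ∧ Grown N S A := by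
  induction M with
  | zero => exact ⟨∅, by simp, by simp, fun a ha => by simp at ha⟩
  | succ M ih =>
    obtain ⟨A, hAC, hAM, hA⟩ := ih (by omega)
    have hns : ¬ T ⊆ A := fun h => by have := Finset.card_le_card h; omega
    obtain ⟨t, htT, htA⟩ := Finset.not_subset.1 hns
    have key : ∀ a, Reach N (↑S ∩ C) C a → a ∉ A →
        ∃ y ∈ C, y ∉ A ∧ (y ∈ S ∨ ∃ x ∈ A, y ∈ N x) := by
      intro a ha
      induction ha with
      | root h => exact fun haA => ⟨_, h.2, haA, Or.inl h.1⟩
      | @step x a _ hn hb ih =>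
        intro haA
        by_cases hxA : x ∈ A
        · exact ⟨a, hb, haA, Or.inr ⟨x, hxA, hn⟩⟩
        · exact ih hxA
    obtain ⟨y, hyC, hyA, hy⟩ := key t (hC t (hT htT)) htA
    have hmono : ∀ a ∈ A, Reach N ↑(S ∩ insert y A) ↑(insert y A) a := fun a ha =>
      (hA a ha).mono (Finset.coe_subset.2 (Finset.inter_subset_inter subset_rfl
        (Finset.subset_insert y A))) (Finset.coe_subset.2 (Finset.subset_insert y A))
    refine ⟨insert y A, ?_, by rw [Finset.card_insert_of_notMem hyA, hAM], fun a ha => ?_⟩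
    · rw [Finset.coe_insert]
      exact Set.insert_subset hyC hAC
    · rcases Finset.mem_insert.1 ha with rfl | ha
      · rcases hy with hyS | ⟨x, hxA, hyx⟩
        · exact .root (Finset.mem_inter.2 ⟨hyS, Finset.mem_insert_self _ _⟩)
        · exact .step (hmono x hxA) hyx (Finset.mem_insert_self _ _)
      · exact hmono a ha

end Count

/-- The king's neighbours of a site. -/
def kings (z : Pt) : Finset Pt :=
  [(1, 0), (-1, 0), (0, 1), (0, -1), (1, 1), (1, -1), (-1, 1), (-1, -1)].toFinset.image
    fun d : ℤ × ℤ => z + d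

theorem card_kings_le (z : Pt) : (kings z).card ≤ 8 :=
  Finset.card_image_le.trans (by decide)

theorem mem_kings {u v : Pt} (h : Star u v) (hne : u ≠ v) : v ∈ kings u := by
  obtain ⟨h1, h2⟩ := h
  rw [Ne, Prod.ext_iff] at hne
  simp only [kings, Finset.mem_image, List.mem_toFinset, List.mem_cons, List.not_mem_nil, or_false]
  refine ⟨v - u, ?_, by simp⟩
  simp only [Prod.ext_iff, Prod.fst_sub, Prod.snd_sub]
  simp only [abs_eq_max_neg] at h1 h2
  omega

/-- A rooted set is grown from its roots. -/
theorem grown_of_rooted {U roots : Finset Pt} (h : Rooted U roots) : Grown kings roots U := by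
  intro y hy
  obtain ⟨r, hr, hrU, hreach⟩ := h y hy
  clear hy
  induction hreach with
  | refl => exact .root (Finset.mem_inter.2 ⟨hr, hrU⟩)
  | @tail u v _ huv ih =>
    rcases eq_or_ne u v with rfl | hne
    · exact ih
    · exact .step ih (mem_kings huv.2.2 hne) huv.2.1

/-- The four unit steps. -/
def dir : Fin 4 → Pt := ![(1, 0), (-1, 0), (0, 1), (0, -1)]

theorem bad_dir {b : ℝ} {ω : Cfg} {z : Pt} (h : Bad b ω z) :
    ∃ i : Fin 4, b < ω s(z, z + dir i) := by
  obtain ⟨w, hw, hb⟩ := h
  rw [grid_adj_iff] at hw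
  obtain ⟨i, hi⟩ : ∃ i : Fin 4, w = z + dir i := by
    obtain h | h | h | h : w = z + dir 0 ∨ w = z + dir 1 ∨ w = z + dir 2 ∨ w = z + dir 3 := by
      simp only [dir, Prod.ext_iff, Prod.fst_add, Prod.snd_add, Matrix.cons_val]
      simp only [abs_eq_max_neg] at hw
      omega
    all_goals exact ⟨_, h⟩
  exact ⟨i, hi ▸ hb⟩

/-- Some set of at least `M` bad sites is joined inside itself to `S`. -/
def Big (b : ℝ) (S : Finset Pt) (M : ℕ) : Set Cfg :=
  {ω | ∃ U : Finset Pt, M ≤ U.card ∧ Rooted U S ∧ ∀ a ∈ U, Bad b ω a}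

theorem edge_inj {z z' : ℤ × ℤ} (hp : (z.1 + z.2) % 2 = (z'.1 + z'.2) % 2) {i j : Fin 4}
    (h : s(z, z + dir i) = s(z', z' + dir j)) : z = z' := by
  rcases Sym2.eq_iff.1 h with ⟨h1, -⟩ | ⟨h1, -⟩
  · exact h1
  · exfalso
    rw [h1] at hp
    fin_cases j <;> simp [dir] at hp <;> omega

variable (G : Measure ℝ) [IsProbabilityMeasure G]

/-- All sites of `A` are bad with probability at most `ρ ^ |A|`, when `4 G(b, ∞) ≤ ρ²`. -/
theorem prob_all_bad_le {b ρ : ℝ} (hρ : 0 ≤ ρ) (hρ1 : ρ ≤ 1)
    (hd : 4 * G.real (Set.Ioi b) ≤ ρ ^ 2) (A : Finset (ℤ × ℤ)) :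
    (V4.law G).real {ω | ∀ a ∈ A, Bad b ω a} ≤ ρ ^ A.card := by
  obtain ⟨p, hp⟩ : ∃ p : ℤ, A.card ≤ 2 * (A.filter fun z => (z.1 + z.2) % 2 = p).card := by
    have hsplit := Finset.card_filter_add_card_filter_not (s := A)
      (fun z : ℤ × ℤ => (z.1 + z.2) % 2 = 0)
    have hnot : (A.filter fun z => ¬ (z.1 + z.2) % 2 = 0) = A.filter fun z => (z.1 + z.2) % 2 = 1 :=
      Finset.filter_congr fun z _ => by omega
    rw [hnot] at hsplit
    rcases le_total (A.filter fun z => (z.1 + z.2) % 2 = 0).card
      (A.filter fun z => (z.1 + z.2) % 2 = 1).card with h | h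
    · exact ⟨1, by omega⟩
    · exact ⟨0, by omega⟩
  set B := A.filter fun z => (z.1 + z.2) % 2 = p with hB
  have hsub : {ω : Sym2 (ℤ × ℤ) → ℝ | ∀ a ∈ A, Bad b ω a} ⊆
      ⋃ f ∈ Fintype.piFinset fun _ : B => (Finset.univ : Finset (Fin 4)),
        Set.pi ↑(Finset.univ.image fun z : B => s((z : ℤ × ℤ), (z : ℤ × ℤ) + dir (f z)))
          fun _ => Set.Ioi b := by
    intro ω hω
    choose f hf using fun z : B => bad_dir (hω z (Finset.mem_filter.1 z.2).1)
    simp only [Set.mem_iUnion]
    refine ⟨f, Fintype.mem_piFinset.2 fun _ => Finset.mem_univ _, fun e he => ?_⟩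
    obtain ⟨z, -, rfl⟩ := Finset.mem_image.1 he
    exact hf z
  have hq : (0 : ℝ) ≤ G.real (Set.Ioi b) := measureReal_nonneg
  calc (V4.law G).real {ω | ∀ a ∈ A, Bad b ω a}
      ≤ (V4.law G).real (⋃ f ∈ Fintype.piFinset fun _ : B => (Finset.univ : Finset (Fin 4)),
        Set.pi ↑(Finset.univ.image fun z : B => s((z : ℤ × ℤ), (z : ℤ × ℤ) + dir (f z)))
          fun _ => Set.Ioi b) := measureReal_mono hsub (measure_ne_top _ _)
    _ ≤ ∑ f ∈ Fintype.piFinset fun _ : B => (Finset.univ : Finset (Fin 4)),
        (V4.law G).real (Set.pi ↑(Finset.univ.image fun z : B =>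
          s((z : ℤ × ℤ), (z : ℤ × ℤ) + dir (f z))) fun _ => Set.Ioi b) :=
        measureReal_biUnion_finset_le _ _
    _ = (4 : ℝ) ^ B.card * G.real (Set.Ioi b) ^ B.card := by
        rw [Finset.sum_eq_card_nsmul (b := G.real (Set.Ioi b) ^ B.card)]
        · simp [nsmul_eq_mul]
        · intro f _
          have hinj : Function.Injective fun z : B =>
              s((z : ℤ × ℤ), (z : ℤ × ℤ) + dir (f z)) := fun z z' h =>
            Subtype.ext (edge_inj ((Finset.mem_filter.1 z.2).2.trans
              (Finset.mem_filter.1 z'.2).2.symm) h)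
          rw [measureReal_def, Measure.infinitePi_pi _ fun _ _ => measurableSet_Ioi,
            Finset.prod_const, Finset.card_image_of_injective _ hinj, Finset.card_univ,
            Fintype.card_coe, ENNReal.toReal_pow, ← measureReal_def]
    _ ≤ (ρ ^ 2) ^ B.card := by
        rw [← mul_pow]
        exact pow_le_pow_left₀ (by positivity) hd _
    _ ≤ ρ ^ A.card := by
        rw [← pow_mul]
        exact pow_le_pow_of_le_one hρ hρ1 hp

/-- Peierls: a big cluster at `S` has probability at most `2 ^ |S| (256 ρ) ^ M`. -/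
theorem prob_big_le {b ρ : ℝ} (hρ : 0 ≤ ρ) (hρ1 : ρ ≤ 1) (hd : 4 * G.real (Set.Ioi b) ≤ ρ ^ 2)
    (S : Finset (ℤ × ℤ)) (M : ℕ) :
    (V4.law G).real (Big b S M) ≤ 2 ^ S.card * (256 * ρ) ^ M := by
  obtain ⟨F, hFc, hF⟩ := exists_animals 8 card_kings_le S M
  have hsub : Big b S M ⊆ ⋃ A ∈ F.filter fun A => A.card = M,
      {ω | ∀ a ∈ A, Bad b ω a} := by
    rintro ω ⟨U, hUM, hU, hbad⟩
    obtain ⟨A, hAU, hAM, hA⟩ := exists_rooted_card (N := kings) (S := S) (C := (↑U : Set Pt))
      (fun a ha => (grown_of_rooted hU a ha).mono (by rw [Finset.coe_inter]) subset_rfl)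
      (T := U) subset_rfl hUM
    simp only [Set.mem_iUnion]
    exact ⟨A, Finset.mem_filter.2 ⟨hF A hAM hA, hAM⟩, fun a ha => hbad a (hAU ha)⟩
  calc (V4.law G).real (Big b S M)
      ≤ (V4.law G).real (⋃ A ∈ F.filter fun A => A.card = M, {ω | ∀ a ∈ A, Bad b ω a}) :=
        measureReal_mono hsub (measure_ne_top _ _)
    _ ≤ ∑ A ∈ F.filter fun A => A.card = M, (V4.law G).real {ω | ∀ a ∈ A, Bad b ω a} :=
        measureReal_biUnion_finset_le _ _
    _ ≤ ∑ _A ∈ F.filter fun A => A.card = M, ρ ^ M :=
        Finset.sum_le_sum fun A hA =>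
          (prob_all_bad_le G hρ hρ1 hd A).trans_eq (by rw [(Finset.mem_filter.1 hA).2])
    _ ≤ (F.card : ℝ) * ρ ^ M := by
        rw [Finset.sum_const, nsmul_eq_mul]
        gcongr
        exact Finset.filter_subset _ _
    _ ≤ ((2 ^ S.card * 2 ^ (8 * M) : ℕ) : ℝ) * ρ ^ M := by
        gcongr
    _ = 2 ^ S.card * (256 * ρ) ^ M := by
        push_cast
        rw [mul_pow, pow_mul]
        norm_num
        ring

end Vale.Agent.P158.Any
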