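import Mathlib
import Vale.Agent.P158.V4.TimeConst
import Vale.Agent.P158.Any.Animals

/-!
P158, every atomless law (note 1452, module U2): uniformly over short walks, the clusters at any few of
their sites are small. A walk is sampled every `b`-th step, so it lies in one of few small tubes.
-/

namespace Vale.Agent.P158.Any

open MeasureTheory Filter

/-- The square of half side `r` at a site. -/
noncomputable def square (r : ℕ) (u : ℤ × ℤ) : Finset (ℤ × ℤ) :=
  Finset.Icc (u.1 - r) (u.1 + r) ×ˢ Finset.Icc (u.2 - r) (u.2 + r)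

theorem card_square (r : ℕ) (u : ℤ × ℤ) : (square r u).card = (2 * r + 1) ^ 2 := by
  rw [square, Finset.card_product, Int.card_Icc, Int.card_Icc, sq]
  congr 1 <;> omega

theorem mem_square_of_l1 {r : ℕ} {u z : ℤ × ℤ} (h : V4.l1 u z ≤ r) : z ∈ square r u := by
  simp only [V4.l1] at h
  simp only [square, Finset.mem_product, Finset.mem_Icc]
  omega

theorem support_subset_square {r : ℕ} {u v : ℤ × ℤ} (p : grid.Walk u v) (h : p.length ≤ r) :
    ∀ z ∈ p.support, z ∈ square r u := fun z hz => by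
  refine mem_square_of_l1 ((V4.l1_le_length (p.takeUntil z hz)).trans ?_)
  exact (SimpleGraph.Walk.length_takeUntil_le_length p hz).trans h

/-- Walks of length `n b` lie in `((2 b + 1)²) ^ n` tubes of area `n (2 b + 1)² + 1`. -/
theorem exists_tubes (b : ℕ) : ∀ (n : ℕ) (u : ℤ × ℤ), ∃ F : Finset (Finset (ℤ × ℤ)),
    F.card ≤ ((2 * b + 1) ^ 2) ^ n ∧ (∀ T ∈ F, T.card ≤ n * (2 * b + 1) ^ 2 + 1) ∧
    ∀ (v : ℤ × ℤ) (p : grid.Walk u v), p.length ≤ n * b → ∃ T ∈ F, ∀ z ∈ p.support, z ∈ T := by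
  intro n
  induction n with
  | zero =>
    refine fun u => ⟨{{u}}, by simp, by simp, fun v p hp => ⟨{u}, by simp, fun z hz => ?_⟩⟩
    cases p with
    | nil => simpa using hz
    | cons h q => simp at hp
  | succ n ih =>
    intro u
    choose F hFc hFT hF using ih
    refine ⟨(square b u).biUnion fun w => (F w).image (square b u ∪ ·), ?_, ?_, fun v p hp => ?_⟩
    · refine (Finset.card_biUnion_le_card_mul _ _ (((2 * b + 1) ^ 2) ^ n)
        fun w _ => Finset.card_image_le.trans (hFc w)).trans ?_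
      rw [card_square, pow_succ' ((2 * b + 1) ^ 2) n]
    · simp only [Finset.mem_biUnion, Finset.mem_image]
      rintro T ⟨w, -, T', hT', rfl⟩
      have h1 := hFT w T' hT'
      refine (Finset.card_union_le _ _).trans ?_
      rw [card_square, add_mul, one_mul]
      omega
    · have htl : (p.take b).length ≤ b := by simp
      have hdl : (p.drop b).length ≤ n * b := by
        rw [add_mul, one_mul] at hp
        simp
        omega
      obtain ⟨T, hT, hTp⟩ := hF _ _ (p.drop b) hdl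
      refine ⟨square b u ∪ T, Finset.mem_biUnion.2 ⟨p.getVert b,
        support_subset_square _ htl _ (p.take b).end_mem_support,
        Finset.mem_image_of_mem _ hT⟩, fun z hz => ?_⟩
      rw [← p.append_take_drop_eq b, SimpleGraph.Walk.mem_support_append_iff] at hz
      exact Finset.mem_union.2 (hz.imp (support_subset_square _ htl z) (hTp z))

/-- At most `x⁻ᵏ (1 + x) ^ |T|` subsets of `T` have size at most `k`. -/
theorem card_small_subsets {α : Type*} [DecidableEq α] (T : Finset α) (k : ℕ) {x : ℝ} (hx : 0 < x)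
    (hx1 : x ≤ 1) :
    ((T.powerset.filter fun S => S.card ≤ k).card : ℝ) ≤ (1 + x) ^ T.card / x ^ k := by
  rw [le_div_iff₀ (pow_pos hx k)]
  calc ((T.powerset.filter fun S => S.card ≤ k).card : ℝ) * x ^ k
      = ∑ _S ∈ T.powerset.filter fun S => S.card ≤ k, x ^ k := by rw [Finset.sum_const, nsmul_eq_mul]
    _ ≤ ∑ S ∈ T.powerset.filter fun S => S.card ≤ k, x ^ S.card :=
        Finset.sum_le_sum fun S hS => pow_le_pow_of_le_one hx.le hx1 (Finset.mem_filter.1 hS).2
    _ ≤ ∑ S ∈ T.powerset, x ^ S.card :=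
        Finset.sum_le_sum_of_subset_of_nonneg (Finset.filter_subset _ _) fun S _ _ => by positivity
    _ = (1 + x) ^ T.card := by
        rw [add_comm (1 : ℝ) x]
        simpa using Finset.sum_pow_mul_eq_add_pow x 1 T

/-- Some walk of length at most `L` from within `L` of `u` has at most `2 L / b` of its sites with
clusters of at least `M` sites in all. -/
def WalkBig (b0 : ℝ) (b L M : ℕ) (u : ℤ × ℤ) : Set (Sym2 (ℤ × ℤ) → ℝ) :=
  {ω | ∃ (x y : ℤ × ℤ) (p : grid.Walk x y) (S : Finset (ℤ × ℤ)), V4.l1 u x ≤ L ∧ p.length ≤ L ∧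
    (∀ z ∈ S, z ∈ p.support) ∧ S.card * b ≤ 2 * L ∧ ω ∈ Big b0 S M}

variable (G : Measure ℝ) [IsProbabilityMeasure G] {b0 ρ : ℝ}

/-- The union bound over sampled walks. -/
theorem prob_walkBig_le (hρ : 0 ≤ ρ) (hd : 4 * G.real (Set.Ioi b0) ≤ ρ ^ 2)
    (hρ2 : 256 * ρ ≤ 1 / 2) {b : ℕ} (hb : 0 < b) (L M : ℕ) (u : ℤ × ℤ) :
    (V4.law G).real (WalkBig b0 b L M u) ≤
      (2 * L + 1 : ℕ) ^ 2 * (((2 * b + 1) ^ 2 : ℕ) : ℝ) ^ (L / b + 1) *
        ((1 + 1 / (b * (2 * b + 1) ^ 2 : ℝ)) ^ ((L / b + 1) * (2 * b + 1) ^ 2 + 1) /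
          (1 / (b * (2 * b + 1) ^ 2 : ℝ)) ^ (2 * L / b)) *
        (2 ^ (2 * L / b) * (1 / 2) ^ M) := by
  classical
  set n := L / b + 1 with hn
  set k := 2 * L / b with hk
  choose F hFc hFT hF using exists_tubes b n
  set P := (square L u).biUnion fun x => (F x).biUnion fun T =>
    T.powerset.filter fun S => S.card ≤ k with hP
  have hρ1 : ρ ≤ 1 := by linarith
  have hsub : WalkBig b0 b L M u ⊆ ⋃ S ∈ P, Big b0 S M := by
    rintro ω ⟨x, y, p, S, hx, hp, hS, hSb, hω⟩
    obtain ⟨T, hT, hTp⟩ := hF x y p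
      (hp.trans (by rw [hn, Nat.add_mul, one_mul]; exact (Nat.lt_div_mul_add hb).le))
    simp only [Set.mem_iUnion]
    refine ⟨S, ?_, hω⟩
    simp only [hP, Finset.mem_biUnion, Finset.mem_filter, Finset.mem_powerset]
    exact ⟨x, mem_square_of_l1 hx, T, hT, fun z hz => hTp z (hS z hz),
      (Nat.le_div_iff_mul_le hb).2 hSb⟩
  have hQ : (0 : ℝ) < (b * (2 * b + 1) ^ 2 : ℝ) := by positivity
  have hQ1 : (1 : ℝ) ≤ (b * (2 * b + 1) ^ 2 : ℝ) := by
    have : (1 : ℝ) ≤ b := by exact_mod_cast hb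
    nlinarith [sq_nonneg (b : ℝ)]
  set x : ℝ := 1 / (b * (2 * b + 1) ^ 2 : ℝ) with hx
  have hx0 : 0 < x := by rw [hx]; positivity
  have hx1 : x ≤ 1 := by rw [hx, div_le_one hQ]; exact hQ1
  set B : ℝ := (1 + x) ^ (n * (2 * b + 1) ^ 2 + 1) / x ^ k with hB
  have hPc : (P.card : ℝ) ≤ (2 * L + 1 : ℕ) ^ 2 * (((2 * b + 1) ^ 2 : ℕ) : ℝ) ^ n * B := by
    have hB0 : 0 ≤ B := by rw [hB]; positivity
    refine (Nat.cast_le.2 Finset.card_biUnion_le).trans ?_
    push_cast
    calc ∑ x' ∈ square L u, (((F x').biUnion fun T =>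
          T.powerset.filter fun S => S.card ≤ k).card : ℝ)
        ≤ ∑ _x' ∈ square L u, ((2 * (b : ℝ) + 1) ^ 2) ^ n * B := by
          refine Finset.sum_le_sum fun x' _ => ?_
          refine (Nat.cast_le.2 Finset.card_biUnion_le).trans ?_
          push_cast
          refine (Finset.sum_le_card_nsmul _ _ B fun T hT => ?_).trans ?_
          · refine (card_small_subsets T k hx0 hx1).trans (div_le_div_of_nonneg_right ?_ (by positivity))
            exact pow_le_pow_right₀ (by linarith) (hFT x' T hT)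
          · rw [nsmul_eq_mul]
            refine mul_le_mul_of_nonneg_right ?_ hB0
            exact_mod_cast hFc x'
      _ = _ := by
          rw [Finset.sum_const, card_square, nsmul_eq_mul]
          push_cast
          ring
  calc (V4.law G).real (WalkBig b0 b L M u)
      ≤ (V4.law G).real (⋃ S ∈ P, Big b0 S M) := measureReal_mono hsub (measure_ne_top _ _)
    _ ≤ ∑ S ∈ P, (V4.law G).real (Big b0 S M) := measureReal_biUnion_finset_le _ _
    _ ≤ ∑ _S ∈ P, (2 : ℝ) ^ k * (1 / 2) ^ M := by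
        refine Finset.sum_le_sum fun S hS => (prob_big_le G hρ hρ1 hd S M).trans ?_
        have hSk : S.card ≤ k := by
          simp only [hP, Finset.mem_biUnion, Finset.mem_filter] at hS
          obtain ⟨_, _, _, _, _, h⟩ := hS
          exact h
        exact mul_le_mul (pow_le_pow_right₀ one_le_two hSk)
          (pow_le_pow_left₀ (by positivity) hρ2 M) (by positivity) (by positivity)
    _ = (P.card : ℝ) * (2 ^ k * (1 / 2) ^ M) := by rw [Finset.sum_const, nsmul_eq_mul]
    _ ≤ _ := mul_le_mul_of_nonneg_right hPc (by positivity)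

/-- Except with exponentially small probability, all clusters at `2 A R / b` sites of a walk of
length `A R` near `u` have fewer than `η R` sites in all, for a suitable step `b`. -/
theorem exists_walkBig_small (hρ : 0 ≤ ρ) (hd : 4 * G.real (Set.Ioi b0) ≤ ρ ^ 2)
    (hρ2 : 256 * ρ ≤ 1 / 2) (A : ℕ) {η : ℝ} (hη : 0 < η) :
    ∃ b₁ : ℕ, 0 < b₁ ∧ ∀ b, b₁ ≤ b → ∃ c > (0 : ℝ), ∃ R₀ : ℕ, ∀ R, R₀ ≤ R → ∀ (u : ℤ × ℤ) (M : ℕ),
      η * R ≤ M → (V4.law G).real (WalkBig b0 b (A * R) M u) ≤ Real.exp (-(c * R)) := by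
  set κ : ℝ := η * Real.log 2 / 4 with hκ
  have hl2 : 0 < Real.log 2 := Real.log_pos one_lt_two
  have hκ0 : 0 < κ := by positivity
  obtain ⟨b₁, hb₁⟩ : ∃ b₁ : ℕ, ∀ b : ℕ, b₁ ≤ b →
      (A : ℝ) * (10 * Real.log b + 20) / b ≤ κ := by
    have h1 : Tendsto (fun b : ℕ => Real.log b / b) atTop (nhds 0) := by
      have h := Real.isLittleO_log_id_atTop.tendsto_div_nhds_zero.comp tendsto_natCast_atTop_atTop
      exact h
    have h2 : Tendsto (fun b : ℕ => (A : ℝ) * (10 * (Real.log b / b) + 20 / (b : ℝ))) atTop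
        (nhds 0) := by
      simpa using ((h1.const_mul 10).add (tendsto_const_div_atTop_nhds_zero_nat 20)).const_mul
        (A : ℝ)
    obtain ⟨b₁, hb₁⟩ := eventually_atTop.1 (h2.eventually (gt_mem_nhds hκ0))
    refine ⟨b₁, fun b hb => le_of_eq_of_le ?_ (hb₁ b hb).le⟩
    ring
  refine ⟨b₁ + 1, b₁.succ_pos, fun b hb => ⟨κ, hκ0, ?_⟩⟩
  have hb0 : 0 < b := by omega
  have hbκ := hb₁ b (by omega)
  obtain ⟨R₀, hR₀⟩ : ∃ R₀ : ℕ, ∀ R : ℕ, R₀ ≤ R →
      2 * Real.log ((2 * (A * R) + 1 : ℕ) : ℝ) + 7 * Real.log b + 20 ≤ κ * R := by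
    have h1 : Tendsto (fun R : ℕ => Real.log R / R) atTop (nhds 0) := by
      have h := Real.isLittleO_log_id_atTop.tendsto_div_nhds_zero.comp tendsto_natCast_atTop_atTop
      exact h
    have h2 : Tendsto (fun R : ℕ => 2 * (Real.log R / R) +
        (2 * Real.log (2 * A + 1 : ℕ) + 7 * Real.log b + 20) / (R : ℝ)) atTop (nhds 0) := by
      simpa using (h1.const_mul 2).add (tendsto_const_div_atTop_nhds_zero_nat _)
    obtain ⟨R₀, hR₀⟩ := eventually_atTop.1 ((h2.eventually (gt_mem_nhds hκ0)).and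
      (eventually_gt_atTop 0))
    refine ⟨R₀, fun R hR => ?_⟩
    obtain ⟨h, hR0⟩ := hR₀ R hR
    have hRpos : (0 : ℝ) < R := by exact_mod_cast hR0
    rw [mul_div, ← add_div, div_lt_iff₀ hRpos] at h
    have hlog : Real.log ((2 * (A * R) + 1 : ℕ) : ℝ) ≤
        Real.log (2 * A + 1 : ℕ) + Real.log R := by
      rw [← Real.log_mul (by positivity) hRpos.ne']
      refine Real.log_le_log (by positivity) ?_
      have : 2 * (A * R) + 1 ≤ (2 * A + 1) * R := by nlinarith
      exact_mod_cast this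
    linarith
  refine ⟨R₀, fun R hR u M hM => (prob_walkBig_le G hρ hd hρ2 hb0 (A * R) M u).trans ?_⟩
  set L := A * R with hL
  set n := L / b + 1 with hn
  set k := 2 * L / b with hk
  have hbr : (1 : ℝ) ≤ b := by exact_mod_cast hb0
  have hnr : (n : ℝ) ≤ A * R / b + 1 := by
    have h : ((L / b : ℕ) : ℝ) ≤ (L : ℝ) / b := Nat.cast_div_le
    rw [hn, Nat.cast_add, Nat.cast_one]
    rw [hL, Nat.cast_mul] at h
    linarith
  have hkr : (k : ℝ) ≤ 2 * (A * R / b) := by
    have h : ((2 * L / b : ℕ) : ℝ) ≤ ((2 * L : ℕ) : ℝ) / b := Nat.cast_div_le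
    rw [hk]
    push_cast [hL] at h ⊢
    calc _ ≤ _ := h
      _ = _ := by ring
  set Q : ℝ := (2 * (b : ℝ) + 1) ^ 2 with hQ
  have hQ9 : 0 < Q := by positivity
  have hlogQ : Real.log Q ≤ 2 * Real.log b + 4 := by
    rw [hQ, Real.log_pow]
    push_cast
    have h : Real.log (2 * (b : ℝ) + 1) ≤ Real.log 3 + Real.log b := by
      rw [← Real.log_mul (by norm_num) (by positivity)]
      exact Real.log_le_log (by positivity) (by linarith)
    have h3 := Real.log_le_sub_one_of_pos (show (0 : ℝ) < 3 by norm_num)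
    linarith
  have hlogbQ : Real.log (b * Q) ≤ 3 * Real.log b + 4 := by
    rw [Real.log_mul (by positivity) hQ9.ne']
    linarith
  have e1 : (1 + 1 / (b * Q)) ^ (n * (2 * b + 1) ^ 2 + 1) ≤ Real.exp (n / b + 1) := by
    have hQn : (((n * (2 * b + 1) ^ 2 + 1 : ℕ)) : ℝ) = n * Q + 1 := by rw [hQ]; push_cast; ring
    refine (pow_le_pow_left₀ (by positivity) ((add_comm _ _).trans_le (Real.add_one_le_exp _))
      _).trans ?_
    rw [← Real.exp_nat_mul, Real.exp_le_exp, hQn]
    have h : 1 / ((b : ℝ) * Q) ≤ 1 := by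
      rw [div_le_one (by positivity)]
      nlinarith
    calc ((n : ℝ) * Q + 1) * (1 / (b * Q)) = n / b + 1 / (b * Q) := by field_simp
      _ ≤ _ := by linarith
  calc _ ≤ Real.exp (2 * Real.log ((2 * L + 1 : ℕ) : ℝ)) * Real.exp (n * Real.log Q) *
        (Real.exp (n / b + 1) * Real.exp (k * Real.log (b * Q))) *
        (Real.exp (k * Real.log 2) * Real.exp (-(M * Real.log 2))) := by
        have x1 : ((2 * L + 1 : ℕ) : ℝ) ^ 2 = Real.exp (2 * Real.log ((2 * L + 1 : ℕ) : ℝ)) := by
          rw [← Real.exp_log (show (0 : ℝ) < ((2 * L + 1 : ℕ) : ℝ) ^ 2 by positivity),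
            Real.log_pow]
          norm_num
        have x2 : Real.exp (n * Real.log Q) = Q ^ n := by
          rw [Real.exp_nat_mul, Real.exp_log hQ9]
        have x3 : Real.exp (k * Real.log (b * Q)) = ((b : ℝ) * Q) ^ k := by
          rw [Real.exp_nat_mul, Real.exp_log (by positivity)]
        have x4 : Real.exp (k * Real.log 2) = 2 ^ k := by
          rw [Real.exp_nat_mul, Real.exp_log two_pos]
        have x5 : Real.exp (-(M * Real.log 2)) = (1 / 2) ^ M := by
          rw [Real.exp_neg, Real.exp_nat_mul, Real.exp_log two_pos, one_div, inv_pow]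
        rw [x2, x3, x4, x5, ← x1, one_div_pow, div_div_eq_mul_div, div_one]
        push_cast
        gcongr
    _ = Real.exp (2 * Real.log ((2 * L + 1 : ℕ) : ℝ) + n * Real.log Q + (n / b + 1) +
        k * Real.log (b * Q) + k * Real.log 2 + -(M * Real.log 2)) := by
        simp only [Real.exp_add]
        ring
    _ ≤ Real.exp (-(κ * R)) := by
        refine Real.exp_le_exp.2 ?_
        have hL0 : 0 ≤ (A : ℝ) * R / b := by positivity
        have hn0 : (0 : ℝ) ≤ n := n.cast_nonneg
        have hk0 : (0 : ℝ) ≤ k := k.cast_nonneg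
        have hlb : 0 ≤ Real.log b := Real.log_nonneg hbr
        have i1 : (n : ℝ) * Real.log Q ≤ (A * R / b + 1) * (2 * Real.log b + 4) :=
          (mul_le_mul_of_nonneg_left hlogQ hn0).trans
            (mul_le_mul_of_nonneg_right hnr (by positivity))
        have i2 : (k : ℝ) * Real.log (b * Q) ≤ 2 * (A * R / b) * (3 * Real.log b + 4) :=
          (mul_le_mul_of_nonneg_left hlogbQ hk0).trans
            (mul_le_mul_of_nonneg_right hkr (by positivity))
        have i3 : (k : ℝ) * Real.log 2 ≤ 2 * (A * R / b) * 1 :=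
          mul_le_mul hkr (by linarith [Real.log_le_sub_one_of_pos two_pos]) hl2.le (by positivity)
        have i4 : (n : ℝ) / b ≤ n := div_le_self hn0 hbr
        have i5 : η * R * Real.log 2 ≤ M * Real.log 2 := mul_le_mul_of_nonneg_right hM hl2.le
        have i6 := hR₀ R hR
        have i7 : (A : ℝ) * R / b * (10 * Real.log b + 20) ≤ κ * R := by
          have h := mul_le_mul_of_nonneg_right hbκ (R.cast_nonneg (α := ℝ))
          calc _ = (A : ℝ) * (10 * Real.log b + 20) / b * R := by ring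
            _ ≤ _ := h
        have hM4 : 4 * (κ * R) ≤ M * Real.log 2 := by rw [hκ]; linarith
        have hd0 : 0 ≤ (A : ℝ) * R / b * Real.log b := by positivity
        linarith

end Vale.Agent.P158.Any
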