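import Mathlib
import Vale.Agent.P158.Any.Tame
import Vale.Agent.P158.Any.Uniform

/-!
P158, every atomless law (note 1452, module U2): the probabilities that bad animals are large, that a
ray is not OK, and that some short walk has big clusters at its few heavy edges.
-/

namespace Vale.Agent.P158.Any

open MeasureTheory

variable (G : Measure ℝ) [IsProbabilityMeasure G]

/-- The animal rate: tends to `0` as `b` grows. -/
noncomputable def rate (b : ℝ) : ℝ := 256 * Real.sqrt (4 * G.real (Set.Ioi b))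

omit [IsProbabilityMeasure G] in
theorem rate_nonneg (b : ℝ) : 0 ≤ rate G b := by unfold rate; positivity

/-- The rate is small at high levels. -/
theorem tendsto_rate : Filter.Tendsto (rate G) Filter.atTop (nhds 0) := by
  have h1 : Filter.Tendsto (fun x : ℝ => G (Set.Ioi x)) Filter.atTop (nhds 0) := by
    have h := tendsto_measure_iInter_atTop (μ := G) (s := fun x : ℝ => Set.Ioi x)
      (fun _ => measurableSet_Ioi.nullMeasurableSet) (fun _ _ h => Set.Ioi_subset_Ioi h)
      ⟨0, measure_ne_top G _⟩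
    rw [show ⋂ x : ℝ, Set.Ioi x = ∅ from
      Set.eq_empty_of_forall_notMem fun y hy => lt_irrefl y (Set.mem_iInter.1 hy y),
      measure_empty] at h
    exact h
  have h2 : Filter.Tendsto (fun x : ℝ => G.real (Set.Ioi x)) Filter.atTop (nhds 0) := by
    have h := (ENNReal.tendsto_toReal ENNReal.zero_ne_top).comp h1
    rw [ENNReal.toReal_zero] at h
    exact h
  unfold rate
  simpa using ((h2.const_mul 4).sqrt).const_mul 256

theorem big_iff {b : ℝ} {ω : Cfg} {S : Finset Pt} {M : ℕ} :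
    ω ∈ Big b S (M + 1) ↔ ¬ NoAnimals b ω S M := by
  simp only [Big, NoAnimals, not_forall, not_le, Nat.add_one_le_iff, Set.mem_ofPred_eq]
  exact ⟨fun ⟨U, h1, h2, h3⟩ => ⟨U, h2, h3, h1⟩, fun ⟨U, h2, h3, h1⟩ => ⟨U, h1, h2, h3⟩⟩

theorem prob_big_le_rate {b : ℝ} (hb : rate G b ≤ 1 / 2) (S : Finset Pt) (M : ℕ) :
    (V4.law G).real (Big b S M) ≤ 2 ^ S.card * rate G b ^ M := by
  have h0 : 0 ≤ 4 * G.real (Set.Ioi b) := by positivity
  unfold rate at hb ⊢
  exact prob_big_le G (Real.sqrt_nonneg _) (by linarith) (Real.sq_sqrt h0).ge S M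

/-- Animals grown from given roots are small, except with exponentially small probability. -/
theorem prob_not_noAnimals_le {b : ℝ} (hb : rate G b ≤ 1 / 2) (roots : Finset Pt) (M : ℕ) :
    (V4.law G).real {ω | ¬ NoAnimals b ω roots M} ≤ 2 ^ roots.card * rate G b ^ (M + 1) := by
  rw [show {ω : Cfg | ¬ NoAnimals b ω roots M} = Big b roots (M + 1) from
    Set.ext fun ω => big_iff.symm]
  exact prob_big_le_rate G hb roots _

/-- A ray fails to be OK with exponentially small probability. -/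
theorem prob_not_rayOK_le {b : ℝ} (hb : rate G b ≤ 1 / 2) (p : Pt) (N : ℕ) :
    (V4.law G).real {ω | ¬ RayOK b ω p N} ≤ 4 * (N + 2) * rate G b ^ (N + 1) := by
  set q := rate G b with hq
  have hq0 : 0 ≤ q := rate_nonneg G b
  have hsub : {ω : Cfg | ¬ RayOK b ω p N} ⊆
      ⋃ j : ℕ, ⋃ k ∈ Finset.range (N + 1 + j), Big b {(p.1 + (k : ℤ), p.2)} (N + 1 + j) := by
    intro ω hω
    simp only [Set.mem_ofPred_eq, RayOK, not_forall, not_le] at hω
    obtain ⟨k, U, hU, hbad, hk, hN⟩ := hω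
    obtain ⟨j, hj⟩ : ∃ j, U.card = N + 1 + j := ⟨U.card - (N + 1), by omega⟩
    simp only [Set.mem_iUnion]
    exact ⟨j, k, Finset.mem_range.2 (hj ▸ hk), U, hj.ge, hU, hbad⟩
  have hterm : ∀ j : ℕ,
      V4.law G (⋃ k ∈ Finset.range (N + 1 + j), Big b {(p.1 + (k : ℤ), p.2)} (N + 1 + j)) ≤
        ENNReal.ofReal (2 * q ^ (N + 1) * ((N + 1) * (1 / 2) ^ j + j * (1 / 2) ^ j)) := fun j => by
    have hbig : ∀ z : Pt, V4.law G (Big b {z} (N + 1 + j)) ≤
        ENNReal.ofReal (2 * q ^ (N + 1 + j)) := fun z => by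
      rw [← ofReal_measureReal]
      refine ENNReal.ofReal_le_ofReal ((prob_big_le_rate G hb {z} _).trans ?_)
      rw [Finset.card_singleton, pow_one]
    refine (measure_biUnion_finset_le _ _).trans ((Finset.sum_le_sum fun k _ => hbig _).trans ?_)
    rw [Finset.sum_const, nsmul_eq_mul, ← ENNReal.ofReal_natCast,
      ← ENNReal.ofReal_mul (Nat.cast_nonneg _), Finset.card_range]
    refine ENNReal.ofReal_le_ofReal ?_
    have h : q ^ (N + 1 + j) ≤ q ^ (N + 1) * (1 / 2) ^ j := by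
      rw [pow_add]
      exact mul_le_mul_of_nonneg_left (pow_le_pow_left₀ hq0 hb j) (by positivity)
    push_cast
    calc ((N : ℝ) + 1 + j) * (2 * q ^ (N + 1 + j))
        ≤ ((N : ℝ) + 1 + j) * (2 * (q ^ (N + 1) * (1 / 2) ^ j)) := by gcongr
      _ = _ := by ring
  rw [measureReal_def]
  refine ENNReal.toReal_le_of_le_ofReal (by positivity) ((measure_mono hsub).trans
    ((measure_iUnion_le _).trans ((ENNReal.tsum_le_tsum hterm).trans ?_)))
  have hgeo : HasSum (fun j : ℕ => ((N : ℝ) + 1) * (1 / 2) ^ j + (j : ℝ) * (1 / 2) ^ j)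
      (((N : ℝ) + 1) * 2 + 2) := by
    have h2 : HasSum (fun j : ℕ => (j : ℝ) * (1 / 2) ^ j) 2 := by
      have h := hasSum_coe_mul_geometric_of_norm_lt_one (r := (1 / 2 : ℝ)) (by norm_num)
      norm_num at h ⊢
      exact h
    exact (hasSum_geometric_two.mul_left _).add h2
  have hsum := hgeo.mul_left (2 * q ^ (N + 1))
  rw [← ENNReal.ofReal_tsum_of_nonneg (fun j => by positivity) hsum.summable, hsum.tsum_eq]
  refine ENNReal.ofReal_le_ofReal (le_of_eq ?_)
  ring

/-- The ends of the edges of a walk that are heavier than `t`. -/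
noncomputable def heavyEnds {x y : Pt} (ω : Cfg) (t : ℝ) (p : grid.Walk x y) : Finset Pt :=
  (p.edges.toFinset.filter fun e => t < ω e).biUnion Sym2.toFinset

theorem mem_heavyEnds {x y : Pt} {ω : Cfg} {t : ℝ} {p : grid.Walk x y} {s : Pt} :
    s ∈ heavyEnds ω t p ↔ ∃ e ∈ p.edges, t < ω e ∧ s ∈ e := by
  simp only [heavyEnds, Finset.mem_biUnion, Finset.mem_filter, List.mem_toFinset, Sym2.mem_toFinset,
    and_assoc]

theorem card_heavyEnds_le {x y : Pt} (ω : Cfg) (t : ℝ) (p : grid.Walk x y) :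
    (heavyEnds ω t p).card ≤ 2 * (p.edges.toFinset.filter fun e => t < ω e).card := by
  rw [mul_comm]
  refine Finset.card_biUnion_le_card_mul _ _ 2 fun e _ => ?_
  induction e using Sym2.ind with
  | _ a c => simp only [Sym2.toFinset_mk_eq]; exact Finset.card_le_two

/-- Some walk of length at most `L` from within `L` of `u` has at most `L / t` heavy edges with animals
of more than `M` sites at their ends. -/
def PathFail (b t L : ℝ) (M : ℕ) (u : Pt) : Set Cfg :=
  {ω | ∃ (x y : Pt) (p : grid.Walk x y), (V4.l1 u x : ℝ) ≤ L ∧ (p.length : ℝ) ≤ L ∧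
    ((p.edges.toFinset.filter fun e => t < ω e).card : ℝ) * t ≤ L ∧
    ¬ NoAnimals b ω (heavyEnds ω t p) M}

/-- Uniformly in the walks, exponentially unlikely to fail. -/
theorem exists_pathFail_small {b : ℝ} (hb : rate G b ≤ 1 / 2) (A : ℝ) {η : ℝ} (hη : 0 < η) :
    ∃ t₁ : ℝ, b ≤ t₁ ∧ 0 < t₁ ∧ ∀ t, t₁ ≤ t → ∃ c > (0 : ℝ), ∃ R₀ : ℕ, ∀ R : ℕ, R₀ ≤ R →
      ∀ (u : Pt) (M : ℕ), η * R ≤ (M : ℝ) + 1 →
        (V4.law G).real (PathFail b t (A * R) M u) ≤ Real.exp (-(c * R)) := by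
  have h0 : 0 ≤ 4 * G.real (Set.Ioi b) := by positivity
  obtain ⟨b₁, hb₁, hsmall⟩ := exists_walkBig_small G (b0 := b) (Real.sqrt_nonneg _)
    (Real.sq_sqrt h0).ge hb ⌈A⌉₊ hη
  refine ⟨max b b₁, le_max_left _ _, lt_max_of_lt_right (by exact_mod_cast hb₁), fun t ht => ?_⟩
  obtain ⟨c, hc, R₀, hR₀⟩ := hsmall b₁ le_rfl
  refine ⟨c, hc, R₀, fun R hR u M hM =>
    le_trans (measureReal_mono ?_ (measure_ne_top _ _)) (hR₀ R hR u (M + 1) (by exact_mod_cast hM))⟩
  rintro ω ⟨x, y, p, hx, hp, hn, hA⟩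
  have hAR : A * R ≤ ((⌈A⌉₊ * R : ℕ) : ℝ) := by
    push_cast
    exact mul_le_mul_of_nonneg_right (Nat.le_ceil A) R.cast_nonneg
  refine ⟨x, y, p, heavyEnds ω t p, by exact_mod_cast hx.trans hAR, by exact_mod_cast hp.trans hAR,
    fun z hz => ?_, ?_, big_iff.2 hA⟩
  · obtain ⟨e, he, -, hze⟩ := mem_heavyEnds.1 hz
    exact p.mem_support_of_mem_edges he hze
  · have h1 : ((heavyEnds ω t p).card : ℝ) ≤
        2 * ((p.edges.toFinset.filter fun e => t < ω e).card : ℝ) := by
      exact_mod_cast card_heavyEnds_le ω t p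
    have hbt : (b₁ : ℝ) ≤ t := (le_max_right _ _).trans ht
    have h2 : ((heavyEnds ω t p).card : ℝ) * b₁ ≤ 2 * ((⌈A⌉₊ * R : ℕ) : ℝ) := by
      refine (mul_le_mul h1 hbt b₁.cast_nonneg (by positivity)).trans ?_
      linarith
    exact_mod_cast h2

end Vale.Agent.P158.Any
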