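import Vale.Agent.P158.Any.Tame
import Vale.Agent.P158.V4.Increment

/-!
P158, arbitrary laws (note 1452, U5): hubs under the symmetries of the lattice, and their measurability.
-/

namespace Vale.Agent.P158.Any

open MeasureTheory

/-- A symmetry of the lattice that keeps king's moves and bounding boxes. -/
structure LatSym (φ ψ : grid →g grid) : Prop where
  left : ∀ z, ψ (φ z) = z
  right : ∀ z, φ (ψ z) = z
  star : ∀ u v, Star u v → Star (φ u) (φ v)
  star' : ∀ u v, Star u v → Star (ψ u) (ψ v)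
  far : ∀ (C : Finset Pt) (q : Pt), Far C q → Far (C.image φ) (φ q)
  far' : ∀ (C : Finset Pt) (q : Pt), Far C q → Far (C.image ψ) (ψ q)

theorem LatSym.symm {φ ψ : grid →g grid} (h : LatSym φ ψ) : LatSym ψ φ :=
  ⟨h.right, h.left, h.star', h.star, h.far', h.far⟩

theorem latSym_shift (a : Pt) : LatSym (V4.shift a) (V4.shift (-a)) := by
  have star : ∀ a u v : Pt, Star u v → Star (V4.shift a u) (V4.shift a v) := fun a u v h => by
    show |(u + a).1 - (v + a).1| ≤ 1 ∧ |(u + a).2 - (v + a).2| ≤ 1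
    simpa [Star] using h
  have far : ∀ (a : Pt) (C : Finset Pt) (q : Pt), Far C q →
      Far (C.image (V4.shift a)) (V4.shift a q) := by
    intro a C q h
    have e : ∀ z : Pt, V4.shift a z = (z.1 + a.1, z.2 + a.2) := fun z => rfl
    simp only [Far, Finset.forall_mem_image, e, add_lt_add_iff_right] at h ⊢
    exact h
  exact ⟨fun z => show z + a + -a = z by simp, fun z => show z + -a + a = z by simp,
    star a, star (-a), far a, far (-a)⟩

theorem latSym_flipX : LatSym V4.flipX V4.flipX := by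
  have star : ∀ u v : Pt, Star u v → Star (V4.flipX u) (V4.flipX v) := fun u v h => by
    show |(-u.1) - (-v.1)| ≤ 1 ∧ |u.2 - v.2| ≤ 1
    rw [neg_sub_neg, abs_sub_comm]
    exact h
  have far : ∀ (C : Finset Pt) (q : Pt), Far C q → Far (C.image V4.flipX) (V4.flipX q) := by
    intro C q h
    have e : ∀ z : Pt, V4.flipX z = (-z.1, z.2) := fun z => rfl
    simp only [Far, Finset.forall_mem_image, e, neg_lt_neg_iff] at h ⊢
    tauto
  exact ⟨V4.flipX_flipX, V4.flipX_flipX, star, star, far, far⟩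

theorem latSym_flip2 : LatSym V4.flip2 V4.flip2 := by
  have star : ∀ u v : Pt, Star u v → Star (V4.flip2 u) (V4.flip2 v) := fun u v h => by
    show |u.1 - v.1| ≤ 1 ∧ |(-u.2) - (-v.2)| ≤ 1
    rw [neg_sub_neg, abs_sub_comm v.2]
    exact h
  have far : ∀ (C : Finset Pt) (q : Pt), Far C q → Far (C.image V4.flip2) (V4.flip2 q) := by
    intro C q h
    have e : ∀ z : Pt, V4.flip2 z = (z.1, -z.2) := fun z => rfl
    simp only [Far, Finset.forall_mem_image, e, neg_lt_neg_iff] at h ⊢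
    tauto
  exact ⟨V4.flip2_flip2, V4.flip2_flip2, star, star, far, far⟩

variable {φ ψ : grid →g grid} {b : ℝ} {ω : Cfg}

theorem LatSym.bad (h : LatSym φ ψ) {z : Pt} (hz : Bad b (ω ∘ Sym2.map φ) z) : Bad b ω (φ z) := by
  obtain ⟨n, hn, hb⟩ := hz
  exact ⟨φ n, φ.map_adj hn, by simpa using hb⟩

theorem LatSym.comp_comp (h : LatSym φ ψ) (ω : Cfg) : (ω ∘ Sym2.map φ) ∘ Sym2.map ψ = ω := by
  funext e
  show ω (Sym2.map φ (Sym2.map ψ e)) = ω e
  congr 1
  induction e using Sym2.ind with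
  | _ x y => simp [h.right]

theorem LatSym.bad_iff (h : LatSym φ ψ) {z : Pt} : Bad b (ω ∘ Sym2.map φ) z ↔ Bad b ω (φ z) := by
  refine ⟨h.bad, fun hz => ?_⟩
  have := h.symm.bad (ω := ω ∘ Sym2.map φ) (z := φ z) (by rw [h.comp_comp]; exact hz)
  rwa [h.left] at this

theorem LatSym.image_image (h : LatSym φ ψ) (C : Finset Pt) : (C.image ψ).image φ = C := by
  rw [Finset.image_image]
  conv_rhs => rw [← Finset.image_id (s := C)]
  exact Finset.image_congr fun z _ => h.right z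

theorem LatSym.hub_of (h : LatSym φ ψ) {S : Set Pt} {p : Pt}
    (hp : Hub b (ω ∘ Sym2.map φ) (φ ⁻¹' S) p) : Hub b ω S (φ p) := by
  classical
  obtain ⟨hpS, hgood, hout⟩ := hp
  refine ⟨hpS, fun hb => hgood (h.bad_iff.2 hb), fun C hC => ?_⟩
  have hmem : ∀ {z : Pt}, z ∈ C.image ψ ↔ φ z ∈ C := fun {z} => by
    rw [Finset.mem_image]
    exact ⟨fun ⟨c, hc, hcz⟩ => by rw [← hcz, h.right]; exact hc, fun hz => ⟨φ z, hz, h.left z⟩⟩
  have hclu : IsClu b (ω ∘ Sym2.map φ) (φ ⁻¹' S) (C.image ψ) := by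
    refine ⟨hC.nonempty.image _, fun c hc => hC.sub _ (hmem.1 hc),
      fun c hc => h.bad_iff.2 (hC.bad _ (hmem.1 hc)), fun a ha c hc => ?_,
      fun c hc y hy hb hs => hmem.2 (hC.closed _ (hmem.1 hc) _ hy (h.bad_iff.1 hb) (h.star _ _ hs))⟩
    have hr := hC.conn _ (hmem.1 ha) _ (hmem.1 hc)
    rw [← h.left a, ← h.left c]
    exact hr.lift ψ fun u v huv => ⟨Finset.mem_image_of_mem ψ huv.1,
      Finset.mem_image_of_mem ψ huv.2.1, h.star' _ _ huv.2.2⟩
  obtain ⟨q, hq, w, hw⟩ := hout _ hclu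
  refine ⟨φ q, ?_, w.map φ, fun z hz => ?_⟩
  · have := h.far _ _ hq
    rwa [h.image_image] at this
  · rw [SimpleGraph.Walk.support_map, List.mem_map] at hz
    obtain ⟨a, ha, rfl⟩ := hz
    exact ⟨(hw a ha).1, fun haC => (hw a ha).2 (hmem.2 haC)⟩

/-- Hubs are carried by the symmetries of the lattice. -/
theorem LatSym.hub_iff (h : LatSym φ ψ) {S : Set Pt} {p : Pt} :
    Hub b (ω ∘ Sym2.map φ) (φ ⁻¹' S) p ↔ Hub b ω S (φ p) := by
  refine ⟨h.hub_of, fun hp => ?_⟩
  have := h.symm.hub_of (ω := ω ∘ Sym2.map φ) (S := φ ⁻¹' S) (p := φ p) (b := b) ?_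
  · rwa [h.left] at this
  · rw [h.comp_comp, ← Set.preimage_comp, show φ ∘ ψ = id from funext h.right, Set.preimage_id]
    exact hp

theorem measurableSet_bad (b : ℝ) (z : Pt) : MeasurableSet {ω : Cfg | Bad b ω z} := by
  simp only [Bad, Set.ofPred_exists]
  exact MeasurableSet.iUnion fun n => MeasurableSet.inter (MeasurableSet.const _)
    (measurableSet_lt measurable_const (measurable_pi_apply _))

theorem measurableSet_isClu (b : ℝ) (S : Set Pt) (C : Finset Pt) :
    MeasurableSet {ω : Cfg | IsClu b ω S C} := by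
  have e : {ω : Cfg | IsClu b ω S C} = {_ω : Cfg | C.Nonempty ∧ (∀ c ∈ C, c ∈ S) ∧ StarConn C} ∩
      ((⋂ c ∈ C, {ω : Cfg | Bad b ω c}) ∩
        ⋂ c ∈ C, ⋂ y ∈ {y : Pt | y ∈ S ∧ Star c y ∧ y ∉ C}, {ω : Cfg | Bad b ω y}ᶜ) := by
    ext ω
    simp only [Set.mem_inter_iff, Set.mem_iInter, Set.mem_ofPred_eq, Set.mem_compl_iff]
    exact ⟨fun h => ⟨⟨h.nonempty, h.sub, h.conn⟩, h.bad,
      fun c hc y hy hb => hy.2.2 (h.closed c hc y hy.1 hb hy.2.1)⟩,
      fun ⟨⟨h1, h2, h4⟩, h3, h5⟩ => ⟨h1, h2, h3, h4,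
        fun c hc y hyS hb hs => by_contra fun hy => h5 c hc y ⟨hyS, hs, hy⟩ hb⟩⟩
  rw [e]
  exact (MeasurableSet.const _).inter ((Finset.measurableSet_biInter _ fun c _ =>
    measurableSet_bad b c).inter (Finset.measurableSet_biInter _ fun c _ =>
      MeasurableSet.biInter (Set.to_countable _) fun y _ => (measurableSet_bad b y).compl))

theorem measurableSet_hub (b : ℝ) (S : Set Pt) (p : Pt) :
    MeasurableSet {ω : Cfg | Hub b ω S p} := by
  have e : {ω : Cfg | Hub b ω S p} = {_ω : Cfg | p ∈ S} ∩ ({ω : Cfg | Bad b ω p}ᶜ ∩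
      ⋂ C ∈ {C : Finset Pt | ¬ Out S C p}, {ω : Cfg | IsClu b ω S C}ᶜ) := by
    ext ω
    simp only [Hub, Set.mem_inter_iff, Set.mem_iInter, Set.mem_ofPred_eq, Set.mem_compl_iff]
    exact and_congr_right fun _ => and_congr_right fun _ => forall_congr' fun C => not_imp_not.symm
  rw [e]
  exact (MeasurableSet.const _).inter ((measurableSet_bad b p).compl.inter
    (MeasurableSet.biInter (Set.to_countable _) fun C _ => (measurableSet_isClu b S C).compl))

end Vale.Agent.P158.Any
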