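import Vale.Agent.P158.Any.ShapeEvents

/-!
P158, every law without mass at zero (note 1452, U4): the time constant is a lattice norm and the
shape property `HShape` holds with probability tending to one.
-/

namespace Vale.Agent.P158.Any

open MeasureTheory Filter Topology

variable (G : Measure ℝ) [IsProbabilityMeasure G]

theorem segRoots_spec {b : ℝ} (hb : 0 ≤ b) {ω : Cfg} (h0 : ∀ e, 0 ≤ ω e) {S : Set Pt} (hS : Reg S)
    {p q : Pt} (hp : Hub b ω S p) (hq : Hub b ω S q) {M : ℕ} (hA : NoAnimals b ω (segRoots p q) M) :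
    V4.ttIn S ω p q ≤ b * (V4.l1 p q + 9 * M) := by
  obtain ⟨hlen, hbox⟩ := (V4.exists_box_walk p q).choose_spec
  obtain ⟨w, hw, hwt⟩ := NoAnimals.seg_bound hS hb h0 hp hq (V4.exists_box_walk p q).choose
    (fun z hz => hS.between hp.1 hq.1 (hbox z hz).2.2.1 (hbox z hz).2.2.2) hA
  rw [hlen] at hwt
  exact (V4.ttS_le h0 w fun z hz => (hw z hz).1).trans hwt

/-- The sites of the axis from `0` to `k + 1`. -/
def axisRoots (k : ℕ) : Finset Pt := (Finset.range (k + 2)).image fun i : ℕ => ((i : ℤ), (0 : ℤ))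

theorem tendsto_real_rate {b : ℝ} (hb : rate G b ≤ 1 / 2) :
    Tendsto (fun k : ℕ => (V4.law G).real {ω | ¬ NoAnimals b ω (axisRoots k) (2 * k + 1)}) atTop (𝓝 0) := by
  refine squeeze_zero (fun k => measureReal_nonneg)
    (fun k => (prob_not_noAnimals_le G hb _ _).trans ?_)
    ((tendsto_pow_atTop_nhds_zero_of_lt_one (by norm_num : (0 : ℝ) ≤ 1 / 2) (by norm_num)))
  refine (mul_le_mul (pow_le_pow_right₀ one_le_two
    (Finset.card_image_le.trans_eq (Finset.card_range _) : (axisRoots k).card ≤ k + 2))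
    (pow_le_pow_left₀ (rate_nonneg G b) hb _) (pow_nonneg (rate_nonneg G b) _) (by positivity)).trans_eq ?_
  rw [show 2 * k + 1 + 1 = (k + 2) + k by omega, pow_add (1 / 2 : ℝ), ← mul_assoc, ← mul_pow]
  norm_num

/-- The bounded time constants are bounded. -/
theorem bddAbove_axis (hG : ∀ᵐ t ∂G, 0 < t) {b : ℝ} (hb : 0 ≤ b) (hrate : rate G b ≤ 1 / 64) :
    BddAbove (Set.range fun n : ℕ => V4.mu (lawB G n) (1, 0)) := by
  have hb2 : rate G b ≤ 1 / 2 := hrate.trans (by norm_num)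
  refine ⟨60 * b + 60, ?_⟩
  rintro _ ⟨n, rfl⟩
  set μ := V4.mu (lawB G n) (1, 0)
  by_contra hlt
  push Not at hlt
  -- the truncated times are eventually above the level
  have hlim := (V4.isTimeConst_mu (lawB G n) (lawB_range G hG (Nat.cast_nonneg n))).limit (1, 0)
  set L : ℕ → Set Cfg := fun K =>
    ⋃ k ∈ Set.Ici K, {ω | V4.tt (trunc n ω) (0, 0) ((k : ℤ), 0) ≤ (60 * b + 60) * (k : ℝ)}
  have hLm : ∀ K, MeasurableSet (L K) := fun K =>
    MeasurableSet.biUnion (Set.to_countable _) fun k _ =>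
      measurableSet_le ((V4.measurable_tt _ _).comp (measurable_trunc n)) measurable_const
  have hLa : Antitone L := fun K K' h => Set.biUnion_subset_biUnion_left (Set.Ici_subset_Ici.2 h)
  have hL0 : V4.law G (⋂ K, L K) = 0 := by
    rw [← map_trunc G n] at hlim
    refine measure_mono_null (fun ω hω => ?_) (ae_iff.1
      (ae_of_ae_map (measurable_trunc n).aemeasurable hlim))
    simp only [Set.mem_ofPred_eq]
    intro hT
    obtain ⟨K, hK⟩ := eventually_atTop.1 (hT.eventually (eventually_gt_nhds hlt))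
    have hm := Set.mem_iInter.1 hω (K + 1)
    simp only [L, Set.mem_iUnion, Set.mem_Ici, Set.mem_ofPred_eq] at hm
    obtain ⟨k, hk, hle⟩ := hm
    have := hK k (by omega)
    simp only [mul_one, mul_zero, Int.floor_natCast, Int.floor_zero] at this
    rw [lt_div_iff₀ (by exact_mod_cast (show 0 < k by omega))] at this
    linarith
  have hLt := tendsto_measure_iInter_atTop (μ := V4.law G) (fun K => (hLm K).nullMeasurableSet) hLa
    ⟨0, measure_ne_top _ _⟩
  rw [hL0] at hLt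
  have hLr : Tendsto (fun K => (V4.law G).real (L K)) atTop (𝓝 0) :=
    (ENNReal.tendsto_toReal ENNReal.zero_ne_top).comp hLt
  obtain ⟨k, hk1, hk2, hk3⟩ := ((eventually_ge_atTop (2 * n + 8)).and
    ((hLr.eventually (gt_mem_nhds (show (0 : ℝ) < 1 / 8 by norm_num))).and
      ((tendsto_real_rate G hb2).eventually (gt_mem_nhds (show (0 : ℝ) < 1 / 8 by norm_num))))).exists
  -- but with positive probability two hubs near the ends are joined cheaply
  have hsub : (Set.univ : Set Cfg) ⊆ L k ∪ ({ω | ¬ RayOK b ω (0, 0) 0} ∪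
      ({ω | ¬ RayOK b ω ((k : ℤ), 0) 0} ∪
      ({ω | ¬ NoAnimals b ω (axisRoots k) (2 * k + 1)} ∪
        {ω | ¬ ∀ e, 0 < ω e}))) := by
    intro ω _
    by_contra h
    simp only [Set.mem_union, Set.mem_ofPred_eq, not_or, not_not] at h
    obtain ⟨hL, h1, h2, h3, h0⟩ := h
    have h0' : ∀ e, 0 ≤ ω e := fun e => (h0 e).le
    refine hL ?_
    simp only [L, Set.mem_iUnion, Set.mem_Ici, Set.mem_ofPred_eq]
    refine ⟨k, le_rfl, ?_⟩
    obtain ⟨i, hi, hx⟩ := exists_hub_right reg_univ (S := Set.univ) trivial h1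
    obtain ⟨j, hj, hy⟩ := exists_hub_right reg_univ (S := Set.univ) trivial h2
    simp only [zero_add] at hx
    -- the walk between the hubs runs over the segment from `0` to `k + 1`
    obtain ⟨w, hwlen, hwbox⟩ := V4.exists_box_walk (((i : ℤ)), (0 : ℤ)) ((k : ℤ) + j, 0)
    have hA : NoAnimals b ω w.support.toFinset (3 * k + 4) := fun U hU hbad =>
      (h3 U (hU.mono fun z hz => by
        have := hwbox z (List.mem_toFinset.1 hz)
        simp only [axisRoots, Finset.mem_image, Finset.mem_range]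
        refine ⟨z.1.toNat, by omega, Prod.ext ?_ ?_⟩ <;> dsimp only <;> omega) hbad).trans (by omega)
    obtain ⟨q, -, hq⟩ := hA.seg_bound reg_univ hb h0' hx hy w fun z _ => trivial
    have t0 : ∀ e, 0 ≤ trunc n ω e := fun e => (fb_pos (Nat.cast_nonneg n) (h0 e)).le
    have e1 : V4.tt (trunc n ω) (((i : ℤ)), (0 : ℤ)) ((k : ℤ) + j, 0) ≤
        b * (w.length + 9 * ((3 * k + 4 : ℕ) : ℝ)) :=
      (V4.tt_le t0 q).trans ((List.sum_le_sum fun e _ => trunc_le n ω e).trans hq)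
    have t1 := fun e => fb_le (n : ℝ) (ω e)
    have e2 := (abs_le.1 (V4.abs_tt_sub_le₂ t0 t1 (0, 0) ((k : ℤ), 0) ((i : ℤ), 0) ((k : ℤ) + j, 0))).2
    have l1 : (V4.l1 ((0 : ℤ), (0 : ℤ)) ((i : ℤ), 0) : ℝ) ≤ 1 := by
      simp [V4.l1]; omega
    have l2 : (V4.l1 ((k : ℤ), (0 : ℤ)) ((k : ℤ) + j, 0) : ℝ) ≤ 1 := by
      simp [V4.l1]; omega
    have l3 : (w.length : ℝ) ≤ k + 1 := by
      rw [hwlen]
      have : V4.l1 ((i : ℤ), (0 : ℤ)) ((k : ℤ) + j, 0) ≤ k + 1 := by simp [V4.l1]; omega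
      exact_mod_cast this
    have hkr : (2 * n + 8 : ℝ) ≤ k := by exact_mod_cast hk1
    have n0 : (0 : ℝ) ≤ n := Nat.cast_nonneg n
    have e3 : ((V4.l1 ((0 : ℤ), (0 : ℤ)) ((i : ℤ), 0) : ℝ) +
        V4.l1 ((k : ℤ), (0 : ℤ)) ((k : ℤ) + j, 0)) * ((n : ℝ) + 1) ≤ 2 * ((n : ℝ) + 1) :=
      mul_le_mul_of_nonneg_right (by linarith) (by linarith)
    push_cast at e1
    have e4 : b * (w.length + 9 * (3 * (k : ℝ) + 4)) ≤ b * (60 * k) :=
      mul_le_mul_of_nonneg_left (by linarith) hb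
    linarith
  have hz : (V4.law G).real {ω | ¬ ∀ e, 0 < ω e} = 0 := by
    rw [measureReal_eq_zero_iff, ← ae_iff]
    exact V4.law_all G measurableSet_Ioi hG
  have hr : ∀ p : Pt, (V4.law G).real {ω | ¬ RayOK b ω p 0} ≤ 1 / 8 := fun p =>
    (prob_not_rayOK_le G hb2 p 0).trans (by norm_num; linarith)
  have := (measureReal_mono (μ := V4.law G) hsub (measure_ne_top _ _)).trans ((measureReal_union_le _ _).trans
    (add_le_add le_rfl ((measureReal_union_le _ _).trans (add_le_add le_rfl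
      ((measureReal_union_le _ _).trans (add_le_add le_rfl (measureReal_union_le _ _)))))))
  rw [probReal_univ, hz] at this
  linarith [hr (0, 0), hr ((k : ℤ), 0)]

theorem exists_scale {R ε : ℝ} (hε : 0 ≤ ε) (hR : 1 ≤ R) (r : ℕ) (hr : (r : ℝ) ≤ R) :
    r ≤ ⌈R⌉₊ ∧ R ≤ ⌈R⌉₊ ∧ (⌈R⌉₊ : ℝ) ≤ 2 * R ∧ (⌊ε / 2 * ⌈R⌉₊⌋₊ : ℝ) ≤ ε * R := by
  have h1 : (⌈R⌉₊ : ℝ) ≤ 2 * R := by linarith [Nat.ceil_lt_add_one (show 0 ≤ R by linarith)]
  refine ⟨by exact_mod_cast hr.trans (Nat.le_ceil R), Nat.le_ceil R, h1,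
    (Nat.floor_le (by positivity)).trans ?_⟩
  have := mul_le_mul_of_nonneg_left h1 (show 0 ≤ ε / 2 by linarith)
  linarith

/-- The shape property at every level of small rate. -/
theorem shape_at (hG : ∀ᵐ t ∂G, 0 < t) {b₀ : ℝ} (hb₀ : 0 ≤ b₀) (hb₀r : rate G b₀ ≤ 1 / 64) :
    V4.IsLatticeNorm (muA G) ∧ ∀ ε > 0, ∀ u : Pt, Tendsto (fun r : ℕ =>
      V4.law G {ω | ¬ HShape (muA G) b₀ (28 * b₀) ε r ω u}) atTop (𝓝 0) := by
  have hb2 : rate G b₀ ≤ 1 / 2 := hb₀r.trans (by norm_num)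
  have hbdd := bddAbove_axis G hG hb₀ hb₀r
  have hμ := isLatticeNorm_muA hG hbdd
  refine ⟨hμ, fun ε hε u => ?_⟩
  set m := muA G (1, 0)
  have hm : 0 < m := hμ.axis_pos
  -- the constants
  obtain ⟨c, hc, hcheap⟩ := exists_cheapFail_small G hG
  set X : ℝ := 2 * m + ε + 2
  set A : ℕ := ⌈X⌉₊ + ⌈X / c⌉₊ + 1 with hA
  have hAX : X ≤ A := by
    have := Nat.le_ceil X
    have : (0 : ℝ) ≤ ⌈X / c⌉₊ := Nat.cast_nonneg _
    rw [hA]; push_cast; linarith
  have hAc : X < c * A := by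
    have h1 := Nat.le_ceil (X / c)
    rw [div_le_iff₀ hc] at h1
    rw [hA]
    push_cast
    nlinarith [mul_nonneg hc.le (Nat.cast_nonneg ⌈X⌉₊ : (0 : ℝ) ≤ _)]
  set η : ℝ := ε / (8 * (9 * b₀ + 1))
  have hη : 0 < η := by positivity
  obtain ⟨t₁, ht₁b, -, hpath⟩ := exists_pathFail_tail G hb2 A hη
  obtain ⟨n₀, hn₀⟩ := exists_level hG hbdd (show 0 < ε / 8 by positivity)
  obtain ⟨n, hn, hnt⟩ : ∃ n : ℕ, n₀ ≤ n ∧ max t₁ 1 ≤ (n : ℝ) := by
    obtain ⟨n, hn⟩ := exists_nat_ge (max t₁ 1)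
    exact ⟨max n₀ n, le_max_left _ _, hn.trans (Nat.cast_le.2 (le_max_right _ _))⟩
  have hnr := lawB_range G hG (b := (n : ℝ)) (Nat.cast_nonneg n)
  have hnt₁ : t₁ ≤ n := (le_max_left _ _).trans hnt
  have hn1 : (1 : ℝ) ≤ n := (le_max_right _ _).trans hnt
  -- the bad events
  have hshape : Tendsto (fun r : ℕ => V4.law G
      (trunc n ⁻¹' {ω | ¬ V4.Shape (V4.mu (lawB G n)) (ε / 4) r ω u})) atTop (𝓝 0) := by
    refine (V4.tendsto_shape (lawB G n) hnr (show 0 < ε / 4 by positivity) u).congr fun r => ?_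
    have hm : MeasurableSet {ω : Cfg | ¬ V4.Shape (V4.mu (lawB G n)) (ε / 4) r ω u} :=
      (V4.measurableSet_shape (μ := V4.mu (lawB G n)) (show 0 ≤ ε / 4 by linarith) r u).compl
    rw [← map_trunc G n]
    exact Measure.map_apply (measurable_trunc _) hm
  have hsum := ((((hshape.add (tendsto_tameFail G hb2 (half_pos hε) u)).add
    (tendsto_segFail G hb2 (half_pos hε) u)).add (hcheap A (Nat.succ_pos _) u)).add
      (hpath n hnt₁ u)).add ((tendsto_selfFail G hb2 hε u).add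
        (tendsto_const_nhds (x := V4.law G {ω : Cfg | ¬ ∀ e, 0 < ω e})))
  rw [show V4.law G {ω : Cfg | ¬ ∀ e, 0 < ω e} = 0 from
    ae_iff.1 (V4.law_all G measurableSet_Ioi hG)] at hsum
  simp only [add_zero] at hsum
  refine tendsto_of_tendsto_of_tendsto_of_le_of_le' tendsto_const_nhds hsum
    (Eventually.of_forall fun _ => zero_le) ?_
  obtain ⟨r₁, hr₁⟩ := exists_nat_ge (max 1 (8 / ε))
  filter_upwards [eventually_ge_atTop r₁] with r hr
  refine (measure_mono fun ω hω => ?_).trans ((measure_union_le _ _).trans (add_le_add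
    ((measure_union_le _ _).trans (add_le_add ((measure_union_le _ _).trans (add_le_add
      ((measure_union_le _ _).trans (add_le_add (measure_union_le _ _) le_rfl)) le_rfl)) le_rfl))
    (le_trans (measure_union_le (SelfFail b₀ (ε * r) u) {ω | ¬ ∀ e, 0 < ω e}) (le_of_eq ?_))))
  swap
  · rw [show V4.law G {ω : Cfg | ¬ ∀ e, 0 < ω e} = 0 from
      ae_iff.1 (V4.law_all G measurableSet_Ioi hG), add_zero]
  refine by_contra fun hbad => hω ?_
  simp only [Set.mem_union, Set.mem_ofPred_eq, Set.mem_preimage, not_or, not_not] at hbad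
  obtain ⟨⟨⟨⟨⟨hsh, htame⟩, hseg⟩, hch⟩, hpf⟩, hself, hpos⟩ := hbad
  simp only [not_exists, not_and] at htame hseg hch hpf
  have h0 : ∀ e, 0 ≤ ω e := fun e => (hpos e).le
  have t0 : ∀ e, 0 ≤ trunc n ω e := fun e => (fb_pos (Nat.cast_nonneg n) (hpos e)).le
  have hrr : (max 1 (8 / ε) : ℝ) ≤ r := hr₁.trans (Nat.cast_le.2 hr)
  have big : ∀ R : ℝ, (r : ℝ) ≤ R → 1 ≤ R ∧ 8 ≤ ε * R := fun R hR => by
    have h1 := (le_max_right _ _).trans (hrr.trans hR)
    rw [div_le_iff₀ hε] at h1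
    exact ⟨(le_max_left _ _).trans (hrr.trans hR), by linarith⟩
  have inSq : ∀ (R : ℝ) (p : Pt), (r : ℝ) ≤ R → (V4.l1 u p : ℝ) ≤ R → p ∈ square ⌈R⌉₊ u :=
    fun R p _ hp => mem_square_of_l1 (by exact_mod_cast hp.trans (Nat.le_ceil R))
  have htameR : ∀ R : ℝ, (r : ℝ) ≤ R → ∀ p : Pt, (V4.l1 u p : ℝ) ≤ R → RayOK b₀ ω p ⌊ε * R⌋₊ := by
    intro R hR p hp
    obtain ⟨hk, -, -, hkε⟩ := exists_scale hε.le (big R hR).1 r hR
    have h := htame _ hk
    simp only [TameFail, Set.mem_ofPred_eq, not_exists, not_and, not_not] at h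
    exact (h p (inSq R p hR hp)).mono (Nat.le_floor hkε)
  have hl : ∀ (R : ℝ) (p q : Pt), (V4.l1 u p : ℝ) ≤ R → (V4.l1 u q : ℝ) ≤ R →
      |(V4.toR (q - p)).1| + |(V4.toR (q - p)).2| ≤ 2 * R := by
    intro R p q hp hq
    rw [V4.l1_cast] at hp hq
    simp only [V4.toR, Prod.fst_sub, Prod.snd_sub, Int.cast_sub]
    have := abs_sub_le (q.1 : ℝ) (u.1) (p.1)
    have := abs_sub_le (q.2 : ℝ) (u.2) (p.2)
    rw [abs_sub_comm (q.1 : ℝ) u.1, abs_sub_comm (q.2 : ℝ) u.2] at *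
    linarith
  refine ⟨fun R hR p q hp hq => ?_, fun R hR p q hp hq hhp hhq => ?_, fun R hR S hS p q hp hq hhp hhq => ?_,
    htameR, fun S hS R hR => ?_⟩
  · have h1 := (abs_le.1 (hsh R hR p q hp hq)).1
    have h2 := hn₀ n hn (V4.toR (q - p))
    have h3 := mul_le_mul_of_nonneg_left (hl R p q hp hq) (show 0 ≤ ε / 8 by positivity)
    have h4 : V4.tt (trunc n ω) p q ≤ V4.tt ω p q :=
      V4.le_tt fun w => (V4.tt_le t0 w).trans (List.sum_le_sum fun e _ => trunc_le n ω e)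
    have := (big R hR).2
    linarith
  · obtain ⟨hR1, hR8⟩ := big R hR
    obtain ⟨hk, hRk, hk2, -⟩ := exists_scale hε.le hR1 r hR
    set k := ⌈R⌉₊
    have hkpos : (0 : ℝ) < k := lt_of_lt_of_le (by linarith) hRk
    have h1 := (abs_le.1 (hsh R hR p q hp hq)).2
    have h2 := le_muA hG hbdd n (V4.toR (q - p))
    have h3 := (hμ.le_l1 (V4.toR (q - p))).trans (mul_le_mul_of_nonneg_left (hl R p q hp hq) hm.le)
    obtain ⟨w, hw⟩ := exists_lt_of_ciInf_lt
      (show V4.tt (trunc n ω) p q < V4.tt (trunc n ω) p q + 1 by linarith)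
    set w' := w.bypass
    have hw' : V4.wt (trunc n ω) w' ≤ V4.tt (trunc n ω) p q + 1 :=
      (V4.wt_bypass_le t0 w).trans hw.le
    have hX : V4.wt (trunc n ω) w' ≤ X * k := by
      have e : 0 ≤ ε * R := by linarith
      have := mul_le_mul_of_nonneg_left hRk (show 0 ≤ X by positivity)
      simp only [X] at this ⊢
      linarith
    have hlen : w'.length < A * k := by
      by_contra hlong
      push Not at hlong
      have h := hch k hk
      simp only [CheapFail, Set.mem_ofPred_eq, not_exists, not_and] at h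
      have hc' := V4.not_cheap (h p (inSq R p hR hp)) w' w.bypass_isPath hlong
      have hle : V4.wt (fun e => min (ω e) 1) w' ≤ V4.wt (trunc n ω) w' :=
        List.sum_le_sum fun e _ => min_one_le_fb hn1
      have := mul_le_mul_of_nonneg_left (Nat.cast_le.2 hlong : ((A * k : ℕ) : ℝ) ≤ w'.length) hc.le
      push_cast at this
      have := mul_lt_mul_of_pos_right hAc hkpos
      linarith
    have hheavy : ((w'.edges.toFinset.filter fun e => (n : ℝ) < ω e).card : ℝ) * n ≤ (A : ℝ) * k := by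
      refine le_trans ?_ (hX.trans (mul_le_mul_of_nonneg_right hAX hkpos.le))
      rw [show V4.wt (trunc n ω) w' = ∑ e ∈ w'.edges.toFinset, trunc n ω e from
        (List.sum_toFinset _ w.bypass_isPath.isTrail.edges_nodup).symm]
      refine le_trans ?_ (Finset.sum_le_sum_of_subset_of_nonneg
        (Finset.filter_subset (fun e => (n : ℝ) < ω e) w'.edges.toFinset) fun e _ _ => t0 e)
      refine le_trans (le_of_eq ?_) (Finset.card_nsmul_le_sum _ _ (n : ℝ) fun e he =>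
        (fb_bounds (Finset.mem_filter.1 he).2).1.le)
      rw [nsmul_eq_mul]
    have hA1 : (1 : ℝ) ≤ A := by exact_mod_cast Nat.succ_pos _
    have hNA : NoAnimals b₀ ω (heavyEnds ω n w') ⌊η * k⌋₊ := by
      have h := hpf k hk
      simp only [PathFail, Set.mem_ofPred_eq, not_exists, not_and, not_not] at h
      exact h p q w' (hp.trans (hRk.trans (le_mul_of_one_le_left hkpos.le hA1)))
        (by exact_mod_cast hlen.le) hheavy
    obtain ⟨v, -, hv, hvw⟩ := hNA.bypass reg_univ hb₀ t0 (fun e he => (fb_le_self _ _).trans he)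
      (ht₁b.trans hnt₁) hhp hhq w' (fun z _ => trivial)
      fun e he hlt s hs => mem_heavyEnds.2 ⟨e, he, hlt, hs⟩
    have e1 : V4.wt ω v = V4.wt (trunc n ω) v :=
      congrArg List.sum (List.map_congr_left fun e he => (fb_of_le (hv e he)).symm)
    have e2 : 9 * b₀ * (⌊η * k⌋₊ : ℝ) ≤ ε / 4 * R := by
      have h5 : (⌊η * k⌋₊ : ℝ) ≤ η * (2 * R) :=
        (Nat.floor_le (by positivity)).trans (mul_le_mul_of_nonneg_left hk2 hη.le)
      have h6 : η * (8 * (9 * b₀ + 1)) = ε := div_mul_cancel₀ _ (by positivity)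
      have h7 := mul_le_mul_of_nonneg_left h5 (show 0 ≤ 9 * b₀ by positivity)
      nlinarith
    have := V4.tt_le h0 v
    linarith
  · obtain ⟨hR1, hR8⟩ := big R hR
    obtain ⟨hk, -, -, hkε⟩ := exists_scale hε.le hR1 r hR
    have h := hseg _ hk
    simp only [SegFail, Set.mem_ofPred_eq, not_exists, not_and, not_not] at h
    refine (segRoots_spec hb₀ h0 hS hhp hhq (h p (inSq R p hR hp) q (inSq R q hR hq))).trans ?_
    push_cast
    have l0 : (0 : ℝ) ≤ V4.l1 p q := Nat.cast_nonneg _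
    have := mul_le_mul_of_nonneg_left (show (V4.l1 p q : ℝ) + 9 * ((V4.l1 p q : ℝ) + 1 + ⌊ε / 2 * ⌈R⌉₊⌋₊) ≤
      28 * ((V4.l1 p q : ℝ) + ε * R) by linarith) hb₀
    linarith
  · simp only [SelfFail, Set.mem_ofPred_eq, not_exists, not_and, not_forall, not_or, not_lt] at hself
    obtain ⟨d, hd, h1, h2⟩ := hself S hS
    have := mul_le_mul_of_nonneg_left hR hε.le
    exact ⟨d, hd, h1.trans this, h2.trans this⟩

/-- The time constant of every law without mass at zero, and its shape property. -/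
theorem exists_shape (hG : ∀ᵐ t ∂G, 0 < t) :
    ∃ b₀ C₀ : ℝ, 0 ≤ b₀ ∧ 0 ≤ C₀ ∧ rate G b₀ ≤ 1 / 64 ∧ V4.IsLatticeNorm (muA G) ∧
      ∀ ε > 0, ∀ u : Pt, Tendsto (fun r : ℕ =>
        V4.law G {ω | ¬ HShape (muA G) b₀ C₀ ε r ω u}) atTop (𝓝 0) := by
  obtain ⟨b₀, hb₀r, hb₀⟩ := (((tendsto_rate G).eventually (eventually_le_nhds
    (show (0 : ℝ) < 1 / 64 by norm_num))).and (eventually_ge_atTop 0)).exists
  exact ⟨b₀, 28 * b₀, hb₀, by linarith, hb₀r, shape_at G hG hb₀ hb₀r⟩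

end Vale.Agent.P158.Any
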