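import Vale.Agent.P158.V4.MainCost
import Vale.Agent.P158.Any.Shape
import Vale.Agent.P158.Any.HubMap

/-!
P158, arbitrary laws (note 1452, U6): long windows are crossed at linear cost inside half-planes.
-/

namespace Vale.Agent.P158.Any

open MeasureTheory Filter Topology

variable (G : Measure ℝ) [IsProbabilityMeasure G]

theorem exists_axisCost (hG : ∀ᵐ t ∂G, 0 < t) : ∃ C : ℝ, 0 < C ∧ V4.AxisCost G C := by
  obtain ⟨b₀, C₀, -, hC₀, -, -, hsh⟩ := exists_shape G hG
  refine ⟨2 * C₀ + 1, by linarith, fun ε hε => ?_⟩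
  set A : ℕ → Set Cfg := fun r => toMeasurable (V4.law G)
    {ω | ¬ HShape (muA G) b₀ C₀ (1 / 4) r ω (0, 0)}
  have hA : Tendsto (fun r => (V4.law G).real (A r)) atTop (𝓝 0) := by
    refine (ENNReal.tendsto_toReal ENNReal.zero_ne_top).comp ?_
    simpa only [A, measure_toMeasurable] using hsh (1 / 4) (by norm_num) (0, 0)
  obtain ⟨N₀, hN₀⟩ := eventually_atTop.1 (hA.eventually (eventually_le_nhds (half_pos hε)))
  refine ⟨N₀, fun N hN => ?_⟩
  set a : Pt := ((N : ℤ), 0)
  have h0 : V4.law G {ω : Cfg | ¬ ∀ e, 0 < ω e} = 0 :=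
    ae_iff.1 (V4.law_all G measurableSet_Ioi hG)
  set B : Set Cfg := A N ∪ V4.moveCfg a ⁻¹' A N ∪ {ω : Cfg | ¬ ∀ e, 0 < ω e}
  refine (measureReal_mono (s₂ := B) ?_ (measure_ne_top _ _)).trans ?_
  · intro ω hω
    by_contra hB
    simp only [B, Set.mem_union, Set.mem_preimage, not_or, Set.mem_ofPred_eq, not_not] at hB
    obtain ⟨⟨h1, h2⟩, hpos⟩ := hB
    have e0 : ∀ e, 0 ≤ ω e := fun e => (hpos e).le
    have s1 : HShape (muA G) b₀ C₀ (1 / 4) N ω (0, 0) := by
      by_contra h; exact h1 (subset_toMeasurable _ _ h)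
    have s2 : HShape (muA G) b₀ C₀ (1 / 4) N (V4.moveCfg a ω) (0, 0) := by
      by_contra h; exact h2 (subset_toMeasurable _ _ h)
    have key : ∀ S : Set Pt, RegAt (0, 0) S → (fun z : Pt => z + a) ⁻¹' S = S → V4.Linked S →
        V4.ttIn S ω (0, 0) a ≤ (2 * C₀ + 1) * N := by
      intro S hS hinv hlink
      obtain ⟨d, hd, hdl, hdt⟩ := s1.self S hS N le_rfl
      obtain ⟨d', hd', hdl', hdt'⟩ := s2.self S hS N le_rfl
      have hd'' : Hub b₀ ω S (d' + a) := by
        refine (latSym_shift a).hub_of ?_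
        rw [← V4.moveCfg_shift, show (V4.shift a) ⁻¹' S = S from hinv]
        exact hd'
      rw [← hinv, V4.ttIn_move, show ((0, 0) : Pt) + a = a by simp] at hdt'
      have e1 : (V4.l1 (0, 0) (d' + a) : ℝ) ≤ V4.l1 (0, 0) d' + N := by
        have : V4.l1 (0, 0) (d' + a) ≤ V4.l1 (0, 0) d' + N := by
          simp only [V4.l1, a, Prod.fst_add, Prod.snd_add]; omega
        exact_mod_cast this
      have e2 : (V4.l1 d (d' + a) : ℝ) ≤ V4.l1 (0, 0) d + V4.l1 (0, 0) (d' + a) := by
        have : V4.l1 d (d' + a) ≤ V4.l1 (0, 0) d + V4.l1 (0, 0) (d' + a) := by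
          simp only [V4.l1]; omega
        exact_mod_cast this
      have hN0 : (0 : ℝ) ≤ N := Nat.cast_nonneg N
      have hseg := s1.seg (2 * N) (by linarith) S hS.reg d (d' + a) (by linarith) (by linarith) hd hd''
      have haS : a ∈ S := by
        have := hS.mem
        rw [← hinv, Set.mem_preimage] at this
        rwa [show ((0, 0) : Pt) + a = a by simp] at this
      have t1 := V4.ttS_triangle e0 hlink hS.mem hd.1 haS (ω := ω)
      have t2 := V4.ttS_triangle e0 hlink hd.1 hd''.1 haS (ω := ω)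
      rw [V4.ttIn_comm e0 hlink haS hd''.1] at hdt'
      simp only [← V4.ttIn_eq] at t1 t2
      have := mul_le_mul_of_nonneg_left
        (show (V4.l1 d (d' + a) : ℝ) + 1 / 4 * (2 * N) ≤ 2 * N by linarith) hC₀
      linarith
    rcases hω with h | h
    · exact absurd (key (V4.upper 0) (Or.inr (Or.inl rfl))
        (by simpa [a] using V4.preimage_upper a 0) (V4.linked_upper' 0)) (not_le.2 h)
    · exact absurd (key (V4.lower 0) (Or.inr (Or.inr rfl))
        (by simpa [a] using V4.preimage_lower a 0) (V4.linked_lower 0)) (not_le.2 h)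
  · refine (measureReal_union_le _ _).trans ?_
    rw [measureReal_def (s := {ω : Cfg | ¬ ∀ e, 0 < ω e}), h0, ENNReal.toReal_zero, add_zero]
    refine (measureReal_union_le _ _).trans ?_
    rw [measureReal_def (s := V4.moveCfg a ⁻¹' A N),
      ← Measure.map_apply (V4.measurable_moveCfg a) (measurableSet_toMeasurable _ _),
      V4.map_moveCfg, ← measureReal_def]
    linarith [hN₀ N hN]

end Vale.Agent.P158.Any
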