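import Vale.Agent.P158.Any.CocycleDrift
import Vale.Agent.P158.V4.Barrier

/-!
P158, arbitrary laws (note 1453, U8): the limit directions of a greedy ray share a supporting
functional with the diagonal.
-/

namespace Vale.Agent.P158.Any

open MeasureTheory Filter Topology

/-- A greedy cocycle has a geodesic ray from the origin along which it decreases by the passage time. -/
theorem exists_greedy_ray_any {X : V4.St} (hX : RegA X) (hgr : ∀ u, V4.Greedy X u)
    (hpos : ∀ e, 0 < X.1 e) :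
    ∃ x : ℕ → Pt, x 0 = (0, 0) ∧ Function.Injective x ∧ StrictAnti (fun n => X.2 (x n)) ∧
      V4.IsTail X.1 ⟨x, fun n => -X.2 (x n)⟩ ∧ ∀ n, V4.tt X.1 (0, 0) (x n) = -X.2 (x n) := by
  choose d hd using hgr
  set x : ℕ → Pt := fun n => (fun u => u + V4.step (d u))^[n] (0, 0) with hx
  have hs : ∀ n, x (n + 1) = x n + V4.step (d (x n)) := fun n => by
    simp only [hx, Function.iterate_succ_apply']
  have hadj : ∀ n, grid.Adj (x n) (x (n + 1)) := fun n => by
    rw [hs]; exact V4.adj_step _ _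
  have hstep : ∀ n, X.2 (x n) = X.1 s(x n, x (n + 1)) + X.2 (x (n + 1)) := fun n => by
    rw [hs]; exact hd _
  have hanti : StrictAnti fun n => X.2 (x n) := strictAnti_nat_of_succ_lt fun n => by
    linarith [hstep n, hpos s(x n, x (n + 1))]
  have hinj : Function.Injective x := fun i j h => hanti.injective (congrArg X.2 h)
  have hsum : ∀ i j, i ≤ j →
      ∑ k ∈ Finset.Ico i j, X.1 s(x k, x (k + 1)) = X.2 (x i) - X.2 (x j) := by
    intro i j hij
    induction j, hij using Nat.le_induction with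
    | base => simp
    | succ j hij ih =>
      rw [Finset.sum_Ico_succ_top hij, ih]
      linarith [hstep j]
  have htt : ∀ i j, i ≤ j → V4.tt X.1 (x i) (x j) = X.2 (x i) - X.2 (x j) := by
    intro i j hij
    obtain ⟨n, rfl⟩ := Nat.exists_eq_add_of_le hij
    refine le_antisymm ?_ (hX.sub_le_tt _ _)
    obtain ⟨p, hp, -, -⟩ := V4.exists_walk_Ico X.1 hadj i n
    exact (V4.tt_le hX.nonneg p).trans_eq (by rw [hp, hsum _ _ hij])
  have h0 : x 0 = (0, 0) := rfl
  refine ⟨x, h0, hinj, hanti, ⟨hadj, hinj, 0, fun i j _ hij => ⟨?_, ?_⟩⟩, fun n => ?_⟩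
  · rw [htt i j hij]; simp; ring
  · rw [hsum i j hij]; simp; ring
  · have := htt 0 n (Nat.zero_le n)
    rw [h0, hX.zero] at this
    linarith

variable {G : Measure ℝ} [IsProbabilityMeasure G] {b C₀ : ℝ} {π : Cfg → Pt → Pt}
  {μ : ℝ × ℝ → ℝ}

/-- The face of the diagonal controls the limit directions of a greedy ray. -/
theorem greedy_shares_any (hμ : V4.IsLatticeNorm μ) (hC₀ : 0 ≤ C₀) {X : V4.St} (hX : RegA X)
    (hshape : ∀ k : ℕ, ∃ r : ℕ, HShape μ b C₀ (1 / ((k : ℝ) + 1)) r X.1 (0, 0))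
    (hhub : ∀ x : Pt, Hub b X.1 Set.univ (π X.1 x))
    (hnear : ∀ v : Pt, ∀ᶠ j : ℕ in atTop, (V4.l1 (j • v) (π X.1 (j • v)) : ℝ) ≤ 1 * j)
    (ρ : Pt → ℝ × ℝ) (hρ : ∀ v, V4.Supports μ (1, 1) (ρ v))
    (hdrift : ∀ v : Pt, X ∉ exceedA π v ((ρ v).1 * v.1 + (ρ v).2 * v.2 + 1))
    {x : ℕ → Pt} (hinj : Function.Injective x) (hadj : ∀ n, grid.Adj (x n) (x (n + 1)))
    (hanti : StrictAnti fun n => X.2 (x n))
    (htt : ∀ n, V4.tt X.1 (0, 0) (x n) = -X.2 (x n)) : V4.DirShares μ (1, 1) x := by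
  intro θ hθ
  set m := μ (1, 0)
  have hm : 0 < m := hμ.axis_pos
  -- the largest value of the face at `θ`
  set F : Set (ℝ × ℝ) := {σ | V4.Supports μ (1, 1) σ}
  have hFc : IsCompact F := by
    refine IsCompact.of_isClosed_subset (V4.IsLatticeNorm.isCompact_box m) ?_
      fun σ hσ => hμ.supports_mem_box hσ
    refine isSeqClosed_iff_isClosed.1 fun σ σ₀ hσ hlim => ?_
    exact hμ.supports_of_tendsto hσ tendsto_const_nhds hlim
  obtain ⟨σ₀, hσ₀, hmax⟩ := hFc.exists_isMaxOn ⟨_, hρ (0, 0)⟩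
    (f := fun σ : ℝ × ℝ => σ.1 * θ.1 + σ.2 * θ.2) (by fun_prop)
  refine ⟨σ₀, hσ₀, hσ₀.1, le_antisymm (hσ₀.1 θ) ?_⟩
  set M := σ₀.1 * θ.1 + σ₀.2 * θ.2
  have hne : ∀ᶠ n in atTop, x n ≠ (0, 0) := (V4.eventually_l1 hinj (0, 0) 0).mono fun n hn he => by
    rw [he] at hn; simp [V4.l1] at hn
  obtain ⟨φ, hφ, hlim⟩ := MapClusterPt.tendsto_subseq hθ
  -- it suffices to bound the norm up to `η`
  refine le_of_forall_pos_le_add fun η hη => ?_
  obtain ⟨K, hK⟩ := exists_nat_gt ((2 * m + 2 + 3 * C₀) / (η / 4))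
  have hK0 : (0 : ℝ) < K := lt_of_le_of_lt (by positivity) hK
  have hK1 : (1 : ℝ) ≤ K := by
    have : 0 < K := Nat.cast_pos.1 hK0
    exact_mod_cast this
  set v : Pt := V4.fl ((K : ℝ) * θ.1, (K : ℝ) * θ.2) with hv
  have hv1 : |(v.1 : ℝ) - K * θ.1| ≤ 1 := by
    rw [hv, abs_le]
    constructor <;> simp only [V4.fl] <;>
      linarith [Int.sub_one_lt_floor ((K : ℝ) * θ.1), Int.floor_le ((K : ℝ) * θ.1)]
  have hv2 : |(v.2 : ℝ) - K * θ.2| ≤ 1 := by
    rw [hv, abs_le]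
    constructor <;> simp only [V4.fl] <;>
      linarith [Int.sub_one_lt_floor ((K : ℝ) * θ.2), Int.floor_le ((K : ℝ) * θ.2)]
  set c : ℝ := (ρ v).1 * v.1 + (ρ v).2 * v.2 + 1 with hc
  have hcK : c ≤ K * M + (2 * m + 1) := by
    have h1 : (ρ v).1 * θ.1 + (ρ v).2 * θ.2 ≤ M := hmax (hρ v)
    obtain ⟨b1, b2⟩ := hμ.supports_bound (hρ v)
    have e1 : (ρ v).1 * ((v.1 : ℝ) - K * θ.1) ≤ m * 1 :=
      (le_abs_self _).trans ((abs_mul _ _).trans_le (mul_le_mul b1 hv1 (abs_nonneg _) hm.le))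
    have e2 : (ρ v).2 * ((v.2 : ℝ) - K * θ.2) ≤ m * 1 :=
      (le_abs_self _).trans ((abs_mul _ _).trans_le (mul_le_mul b2 hv2 (abs_nonneg _) hm.le))
    have := mul_le_mul_of_nonneg_left h1 hK0.le
    linarith
  -- the drift along `v` and the chosen hubs near it
  obtain ⟨j₀, hj₀⟩ : ∃ j₀ : ℕ, ∀ j, j₀ ≤ j →
      inc π (j • v) X ≤ (c + 1) * j ∧ (V4.l1 (j • v) (π X.1 (j • v)) : ℝ) ≤ j := by
    have h := hdrift v
    simp only [exceedA, Set.mem_ofPred_eq, not_exists, not_forall] at h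
    obtain ⟨r, hr⟩ := h 0
    obtain ⟨r', hr'⟩ := eventually_atTop.1 (hnear v)
    refine ⟨max r r', fun j hj => ⟨?_, ?_⟩⟩
    · have := hr j
      simp only [not_and, not_lt] at this
      simpa using this ((le_max_left _ _).trans hj)
    · simpa using hr' j ((le_max_right _ _).trans hj)
  -- the shape at a small scale
  obtain ⟨k₀, hk₀⟩ := exists_nat_gt (max 4 (96 * (C₀ + 1) / η))
  obtain ⟨r, hr⟩ := hshape k₀
  set ε : ℝ := 1 / ((k₀ : ℝ) + 1)
  have hε : 0 < ε := by positivity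
  have hε1 : ε ≤ 1 / 4 := one_div_le_one_div_of_le (by norm_num)
    (by linarith [(le_max_left (4 : ℝ) (96 * (C₀ + 1) / η)).trans hk₀.le])
  have hεC : 96 * (C₀ + 1) * ε ≤ η := by
    have h1 : 96 * (C₀ + 1) / η ≤ (k₀ : ℝ) + 1 := by
      linarith [(le_max_right (4 : ℝ) (96 * (C₀ + 1) / η)).trans hk₀.le]
    rw [div_le_iff₀ hη] at h1
    simp only [ε]
    rw [mul_one_div, div_le_iff₀ (by positivity)]
    linarith
  set Q := |X.2 (π X.1 (0, 0))|
  -- along the subsequence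
  set L : ℕ → ℝ := fun k => ((V4.l1 ((0, 0) : Pt) (x (φ k)) : ℕ) : ℝ) with hL
  have hLlim : Tendsto L atTop atTop :=
    tendsto_natCast_atTop_atTop.comp ((tendsto_atTop.2 fun N =>
      (V4.eventually_l1 hinj (0, 0) N).mono fun n hn => hn.le).comp hφ.tendsto_atTop)
  set dev : ℕ → ℝ := fun k => |(V4.dirOf (x (φ k))).1 - θ.1| + |(V4.dirOf (x (φ k))).2 - θ.2|
  have hdev : Tendsto dev atTop (𝓝 0) := by
    have h1 := (((continuous_fst.tendsto _).comp hlim).sub_const θ.1).abs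
    have h2 := (((continuous_snd.tendsto _).comp hlim).sub_const θ.2).abs
    simpa [dev] using h1.add h2
  set Z : ℝ := K * |M| + Q + C₀ * (K + 2)
  have hzero : Tendsto (fun k => (m + C₀) * dev k + Z / L k +
      (η / 4 + η / 8 + η / 4)) atTop (𝓝 ((m + C₀) * 0 + 0 + (η / 4 + η / 8 + η / 4))) :=
    (((hdev.const_mul (m + C₀)).add (hLlim.const_div_atTop _)).add tendsto_const_nhds)
  obtain ⟨k, hk1, hk2, hk3⟩ := ((hzero.eventually (eventually_le_nhds
    (show (m + C₀) * 0 + 0 + (η / 4 + η / 8 + η / 4) < 3 / 4 * η by linarith))).and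
    ((hLlim.eventually_ge_atTop ((r : ℝ) + 2 + (K : ℝ) * (j₀ + 1))).and
      (hφ.tendsto_atTop.eventually hne))).exists
  set z := x (φ k) with hz
  have hKj : 0 ≤ (K : ℝ) * (j₀ + 1) := by positivity
  have hr0 : (0 : ℝ) ≤ r := r.cast_nonneg
  have hL2 : 2 ≤ L k := by linarith
  have hL0 : 0 < L k := by linarith
  have hzd := V4.dirOf_smul z
  simp only [V4.toR, Prod.ext_iff, Prod.smul_fst, Prod.smul_snd, smul_eq_mul] at hzd
  change (z.1 : ℝ) = L k * (V4.dirOf z).1 ∧ (z.2 : ℝ) = L k * (V4.dirOf z).2 at hzd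
  set j := ⌊L k / K⌋₊ with hj
  have hj1 : (j : ℝ) * K ≤ L k := by
    rw [← le_div_iff₀ hK0]; exact Nat.floor_le (by positivity)
  have hj2 : L k < ((j : ℝ) + 1) * K := by
    rw [← div_lt_iff₀ hK0]; exact Nat.lt_floor_add_one _
  have hjj : j₀ ≤ j := by
    refine Nat.le_floor ?_
    rw [le_div_iff₀ hK0]
    have : (K : ℝ) * (j₀ + 1) = j₀ * K + K := by ring
    linarith
  obtain ⟨hinc, hpd⟩ := hj₀ j hjj
  have hθ1 : |θ.1| + |θ.2| = 1 := V4.clusterDir_mem hne hθ
  have hl : (V4.l1 z (j • v) : ℝ) ≤ L k * dev k + (K + 2 * j) := by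
    rw [V4.l1_cast]
    simp only [Prod.smul_fst, Prod.smul_snd]
    simp only [nsmul_eq_mul, Int.cast_mul, Int.cast_natCast, dev, ← hz]
    have key : ∀ zi di ti vi : ℝ, zi = L k * di → |vi - K * ti| ≤ 1 →
        |zi - j * vi| ≤ L k * |di - ti| + K * |ti| + j := by
      intro zi di ti vi e hvi
      rw [show zi - j * vi = L k * (di - ti) + (L k - j * K) * ti + (j : ℝ) * (K * ti - vi) by
        rw [e]; ring]
      refine (abs_add_three _ _ _).trans (add_le_add (add_le_add ?_ ?_) ?_)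
      · rw [abs_mul, abs_of_pos hL0]
      · rw [abs_mul, abs_of_nonneg (by linarith : 0 ≤ L k - j * K)]
        exact mul_le_mul_of_nonneg_right (by linarith) (abs_nonneg _)
      · rw [abs_mul, Nat.abs_cast, abs_sub_comm]
        exact mul_le_of_le_one_right (Nat.cast_nonneg j) hvi
    have e : (K : ℝ) * |θ.1| + K * |θ.2| = K := by rw [← mul_add, hθ1, mul_one]
    linarith [key _ _ _ _ hzd.1 hv1, key _ _ _ _ hzd.2 hv2]
  -- a hub on the ray beyond `z`
  set R := 4 * L k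
  have hRr : (r : ℝ) ≤ R := by linarith
  have hzR : (V4.l1 (0, 0) z : ℝ) ≤ R := by
    show L k ≤ R
    linarith
  obtain ⟨n', hn'⟩ := exists_not_near (f := fun i => x (φ k + i))
    (fun a c e => by simpa using hinj e) ⌊ε * R⌋₊ z
  obtain ⟨w, -, hws, -⟩ := V4.exists_walk_Ico X.1 hadj (φ k) n'
  obtain ⟨d, hd, hdw, hdist, -⟩ := hr.gate hRr reg_univ trivial hzR w (fun _ _ => trivial) hn'
  obtain ⟨i, hi, -, rfl⟩ := hws d hdw
  have hdd : (V4.l1 z (x i) : ℝ) ≤ 2 * (ε * R) + 2 := by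
    have h1 : ((V4.l1 z (x i) : ℕ) : ℝ) ≤ ((2 * ⌊ε * R⌋₊ + 2 : ℕ) : ℝ) := Nat.cast_le.2 hdist
    push_cast at h1
    linarith [Nat.floor_le (show 0 ≤ ε * R by positivity)]
  have hεR : ε * R ≤ L k := by
    have := mul_le_mul_of_nonneg_right hε1 (show 0 ≤ R by positivity)
    linarith
  have htri : ∀ a c e : Pt, (V4.l1 a e : ℝ) ≤ V4.l1 a c + V4.l1 c e := fun a c e => by
    exact_mod_cast l1_triangle a c e
  have hdR : (V4.l1 (0, 0) (x i) : ℝ) ≤ R := by
    have := htri (0, 0) z (x i)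
    have : (V4.l1 (0, 0) z : ℝ) = L k := rfl
    linarith
  have hjK : (j : ℝ) ≤ L k :=
    le_trans (le_mul_of_one_le_right (Nat.cast_nonneg j) hK1) hj1
  have hjv : (V4.l1 (0, 0) (j • v) : ℝ) ≤ L k + 2 * j := by
    rw [V4.l1_cast]
    have c1 : (((j • v).1 : ℤ) : ℝ) = j * (v.1 : ℝ) := by rw [Prod.smul_fst]; simp
    have c2 : (((j • v).2 : ℤ) : ℝ) = j * (v.2 : ℝ) := by rw [Prod.smul_snd]; simp
    simp only [c1, c2, Int.cast_zero, zero_sub, abs_neg, abs_mul, Nat.abs_cast]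
    have a1 := abs_sub_abs_le_abs_sub (v.1 : ℝ) (K * θ.1)
    have a2 := abs_sub_abs_le_abs_sub (v.2 : ℝ) (K * θ.2)
    rw [abs_mul, Nat.abs_cast] at a1 a2
    have e : (K : ℝ) * |θ.1| + K * |θ.2| = K := by rw [← mul_add, hθ1, mul_one]
    have h1 := mul_le_mul_of_nonneg_left (show |(v.1 : ℝ)| + |(v.2 : ℝ)| ≤ K + 2 by linarith)
      (Nat.cast_nonneg (α := ℝ) j)
    linarith
  have hpR : (V4.l1 (0, 0) (π X.1 (j • v)) : ℝ) ≤ R := by
    have := htri (0, 0) (j • v) (π X.1 (j • v))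
    linarith
  have hseg := hr.seg R hRr Set.univ reg_univ (π X.1 (j • v)) (x i) hpR hdR (hhub _) hd
  rw [← V4.tt_eq_ttIn] at hseg
  -- upper bound through the drift
  have hup : -X.2 z ≤ (c + 1) * j + Q + C₀ * (L k * dev k + (K + 3 * j) + 2 + 12 * (ε * L k)) := by
    have h1 : -X.2 z ≤ -X.2 (x i) := neg_le_neg (hanti.antitone hi)
    have h2 := (abs_le.1 (hX.abs_sub_le_tt (π X.1 (j • v)) (x i))).2
    have h3 : (V4.l1 (π X.1 (j • v)) (x i) : ℝ) + ε * R ≤
        L k * dev k + (K + 3 * j) + 2 + 12 * (ε * L k) := by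
      have := htri (π X.1 (j • v)) (j • v) (x i)
      have := htri (j • v) z (x i)
      have e1 : (V4.l1 (π X.1 (j • v)) (j • v) : ℝ) = V4.l1 (j • v) (π X.1 (j • v)) := by
        rw [V4.l1_cast, V4.l1_cast, abs_sub_comm, abs_sub_comm (((π X.1 (j • v)).2 : ℤ) : ℝ)]
      have e2 : (V4.l1 (j • v) z : ℝ) = V4.l1 z (j • v) := by
        rw [V4.l1_cast, V4.l1_cast, abs_sub_comm, abs_sub_comm (((j • v).2 : ℤ) : ℝ)]
      have e3 : ε * R = 4 * (ε * L k) := by simp only [R]; ring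
      linarith
    have h4 := hseg.trans (mul_le_mul_of_nonneg_left h3 hC₀)
    simp only [inc] at hinc
    have h5 := neg_abs_le (X.2 (π X.1 (0, 0)))
    linarith
  -- lower bound through the shape
  have hlow : μ θ * L k - m * (L k * dev k) - η / 8 * L k ≤ -X.2 z := by
    rw [← htt (φ k)]
    have hs := hr.lo R hRr (0, 0) z (by simp [V4.l1, R]; positivity) hzR
    rw [show z - ((0, 0) : Pt) = z by simp] at hs
    have h1 := hμ.sub_le (L k • θ) (V4.toR z)
    rw [hμ.homog _ hL0.le] at h1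
    simp only [V4.toR, Prod.smul_fst, Prod.smul_snd, smul_eq_mul, hzd.1, hzd.2, ← mul_sub, abs_mul,
      abs_of_pos hL0, abs_sub_comm θ.1, abs_sub_comm θ.2, ← mul_add] at h1 hs
    have h2 : ε * R ≤ η / 8 * L k := by
      have h3 : 96 * ε ≤ η := by
        have : 96 * ε ≤ 96 * (C₀ + 1) * ε := mul_le_mul_of_nonneg_right (by linarith) hε.le
        linarith
      have := mul_le_mul_of_nonneg_right h3 hL0.le
      simp only [R]
      linarith [mul_pos hε hL0]
    linarith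
  have h4 : (c + 1) * j ≤ M * L k + K * |M| + (2 * m + 2) * j := by
    have h5 := mul_le_mul_of_nonneg_right (show c + 1 ≤ K * M + (2 * m + 2) by linarith)
      (Nat.cast_nonneg (α := ℝ) j)
    have h6 : K * M * j - M * L k ≤ K * |M| := by
      rcases le_or_gt 0 M with h | h
      · have := mul_le_mul_of_nonneg_left hj1 h
        rw [abs_of_nonneg h]
        linarith [mul_nonneg hK0.le h]
      · have := mul_le_mul_of_nonpos_left hj2.le h.le
        rw [abs_of_neg h]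
        linarith
    linarith
  have h7 : (2 * m + 2 + 3 * C₀) * j ≤ η / 4 * L k := by
    rw [div_lt_iff₀ (by positivity)] at hK
    have h8 := mul_le_mul_of_nonneg_right hK.le (Nat.cast_nonneg (α := ℝ) j)
    have h9 := mul_le_mul_of_nonneg_left hj1 (show (0 : ℝ) ≤ η / 4 by positivity)
    linarith
  have h10 : C₀ * (12 * (ε * L k)) ≤ η / 4 * L k := by
    have h := mul_le_mul_of_nonneg_right hεC hL0.le
    have : 0 ≤ ε * L k := by positivity
    have : 0 ≤ C₀ * (ε * L k) := by positivity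
    have : 0 ≤ η * L k := by positivity
    linarith
  have h11 : (μ θ - M) * L k ≤
      ((m + C₀) * dev k + (η / 4 + η / 8 + η / 4)) * L k + Z := by
    simp only [Z]
    linarith
  have h12 : μ θ - M ≤ 3 / 4 * η := by
    refine le_trans ?_ hk1
    rw [show (m + C₀) * dev k + Z / L k + (η / 4 + η / 8 + η / 4) =
      (((m + C₀) * dev k + (η / 4 + η / 8 + η / 4)) * L k + Z) / L k by
        field_simp; ring]
    rw [le_div_iff₀ hL0]
    exact h11
  linarith

end Vale.Agent.P158.Any
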