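import Mathlib
import Vale.Agent.P158.Any.HubMap
import Vale.Agent.P158.Any.AnimalProb
import Vale.Agent.P158.V4.Ergodic

/-!
P158, arbitrary laws (note 1452, U5): the first hub of a region to the right of a site.
-/

namespace Vale.Agent.P158.Any

open MeasureTheory Filter

/-- The distance to the first hub to the right. -/
noncomputable def firstK (b : ℝ) (ω : Cfg) (S : Set Pt) (p : Pt) : ℕ :=
  sInf {k : ℕ | Hub b ω S (p.1 + k, p.2)}

/-- The first hub to the right. -/
noncomputable def firstHub (b : ℝ) (ω : Cfg) (S : Set Pt) (p : Pt) : Pt :=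
  (p.1 + firstK b ω S p, p.2)

variable {b : ℝ} {ω : Cfg} {S : Set Pt} {p : Pt}

theorem firstHub_snd : (firstHub b ω S p).2 = p.2 := rfl

theorem le_firstHub_fst : p.1 ≤ (firstHub b ω S p).1 := by simp [firstHub]

theorem l1_firstHub : V4.l1 p (firstHub b ω S p) = firstK b ω S p := by
  simp [V4.l1, firstHub]

theorem hub_firstHub (h : ∃ k : ℕ, Hub b ω S (p.1 + k, p.2)) : Hub b ω S (firstHub b ω S p) :=
  Nat.sInf_mem (s := {k : ℕ | Hub b ω S (p.1 + k, p.2)}) h

theorem firstK_le_of_rayOK (hS : Reg S) (hp : p ∈ S) {N : ℕ} (h : RayOK b ω p N) :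
    firstK b ω S p ≤ N + 1 ∧ Hub b ω S (firstHub b ω S p) := by
  obtain ⟨k, hk, hub⟩ := exists_hub_right hS hp h
  exact ⟨(Nat.sInf_le hub).trans hk, hub_firstHub ⟨k, hub⟩⟩

/-- The first hub is monotone along a line. -/
theorem firstHub_mono {q : Pt} (hpq : p.1 ≤ q.1) (h2 : q.2 = p.2)
    (hq : ∃ k : ℕ, Hub b ω S (q.1 + k, q.2)) :
    (firstHub b ω S p).1 ≤ (firstHub b ω S q).1 := by
  obtain ⟨j, hj⟩ := Int.le.dest hpq
  have h := hub_firstHub hq
  have hle : firstK b ω S p ≤ j + firstK b ω S q := by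
    refine Nat.sInf_le ?_
    simp only [Set.mem_ofPred_eq, firstHub, ← hj, h2] at h ⊢
    push_cast
    rwa [← add_assoc]
  simp only [firstHub]
  omega

/-- The first hub is carried by translations. -/
theorem firstK_shift (a : Pt) (S : Set Pt) (p : Pt) :
    firstK b (ω ∘ V4.eShift a) (V4.shift a ⁻¹' S) p = firstK b ω S (p + a) := by
  unfold firstK
  congr 1
  ext k
  refine (show Hub b (ω ∘ V4.eShift a) (V4.shift a ⁻¹' S) (p.1 + (k : ℤ), p.2) ↔ _ from
    (latSym_shift a).hub_iff).trans ?_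
  rw [show V4.shift a ((p.1 + (k : ℤ), p.2) : Pt) = ((p + a).1 + (k : ℤ), (p + a).2) from
    Prod.ext (by show p.1 + (k : ℤ) + a.1 = _; rw [Prod.fst_add]; ring) rfl]
  exact Iff.rfl

theorem firstHub_shift (a : Pt) (S : Set Pt) (p : Pt) :
    firstHub b (ω ∘ V4.eShift a) (V4.shift a ⁻¹' S) p + a = firstHub b ω S (p + a) := by
  simp only [firstHub, firstK_shift]
  ext
  · simp only [Prod.fst_add]; ring
  · simp

theorem preimage_upper (a : Pt) (h : ℤ) :
    V4.shift a ⁻¹' V4.upper (h + a.2) = V4.upper h := by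
  ext z
  show h + a.2 ≤ z.2 + a.2 ↔ h ≤ z.2
  omega

theorem preimage_lower (a : Pt) (h : ℤ) :
    V4.shift a ⁻¹' V4.lower (h + a.2) = V4.lower h := by
  ext z
  show z.2 + a.2 ≤ h + a.2 ↔ z.2 ≤ h
  omega

theorem measurable_firstK (b : ℝ) (S : Set Pt) (p : Pt) :
    Measurable fun ω : Cfg => firstK b ω S p := by
  classical
  refine measurable_to_countable' fun k => ?_
  have e : (fun ω : Cfg => firstK b ω S p) ⁻¹' {k} =
      (({ω : Cfg | Hub b ω S (p.1 + k, p.2)} ∩ ⋂ j ∈ Finset.range k, {ω : Cfg | Hub b ω S (p.1 + j, p.2)}ᶜ) ∪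
        ({_ω : Cfg | k = 0} ∩ ⋂ j : ℕ, {ω : Cfg | Hub b ω S (p.1 + j, p.2)}ᶜ)) := by
    ext ω
    simp only [Set.mem_preimage, Set.mem_singleton_iff, Set.mem_union, Set.mem_inter_iff,
      Set.mem_iInter, Set.mem_compl_iff, Set.mem_ofPred_eq, Finset.mem_range, firstK]
    by_cases hne : ∃ j : ℕ, Hub b ω S (p.1 + j, p.2)
    · constructor
      · rintro rfl
        exact Or.inl ⟨Nat.sInf_mem hne, fun j hj => Nat.notMem_of_lt_sInf hj⟩
      · rintro (⟨h1, h2⟩ | ⟨-, h2⟩)
        · exact le_antisymm (Nat.sInf_le h1) (le_of_not_gt fun hlt => h2 _ hlt (Nat.sInf_mem hne))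
        · exact absurd hne (not_exists.2 h2)
    · push Not at hne
      rw [show {j : ℕ | Hub b ω S (p.1 + j, p.2)} = ∅ from Set.eq_empty_of_forall_notMem hne,
        Nat.sInf_empty]
      exact ⟨fun h => Or.inr ⟨h.symm, hne⟩,
        fun h => (h.elim (fun h' => absurd h'.1 (hne k)) fun h' => h'.1.symm)⟩
  rw [e]
  exact ((measurableSet_hub _ _ _).inter (Finset.measurableSet_biInter _ fun j _ =>
    (measurableSet_hub _ _ _).compl)).union ((MeasurableSet.const _).inter
      (MeasurableSet.iInter fun j => (measurableSet_hub _ _ _).compl))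

/-- A measurable choice among countably many measurable functions. -/
theorem measurable_choose {α : Type*} [MeasurableSpace α] {K : ℕ → Cfg → α} (hK : ∀ k, Measurable (K k))
    {n : Cfg → ℕ} (hn : Measurable n) : Measurable fun ω => K (n ω) ω :=
  (measurable_from_prod_countable_left (f := fun x : Cfg × ℕ => K x.2 x.1) hK).comp
    (measurable_id.prodMk hn)

/-- A function of first hubs is measurable. -/
theorem measurable_at_firstHub {F : Pt → Cfg → ℝ} (hF : ∀ q, Measurable (F q)) (b : ℝ) (S : Set Pt)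
    (p : Pt) : Measurable fun ω => F (firstHub b ω S p) ω :=
  measurable_choose (K := fun k ω => F ((p.1 + (k : ℤ), p.2) : Pt) ω) (fun _ => hF _)
    (measurable_firstK b S p)

variable (G : Measure ℝ) [IsProbabilityMeasure G]

/-- Almost surely every ray is OK at some radius. -/
theorem ae_rayOK (hb : rate G b ≤ 1 / 2) :
    ∀ᵐ ω ∂V4.law G, ∀ p : Pt, ∃ N, RayOK b ω p N := by
  refine ae_all_iff.2 fun p => ?_
  rw [ae_iff, ← measureReal_eq_zero_iff]
  have hlim : Tendsto (fun N : ℕ => 4 * ((N : ℝ) + 2) * rate G b ^ (N + 1)) atTop (nhds 0) := by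
    have h1 := tendsto_self_mul_const_pow_of_lt_one (r := rate G b) (rate_nonneg G b) (by linarith)
    have h2 := tendsto_pow_atTop_nhds_zero_of_lt_one (rate_nonneg G b) (show rate G b < 1 by linarith)
    have h3 := (h1.add (h2.const_mul 2)).const_mul (4 * rate G b)
    simp only [add_zero, mul_zero] at h3
    refine h3.congr fun N => ?_
    rw [pow_succ]
    ring
  refine le_antisymm (ge_of_tendsto hlim (Eventually.of_forall fun N => ?_)) measureReal_nonneg
  exact (measureReal_mono (s₂ := {ω | ¬ RayOK b ω p N}) (s₁ := {ω | ¬ ∃ N, RayOK b ω p N})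
    (fun ω (hω : ¬ ∃ N, RayOK b ω p N) => fun h => hω ⟨N, h⟩)
    (measure_ne_top _ _)).trans
    (prob_not_rayOK_le G hb p N)

theorem exists_hub_of_rayOK {p : Pt} (h : ∃ N, RayOK b ω p N) (hS : Reg S) (hp : p ∈ S) :
    ∃ k : ℕ, Hub b ω S (p.1 + k, p.2) := by
  obtain ⟨N, hN⟩ := h
  obtain ⟨k, -, hk⟩ := exists_hub_right hS hp hN
  exact ⟨k, hk⟩

end Vale.Agent.P158.Any
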