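import Vale.Agent.P158.Any.Pivot
import Vale.Agent.P158.Any.FirstHub
import Vale.Agent.P158.Any.Shape

/-!
P158, arbitrary laws (note 1453, U8): the first hub to the right is a pivot: its offset and the passage
times between first hubs have finite means for every law.
-/

namespace Vale.Agent.P158.Any

open MeasureTheory Filter Topology

/-- The first hub of the plane to the right. -/
noncomputable def planeHub (b : ℝ) (ω : Cfg) (x : Pt) : Pt := firstHub b ω Set.univ x

/-- The roots used at scale `N` for the neighbours of the origin. -/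
noncomputable def hopRoots (N : ℕ) : Finset Pt :=
  Finset.Icc (0 : ℤ) ((N : ℤ) + 2) ×ˢ Finset.Icc (0 : ℤ) 1

/-- Some animal at the origin or at its two neighbours is too large for the scale `N`. -/
def HopFail (b : ℝ) (N : ℕ) : Set Cfg :=
  {ω | ¬ RayOK b ω (0, 0) N} ∪ ({ω | ¬ RayOK b ω (1, 0) N} ∪ ({ω | ¬ RayOK b ω (0, 1) N} ∪
    {ω | ¬ NoAnimals b ω (hopRoots N) (2 * N + 6)}))

variable {b : ℝ}

/-- Outside a failure at scale `N` the first hubs at the origin and its neighbours are near and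
cheaply joined. -/
theorem hop_le_of_not_fail (hb : 0 ≤ b) {ω : Cfg} (h0 : ∀ e, 0 ≤ ω e) {N : ℕ}
    (h : ω ∉ HopFail b N) :
    ((planeHub b ω (0, 0)).1 : ℝ) ≤ (N : ℝ) + 1 ∧
      V4.tt ω (planeHub b ω (0, 0)) (planeHub b ω (1, 0)) ≤ 60 * b * ((N : ℝ) + 1) ∧
      V4.tt ω (planeHub b ω (0, 0)) (planeHub b ω (0, 1)) ≤ 60 * b * ((N : ℝ) + 1) := by
  simp only [HopFail, Set.mem_union, Set.mem_ofPred_eq, not_or, not_not] at h
  obtain ⟨h1, h2, h3, hA⟩ := h
  obtain ⟨k1, hub1⟩ := firstK_le_of_rayOK reg_univ (Set.mem_univ _) h1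
  obtain ⟨k2, hub2⟩ := firstK_le_of_rayOK reg_univ (Set.mem_univ _) h2
  obtain ⟨k3, hub3⟩ := firstK_le_of_rayOK reg_univ (Set.mem_univ _) h3
  have e1 : planeHub b ω (0, 0) = (((0 : ℤ) + firstK b ω Set.univ (0, 0)), 0) := rfl
  have e2 : planeHub b ω (1, 0) = (((1 : ℤ) + firstK b ω Set.univ (1, 0)), 0) := rfl
  have e3 : planeHub b ω (0, 1) = (((0 : ℤ) + firstK b ω Set.univ (0, 1)), 1) := rfl
  have key : ∀ q : Pt, Hub b ω Set.univ q → 0 ≤ q.1 → q.1 ≤ (N : ℤ) + 2 → 0 ≤ q.2 → q.2 ≤ 1 →
      V4.tt ω (planeHub b ω (0, 0)) q ≤ 60 * b * ((N : ℝ) + 1) := by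
    intro q hq q1 q2 q3 q4
    have hsub : segRoots (planeHub b ω (0, 0)) q ⊆ hopRoots N := by
      intro z hz
      have := (V4.exists_box_walk (planeHub b ω (0, 0)) q).choose_spec.2 z (List.mem_toFinset.1 hz)
      rw [e1] at this
      simp only at this
      simp only [hopRoots, Finset.mem_product, Finset.mem_Icc]
      omega
    have hA' : NoAnimals b ω (segRoots (planeHub b ω (0, 0)) q) (2 * N + 6) :=
      fun U hU => hA U (hU.mono hsub)
    have h' := segRoots_spec hb h0 reg_univ hub1 hq hA'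
    rw [← V4.tt_eq_ttIn] at h'
    refine h'.trans ?_
    have hl : V4.l1 (planeHub b ω (0, 0)) q ≤ N + 4 := by
      rw [e1]
      simp only [V4.l1]
      omega
    have hl' : (V4.l1 (planeHub b ω (0, 0)) q : ℝ) + 9 * ((2 * N + 6 : ℕ) : ℝ) ≤ 60 * ((N : ℝ) + 1) := by
      have : (V4.l1 (planeHub b ω (0, 0)) q : ℝ) ≤ ((N + 4 : ℕ) : ℝ) := Nat.cast_le.2 hl
      push_cast at this ⊢
      linarith [(N.cast_nonneg : (0 : ℝ) ≤ N)]
    have := mul_le_mul_of_nonneg_left hl' hb
    unfold planeHub at *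
    linarith
  refine ⟨?_, key _ hub2 ?_ ?_ ?_ ?_, key _ hub3 ?_ ?_ ?_ ?_⟩
  · rw [e1]
    push_cast
    have : ((firstK b ω Set.univ (0, 0) : ℕ) : ℝ) ≤ ((N + 1 : ℕ) : ℝ) := Nat.cast_le.2 k1
    push_cast at this
    linarith
  all_goals simp only [e2, e3]
  all_goals omega

variable (G : Measure ℝ) [IsProbabilityMeasure G]

theorem prob_hopFail_le (hb : rate G b ≤ 1 / 64) (N : ℕ) :
    (V4.law G).real (HopFail b N) ≤ 25 * (1 / 2 : ℝ) ^ N := by
  set q := rate G b with hq
  have hq0 : 0 ≤ q := rate_nonneg G b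
  have hb2 : q ≤ 1 / 2 := hb.trans (by norm_num)
  have hray : ∀ p : Pt, (V4.law G).real {ω | ¬ RayOK b ω p N} ≤ 8 * (1 / 2 : ℝ) ^ N := by
    intro p
    refine (prob_not_rayOK_le G hb2 p N).trans ?_
    have h1 : ((N : ℝ) + 2) ≤ 2 * 2 ^ N := by
      have : N + 1 ≤ 2 ^ N := Nat.lt_two_pow_self
      have h' : ((N + 1 : ℕ) : ℝ) ≤ ((2 ^ N : ℕ) : ℝ) := Nat.cast_le.2 this
      push_cast at h'
      have h'' : (1 : ℝ) ≤ 2 ^ N := one_le_pow₀ one_le_two
      linarith
    calc 4 * ((N : ℝ) + 2) * q ^ (N + 1) ≤ 4 * (2 * 2 ^ N) * ((1 / 4 : ℝ) ^ N * 1) := by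
          refine mul_le_mul (by linarith) ?_ (by positivity) (by positivity)
          rw [pow_succ]
          exact mul_le_mul (pow_le_pow_left₀ hq0 (by linarith) N) (by linarith) hq0 (by positivity)
      _ = 8 * ((2 : ℝ) * (1 / 4)) ^ N := by rw [mul_pow]; ring
      _ = _ := by norm_num
  have hA : (V4.law G).real {ω | ¬ NoAnimals b ω (hopRoots N) (2 * N + 6)} ≤ (1 / 2 : ℝ) ^ N := by
    refine (prob_not_noAnimals_le G hb2 _ _).trans ?_
    have hc : (hopRoots N).card = 2 * N + 6 := by
      rw [hopRoots, Finset.card_product, Int.card_Icc, Int.card_Icc]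
      rw [show ((N : ℤ) + 2 + 1 - 0).toNat = N + 3 by omega, show ((1 : ℤ) + 1 - 0).toNat = 2 by rfl]
      ring
    rw [hc]
    calc (2 : ℝ) ^ (2 * N + 6) * q ^ (2 * N + 6 + 1) = (2 * q) ^ (2 * N + 6) * q := by
          rw [mul_pow, pow_succ]; ring
      _ ≤ (1 / 2 : ℝ) ^ (2 * N + 6) * 1 :=
          mul_le_mul (pow_le_pow_left₀ (by positivity) (by linarith) _) (by linarith) hq0 (by positivity)
      _ ≤ _ := by
          rw [mul_one]
          exact pow_le_pow_of_le_one (by norm_num) (by norm_num) (by omega)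
  refine (measureReal_union_le _ _).trans ((add_le_add (hray _) ((measureReal_union_le _ _).trans
    (add_le_add (hray _) ((measureReal_union_le _ _).trans (add_le_add (hray _) hA))))).trans ?_)
  linarith

/-- A random scale with finite mean at which the neighbours of the origin do not fail. -/
theorem exists_scale_var (hb : rate G b ≤ 1 / 64) :
    ∃ Ψ : Cfg → ℝ, Integrable Ψ (V4.law G) ∧
      ∀ᵐ ω ∂V4.law G, ∃ N, ω ∉ HopFail b N ∧ (N : ℝ) + 1 ≤ Ψ ω := by
  set T : ℕ → Set Cfg := fun N => toMeasurable (V4.law G) (HopFail b N)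
  have hT : ∀ N, MeasurableSet (T N) := fun N => measurableSet_toMeasurable _ _
  set D : Cfg → ENNReal := fun ω => ∑' N, (T N).indicator 1 ω
  have hDm : Measurable D := Measurable.ennreal_tsum fun N => measurable_one.indicator (hT N)
  have hsum : ∫⁻ ω, D ω ∂V4.law G ≠ ⊤ := by
    rw [lintegral_tsum fun N => (measurable_one.indicator (hT N)).aemeasurable]
    simp only [lintegral_indicator_one (hT _)]
    refine ne_top_of_le_ne_top ?_ (ENNReal.tsum_le_tsum fun N =>
      show V4.law G (T N) ≤ ENNReal.ofReal (25 * (1 / 2 : ℝ) ^ N) by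
        rw [measure_toMeasurable, ← ofReal_measureReal (measure_ne_top _ _)]
        exact ENNReal.ofReal_le_ofReal (prob_hopFail_le G hb N))
    have hs : Summable fun N : ℕ => 25 * (1 / 2 : ℝ) ^ N :=
      (summable_geometric_of_lt_one (by norm_num) (by norm_num)).mul_left _
    rw [← ENNReal.ofReal_tsum_of_nonneg (fun N => by positivity) hs]
    exact ENNReal.ofReal_ne_top
  refine ⟨fun ω => (D ω).toReal + 1,
    (integrable_toReal_of_lintegral_ne_top hDm.aemeasurable hsum).add (integrable_const 1), ?_⟩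
  filter_upwards [ae_lt_top hDm hsum] with ω hω
  classical
  have hex : ∃ N, ω ∉ HopFail b N := by
    by_contra hno
    push Not at hno
    refine hω.ne (ENNReal.eq_top_of_forall_nnreal_le fun r => ?_)
    obtain ⟨n, hn⟩ := exists_nat_ge r
    refine le_trans ?_ (ENNReal.sum_le_tsum (Finset.range n))
    rw [Finset.sum_congr rfl fun N _ => Set.indicator_of_mem (subset_toMeasurable _ _ (hno N)) _]
    simpa using ENNReal.coe_le_coe.2 hn
  refine ⟨Nat.find hex, Nat.find_spec hex, ?_⟩
  have h : ((Nat.find hex : ℕ) : ENNReal) ≤ D ω := by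
    refine le_trans ?_ (ENNReal.sum_le_tsum (Finset.range (Nat.find hex)))
    rw [Finset.sum_congr rfl fun N hN => Set.indicator_of_mem (subset_toMeasurable _ _
      (not_not.1 (Nat.find_min hex (Finset.mem_range.1 hN)))) _]
    simp
  have h' := ENNReal.toReal_mono hω.ne h
  rw [ENNReal.toReal_natCast] at h'
  linarith

variable {G}

theorem planeHub_cov (b : ℝ) (a : Pt) (ω : Cfg) (x : Pt) :
    planeHub b (V4.moveCfg a ω) x + a = planeHub b ω (x + a) :=
  firstHub_shift (b := b) (ω := ω) a Set.univ x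

theorem planeHub_fibre (b : ℝ) (x z : Pt) : MeasurableSet {ω | planeHub b ω x = z} := by
  have : {ω | planeHub b ω x = z} =
      (fun ω => firstK b ω Set.univ x) ⁻¹' {k : ℕ | ((x.1 + (k : ℤ), x.2) : Pt) = z} := rfl
  rw [this]
  exact measurable_firstK b _ _ (MeasurableSet.of_discrete)

theorem measurable_planeTT (b : ℝ) (x y : Pt) :
    Measurable fun ω => V4.tt ω (planeHub b ω x) (planeHub b ω y) :=
  V4.measurable_index (e := fun ω => planeHub b ω x) (planeHub_fibre b x)
    (F := fun z ω => V4.tt ω z (planeHub b ω y)) fun z =>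
      V4.measurable_index (e := fun ω => planeHub b ω y) (planeHub_fibre b y)
        (F := fun w ω => V4.tt ω z w) fun w => V4.measurable_tt z w

/-- Passage times between first hubs have finite means in every direction. -/
theorem integrable_planeHop (hG : ∀ᵐ t ∂G, 0 < t) (hb0 : 0 ≤ b) (hb : rate G b ≤ 1 / 64) (x : Pt) :
    Integrable (hopTime (planeHub b) x) (V4.law G) := by
  obtain ⟨Ψ, hΨ, hΨ'⟩ := exists_scale_var G hb
  set I : Pt → Prop := fun a => Integrable (hopTime (planeHub b) a) (V4.law G)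
  have hm : ∀ a, Measurable (hopTime (planeHub b) a) := fun a => measurable_planeTT b _ _
  have hshift : ∀ {a} (c : Pt), I a →
      Integrable (fun ω => V4.tt ω (planeHub b ω c) (planeHub b ω (a + c))) (V4.law G) := by
    intro a c ha
    have h : Integrable (hopTime (planeHub b) a) ((V4.law G).map (V4.moveCfg c)) := by
      rw [V4.map_moveCfg]; exact ha
    refine (h.comp_measurable (V4.measurable_moveCfg c)).congr (ae_of_all _ fun ω => ?_)
    show hopTime (planeHub b) a (V4.moveCfg c ω) = _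
    unfold hopTime
    rw [V4.tt_move_any, planeHub_cov, planeHub_cov, Prod.mk_zero_zero, zero_add]
  have hadd : ∀ a c, I a → I c → I (a + c) := by
    intro a c ha hc
    refine Integrable.mono' (ha.add (hshift a hc)) (hm _).aestronglyMeasurable ?_
    filter_upwards [ae_nonneg hG] with ω h0
    rw [Real.norm_eq_abs, add_comm a c, abs_of_nonneg (show 0 ≤ hopTime (planeHub b) (c + a) ω from
      V4.tt_nonneg h0)]
    exact V4.tt_triangle h0 _ _ _
  have hneg : ∀ a, I a → I (-a) := by
    intro a ha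
    refine Integrable.mono' (hshift (-a) ha) (hm _).aestronglyMeasurable ?_
    filter_upwards [ae_nonneg hG] with ω h0
    rw [Real.norm_eq_abs, abs_of_nonneg (show 0 ≤ hopTime (planeHub b) (-a) ω from V4.tt_nonneg h0)]
    show V4.tt ω (planeHub b ω (0, 0)) (planeHub b ω (-a)) ≤
      V4.tt ω (planeHub b ω (-a)) (planeHub b ω (a + -a))
    rw [add_neg_cancel, ← Prod.mk_zero_zero, V4.tt_comm h0]
  have he : I (1, 0) ∧ I (0, 1) := by
    constructor <;>
    · refine Integrable.mono' (hΨ.const_mul (60 * b)) (hm _).aestronglyMeasurable ?_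
      filter_upwards [ae_nonneg hG, hΨ'] with ω h0 hN
      obtain ⟨N, hN, hle⟩ := hN
      have h := hop_le_of_not_fail hb0 h0 hN
      rw [Real.norm_eq_abs, hopTime, abs_of_nonneg (V4.tt_nonneg h0)]
      have := mul_le_mul_of_nonneg_left hle (show 0 ≤ 60 * b by positivity)
      linarith [h.2.1, h.2.2]
  have hzero : I (0, 0) := by
    have h := hadd _ _ he.1 (hneg _ he.1)
    rwa [add_neg_cancel] at h
  have hline : ∀ e, I e → ∀ k : ℤ, I (k • e) := by
    intro e he k
    induction k with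
    | zero => rw [zero_smul, ← Prod.mk_zero_zero]; exact hzero
    | succ k ih => rw [add_smul, one_smul]; exact hadd _ _ ih he
    | pred k ih => rw [sub_smul, one_smul, sub_eq_add_neg]; exact hadd _ _ ih (hneg e he)
  have h := hadd _ _ (hline _ he.1 x.1) (hline _ he.2 x.2)
  rwa [show x.1 • ((1, 0) : Pt) + x.2 • ((0, 1) : Pt) = x by ext <;> simp] at h

/-- The first hub to the right is a pivot. -/
theorem isPivot_planeHub (hG : ∀ᵐ t ∂G, 0 < t) (hb0 : 0 ≤ b) (hb : rate G b ≤ 1 / 64) :
    IsPivot G b (planeHub b) where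
  fibre := planeHub_fibre b
  cov := planeHub_cov b
  line _ _ := rfl
  right _ _ := le_firstHub_fst
  hub x := (ae_rayOK G (hb.trans (by norm_num))).mono fun ω h =>
    hub_firstHub (exists_hub_of_rayOK (h x) reg_univ (Set.mem_univ x))
  offset := by
    obtain ⟨Ψ, hΨ, hΨ'⟩ := exists_scale_var G hb
    have hm : Measurable fun ω => ((planeHub b ω (0, 0)).1 : ℝ) :=
      V4.measurable_index (e := fun ω => planeHub b ω (0, 0)) (planeHub_fibre b _)
        (F := fun z _ => (z.1 : ℝ)) fun z => measurable_const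
    refine Integrable.mono' hΨ hm.aestronglyMeasurable ?_
    filter_upwards [ae_nonneg hG, hΨ'] with ω h0 hN
    obtain ⟨N, hN, hle⟩ := hN
    have h := (hop_le_of_not_fail hb0 h0 hN).1
    have h0' : (0 : ℤ) ≤ (planeHub b ω (0, 0)).1 := le_firstHub_fst
    rw [Real.norm_eq_abs, abs_of_nonneg (Int.cast_nonneg h0')]
    linarith
  hop x := integrable_planeHop hG hb0 hb x

end Vale.Agent.P158.Any
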