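import Vale.Agent.P158.Any.CocycleLimit
import Vale.Agent.P158.Any.GreedyRay
import Vale.Agent.P158.Any.PivotHub

/-!
P158, arbitrary laws (note 1453, U8): almost surely the four diagonals have barriers, for every law
without mass at zero and no moment assumption.
-/

namespace Vale.Agent.P158.Any

open MeasureTheory Filter Topology

variable {G : Measure ℝ} [IsProbabilityMeasure G] {b C₀ : ℝ}

omit [IsProbabilityMeasure G] in
/-- Almost surely the shape property holds beyond some radius at every scale. -/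
theorem ae_hshape {μ : ℝ × ℝ → ℝ}
    (hshape : ∀ ε > 0, ∀ u : Pt, Tendsto (fun r : ℕ =>
      V4.law G {ω | ¬ HShape μ b C₀ ε r ω u}) atTop (𝓝 0)) (u : Pt) :
    ∀ᵐ ω ∂V4.law G, ∀ k : ℕ, ∃ r : ℕ, HShape μ b C₀ (1 / ((k : ℝ) + 1)) r ω u := by
  refine ae_all_iff.2 fun k => ae_iff.2 (le_antisymm ?_ zero_le)
  refine ge_of_tendsto (hshape (1 / ((k : ℝ) + 1)) (by positivity) u)
    (Eventually.of_forall fun r => measure_mono fun ω hω h => hω ⟨r, h⟩)

/-- Almost surely the main diagonal has a barrier. -/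
theorem ae_barrier_diag_any (hG : ∀ᵐ t ∂G, 0 < t) (hμ : V4.IsLatticeNorm (muA G)) (hb : 0 ≤ b)
    (hC₀ : 0 ≤ C₀) (hrate : rate G b ≤ 1 / 64)
    (hshape : ∀ ε > 0, ∀ u : Pt, Tendsto (fun r : ℕ =>
      V4.law G {ω | ¬ HShape (muA G) b C₀ ε r ω u}) atTop (𝓝 0)) :
    ∀ᵐ ω ∂V4.law G, V4.Barrier (muA G) ω (1, 1) := by
  set π := planeHub b
  have hπ : IsPivot G b π := isPivot_planeHub hG hb hrate
  obtain ⟨ν, hν, hfst, hreg, hmp, hdiag⟩ := exists_cocycle_law_any hG hπ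
  set F : Set (ℝ × ℝ) := {σ | V4.Supports (muA G) (1, 1) σ}
  have hFc : IsCompact F := by
    refine IsCompact.of_isClosed_subset (V4.IsLatticeNorm.isCompact_box _) ?_
      fun σ hσ => hμ.supports_mem_box hσ
    refine isSeqClosed_iff_isClosed.1 fun σ σ₀ hσ hlim => ?_
    exact hμ.supports_of_tendsto hσ tendsto_const_nhds hlim
  choose ρ hρ hmax using fun v : Pt => hFc.exists_isMaxOn (hμ.exists_supports (1, 1))
    (f := fun σ : ℝ × ℝ => σ.1 * (v.1 : ℝ) + σ.2 * (v.2 : ℝ)) (by fun_prop)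
  have hdrift : ∀ᵐ X ∂ν, ∀ v : Pt,
      X ∉ exceedA π v ((ρ v).1 * v.1 + (ρ v).2 * v.2 + 1) :=
    ae_all_iff.2 fun v => hπ.ae_not_exceedA hG hμ hshape hfst (hreg.mono fun X h => h.1) hmp hdiag v
      fun σ hσ => by
        have : σ.1 * (v.1 : ℝ) + σ.2 * (v.2 : ℝ) ≤ (ρ v).1 * v.1 + (ρ v).2 * v.2 := hmax v hσ
        linarith
  have hω : ∀ᵐ X ∂ν, (∀ e, 0 < X.1 e) ∧
      (∀ k : ℕ, ∃ r : ℕ, HShape (muA G) b C₀ (1 / ((k : ℝ) + 1)) r X.1 (0, 0)) ∧
      (∀ x : Pt, Hub b X.1 Set.univ (π X.1 x)) ∧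
      ∀ v : Pt, ∀ᶠ j : ℕ in atTop, (V4.l1 (j • v) (π X.1 (j • v)) : ℝ) ≤ 1 * j := by
    refine ae_of_ae_map (f := (Prod.fst : V4.St → Cfg))
      (p := fun ω : Cfg => (∀ e, 0 < ω e) ∧
        (∀ k : ℕ, ∃ r : ℕ, HShape (muA G) b C₀ (1 / ((k : ℝ) + 1)) r ω (0, 0)) ∧
        (∀ x : Pt, Hub b ω Set.univ (π ω x)) ∧
        ∀ v : Pt, ∀ᶠ j : ℕ in atTop, (V4.l1 (j • v) (π ω (j • v)) : ℝ) ≤ 1 * j)
      measurable_fst.aemeasurable ?_
    rw [hfst]
    filter_upwards [V4.law_all G measurableSet_Ioi hG, ae_hshape hshape (0, 0), ae_all_iff.2 hπ.hub,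
      ae_all_iff.2 fun v => hπ.ae_dist_small v one_pos] with ω h1 h2 h3 h4
    exact ⟨h1, h2, h3, h4⟩
  have hbar : ∀ᵐ X ∂ν, V4.Barrier (muA G) X.1 (1, 1) := by
    filter_upwards [hreg, hdrift, hω] with X hX hd ho
    obtain ⟨x, -, hinj, hanti, htail, htt⟩ := exists_greedy_ray_any hX.1 hX.2 ho.1
    exact ⟨_, htail, greedy_shares_any hμ hC₀ hX.1 ho.2.1 ho.2.2.1 ho.2.2.2 ρ hρ hd hinj htail.adj
      hanti htt⟩
  obtain ⟨N, hN, hNm, hN0⟩ := exists_measurable_superset_of_null (ae_iff.1 hbar)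
  refine ae_iff.2 (le_antisymm (ENNReal.le_of_forall_pos_le_add fun ε hε _ => ?_) zero_le)
  obtain ⟨C, hCN, hC, hlt⟩ := hNm.compl.exists_isCompact_lt_add (μ := ν) (measure_ne_top _ _)
    (ENNReal.coe_ne_zero.2 hε.ne')
  have himg : MeasurableSet (Prod.fst '' C) := (hC.image continuous_fst).measurableSet
  calc V4.law G {ω | ¬ V4.Barrier (muA G) ω (1, 1)} ≤ V4.law G (Prod.fst '' C)ᶜ :=
        measure_mono fun ω hω' h => by
          obtain ⟨X, hXC, rfl⟩ := h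
          exact hCN hXC (hN hω')
    _ = ν (Prod.fst ⁻¹' (Prod.fst '' C)ᶜ) := by
        rw [← hfst, Measure.map_apply measurable_fst himg.compl]
    _ ≤ ν Cᶜ := measure_mono fun X hX hXC => hX ⟨X, hXC, rfl⟩
    _ ≤ 0 + ε := by
        rw [prob_compl_eq_one_sub hC.measurableSet, zero_add, tsub_le_iff_left]
        have : ν Nᶜ = 1 := (prob_compl_eq_one_iff hNm).2 hN0
        rw [← this]
        exact hlt.le

/-- Almost surely the four diagonals have barriers. -/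
theorem ae_barriers_of_hshape (hG : ∀ᵐ t ∂G, 0 < t) (hμ : V4.IsLatticeNorm (muA G)) (hb : 0 ≤ b)
    (hC₀ : 0 ≤ C₀) (hrate : rate G b ≤ 1 / 64)
    (hshape : ∀ ε > 0, ∀ u : Pt, Tendsto (fun r : ℕ =>
      V4.law G {ω | ¬ HShape (muA G) b C₀ ε r ω u}) atTop (𝓝 0)) :
    V4.BarrierStmt G (muA G) := by
  have h := ae_barrier_diag_any hG hμ hb hC₀ hrate hshape
  have tr : ∀ φ : grid →g grid, (∀ z, φ (φ z) = z) →
      ∀ᵐ ω ∂V4.law G, V4.Barrier (muA G) (ω ∘ Sym2.map φ) (1, 1) := fun φ hinv =>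
    ae_of_ae_map (f := fun ω : Cfg => ω ∘ Sym2.map φ)
      (measurable_pi_iff.2 fun _ => measurable_pi_apply _).aemeasurable (by
      rw [map_comp_injective G (Sym2.map φ)
        (Sym2.map.injective fun a c e => by simpa [hinv] using congrArg φ e)]
      exact h)
  have i1 : ∀ z, V4.flipBoth (V4.flipBoth z) = z := fun z => by
    simp [V4.flipBoth, V4.flip2, V4.flipX]
  have i2 : ∀ z, V4.flipX (V4.flipX z) = z := fun z => by simp [V4.flipX]
  have i3 : ∀ z, V4.flip2 (V4.flip2 z) = z := fun z => by simp [V4.flip2]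
  filter_upwards [ae_nonneg hG, h, tr V4.flipBoth i1, tr V4.flipX i2, tr V4.flip2 i3]
    with ω h0 h1 h2 h3 h4
  refine ⟨h1, ?_, ?_, ?_⟩
  · simpa using V4.barrier_reflect hμ h0 V4.flipBoth i1 (-1) (-1) (by simp) (by simp)
      (fun z => by simp [V4.flipBoth, V4.flip2, V4.flipX]) h2
  · simpa using V4.barrier_reflect hμ h0 V4.flipX i2 (-1) 1 (by simp) (by simp)
      (fun z => by simp [V4.flipX]) h3
  · simpa using V4.barrier_reflect hμ h0 V4.flip2 i3 1 (-1) (by simp) (by simp)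
      (fun z => by simp [V4.flip2]) h4

/-- Almost surely the four diagonals have barriers, for every law without mass at zero. -/
theorem ae_barriers_any (hG : ∀ᵐ t ∂G, 0 < t) :
    ∀ᵐ ω ∂V4.law G, V4.Barrier (muA G) ω (1, 1) ∧ V4.Barrier (muA G) ω (-1, -1) ∧
      V4.Barrier (muA G) ω (-1, 1) ∧ V4.Barrier (muA G) ω (1, -1) := by
  obtain ⟨b₀, C₀, hb, hC, hrate, hμ, hshape⟩ := exists_shape G hG
  exact ae_barriers_of_hshape hG hμ hb hC hrate hshape

end Vale.Agent.P158.Any
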