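import Vale.Agent.P158.Any.Cluster

/-!
P158, arbitrary laws (note 1452, U3, deterministic part): a walk between two hubs can avoid heavy
edges at a cost linear in the size of their clusters.
-/

namespace Vale.Agent.P158.Any

open SimpleGraph

variable {b : ℝ} {ω ω' : Cfg} {S : Set Pt}

/-- A set of sites containing every site next to `U` by a king's move. -/
noncomputable def starHood (U : Finset Pt) : Finset Pt :=
  U.biUnion fun u => Finset.Icc (u.1 - 1) (u.1 + 1) ×ˢ Finset.Icc (u.2 - 1) (u.2 + 1)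

theorem mem_starHood {U : Finset Pt} {z : Pt} : z ∈ starHood U ↔ ∃ u ∈ U, Star u z := by
  simp only [starHood, Finset.mem_biUnion, Finset.mem_product, Finset.mem_Icc]
  refine exists_congr fun u => and_congr_right fun _ => ?_
  simp only [Star, abs_le]
  omega

theorem card_starHood (U : Finset Pt) : (starHood U).card ≤ 9 * U.card := by
  refine Finset.card_biUnion_le.trans ((Finset.sum_le_card_nsmul _ _ 9 fun u _ => ?_).trans_eq
    (by simp [mul_comm]))
  rw [Finset.card_product, Int.card_Icc, Int.card_Icc]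
  simp [show u.1 + 1 + 1 - (u.1 - 1) = 3 by ring, show u.2 + 1 + 1 - (u.2 - 1) = 3 by ring]

/-- Any two outer boundary sites of a cluster are joined by a short light path along the boundary. -/
theorem exists_boundary_path (hS : Reg S) {C : Finset Pt} (hC : IsClu b ω S C) {a e : Pt}
    (ha : Bdry S C a) (he : Bdry S C e) :
    ∃ q : grid.Walk a e, q.length ≤ 9 * C.card ∧ (∀ z ∈ q.support, Bdry S C z) ∧
      ∀ x ∈ q.edges, ω x ≤ b := by
  classical
  obtain ⟨q, hq⟩ := bdry_connected hS hC.conn hC.sub ha he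
  have hsup : ∀ z ∈ q.bypass.support, Bdry S C z := fun z hz =>
    hq z (q.support_bypass_subset_support hz)
  refine ⟨q.bypass, ?_, hsup, fun x hx => ?_⟩
  · have hnd : q.bypass.support.Nodup := q.bypass_isPath.support_nodup
    have h1 : q.bypass.support.toFinset ⊆ starHood C := fun z hz => by
      obtain ⟨-, c, hc, hs⟩ := hsup z (List.mem_toFinset.1 hz)
      exact mem_starHood.2 ⟨c, hc, hs⟩
    have h2 := (Finset.card_le_card h1).trans (card_starHood C)
    rw [List.toFinset_card_of_nodup hnd, Walk.length_support] at h2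
    omega
  · induction x using Sym2.ind with
    | _ u v =>
      exact edge_le_of_not_bad (q.bypass.adj_of_mem_edges hx)
        (hC.bdry_good (hsup u (q.bypass.fst_mem_support_of_mem_edges hx)))

/-- A walk between hubs avoids the edges of `Hi` at a cost `9 b` per site of their clusters. -/
theorem exists_bypass (hS : Reg S) (h0 : ∀ e, 0 ≤ ω' e) (hlow : ∀ e, ω e ≤ b → ω' e ≤ b)
    (hb : 0 ≤ b) {Hi : Set (Sym2 Pt)} (hHi : ∀ e ∈ Hi, b < ω e) {x y : Pt} (hx : Hub b ω S x)
    (hy : Hub b ω S y) (U : Finset Pt) (p : grid.Walk x y) (hp : ∀ z ∈ p.support, z ∈ S)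
    (hU : ∀ e ∈ p.edges, e ∈ Hi → ∀ s, s ∈ e → ∃ C, IsClu b ω S C ∧ s ∈ C ∧ C ⊆ U) :
    ∃ q : grid.Walk x y, (∀ z ∈ q.support, z ∈ S ∧ (z ∈ p.support ∨ z ∈ starHood U)) ∧
      (∀ e ∈ q.edges, e ∉ Hi) ∧ V4.wt ω' q ≤ V4.wt ω' p + 9 * b * U.card := by
  classical
  obtain ⟨n, hn⟩ : ∃ n, p.edges.countP (fun e => decide (e ∈ Hi)) = n := ⟨_, rfl⟩
  induction n using Nat.strong_induction_on generalizing U p with
  | _ n ih =>
  by_cases hno : ∀ e ∈ p.edges, e ∉ Hi
  · refine ⟨p, fun z hz => ⟨hp z hz, Or.inl hz⟩, hno, ?_⟩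
    have : 0 ≤ 9 * b * U.card := by positivity
    linarith
  push Not at hno
  obtain ⟨e₀, he₀, he₀Hi⟩ := hno
  obtain ⟨s, hs⟩ : ∃ s, s ∈ e₀ := ⟨e₀.out.1, e₀.out_fst_mem⟩
  obtain ⟨C, hC, hsC, hCU⟩ := hU e₀ he₀ he₀Hi s hs
  have hxo := hx.2.2 C hC
  have hyo := hy.2.2 C hC
  have hsp : s ∈ p.support := p.mem_support_of_mem_edges he₀ hs
  have hso : ¬ Out S C s := fun h => h.mem.2 hsC
  -- the first and the last visit
  obtain ⟨a, w₁, s₁, ha₁, r, hs₁, hs₁p, hw₁, hw₁p, hrp, hpe⟩ :=
    exists_entry (fun z => ¬ Out S C z) p (not_not.2 hxo) ⟨s, hsp, hso⟩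
  obtain ⟨e, w₂, s₂, ha₂, r₂, hs₂, hs₂r, hw₂, hw₂r, -, hre⟩ :=
    exists_entry (fun z => ¬ Out S C z) r.reverse (not_not.2 hyo) ⟨s₁, r.reverse.end_mem_support, hs₁⟩
  have hs₂p : s₂ ∈ p.support := hrp (by simpa using hs₂r)
  have hw₂p : ∀ z ∈ w₂.support, z ∈ p.support := fun z hz => hrp (by simpa using hw₂r hz)
  have hao : Out S C a := not_not.1 (hw₁ a w₁.end_mem_support)
  have heo : Out S C e := not_not.1 (hw₂ e w₂.end_mem_support)
  obtain ⟨-, hba⟩ := mem_of_exit hs₁ (hp s₁ hs₁p) hao ha₁.symm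
  obtain ⟨-, hbe⟩ := mem_of_exit hs₂ (hp s₂ hs₂p) heo ha₂.symm
  obtain ⟨qB, hlen, hqB, hqBe⟩ := exists_boundary_path hS hC hba hbe
  -- the edges of the two ends
  have hsub : (w₁.edges ++ w₂.reverse.edges).Sublist p.edges := by
    rw [← hpe]
    refine List.Sublist.append (by simp [Walk.edges_concat]) ?_
    have h : w₂.edges.Sublist r.edges.reverse := by
      rw [← Walk.edges_reverse, ← hre, Walk.edges_concat]
      simp [List.append_assoc]
    simpa using h.reverse
  have hsub₁ : w₁.edges.Sublist p.edges := (List.sublist_append_left _ _).trans hsub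
  have hsub₂ : w₂.reverse.edges.Sublist p.edges := (List.sublist_append_right _ _).trans hsub
  have hn₁ : e₀ ∉ w₁.edges := fun h => hw₁ s (w₁.mem_support_of_mem_edges h hs) hso
  have hn₂ : e₀ ∉ w₂.reverse.edges := fun h => hw₂ s (by
    have := w₂.reverse.mem_support_of_mem_edges h hs
    rwa [Walk.support_reverse, List.mem_reverse] at this) hso
  set p' : grid.Walk x y := (w₁.append qB).append w₂.reverse with hp'
  have hqlow : ∀ f ∈ qB.edges, f ∉ Hi := fun f hf hfH => (hHi f hfH).not_ge (hqBe f hf)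
  have hp'S : ∀ z ∈ p'.support, z ∈ S ∧ (z ∈ p.support ∨ z ∈ starHood C) := fun z hz => by
    simp only [hp', Walk.mem_support_append_iff, Walk.support_reverse, List.mem_reverse] at hz
    rcases hz with (hz | hz) | hz
    · exact ⟨hp z (hw₁p hz), Or.inl (hw₁p hz)⟩
    · obtain ⟨hout, c, hc, hcs⟩ := hqB z hz
      exact ⟨hout.mem.1, Or.inr (mem_starHood.2 ⟨c, hc, hcs⟩)⟩
    · exact ⟨hp z (hw₂p z hz), Or.inl (hw₂p z hz)⟩
  have hcount : p'.edges.countP (fun f => decide (f ∈ Hi)) < n := by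
    rw [← hn]
    have h1 : p'.edges.countP (fun f => decide (f ∈ Hi)) =
        (w₁.edges ++ w₂.reverse.edges).countP (fun f => decide (f ∈ Hi)) := by
      have hq0 : qB.edges.countP (fun f => decide (f ∈ Hi)) = 0 :=
        List.countP_eq_zero.2 fun f hf => by simpa using hqlow f hf
      simp only [hp', Walk.edges_append, List.countP_append, hq0]
      omega
    rw [h1]
    refine lt_of_le_of_ne hsub.countP_le fun heq => ?_
    have h2 := (hsub.filter (fun f => decide (f ∈ Hi))).eq_of_length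
      (by rw [← List.countP_eq_length_filter, ← List.countP_eq_length_filter, heq])
    have : e₀ ∈ p.edges.filter (fun f => decide (f ∈ Hi)) := List.mem_filter.2 ⟨he₀, by simpa using he₀Hi⟩
    rw [← h2, List.mem_filter, List.mem_append] at this
    exact this.1.elim hn₁ hn₂
  obtain ⟨q, hq, hqHi, hqw⟩ := ih _ hcount (U \ C) p' (fun z hz => (hp'S z hz).1) (fun f hf hfH t ht => by
    have hfp : f ∈ p.edges ∧ f ∈ w₁.edges ++ w₂.reverse.edges := by
      simp only [hp', Walk.edges_append, List.mem_append] at hf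
      rcases hf with (hf | hf) | hf
      · exact ⟨hsub₁.subset hf, List.mem_append.2 (Or.inl hf)⟩
      · exact absurd hfH (hqlow f hf)
      · exact ⟨hsub₂.subset hf, List.mem_append.2 (Or.inr hf)⟩
    obtain ⟨C', hC', htC', hC'U⟩ := hU f hfp.1 hfH t ht
    have htout : Out S C t := by
      rcases List.mem_append.1 hfp.2 with hf | hf
      · exact not_not.1 (hw₁ t (w₁.mem_support_of_mem_edges hf ht))
      · have := w₂.reverse.mem_support_of_mem_edges hf ht
        rw [Walk.support_reverse, List.mem_reverse] at this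
        exact not_not.1 (hw₂ t this)
    refine ⟨C', hC', htC', fun c hc => Finset.mem_sdiff.2 ⟨hC'U hc, fun hcC => htout.mem.2 ?_⟩⟩
    exact hC'.subset hC hc hcC htC') rfl
  refine ⟨q, fun z hz => ⟨(hq z hz).1, ?_⟩, hqHi, hqw.trans ?_⟩
  · rcases (hq z hz).2 with h | h
    · rcases (hp'S z h).2 with h' | h'
      · exact Or.inl h'
      · obtain ⟨c, hc, hcz⟩ := mem_starHood.1 h'
        exact Or.inr (mem_starHood.2 ⟨c, hCU hc, hcz⟩)
    · obtain ⟨c, hc, hcz⟩ := mem_starHood.1 h
      exact Or.inr (mem_starHood.2 ⟨c, (Finset.mem_sdiff.1 hc).1, hcz⟩)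
  · have hw : V4.wt ω' p' = ((w₁.edges ++ w₂.reverse.edges).map ω').sum + V4.wt ω' qB := by
      simp only [hp', V4.wt, Walk.edges_append, List.map_append, List.sum_append]
      ring
    have h3 : ((w₁.edges ++ w₂.reverse.edges).map ω').sum ≤ V4.wt ω' p :=
      (hsub.map ω').sum_le_sum fun z hz => by
        obtain ⟨f, -, rfl⟩ := List.mem_map.1 hz
        exact h0 f
    have h4 : V4.wt ω' qB ≤ (9 * b * C.card) := by
      refine (List.sum_le_card_nsmul _ b fun z hz => ?_).trans ?_
      · obtain ⟨f, hf, rfl⟩ := List.mem_map.1 hz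
        exact hlow f (hqBe f hf)
      · rw [List.length_map, Walk.length_edges, nsmul_eq_mul]
        refine (mul_le_mul_of_nonneg_right (Nat.cast_le.2 hlen) hb).trans_eq ?_
        push_cast
        ring
    have h5 : ((U \ C).card : ℝ) + C.card = U.card := by
      exact_mod_cast Finset.card_sdiff_add_card_eq_card hCU
    rw [hw, ← h5, mul_add]
    linarith

end Vale.Agent.P158.Any
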