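import Vale.Agent.P158.Any.Tame
import Vale.Agent.P158.V4.Directed
import Vale.Agent.P158.V4.LaneLabel

/-!
P158, arbitrary laws (note 1452, U4): the shape property used instead of `Shape`, gates at a scale,
and the shape along bigeodesics.
-/

namespace Vale.Agent.P158.Any

open SimpleGraph

/-- The three regions at a site. -/
def RegAt (u : Pt) (S : Set Pt) : Prop := S = Set.univ ∨ S = V4.upper u.2 ∨ S = V4.lower u.2

theorem RegAt.reg {u : Pt} {S : Set Pt} (h : RegAt u S) : Reg S := by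
  rcases h with rfl | rfl | rfl
  exacts [reg_univ, reg_upper _, reg_lower _]

theorem RegAt.mem {u : Pt} {S : Set Pt} (h : RegAt u S) : u ∈ S := by
  rcases h with rfl | rfl | rfl
  exacts [trivial, le_refl u.2, le_refl u.2]

/-- The shape around `u` beyond the scale `r`, without moments: the lower bound for all pairs, upper
bounds between hubs, small clusters, and hubs cheaply reached from `u` itself. -/
structure HShape (μ : ℝ × ℝ → ℝ) (b₀ C₀ ε r : ℝ) (ω : Cfg) (u : Pt) : Prop where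
  lo : ∀ R : ℝ, r ≤ R → ∀ p q : Pt, (V4.l1 u p : ℝ) ≤ R → (V4.l1 u q : ℝ) ≤ R →
    μ (V4.toR (q - p)) - ε * R ≤ V4.tt ω p q
  hi : ∀ R : ℝ, r ≤ R → ∀ p q : Pt, (V4.l1 u p : ℝ) ≤ R → (V4.l1 u q : ℝ) ≤ R →
    Hub b₀ ω Set.univ p → Hub b₀ ω Set.univ q → V4.tt ω p q ≤ μ (V4.toR (q - p)) + ε * R
  seg : ∀ R : ℝ, r ≤ R → ∀ S, Reg S → ∀ p q : Pt, (V4.l1 u p : ℝ) ≤ R → (V4.l1 u q : ℝ) ≤ R →
    Hub b₀ ω S p → Hub b₀ ω S q → V4.ttIn S ω p q ≤ C₀ * (V4.l1 p q + ε * R)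
  tame : ∀ R : ℝ, r ≤ R → ∀ p : Pt, (V4.l1 u p : ℝ) ≤ R → RayOK b₀ ω p ⌊ε * R⌋₊
  self : ∀ S, RegAt u S → ∀ R : ℝ, r ≤ R →
    ∃ d, Hub b₀ ω S d ∧ (V4.l1 u d : ℝ) ≤ ε * R ∧ V4.ttIn S ω u d ≤ ε * R

variable {μ : ℝ × ℝ → ℝ} {b₀ C₀ ε r : ℝ} {ω : Cfg} {u : Pt}

theorem l1_triangle (a b c : Pt) : V4.l1 a c ≤ V4.l1 a b + V4.l1 b c := by
  simp only [V4.l1]
  omega

/-- A walk from a site of the ball leaving its square of half-width `ε R` passes a hub nearby. -/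
theorem HShape.gate (h : HShape μ b₀ C₀ ε r ω u) {R : ℝ} (hR : r ≤ R) {S : Set Pt} (hS : Reg S)
    {p q : Pt} (hp : p ∈ S) (hpR : (V4.l1 u p : ℝ) ≤ R) (w : grid.Walk p q)
    (hw : ∀ z ∈ w.support, z ∈ S) (hq : ¬ Near ⌊ε * R⌋₊ p q) :
    ∃ d, Hub b₀ ω S d ∧ d ∈ w.support ∧ V4.l1 p d ≤ 2 * ⌊ε * R⌋₊ + 2 ∧
      ∃ w' : grid.Walk p d, w'.edges.Sublist w.edges ∧
        ∀ z ∈ w'.support, z ∈ S ∧ Near (⌊ε * R⌋₊ + 1) p z := by
  obtain ⟨d, hd, hdw, hnear, hw'⟩ := Any.gate hS hp ((h.tame R hR p hpR).tame hS hp) w hw hq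
  refine ⟨d, hd, hdw, ?_, hw'⟩
  simp only [Near, abs_le] at hnear
  simp only [V4.l1]
  omega

/-- Sites of a path eventually leave every square. -/
theorem exists_not_near {f : ℕ → Pt} (hf : Function.Injective f) (N : ℕ) (p : Pt) :
    ∃ k, ¬ Near N p (f k) := by
  by_contra hno
  push Not at hno
  have hsub : Set.range f ⊆ ↑(Finset.Icc (p.1 - N) (p.1 + N) ×ˢ Finset.Icc (p.2 - N) (p.2 + N)) := by
    rintro _ ⟨k, rfl⟩
    have := hno k
    simp only [Near, abs_le] at this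
    simp only [Finset.coe_product, Finset.coe_Icc, Set.mem_prod, Set.mem_Icc]
    omega
  exact (Set.infinite_range_of_injective hf) ((Finset.finite_toSet _).subset hsub)

/-- Outward hubs near a point of a bigeodesic. -/
theorem HShape.lane_gate (h : HShape μ b₀ C₀ ε r ω u) {R : ℝ} (hR : r ≤ R) {v : ℤ → Pt}
    (hv : V4.IsLane ω v) (i : ℤ) (hi : (V4.l1 u (v i) : ℝ) ≤ R) :
    (∃ k : ℕ, Hub b₀ ω Set.univ (v (i + k)) ∧ V4.l1 (v i) (v (i + k)) ≤ 2 * ⌊ε * R⌋₊ + 2) ∧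
      ∃ k : ℕ, Hub b₀ ω Set.univ (v (i - k)) ∧ V4.l1 (v i) (v (i - k)) ≤ 2 * ⌊ε * R⌋₊ + 2 := by
  constructor
  · obtain ⟨n, hn⟩ := exists_not_near (f := fun k : ℕ => v (i + k))
      (fun a c e => by simpa using hv.inj e) ⌊ε * R⌋₊ (v i)
    obtain ⟨w, -, hws⟩ := hv.seg_walk i n
    obtain ⟨d, hd, hdw, hdist, -⟩ := h.gate hR reg_univ trivial hi w (fun z _ => trivial) hn
    obtain ⟨k, -, rfl⟩ := hws d hdw
    exact ⟨k, hd, hdist⟩
  · obtain ⟨n, hn⟩ := exists_not_near (f := fun k : ℕ => v (i - k))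
      (fun a c e => by simpa using hv.inj e) ⌊ε * R⌋₊ (v i)
    obtain ⟨w, -, hws⟩ := hv.seg_walk (i - n) n
    obtain ⟨d, hd, hdw, hdist, -⟩ :=
      h.gate hR reg_univ trivial hi (w.reverse.copy (by rw [sub_add_cancel]) rfl) (fun z _ => trivial) hn
    rw [Walk.support_copy, Walk.support_reverse, List.mem_reverse] at hdw
    obtain ⟨k, hk, rfl⟩ := hws d hdw
    refine ⟨n - k, ?_⟩
    rw [show i - ((n - k : ℕ) : ℤ) = i - n + k by omega]
    exact ⟨hd, hdist⟩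

/-- The shape along every bigeodesic through `u`. -/
theorem laneShape_of_hshape (hμ : V4.IsLatticeNorm μ) (h0 : ∀ e, 0 ≤ ω e) {v : ℤ → Pt}
    (hv : V4.IsLane ω v) (hs : ∀ ε > 0, ∃ r : ℕ, HShape μ b₀ C₀ ε r ω (v 0)) :
    V4.LaneShape μ ω v := by
  intro ε hε
  set m := μ (1, 0)
  have hm : 0 < m := hμ.axis_pos
  set η := min (1 / 8) (ε / (8 * m + 4)) with hη
  have hη0 : 0 < η := lt_min (by norm_num) (by positivity)
  have hη1 : η ≤ 1 / 8 := min_le_left _ _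
  have hη2 : η * (8 * m + 4) ≤ ε := (le_div_iff₀ (by positivity)).1 (min_le_right _ _)
  obtain ⟨r, hr⟩ := hs η hη0
  obtain ⟨r', hr'⟩ := exists_nat_ge (max (r : ℝ) (4 / η))
  refine ⟨r', fun R hR i j hij hi hj => ?_⟩
  have hR1 : (r : ℝ) ≤ R := (le_max_left _ _).trans (hr'.trans hR)
  have hR2 : 4 ≤ η * R := by
    have := (div_le_iff₀ hη0).1 ((le_max_right _ _).trans (hr'.trans hR))
    linarith
  have hR0 : 0 ≤ R := le_trans (Nat.cast_nonneg r) hR1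
  rw [abs_le]
  refine ⟨?_, ?_⟩
  · have := hr.lo R hR1 (v i) (v j) hi hj
    have : η * R ≤ ε * R := mul_le_mul_of_nonneg_right (by nlinarith) hR0
    linarith
  obtain ⟨-, k, hk, hkd⟩ := hr.lane_gate hR1 hv i hi
  obtain ⟨⟨l, hl, hld⟩, -⟩ := hr.lane_gate hR1 hv j hj
  have hN : ((2 * ⌊η * R⌋₊ + 2 : ℕ) : ℝ) ≤ 3 * (η * R) := by
    push_cast
    linarith [Nat.floor_le (mul_nonneg hη0.le hR0)]
  have hkd' : (V4.l1 (v i) (v (i - k)) : ℝ) ≤ 3 * (η * R) := (Nat.cast_le.2 hkd).trans hN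
  have hld' : (V4.l1 (v j) (v (j + l)) : ℝ) ≤ 3 * (η * R) := (Nat.cast_le.2 hld).trans hN
  have hb1 : (V4.l1 (v 0) (v (i - k)) : ℝ) ≤ 2 * R := by
    have := (Nat.cast_le (α := ℝ)).2 (l1_triangle (v 0) (v i) (v (i - k)))
    push_cast at this
    nlinarith
  have hb2 : (V4.l1 (v 0) (v (j + l)) : ℝ) ≤ 2 * R := by
    have := (Nat.cast_le (α := ℝ)).2 (l1_triangle (v 0) (v j) (v (j + l)))
    push_cast at this
    nlinarith
  have h1 := hr.hi (2 * R) (by linarith) _ _ hb1 hb2 hk hl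
  have e1 := hv.tt_add h0 (show i - k ≤ i by omega) (show i ≤ j + l by omega)
  have e2 := hv.tt_add h0 hij (show j ≤ j + l by omega)
  have n1 : 0 ≤ V4.tt ω (v (i - k)) (v i) := V4.tt_nonneg h0
  have n2 : 0 ≤ V4.tt ω (v j) (v (j + l)) := V4.tt_nonneg h0
  have h2 := hμ.sub_le (V4.toR (v (j + l) - v (i - k))) (V4.toR (v j - v i))
  have h3 : |(V4.toR (v (j + l) - v (i - k))).1 - (V4.toR (v j - v i)).1| +
      |(V4.toR (v (j + l) - v (i - k))).2 - (V4.toR (v j - v i)).2| ≤ 6 * (η * R) := by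
    rw [V4.l1_cast] at hkd' hld'
    simp only [V4.toR, Prod.fst_sub, Prod.snd_sub, Int.cast_sub]
    have a1 := abs_sub (((v (j + l)).1 : ℝ) - (v j).1) (((v (i - k)).1 : ℝ) - (v i).1)
    have a2 := abs_sub (((v (j + l)).2 : ℝ) - (v j).2) (((v (i - k)).2 : ℝ) - (v i).2)
    rw [sub_sub_sub_comm] at a1 a2
    rw [abs_sub_comm ((v (j + l)).1 : ℝ) ((v j).1), abs_sub_comm ((v (i - k)).1 : ℝ) ((v i).1)] at a1
    rw [abs_sub_comm ((v (j + l)).2 : ℝ) ((v j).2), abs_sub_comm ((v (i - k)).2 : ℝ) ((v i).2)] at a2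
    linarith
  have h4 := mul_le_mul_of_nonneg_left h3 hm.le
  have h5 : (6 * m + 2) * (η * R) ≤ ε * R := by
    rw [← mul_assoc]
    exact mul_le_mul_of_nonneg_right (by nlinarith) hR0
  linarith

end Vale.Agent.P158.Any
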