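import Vale.Agent.P158.Any.Pivot
import Vale.Agent.P158.Any.ShapeDefs

/-!
P158, arbitrary laws (note 1453, U8): far chosen hubs are reached at the speed of the norm, in mean on
every event, and translated passage times between neighbouring chosen hubs grow sublinearly.
-/

namespace Vale.Agent.P158.Any

open MeasureTheory Filter Topology ProbabilityTheory

variable {G : Measure ℝ} [IsProbabilityMeasure G] {b : ℝ} {π : Cfg → Pt → Pt}
  {μ : ℝ × ℝ → ℝ} {C₀ : ℝ}

/-- An integrable quantity at translated configurations is eventually small. -/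
theorem ae_moved_small {Y : Cfg → ℝ} (hY : Measurable Y) (hYi : Integrable Y (V4.law G)) (v : Pt) {δ : ℝ}
    (hδ : 0 < δ) : ∀ᵐ ω ∂V4.law G, ∀ᶠ j : ℕ in atTop, Y (V4.moveCfg (j • v) ω) ≤ δ * j := by
  letI : MeasureSpace Cfg := ⟨V4.law G⟩
  haveI : IsProbabilityMeasure (volume : Measure Cfg) :=
    inferInstanceAs (IsProbabilityMeasure (V4.law G))
  set Z : Cfg → ℝ := fun ω => max 0 (Y ω / δ)
  have hZ : Measurable Z := measurable_const.max (hY.div_const δ)
  have hZi : Integrable Z (V4.law G) := (integrable_const (0 : ℝ)).sup (hYi.div_const δ)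
  have hsum := tsum_prob_mem_Ioi_lt_top (X := Z) hZi fun ω => le_max_left _ _
  have hs : (∑' j : ℕ, V4.law G (V4.moveCfg (j • v) ⁻¹' {ω | Z ω ∈ Set.Ioi (j : ℝ)})) ≠ ⊤ := by
    refine ne_top_of_le_ne_top hsum.ne (le_of_eq (tsum_congr fun j => ?_))
    have hm : MeasurableSet {ω | Z ω ∈ Set.Ioi (j : ℝ)} := hZ measurableSet_Ioi
    rw [← Measure.map_apply (V4.measurable_moveCfg _) hm, V4.map_moveCfg]
    rfl
  filter_upwards [ae_eventually_notMem hs] with ω hω
  filter_upwards [hω] with j hj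
  have h1 : Z (V4.moveCfg (j • v) ω) ≤ j := not_lt.1 hj
  have h2 := (le_max_right _ _).trans h1
  rw [div_le_iff₀ hδ] at h2
  linarith

namespace IsPivot

variable (hπ : IsPivot G b π)
include hπ

theorem measurable_hopTime (a : Pt) : Measurable (hopTime π a) := hπ.measurable_tt _ _

/-- Translated passage times between neighbouring chosen hubs are eventually small. -/
theorem ae_hop_small (a v : Pt) {δ : ℝ} (hδ : 0 < δ) :
    ∀ᵐ ω ∂V4.law G, ∀ᶠ j : ℕ in atTop, V4.tt ω (π ω (j • v)) (π ω (j • v + a)) ≤ δ * j := by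
  filter_upwards [ae_moved_small (hπ.measurable_hopTime a) (hπ.hop a) v hδ] with ω hω
  refine hω.mono fun j hj => ?_
  rwa [hπ.hopTime_move, add_comm a] at hj

/-- The chosen hubs along a direction are eventually near. -/
theorem ae_dist_small (v : Pt) {δ : ℝ} (hδ : 0 < δ) :
    ∀ᵐ ω ∂V4.law G, ∀ᶠ j : ℕ in atTop, (V4.l1 (j • v) (π ω (j • v)) : ℝ) ≤ δ * j := by
  have hY : Measurable fun ω => ((π ω (0, 0)).1 : ℝ) :=
    V4.measurable_index (e := fun ω => π ω (0, 0)) (hπ.fibre _)
      (F := fun z _ => (z.1 : ℝ)) fun z => measurable_const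
  filter_upwards [ae_moved_small hY hπ.offset v hδ] with ω hω
  refine hω.mono fun j hj => ?_
  rwa [hπ.l1_eq]

/-- The chosen hubs far along a direction are reached at the speed of the norm, with high
probability. -/
theorem tendsto_slow (hμ : V4.IsLatticeNorm μ)
    (hshape : ∀ ε > 0, ∀ u : Pt, Tendsto (fun r : ℕ =>
      V4.law G {ω | ¬ HShape μ b C₀ ε r ω u}) atTop (𝓝 0))
    (v : Pt) {ε : ℝ} (hε : 0 < ε) :
    Tendsto (fun n : ℕ => (V4.law G).real {ω | (μ (V4.toR v) + ε) * n < hopTime π (n • v) ω})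
      atTop (𝓝 0) := by
  set m := μ (1, 0)
  have hm : 0 < m := hμ.axis_pos
  set δ := min 1 (ε / (4 * m))
  have hδ : 0 < δ := lt_min one_pos (by positivity)
  have hδm : δ * (4 * m) ≤ ε := (le_div_iff₀ (by positivity)).1 (min_le_right _ _)
  set L : ℝ := (V4.l1 (0, 0) v : ℝ)
  have hL : L = |(v.1 : ℝ)| + |(v.2 : ℝ)| := by
    simp only [L, V4.l1_cast, Int.cast_zero, zero_sub, abs_neg]
  set ε' := ε / (2 * (L + 2))
  have hε' : 0 < ε' := by positivity
  refine Metric.tendsto_nhds.2 fun η hη => ?_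
  obtain ⟨r, hr⟩ := ((((ENNReal.tendsto_toReal ENNReal.zero_ne_top).comp (hshape ε' hε' (0, 0))).eventually
    (eventually_le_nhds (show (0 : ENNReal).toReal < η / 4 by rw [ENNReal.toReal_zero]; positivity)))).exists
  simp only [Function.comp_apply] at hr
  filter_upwards [(hπ.tendsto_far hδ fun _ => (0, 0)).eventually
      (eventually_le_nhds (show (0 : ℝ) < η / 4 by positivity)),
    (hπ.tendsto_far hδ fun n => n • v).eventually
      (eventually_le_nhds (show (0 : ℝ) < η / 4 by positivity)),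
    eventually_ge_atTop r] with n h1 h2 hn
  rw [Real.dist_eq, sub_zero, abs_of_nonneg measureReal_nonneg]
  set Z : Set Cfg := {ω | ¬ (Hub b ω Set.univ (π ω (0, 0)) ∧ Hub b ω Set.univ (π ω (n • v)))}
  have hZ : V4.law G Z = 0 := ae_iff.1 ((hπ.hub (0, 0)).and (hπ.hub (n • v)))
  have hsub : {ω | (μ (V4.toR v) + ε) * n < hopTime π (n • v) ω} ⊆
      {ω | δ * n < V4.l1 (0, 0) (π ω (0, 0))} ∪ ({ω | δ * n < V4.l1 (n • v) (π ω (n • v))} ∪
        ({ω | ¬ HShape μ b C₀ ε' r ω (0, 0)} ∪ Z)) := by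
    intro ω hω
    by_contra hno
    simp only [Set.mem_union, Set.mem_ofPred_eq, not_or, not_not, not_lt, Z] at hno
    obtain ⟨hp, hq, hS, hh1, hh2⟩ := hno
    have hn0 : (0 : ℝ) ≤ n := Nat.cast_nonneg n
    have hδn : δ * n ≤ 1 * n := mul_le_mul_of_nonneg_right (min_le_left _ _) hn0
    have hR : (r : ℝ) ≤ (L + 2) * n := by
      have : (r : ℝ) ≤ n := Nat.cast_le.2 hn
      have : 0 ≤ (L + 1) * n := by positivity
      linarith
    set p := π ω (0, 0)
    set q := π ω (n • v)
    rw [V4.l1_cast] at hp hq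
    have c1 : (((n • v).1 : ℤ) : ℝ) = n * (v.1 : ℝ) := by rw [Prod.smul_fst]; simp
    have c2 : (((n • v).2 : ℤ) : ℝ) = n * (v.2 : ℝ) := by rw [Prod.smul_snd]; simp
    simp only [Int.cast_zero, zero_sub, abs_neg, c1, c2] at hp hq
    have hpR : (V4.l1 (0, 0) p : ℝ) ≤ (L + 2) * n := by
      rw [V4.l1_cast]
      simp only [Int.cast_zero, zero_sub, abs_neg]
      have : 0 ≤ (L + 1) * n := by positivity
      linarith
    have e1 := abs_sub_abs_le_abs_sub (q.1 : ℝ) (n * (v.1 : ℝ))
    have e2 := abs_sub_abs_le_abs_sub (q.2 : ℝ) (n * (v.2 : ℝ))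
    rw [abs_mul, Nat.abs_cast, abs_sub_comm] at e1 e2
    have hqR : (V4.l1 (0, 0) q : ℝ) ≤ (L + 2) * n := by
      rw [V4.l1_cast, hL]
      simp only [Int.cast_zero, zero_sub, abs_neg]
      linarith
    have h := hS.hi _ hR p q hpR hqR hh1 hh2
    have h' := hμ.sub_le (V4.toR (q - p)) ((n : ℝ) • V4.toR v)
    rw [hμ.homog _ hn0] at h'
    simp only [V4.toR, Prod.fst_sub, Prod.snd_sub, Int.cast_sub, Prod.smul_fst, Prod.smul_snd,
      smul_eq_mul] at h'
    have a1 := abs_sub ((q.1 : ℝ) - n * (v.1 : ℝ)) (p.1 : ℝ)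
    have a2 := abs_sub ((q.2 : ℝ) - n * (v.2 : ℝ)) (p.2 : ℝ)
    rw [sub_right_comm, abs_sub_comm (q.1 : ℝ)] at a1
    rw [sub_right_comm, abs_sub_comm (q.2 : ℝ)] at a2
    have h3 : m * (|(q.1 : ℝ) - p.1 - n * (v.1 : ℝ)| + |(q.2 : ℝ) - p.2 - n * (v.2 : ℝ)|) ≤
        m * (2 * (δ * n)) := mul_le_mul_of_nonneg_left (by linarith) hm.le
    have h4 : ε' * ((L + 2) * n) = ε / 2 * n := by
      simp only [ε']
      rw [div_mul_eq_mul_div, div_eq_iff (by positivity)]
      ring
    have h5 : δ * (4 * m) * n ≤ ε * n := mul_le_mul_of_nonneg_right hδm hn0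
    have h6 : μ (V4.toR v) = μ ((v.1 : ℝ), (v.2 : ℝ)) := rfl
    simp only [Set.mem_ofPred_eq, hopTime] at hω
    simp only [V4.toR] at h h6 hω
    simp only [Prod.fst_sub, Prod.snd_sub, Int.cast_sub] at h
    linarith
  refine lt_of_le_of_lt ((measureReal_mono hsub (measure_ne_top _ _)).trans
    ((measureReal_union_le _ _).trans (add_le_add le_rfl ((measureReal_union_le _ _).trans
      (add_le_add le_rfl (measureReal_union_le _ _)))))) ?_
  have hr' : (V4.law G).real {ω | ¬ HShape μ b C₀ ε' r ω (0, 0)} ≤ η / 4 := hr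
  have hZ' : (V4.law G).real Z = 0 := by rw [measureReal_def, hZ, ENNReal.toReal_zero]
  linarith

/-- Passage times between far chosen hubs integrated over any event are at most its mass times the
norm. -/
theorem setIntegral_hop_le (hG : ∀ᵐ t ∂G, 0 < t) (hμ : V4.IsLatticeNorm μ)
    (hshape : ∀ ε > 0, ∀ u : Pt, Tendsto (fun r : ℕ =>
      V4.law G {ω | ¬ HShape μ b C₀ ε r ω u}) atTop (𝓝 0))
    {ν : Measure V4.St} [IsProbabilityMeasure ν] (hfst : ν.map Prod.fst = V4.law G) (A : Set V4.St)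
    (v : Pt) {η : ℝ} (hη : 0 < η) :
    ∀ᶠ n : ℕ in atTop, ∫ X in A, hopTime π (n • v) X.1 ∂ν ≤
      (ν.real A * μ (V4.toR v) + η) * n := by
  set Y := hopTime π v
  have hYm : Measurable Y := hπ.measurable_hopTime v
  -- the part of one step above a level
  obtain ⟨M, hM⟩ : ∃ M : ℕ, ∫ ω, max 0 (Y ω - M) ∂V4.law G ≤ η / 3 := by
    have h := tendsto_integral_of_dominated_convergence (μ := V4.law G)
      (F := fun (M : ℕ) ω => max 0 (Y ω - M)) (f := fun _ => 0) (fun ω => |Y ω|)
      (fun M => (measurable_const.max (hYm.sub_const _)).aestronglyMeasurable) (hπ.hop v).abs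
      (fun M => ae_of_all _ fun ω => by
        rw [Real.norm_eq_abs, abs_of_nonneg (le_max_left _ _)]
        exact max_le (abs_nonneg _) (le_trans (by linarith [(M.cast_nonneg : (0 : ℝ) ≤ M)]) (le_abs_self _)))
      (ae_of_all _ fun ω => tendsto_const_nhds.congr' (by
        filter_upwards [eventually_ge_atTop ⌈Y ω⌉₊] with M hM
        rw [max_eq_left]
        linarith [Nat.le_ceil (Y ω), (Nat.cast_le (α := ℝ)).2 hM]))
    simp only [integral_zero] at h
    exact (h.eventually (eventually_le_nhds (by positivity))).exists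
  set c := μ (V4.toR v) + η / 3
  have hc : 0 ≤ c := add_nonneg (hμ.nonneg _) (by positivity)
  have hM0 : (0 : ℝ) ≤ M := Nat.cast_nonneg M
  filter_upwards [((hπ.tendsto_slow hμ hshape v (ε := η / 3) (by positivity)).const_mul (M : ℝ)).eventually
    (eventually_le_nhds (show (M : ℝ) * 0 < η / 3 by rw [mul_zero]; positivity))] with n hn
  set W : Set Cfg := {ω | c * n < hopTime π (n • v) ω}
  have hW : MeasurableSet W := measurableSet_lt measurable_const (hπ.measurable_hopTime _)
  set s : Cfg → ℝ := fun ω => W.indicator (fun _ => (M : ℝ) * n) ω +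
    ∑ i ∈ Finset.range n, max 0 (Y (V4.moveCfg (i • v) ω) - M)
  have hone : ∀ i : ℕ, Integrable (fun ω => max 0 (Y (V4.moveCfg (i • v) ω) - M)) (V4.law G) ∧
      ∫ ω, max 0 (Y (V4.moveCfg (i • v) ω) - M) ∂V4.law G = ∫ ω, max 0 (Y ω - M) ∂V4.law G := by
    intro i
    have hi : Integrable (fun ω => max 0 (Y ω - M)) ((V4.law G).map (V4.moveCfg (i • v))) := by
      rw [V4.map_moveCfg]
      exact (integrable_const (0 : ℝ)).sup ((hπ.hop v).sub (integrable_const _))
    refine ⟨hi.comp_measurable (V4.measurable_moveCfg _), ?_⟩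
    rw [← integral_map (V4.measurable_moveCfg _).aemeasurable hi.aestronglyMeasurable, V4.map_moveCfg]
  have hs : Integrable s (V4.law G) :=
    ((integrable_const _).indicator hW).add (integrable_finsetSum _ fun i _ => (hone i).1)
  have hs0 : ∀ ω, 0 ≤ s ω := fun ω => add_nonneg (Set.indicator_nonneg (fun _ _ => by positivity) ω)
    (Finset.sum_nonneg fun _ _ => le_max_left _ _)
  have hpt : ∀ᵐ ω ∂V4.law G, hopTime π (n • v) ω ≤ c * n + s ω := by
    filter_upwards [ae_nonneg hG] with ω h0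
    by_cases hω : ω ∈ W
    · have h1 := hπ.hopTime_le_sum h0 v n
      have h2 : ∑ i ∈ Finset.range n, Y (V4.moveCfg (i • v) ω) ≤
          ∑ i ∈ Finset.range n, ((M : ℝ) + max 0 (Y (V4.moveCfg (i • v) ω) - M)) :=
        Finset.sum_le_sum fun i _ => by linarith [le_max_right 0 (Y (V4.moveCfg (i • v) ω) - M)]
      rw [Finset.sum_add_distrib, Finset.sum_const, Finset.card_range, nsmul_eq_mul] at h2
      have : 0 ≤ c * n := by positivity
      simp only [s, Set.indicator_of_mem hω]
      linarith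
    · have h1 : hopTime π (n • v) ω ≤ c * n := not_lt.1 hω
      linarith [hs0 ω]
  have hsν : Integrable (fun X : V4.St => s X.1) ν :=
    (hfst.symm ▸ hs : Integrable s (ν.map Prod.fst)).comp_measurable measurable_fst
  have hhν : Integrable (fun X : V4.St => hopTime π (n • v) X.1) ν :=
    (hfst.symm ▸ hπ.hop (n • v) : Integrable (hopTime π (n • v)) (ν.map Prod.fst)).comp_measurable
      measurable_fst
  have hptν : ∀ᵐ X ∂ν, hopTime π (n • v) X.1 ≤ c * n + s X.1 :=
    ae_of_ae_map (f := (Prod.fst : V4.St → Cfg)) measurable_fst.aemeasurable (by rw [hfst]; exact hpt)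
  refine (integral_mono_ae hhν.integrableOn ((integrable_const _).add hsν).integrableOn
    (ae_restrict_of_ae hptν)).trans ?_
  simp only [Pi.add_apply]
  rw [integral_add (integrable_const _) hsν.integrableOn, setIntegral_const, smul_eq_mul]
  have h1 : ∫ X in A, s X.1 ∂ν ≤ ∫ ω, s ω ∂V4.law G := by
    refine (setIntegral_le_integral hsν (ae_of_all _ fun X => hs0 X.1)).trans_eq ?_
    rw [← hfst, integral_map measurable_fst.aemeasurable]
    rw [hfst]
    exact hs.aestronglyMeasurable
  have h2 : ∫ ω, s ω ∂V4.law G ≤ η / 3 * n + η / 3 * n := by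
    simp only [s]
    rw [integral_add ((integrable_const _).indicator hW) (integrable_finsetSum _ fun i _ => (hone i).1),
      integral_indicator_const _ hW, smul_eq_mul, integral_finsetSum _ fun i _ => (hone i).1,
      Finset.sum_congr rfl fun i _ => (hone i).2, Finset.sum_const, Finset.card_range, nsmul_eq_mul]
    have e1 : (V4.law G).real W * ((M : ℝ) * n) ≤ η / 3 * n := by
      rw [← mul_assoc]
      exact mul_le_mul_of_nonneg_right (by linarith) (Nat.cast_nonneg n)
    have e2 := mul_le_mul_of_nonneg_left hM (Nat.cast_nonneg (α := ℝ) n)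
    linarith
  have h3 : ν.real A * (c * n) ≤ (ν.real A * μ (V4.toR v) + η / 3) * n := by
    rw [← mul_assoc]
    refine mul_le_mul_of_nonneg_right ?_ (Nat.cast_nonneg n)
    have := mul_le_mul_of_nonneg_right (measureReal_le_one (μ := ν) (s := A))
      (show 0 ≤ η / 3 by positivity)
    simp only [c]
    linarith
  linarith

end IsPivot

end Vale.Agent.P158.Any
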