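import Vale.Agent.P158.Any.CocycleStable
import Vale.Agent.P158.Any.CocycleMean
import Vale.Agent.P158.V4.CocycleDrift

/-!
P158, arbitrary laws (note 1453, U8): along every lattice direction the invariant cocycle, read at
chosen hubs, grows at most like the largest value of a functional supporting the norm at the diagonal.
-/

namespace Vale.Agent.P158.Any

open MeasureTheory Filter Topology

/-- The maximal lemma of Garsia for an integrable function and a finite invariant measure. -/
theorem garsia_integrable {Ω : Type*} [MeasurableSpace Ω] {T : Ω → Ω} {P : Measure Ω} [IsFiniteMeasure P]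
    (hT : MeasurePreserving T P P) {g : Ω → ℝ} (hg : Measurable g) (hgi : Integrable g P)
    (hpos : ∀ᵐ x ∂P, ∃ n, 0 < V4.mx T g n x) : 0 ≤ ∫ x, g x ∂P := by
  have hm : ∀ k, Measurable (V4.mx T g k) := by
    intro k
    induction k with
    | zero => exact measurable_const
    | succ k ih => exact measurable_const.max (hg.add (ih.comp hT.measurable))
  have hi : ∀ k, Integrable (V4.mx T g k) P := by
    intro k
    induction k with
    | zero => exact integrable_const 0
    | succ k ih =>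
      exact (integrable_const 0).sup (hgi.add ((hT.integrable_comp (hm k).aestronglyMeasurable).2 ih))
  set E : ℕ → Set Ω := fun n => {x | 0 < V4.mx T g n x}
  have hE : ∀ n, MeasurableSet (E n) := fun n => measurableSet_lt measurable_const (hm n)
  have hmono : Monotone E := fun a b hab x hx => lt_of_lt_of_le hx (V4.mx_le_of_le T g hab x)
  have h0 : ∀ n, 0 ≤ ∫ x in E n, g x ∂P := by
    intro n
    have hmap : ∫ x, V4.mx T g n (T x) ∂P = ∫ x, V4.mx T g n x ∂P := by
      have h := integral_map hT.measurable.aemeasurable (μ := P)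
        (f := V4.mx T g n) (by rw [hT.map_eq]; exact (hm n).aestronglyMeasurable)
      rw [hT.map_eq] at h
      exact h.symm
    have hiT : Integrable (fun x => V4.mx T g n (T x)) P :=
      (hT.integrable_comp (hm n).aestronglyMeasurable).2 (hi n)
    have hpt : ∀ x, V4.mx T g n x - V4.mx T g n (T x) ≤ (E n).indicator g x := by
      intro x
      by_cases hx : x ∈ E n
      · rw [Set.indicator_of_mem hx]; exact V4.sub_le_of_pos T g hx
      · rw [Set.indicator_of_notMem hx]
        have h1 : V4.mx T g n x ≤ 0 := not_lt.1 hx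
        linarith [V4.mx_nonneg T g n (T x)]
    rw [← integral_indicator (hE n)]
    refine le_trans (le_of_eq ?_) (integral_mono ((hi n).sub hiT) (hgi.indicator (hE n)) hpt)
    rw [Pi.sub_def, integral_sub (hi n) hiT, hmap, sub_self]
  have h := ge_of_tendsto' (tendsto_setIntegral_of_monotone hE hmono hgi.integrableOn) h0
  have hun : (⋃ n, E n) =ᵐ[P] Set.univ :=
    ae_eq_univ.2 (measure_mono_null (fun x hx hp => hx (Set.mem_iUnion.2 hp)) (ae_iff.1 hpos))
  rwa [setIntegral_congr_set hun, setIntegral_univ] at h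

/-- The event that the cocycle between chosen hubs exceeds the speed `c` along `v` infinitely often. -/
def exceedA (π : Cfg → Pt → Pt) (v : Pt) (c : ℝ) : Set V4.St :=
  {X | ∃ n : ℕ, ∀ r : ℕ, ∃ j : ℕ, r ≤ j ∧ (c + 1 / ((n : ℝ) + 1)) * j < inc π (j • v) X}

variable {G : Measure ℝ} [IsProbabilityMeasure G] {b : ℝ} {π : Cfg → Pt → Pt}

namespace IsPivot

variable (hπ : IsPivot G b π)
include hπ

theorem inc_move (u w : Pt) (X : V4.St) :
    inc π w (V4.moveSt u X) = X.2 (π X.1 u) - X.2 (π X.1 (w + u)) := by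
  simp only [inc, V4.moveSt, hπ.cov_zero, hπ.cov]
  ring

theorem inc_add (u w : Pt) (X : V4.St) :
    inc π (u + w) X = inc π u X + inc π w (V4.moveSt u X) := by
  rw [hπ.inc_move, add_comm u w]
  simp only [inc]
  ring

theorem measurableSet_exceedA (v : Pt) (c : ℝ) : MeasurableSet (exceedA π v c) := by
  have : exceedA π v c = ⋃ n : ℕ, ⋂ r : ℕ, ⋃ j ∈ Set.Ici r,
      {X : V4.St | (c + 1 / ((n : ℝ) + 1)) * j < inc π (j • v) X} := by
    ext X
    simp only [exceedA, Set.mem_ofPred_eq, Set.mem_iUnion, Set.mem_iInter, Set.mem_Ici, exists_prop]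
  rw [this]
  exact MeasurableSet.iUnion fun n => MeasurableSet.iInter fun r =>
    MeasurableSet.biUnion (Set.to_countable _) fun j _ =>
      measurableSet_lt measurable_const (hπ.measurable_inc _)

theorem exceedA_move {X : V4.St} (hX : RegA X) (a v : Pt) {c : ℝ}
    (hsmall : ∀ δ : ℕ, ∀ᶠ j : ℕ in atTop,
      V4.tt X.1 (π X.1 (j • v)) (π X.1 (j • v + a)) ≤ 1 / ((δ : ℝ) + 1) * j)
    (h : X ∈ exceedA π v c) : V4.moveSt a X ∈ exceedA π v c := by
  obtain ⟨n, hn⟩ := h
  refine ⟨n + 1, fun r => ?_⟩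
  set d : ℝ := 1 / ((n : ℝ) + 1) - 1 / ((n : ℝ) + 2)
  have hd : 0 < d := sub_pos.2 (one_div_lt_one_div_of_lt (by positivity) (by linarith))
  obtain ⟨k, hk⟩ := exists_nat_one_div_lt (half_pos hd)
  obtain ⟨j₁, hj₁⟩ := eventually_atTop.1 (hsmall k)
  set C : ℝ := V4.tt X.1 (π X.1 (0, 0)) (π X.1 a)
  obtain ⟨j, hj, hlt⟩ := hn (max r (max j₁ ⌈2 * C / d⌉₊))
  simp only [max_le_iff] at hj
  refine ⟨j, hj.1, ?_⟩
  have h1 : 2 * C ≤ d * j := by
    have := (Nat.le_ceil (2 * C / d)).trans (Nat.cast_le.2 hj.2.2)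
    rw [div_le_iff₀ hd] at this
    linarith
  have h2 := abs_le.1 (hX.abs_sub_le_tt (π X.1 (0, 0)) (π X.1 a))
  have h3 := abs_le.1 (hX.abs_sub_le_tt (π X.1 (j • v)) (π X.1 (j • v + a)))
  have h4 := (hj₁ j hj.2.1).trans (mul_le_mul_of_nonneg_right hk.le (Nat.cast_nonneg j))
  rw [hπ.inc_move]
  simp only [inc] at hlt
  push_cast
  rw [show (n : ℝ) + 1 + 1 = n + 2 by ring]
  have : (c + 1 / ((n : ℝ) + 2)) * j + d * j = (c + 1 / ((n : ℝ) + 1)) * j := by simp only [d]; ring
  linarith

theorem sum_orbit_inc (v : Pt) (c : ℝ) (j : ℕ) (X : V4.St) :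
    ∑ i ∈ Finset.range j, (inc π v ((V4.moveSt v)^[i] X) - c) = inc π (j • v) X - c * j := by
  induction j generalizing X with
  | zero => simp [inc, Prod.mk_zero_zero]
  | succ j ih =>
    rw [Finset.sum_range_succ']
    simp only [Function.iterate_succ_apply, Function.iterate_zero_apply]
    rw [ih, succ_nsmul', hπ.inc_add]
    push_cast
    ring

/-- Almost surely the cocycle between chosen hubs grows along `v` at most at any speed above all
functionals supporting at the diagonal. -/
theorem ae_not_exceedA {μ : ℝ × ℝ → ℝ} {C₀ : ℝ} (hG : ∀ᵐ t ∂G, 0 < t) (hμ : V4.IsLatticeNorm μ)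
    (hshape : ∀ ε > 0, ∀ u : Pt, Tendsto (fun r : ℕ =>
      V4.law G {ω | ¬ HShape μ b C₀ ε r ω u}) atTop (𝓝 0))
    {ν : Measure V4.St} [IsProbabilityMeasure ν]
    (hfst : ν.map Prod.fst = V4.law G) (hreg : ∀ᵐ X ∂ν, RegA X)
    (hmp : ∀ a, MeasurePreserving (V4.moveSt a) ν ν)
    (hdiag : μ (1, 1) ≤ (∫ X, inc π (1, 0) X ∂ν) + ∫ X, inc π (0, 1) X ∂ν) (v : Pt) {c : ℝ}
    (hc : ∀ ρ, V4.Supports μ (1, 1) ρ → ρ.1 * v.1 + ρ.2 * v.2 < c) :
    ∀ᵐ X ∂ν, X ∉ exceedA π v c := by
  set A := exceedA π v c with hA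
  have hAm : MeasurableSet A := hπ.measurableSet_exceedA v c
  have hsmall : ∀ a : Pt, ∀ᵐ X ∂ν, ∀ δ : ℕ, ∀ᶠ j : ℕ in atTop,
      V4.tt X.1 (π X.1 (j • v)) (π X.1 (j • v + a)) ≤ 1 / ((δ : ℝ) + 1) * j := fun a =>
    ae_all_iff.2 fun δ => ae_of_ae_map (f := (Prod.fst : V4.St → Cfg)) measurable_fst.aemeasurable
      (p := fun ω : Cfg => ∀ᶠ j : ℕ in atTop,
        V4.tt ω (π ω (j • v)) (π ω (j • v + a)) ≤ 1 / ((δ : ℝ) + 1) * j) (by
        rw [hfst]; exact hπ.ae_hop_small a v (by positivity))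
  have hinv : ∀ a, V4.moveSt a ⁻¹' A =ᵐ[ν] A := fun a => by
    filter_upwards [hreg, hsmall a, (hmp a).quasiMeasurePreserving.ae (hsmall (-a))] with X hX h1 h2
    refine propext ⟨fun h => ?_, hπ.exceedA_move hX a v h1⟩
    have h' := hπ.exceedA_move (hX.move a) (-a) v h2 h
    rwa [V4.moveSt_moveSt, neg_add_cancel, ← Prod.mk_zero_zero, V4.moveSt_zero hX.zero] at h'
  have hTi : ∀ u : Pt, Integrable (fun X : V4.St => hopTime π u X.1) ν := fun u =>
    (hfst.symm ▸ hπ.hop u : Integrable (hopTime π u) (ν.map Prod.fst)).comp_measurable measurable_fst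
  have hint : ∀ u : Pt, Integrable (inc π u) ν := fun u =>
    Integrable.mono' (hTi u) (hπ.measurable_inc u).aestronglyMeasurable (hreg.mono fun X hX => by
      rw [Real.norm_eq_abs]; exact hX.abs_sub_le_tt _ _)
  -- linearity and the bound on any invariant event
  have lin : ∀ B : Set V4.St, MeasurableSet B → (∀ a, V4.moveSt a ⁻¹' B =ᵐ[ν] B) →
      (∀ u : Pt, ∫ X in B, inc π u X ∂ν =
        u.1 * (∫ X in B, inc π (1, 0) X ∂ν) + u.2 * ∫ X in B, inc π (0, 1) X ∂ν) ∧
      ∀ z : ℝ × ℝ, z.1 * (∫ X in B, inc π (1, 0) X ∂ν) + z.2 * (∫ X in B, inc π (0, 1) X ∂ν) ≤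
        ν.real B * μ z := by
    intro B hB hBinv
    set g : Pt → ℝ := fun u => ∫ X in B, inc π u X ∂ν with hg
    have hadd : ∀ u w, g (u + w) = g u + g w := by
      intro u w
      have hres : MeasurePreserving (V4.moveSt u) (ν.restrict B) (ν.restrict B) := by
        have h := (hmp u).restrict_preimage hB
        rwa [Measure.restrict_congr_set (hBinv u)] at h
      have h1 : ∫ X in B, inc π w (V4.moveSt u X) ∂ν = g w := by
        have h := integral_map hres.measurable.aemeasurable (μ := ν.restrict B)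
          (f := inc π w) (by rw [hres.map_eq]; exact (hint w).integrableOn.aestronglyMeasurable)
        rw [hres.map_eq] at h
        exact h.symm
      have h2 : Integrable (fun X => inc π w (V4.moveSt u X)) (ν.restrict B) :=
        (hres.integrable_comp (hint w).integrableOn.aestronglyMeasurable).2 (hint w).integrableOn
      rw [← h1, hg, ← integral_add (hint u).integrableOn h2]
      exact integral_congr_ae (ae_of_all _ fun X => hπ.inc_add u w X)
    have hlin : ∀ u : Pt, g u = u.1 * g (1, 0) + u.2 * g (0, 1) := by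
      intro u
      let φ : Pt →+ ℝ := AddMonoidHom.mk' g hadd
      have : φ (u.1 • ((1, 0) : Pt) + u.2 • ((0, 1) : Pt)) =
          (u.1 : ℝ) * φ (1, 0) + (u.2 : ℝ) * φ (0, 1) := by
        rw [map_add, map_zsmul, map_zsmul, zsmul_eq_mul, zsmul_eq_mul]
      rwa [show u.1 • ((1, 0) : Pt) + u.2 • ((0, 1) : Pt) = u by ext <;> simp] at this
    refine ⟨hlin, fun z => ?_⟩
    have hlat : ∀ u : Pt, g u ≤ ν.real B * μ (V4.toR u) := by
      intro u
      refine le_of_forall_pos_le_add fun η hη => ?_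
      obtain ⟨n, hn, hn0⟩ := ((hπ.setIntegral_hop_le hG hμ hshape hfst B u hη).and
        (eventually_gt_atTop 0)).exists
      have h1 : g (n • u) ≤ ∫ X in B, hopTime π (n • u) X.1 ∂ν :=
        integral_mono_ae (hint _).integrableOn (hTi _).integrableOn
          (ae_restrict_of_ae (hreg.mono fun X hX => (le_abs_self _).trans (hX.abs_sub_le_tt _ _)))
      have h2 : g (n • u) = n * g u := by
        have := map_nsmul (AddMonoidHom.mk' g hadd) n u
        simpa [nsmul_eq_mul] using this
      exact le_of_mul_le_mul_left (by linarith : (n : ℝ) * g u ≤ n * (ν.real B * μ (V4.toR u) + η))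
        (Nat.cast_pos.2 hn0)
    -- from lattice vectors to all vectors
    refine le_of_tendsto_of_tendsto (f := fun n : ℕ => g (V4.fl ((n : ℝ) * z.1, (n : ℝ) * z.2)) / n)
      (g := fun n : ℕ => ν.real B * (μ z + μ (1, 0) * 2 / n)) (b := atTop) ?_ ?_ ?_
    · refine (((V4.tendsto_floor_div z.1).mul_const (g (1, 0))).add
        ((V4.tendsto_floor_div z.2).mul_const (g (0, 1)))).congr fun n => ?_
      rw [hlin (V4.fl ((n : ℝ) * z.1, (n : ℝ) * z.2))]
      simp only [V4.fl]
      ring
    · have h := (tendsto_const_nhds (x := μ z)).add (tendsto_const_div_atTop_nhds_zero_nat (μ (1, 0) * 2))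
      rw [add_zero] at h
      exact h.const_mul _
    · filter_upwards [eventually_gt_atTop 0] with n hn0
      have hn : (0 : ℝ) < n := Nat.cast_pos.2 hn0
      rw [div_le_iff₀ hn]
      refine (hlat _).trans ?_
      rw [mul_assoc]
      refine mul_le_mul_of_nonneg_left ?_ measureReal_nonneg
      rw [add_mul, div_mul_cancel₀ _ hn.ne']
      have h := hμ.sub_le (V4.toR (V4.fl ((n : ℝ) * z.1, (n : ℝ) * z.2))) ((n : ℝ) • z)
      rw [hμ.homog _ hn.le] at h
      simp only [V4.toR, V4.fl, Prod.smul_fst, Prod.smul_snd, smul_eq_mul] at h ⊢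
      have hfl : ∀ x : ℝ, |((⌊x⌋ : ℤ) : ℝ) - x| ≤ 1 := fun x => by
        rw [abs_le]
        constructor <;> linarith [Int.sub_one_lt_floor x, Int.floor_le x]
      have h2 := mul_le_mul_of_nonneg_left (add_le_add (hfl ((n : ℝ) * z.1)) (hfl ((n : ℝ) * z.2)))
        hμ.axis_pos.le
      linarith
  obtain ⟨hlinA, hboundA⟩ := lin A hAm hinv
  have hboundC := (lin Aᶜ hAm.compl fun a => by rw [Set.preimage_compl]; exact (hinv a).compl).2 (1, 1)
  by_contra hne
  have hp : 0 < ν.real A := by
    refine ENNReal.toReal_pos (fun h0 => hne ?_) (measure_ne_top _ _)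
    exact measure_eq_zero_iff_ae_notMem.1 h0
  set p := ν.real A
  set e₁ := ∫ X in A, inc π (1, 0) X ∂ν
  set e₂ := ∫ X in A, inc π (0, 1) X ∂ν
  have hsupp : V4.Supports μ (1, 1) (e₁ / p, e₂ / p) := by
    have key : ∀ z : ℝ × ℝ, e₁ / p * z.1 + e₂ / p * z.2 ≤ μ z := fun z => by
      rw [div_mul_eq_mul_div, div_mul_eq_mul_div, ← add_div, div_le_iff₀ hp]
      linarith [hboundA z]
    refine ⟨key, le_antisymm (key (1, 1)) ?_⟩
    simp only [mul_one]
    rw [← add_div, le_div_iff₀ hp]
    rw [← integral_add_compl hAm (hint (1, 0)), ← integral_add_compl hAm (hint (0, 1))] at hdiag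
    rw [measureReal_compl hAm, probReal_univ, one_mul, one_mul] at hboundC
    linarith
  have hv := hc _ hsupp
  set f : V4.St → ℝ := fun X => inc π v X - c with hf
  have hres : MeasurePreserving (V4.moveSt v) (ν.restrict A) (ν.restrict A) := by
    have h := (hmp v).restrict_preimage hAm
    rwa [Measure.restrict_congr_set (hinv v)] at h
  have hf0 := garsia_integrable hres (g := f) ((hπ.measurable_inc v).sub_const c)
    ((hint v).integrableOn.sub (integrable_const c)) (by
    filter_upwards [ae_restrict_mem hAm] with X hXA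
    obtain ⟨n, hn⟩ := hXA
    obtain ⟨j, hj, hlt⟩ := hn 1
    refine ⟨j, lt_of_lt_of_le ?_ (V4.sum_le_mx _ f j X j le_rfl)⟩
    rw [hπ.sum_orbit_inc v c j X]
    have : 0 < 1 / ((n : ℝ) + 1) * j := by
      have : 0 < (j : ℝ) := by exact_mod_cast hj
      positivity
    linarith)
  have hf1 : ∫ X in A, f X ∂ν = (v.1 : ℝ) * e₁ + (v.2 : ℝ) * e₂ - c * p := by
    rw [← hlinA v, hf, integral_sub (hint v).integrableOn (integrable_const _), setIntegral_const,
      smul_eq_mul, mul_comm p c]
  rw [hf1] at hf0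
  have h1 : ((v.1 : ℝ) * e₁ + (v.2 : ℝ) * e₂) / p < c := by
    refine lt_of_eq_of_lt ?_ hv
    field_simp
  rw [div_lt_iff₀ hp] at h1
  linarith

end IsPivot

end Vale.Agent.P158.Any
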