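import Vale.Agent.P158.Any.CocycleStable

/-!
P158, arbitrary laws (note 1453, U8): a translation invariant law of configurations with a greedy
cocycle whose mean increments between chosen hubs have the full diagonal drift.
-/

namespace Vale.Agent.P158.Any

open MeasureTheory Filter Topology BoundedContinuousFunction

variable {G : Measure ℝ} [IsProbabilityMeasure G] {b : ℝ} {π : Cfg → Pt → Pt}

omit [IsProbabilityMeasure G] in
theorem depth_trunc_le {ω : Cfg} (hω : ∀ e, 0 < ω e) (m : ℕ) (n : ℤ) (x : Pt) :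
    V4.depth (trunc m ω) n x ≤ V4.depth ω n x := by
  have h0 : ∀ e, 0 ≤ trunc m ω e := fun e => (fb_pos (Nat.cast_nonneg m) (hω e)).le
  have := V4.depth_nonempty n
  refine le_ciInf fun y => (V4.depth_le h0 y.2 x).trans ?_
  exact V4.le_tt fun p => (V4.tt_le h0 p).trans (List.sum_le_sum fun e _ => trunc_le _ _ e)

namespace IsPivot

variable (hπ : IsPivot G b π)
include hπ

theorem measurable_depth (n : ℤ) (x : Pt) : Measurable fun ω => V4.depth ω n (π ω x) :=
  V4.measurable_index (e := fun ω => π ω x) (hπ.fibre x) (F := fun z ω => V4.depth ω n z)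
    fun z => V4.measurable_depth n z

/-- The depth of the chosen hub at the origin is at most a passage time between chosen hubs. -/
theorem depth_le_hopTime {ω : Cfg} (h0 : ∀ e, 0 ≤ ω e) (k : ℕ) :
    V4.depth ω k (π ω (0, 0)) ≤ hopTime π ((k : ℤ), 0) ω := by
  refine V4.depth_le h0 ?_ _
  have h1 := hπ.line ω ((k : ℤ), 0)
  have h2 := hπ.right ω ((k : ℤ), 0)
  simp only at h1 h2
  omega

theorem integrable_depth (hG : ∀ᵐ t ∂G, 0 < t) (k : ℕ) :
    Integrable (fun ω => V4.depth ω (k : ℤ) (π ω (0, 0))) (V4.law G) := by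
  refine Integrable.mono' (hπ.hop ((k : ℤ), 0)) (hπ.measurable_depth _ _).aestronglyMeasurable ?_
  filter_upwards [ae_nonneg hG] with ω h0
  rw [Real.norm_eq_abs, abs_of_nonneg (V4.depth_nonneg h0 _ _)]
  exact hπ.depth_le_hopTime h0 k

theorem depth_shift (hG : ∀ᵐ t ∂G, 0 < t) {a : Pt} (ha : a.1 + a.2 = 1) (k : ℕ) :
    Integrable (fun ω => V4.depth ω ((k : ℤ) + 1) (π ω a)) (V4.law G) ∧
      ∫ ω, V4.depth ω ((k : ℤ) + 1) (π ω a) ∂V4.law G =
        ∫ ω, V4.depth ω (k : ℤ) (π ω (0, 0)) ∂V4.law G := by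
  set f : Cfg → ℝ := fun ω => V4.depth ω (k : ℤ) (π ω (0, 0))
  have hi : Integrable f ((V4.law G).map (V4.moveCfg a)) := by
    rw [V4.map_moveCfg]; exact hπ.integrable_depth hG k
  have he : ∀ᵐ ω ∂V4.law G, f (V4.moveCfg a ω) = V4.depth ω ((k : ℤ) + 1) (π ω a) := by
    filter_upwards [ae_nonneg hG] with ω h0
    simp only [f, V4.depth_move h0, hπ.cov_zero, ha]
  refine ⟨(hi.comp_measurable (V4.measurable_moveCfg a)).congr he, ?_⟩
  rw [← integral_congr_ae he, ← integral_map (V4.measurable_moveCfg a).aemeasurable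
    hi.aestronglyMeasurable, V4.map_moveCfg]

/-- The mean depth of the chosen hub grows at least like half the diagonal constant. -/
theorem eventually_mean_depth (hG : ∀ᵐ t ∂G, 0 < t) (m : ℕ) {η : ℝ} (hη : 0 < η) :
    ∀ᶠ n : ℕ in atTop,
      (V4.mu (lawB G m) (1, 1) / 2 - η) * n - ((m : ℝ) + 1) * ∫ ω, ((π ω (0, 0)).1 : ℝ) ∂V4.law G ≤
        ∫ ω, V4.depth ω (n : ℤ) (π ω (0, 0)) ∂V4.law G := by
  have hm := lawB_range G hG (b := m) (Nat.cast_nonneg m)
  filter_upwards [V4.eventually_depth_mean (G := lawB G m) hm hη] with n hn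
  rw [← map_trunc G m, integral_map (measurable_trunc _).aemeasurable
    (V4.measurable_depth _ _).aestronglyMeasurable] at hn
  have hd := (hπ.integrable_dist (0, 0)).const_mul ((m : ℝ) + 1)
  have hpt : ∀ᵐ ω ∂V4.law G, 0 ≤ V4.depth (trunc m ω) (n : ℤ) (0, 0) ∧
      V4.depth (trunc m ω) (n : ℤ) (0, 0) ≤ V4.depth ω (n : ℤ) (π ω (0, 0)) +
        ((m : ℝ) + 1) * V4.l1 (0, 0) (π ω (0, 0)) := by
    filter_upwards [V4.law_all G measurableSet_Ioi hG] with ω hω
    have h0 : ∀ e, 0 ≤ trunc m ω e := fun e => (fb_pos (Nat.cast_nonneg m) (hω e)).le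
    have hb : ∀ e, trunc m ω e ≤ (m : ℝ) + 1 := fun e => fb_le _ _
    refine ⟨V4.depth_nonneg h0 _ _, ?_⟩
    have e1 := V4.depth_le_add h0 (n : ℤ) (0, 0) (π ω (0, 0))
    have e2 := V4.tt_le_l1 h0 hb (0, 0) (π ω (0, 0))
    have e3 := depth_trunc_le hω m (n : ℤ) (π ω (0, 0))
    linarith
  have h := hn.trans (integral_mono_of_nonneg (hpt.mono fun _ h => h.1)
    ((hπ.integrable_depth hG n).add hd) (hpt.mono fun _ h => h.2))
  simp only [Pi.add_apply] at h
  rw [integral_add (hπ.integrable_depth hG n) hd, integral_const_mul, hπ.integral_dist] at h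
  linarith

/-- The averaged increments telescope. -/
theorem integral_inc_avgLaw (hG : ∀ᵐ t ∂G, 0 < t) {a : Pt} (ha : a.1 + a.2 = 1) (n : ℕ) :
    ∫ X, inc π a X ∂V4.avgLaw G n =
      (∫ ω, V4.depth ω ((n + 1 : ℕ) : ℤ) (π ω (0, 0)) ∂V4.law G) / (n + 1 : ℕ) := by
  set F : ℕ → ℝ := fun k => ∫ ω, V4.depth ω (k : ℤ) (π ω (0, 0)) ∂V4.law G with hF
  have hint : ∀ k : ℕ, Integrable (inc π a) ((V4.law G).map (V4.depthSt ((k : ℤ) + 1))) := fun k => by
    refine (integrable_map_measure (hπ.measurable_inc a).aestronglyMeasurable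
      (V4.measurable_depthSt _).aemeasurable).2 ?_
    refine Integrable.mono' (hπ.hop a)
      ((hπ.measurable_inc a).comp (V4.measurable_depthSt _)).aestronglyMeasurable ?_
    filter_upwards [ae_nonneg hG] with ω h0
    rw [Real.norm_eq_abs]
    exact (regA_depthSt h0 _).abs_sub_le_tt _ _
  have h0 : F 0 = 0 := by
    refine integral_eq_zero_of_ae ?_
    filter_upwards [ae_nonneg hG] with ω h0
    refine le_antisymm ?_ (V4.depth_nonneg h0 _ _)
    refine (V4.depth_le h0 (y := π ω (0, 0)) ?_ _).trans_eq (V4.tt_self h0 _)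
    have := hπ.right ω (0, 0)
    have := hπ.line ω (0, 0)
    simp only [Nat.cast_zero] at *
    omega
  rw [V4.avgLaw, integral_smul_measure, integral_finsetSum_measure fun k _ => hint k,
    ENNReal.toReal_inv, ENNReal.toReal_natCast, smul_eq_mul, div_eq_inv_mul]
  congr 1
  have hk : ∀ k : ℕ, ∫ X, inc π a X ∂(V4.law G).map (V4.depthSt ((k : ℤ) + 1)) = F (k + 1) - F k := by
    intro k
    rw [integral_map (V4.measurable_depthSt _).aemeasurable (hπ.measurable_inc a).aestronglyMeasurable]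
    simp only [hF, Nat.cast_add, Nat.cast_one]
    rw [← (hπ.depth_shift hG ha k).2]
    have hi := hπ.integrable_depth hG (k + 1)
    simp only [Nat.cast_add, Nat.cast_one] at hi
    rw [← integral_sub hi (hπ.depth_shift hG ha k).1]
    exact integral_congr_ae (ae_of_all _ fun ω => by simp [inc, V4.depthSt])
  rw [Finset.sum_congr rfl fun k _ => hk k, Finset.sum_range_sub F, h0, sub_zero]

end IsPivot

theorem avgLaw_regA (hG : ∀ᵐ t ∂G, 0 < t) (n : ℕ) : V4.avgLaw G n {X | RegA X} = 1 := by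
  rw [← prob_compl_eq_zero_iff isClosed_regA.measurableSet,
    V4.avgLaw_apply G n _ isClosed_regA.measurableSet.compl]
  refine mul_eq_zero_of_right _ (Finset.sum_eq_zero fun k _ => ?_)
  exact measure_mono_null (fun ω hω (h : ∀ e, 0 ≤ ω e) => hω (regA_depthSt h _))
    (ae_iff.1 (ae_nonneg hG))

theorem avgLaw_greedy_any (hG : ∀ᵐ t ∂G, 0 < t) (u : Pt) (n : ℕ) :
    V4.avgLaw G n {X | V4.Greedy X u}ᶜ ≤ ((u.1 + u.2).toNat : ENNReal) / (n + 1 : ℕ) := by
  rw [V4.avgLaw_apply G n _ (V4.isClosed_greedy u).measurableSet.compl, ENNReal.div_eq_inv_mul]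
  refine mul_le_mul' le_rfl ((Finset.sum_le_sum (g := fun k => if k < (u.1 + u.2).toNat then 1 else 0)
    fun k _ => ?_).trans ?_)
  · split_ifs with hk
    · exact prob_le_one
    · exact le_of_eq (measure_mono_null (fun ω hω (h : ∀ e, 0 ≤ ω e) =>
        hω (V4.greedy_depthSt h (by omega))) (ae_iff.1 (ae_nonneg hG)))
  · rw [Finset.sum_boole]
    exact Nat.cast_le.2 ((Finset.card_le_card fun k hk =>
      Finset.mem_range.2 (Finset.mem_filter.1 hk).2).trans (Finset.card_range _).le)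

theorem avgLaw_move_any (hG : ∀ᵐ t ∂G, 0 < t) {a : Pt} (ha : a.1 + a.2 = 1) (g : V4.St →ᵇ ℝ) (n : ℕ) :
    |∫ X, g (V4.moveSt a X) ∂V4.avgLaw G n - ∫ X, g X ∂V4.avgLaw G n| ≤ 2 * ‖g‖ / (n + 1 : ℕ) := by
  set F : ℕ → ℝ := fun k => ∫ ω, g (V4.depthSt (k : ℤ) ω) ∂V4.law G with hF
  have hmove : ∀ k : ℕ, ∫ ω, g (V4.moveSt a (V4.depthSt ((k : ℤ) + 1) ω)) ∂V4.law G = F k := by
    intro k
    rw [hF]
    dsimp only
    conv_rhs => rw [← V4.map_moveCfg G a]
    rw [integral_map (μ := V4.law G) (V4.measurable_moveCfg a).aemeasurable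
      (f := fun ω => g (V4.depthSt (k : ℤ) ω))
      (g.continuous.measurable.comp (V4.measurable_depthSt _)).aestronglyMeasurable]
    refine integral_congr_ae ?_
    filter_upwards [ae_nonneg hG] with ω h0
    rw [← V4.moveSt_depthSt h0, ha]
  have h1 := V4.integral_avgLaw G n (g.compContinuous ⟨V4.moveSt a, V4.continuous_moveSt a⟩)
  simp only [BoundedContinuousFunction.compContinuous_apply, ContinuousMap.coe_mk, hmove] at h1
  have h2 : ∀ k : ℕ, ∫ ω, g (V4.depthSt ((k : ℤ) + 1) ω) ∂V4.law G = F (k + 1) := fun k => by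
    simp only [hF, Nat.cast_add, Nat.cast_one]
  rw [h1, V4.integral_avgLaw, ← mul_sub, ← Finset.sum_sub_distrib, div_eq_inv_mul, abs_mul,
    abs_of_nonneg (by positivity)]
  simp only [h2, Finset.sum_range_sub' F]
  refine mul_le_mul_of_nonneg_left ?_ (by positivity)
  have hb' : ∀ k, |F k| ≤ ‖g‖ := fun k => by
    rw [← Real.norm_eq_abs]
    exact (norm_integral_le_of_norm_le_const (ae_of_all _ fun ω => g.norm_coe_le_norm _)).trans_eq
      (by simp)
  refine (abs_sub _ _).trans ?_
  linarith [hb' 0, hb' (n + 1)]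

/-- An invariant law of configurations with a greedy cocycle and full diagonal drift. -/
theorem exists_cocycle_law_any (hG : ∀ᵐ t ∂G, 0 < t) (hπ : IsPivot G b π) :
    ∃ ν : Measure V4.St, IsProbabilityMeasure ν ∧ ν.map Prod.fst = V4.law G ∧
      (∀ᵐ X ∂ν, RegA X ∧ ∀ u, V4.Greedy X u) ∧ (∀ a, MeasurePreserving (V4.moveSt a) ν ν) ∧
      muA G (1, 1) ≤ (∫ X, inc π (1, 0) X ∂ν) + ∫ X, inc π (0, 1) X ∂ν := by
  set P : ℕ → ProbabilityMeasure V4.St := fun n => ⟨V4.avgLaw G n, V4.avgLaw_prob G n⟩ with hP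
  have htight : IsTightMeasureSet {((μ : ProbabilityMeasure V4.St) : Measure V4.St) | μ ∈ Set.range P} := by
    rw [isTightMeasureSet_iff_exists_isCompact_measure_compl_le]
    intro ε hε
    obtain ⟨K, hK, hKs⟩ := exists_box G hG hε.ne'
    refine ⟨K, hK, ?_⟩
    rintro _ ⟨_, ⟨n, rfl⟩, rfl⟩
    change V4.avgLaw G n Kᶜ ≤ ε
    rw [V4.avgLaw_apply G n _ hK.measurableSet.compl]
    refine (mul_le_mul' le_rfl (Finset.sum_le_sum fun k _ => hKs _)).trans ?_
    rw [Finset.sum_const, Finset.card_range, nsmul_eq_mul, ← mul_assoc,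
      ENNReal.inv_mul_cancel (by simp) (ENNReal.natCast_ne_top _), one_mul]
  set U := Ultrafilter.of (atTop : Filter ℕ)
  obtain ⟨ν, -, hν⟩ := (isCompact_closure_of_isTightMeasureSet htight).ultrafilter_le_nhds (U.map P)
    (tendsto_principal.2 (Eventually.of_forall fun n => subset_closure (Set.mem_range_self n)))
  have hlim : Tendsto P U (𝓝 ν) := hν
  have hU : (U : Filter ℕ) ≤ atTop := Ultrafilter.of_le atTop
  have hint : ∀ g : V4.St →ᵇ ℝ,
      Tendsto (fun n => ∫ X, g X ∂V4.avgLaw G n) U (𝓝 (∫ X, g X ∂(ν : Measure V4.St))) :=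
    fun g => ProbabilityMeasure.tendsto_iff_forall_integral_tendsto.1 hlim g
  have hclosed : ∀ F : Set V4.St, IsClosed F → Tendsto (fun n => V4.avgLaw G n F) U (𝓝 1) →
      ∀ᵐ X ∂(ν : Measure V4.St), X ∈ F := by
    intro F hF h1
    have h := ProbabilityMeasure.limsup_measure_closed_le_of_tendsto hlim hF
    simp only [hP, ProbabilityMeasure.coe_mk] at h
    rw [h1.limsup_eq] at h
    refine ae_iff.2 ?_
    change (ν : Measure V4.St) Fᶜ = 0
    rw [prob_compl_eq_zero_iff hF.measurableSet]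
    exact le_antisymm prob_le_one h
  have hreg : ∀ᵐ X ∂(ν : Measure V4.St), RegA X :=
    hclosed {X | RegA X} isClosed_regA (tendsto_const_nhds.congr fun n => (avgLaw_regA hG n).symm)
  have hPr : ∀ n, ∀ᵐ X ∂(P n : Measure V4.St), RegA X := fun n =>
    (prob_compl_eq_zero_iff isClosed_regA.measurableSet).2 (avgLaw_regA hG n)
  have hgr : ∀ᵐ X ∂(ν : Measure V4.St), ∀ u, V4.Greedy X u := by
    refine ae_all_iff.2 fun u => hclosed {X | V4.Greedy X u} (V4.isClosed_greedy u) ?_
    have h0 : Tendsto (fun n => V4.avgLaw G n {X | V4.Greedy X u}ᶜ) atTop (𝓝 0) := by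
      refine tendsto_of_tendsto_of_tendsto_of_le_of_le tendsto_const_nhds ?_ (fun n => zero_le)
        (avgLaw_greedy_any hG u)
      have := ENNReal.Tendsto.const_div (a := ((u.1 + u.2).toNat : ENNReal))
        (ENNReal.tendsto_nat_nhds_top.comp (tendsto_add_atTop_nat 1)) (Or.inr (ENNReal.natCast_ne_top _))
      simpa [Function.comp_def] using this
    have h1 := ENNReal.Tendsto.sub (tendsto_const_nhds (x := (1 : ENNReal))) (h0.mono_left hU)
      (Or.inl ENNReal.one_ne_top)
    rw [tsub_zero] at h1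
    refine h1.congr fun n => ?_
    rw [prob_compl_eq_one_sub (V4.isClosed_greedy u).measurableSet,
      ENNReal.sub_sub_cancel ENNReal.one_ne_top prob_le_one]
  have hfst : (ν : Measure V4.St).map Prod.fst = V4.law G := by
    have h := ProbabilityMeasure.tendsto_map_of_tendsto_of_continuous P ν hlim
      (continuous_fst : Continuous (Prod.fst : V4.St → Cfg))
    have h2 : (fun n => (P n).map (continuous_fst : Continuous (Prod.fst : V4.St → Cfg)).measurable.aemeasurable) =
        fun _ => (⟨V4.law G, inferInstance⟩ : ProbabilityMeasure Cfg) :=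
      funext fun n => Subtype.ext (V4.avgLaw_fst G n)
    rw [h2] at h
    exact congrArg (fun μ : ProbabilityMeasure Cfg => (μ : Measure Cfg))
      (tendsto_nhds_unique h tendsto_const_nhds)
  have hinv : ∀ a : Pt, a.1 + a.2 = 1 →
      MeasurePreserving (V4.moveSt a) (ν : Measure V4.St) ν := by
    intro a ha
    have hm : Measurable (V4.moveSt a) := (V4.continuous_moveSt a).measurable
    have := Measure.isProbabilityMeasure_map (μ := (ν : Measure V4.St)) hm.aemeasurable
    refine ⟨hm, ext_of_forall_integral_eq_of_IsFiniteMeasure fun g => ?_⟩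
    rw [integral_map hm.aemeasurable g.continuous.aestronglyMeasurable]
    refine sub_eq_zero.1 (tendsto_nhds_unique
      ((hint (g.compContinuous ⟨V4.moveSt a, V4.continuous_moveSt a⟩)).sub (hint g)) ?_)
    refine squeeze_zero_norm (fun n => avgLaw_move_any hG ha g n) ?_
    exact ((tendsto_const_div_atTop_nhds_zero_nat (2 * ‖g‖)).comp (tendsto_add_atTop_nat 1)).mono_left hU
  have hadd : ∀ a c : Pt, MeasurePreserving (V4.moveSt a) (ν : Measure V4.St) ν →
      MeasurePreserving (V4.moveSt c) (ν : Measure V4.St) ν →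
      MeasurePreserving (V4.moveSt (a + c)) (ν : Measure V4.St) ν := by
    intro a c ha hc
    have h := ha.comp hc
    rwa [show V4.moveSt a ∘ V4.moveSt c = V4.moveSt (a + c) from
      funext fun X => V4.moveSt_moveSt a c X] at h
  have hzero : MeasurePreserving (V4.moveSt (0, 0)) (ν : Measure V4.St) ν :=
    ⟨(V4.continuous_moveSt _).measurable, by
      exact (Measure.map_congr (g := id) (hreg.mono fun X hX => V4.moveSt_zero hX.zero)).trans
        Measure.map_id⟩
  have hneg : ∀ a : Pt, MeasurePreserving (V4.moveSt a) (ν : Measure V4.St) ν →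
      MeasurePreserving (V4.moveSt (-a)) (ν : Measure V4.St) ν := by
    intro a ha
    refine ⟨(V4.continuous_moveSt _).measurable, ?_⟩
    conv_lhs => rw [← ha.map_eq]
    rw [Measure.map_map (V4.continuous_moveSt _).measurable ha.measurable,
      show V4.moveSt (-a) ∘ V4.moveSt a = V4.moveSt (-a + a) from
        funext fun X => V4.moveSt_moveSt _ _ X,
      neg_add_cancel]
    exact hzero.map_eq
  have hall : ∀ a : Pt, MeasurePreserving (V4.moveSt a) (ν : Measure V4.St) ν := by
    have hline : ∀ e : Pt, e.1 + e.2 = 1 → ∀ k : ℤ,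
        MeasurePreserving (V4.moveSt (k • e)) (ν : Measure V4.St) ν := by
      intro e he k
      induction k with
      | zero => rw [zero_smul, ← Prod.mk_zero_zero]; exact hzero
      | succ k ih => rw [add_smul, one_smul]; exact hadd _ _ ih (hinv e he)
      | pred k ih => rw [sub_smul, one_smul, sub_eq_add_neg]; exact hadd _ _ ih (hneg e (hinv e he))
    intro a
    have := hadd _ _ (hline (1, 0) (by simp) a.1) (hline (0, 1) (by simp) a.2)
    rwa [show a.1 • ((1, 0) : Pt) + a.2 • ((0, 1) : Pt) = a by ext <;> simp] at this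
  refine ⟨ν, inferInstance, hfst, hreg.and hgr, hall, ?_⟩
  have key : ∀ a : Pt, a.1 + a.2 = 1 → ∀ m : ℕ,
      V4.mu (lawB G m) (1, 1) / 2 ≤ ∫ X, inc π a X ∂(ν : Measure V4.St) := by
    intro a ha m
    have hl := tendsto_integral_sub hlim (fun n => V4.avgLaw_fst G n) hfst hPr hreg
      (hπ.fibre (0, 0)) (hπ.fibre a) (hπ.hop a)
    refine le_of_forall_pos_le_add fun η hη => ?_
    rw [← sub_le_iff_le_add]
    set O := ∫ ω, ((π ω (0, 0)).1 : ℝ) ∂V4.law G
    have hη2 : 0 < η / 2 := half_pos hη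
    refine ge_of_tendsto hl ?_
    filter_upwards [hU ((tendsto_add_atTop_nat 1).eventually
      ((hπ.eventually_mean_depth hG m hη2).and ((tendsto_const_div_atTop_nhds_zero_nat
        (((m : ℝ) + 1) * O)).eventually (eventually_le_nhds hη2))))] with n hn
    obtain ⟨hn1, hn2⟩ := hn
    refine le_trans ?_ (hπ.integral_inc_avgLaw hG ha n).ge
    have hn0 : (0 : ℝ) < ((n + 1 : ℕ) : ℝ) := by positivity
    rw [div_le_iff₀ hn0] at hn2
    rw [le_div_iff₀ hn0]
    linarith
  refine ciSup_le fun m => ?_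
  linarith [key (1, 0) (by simp) m, key (0, 1) (by simp) m]

end Vale.Agent.P158.Any
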