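import Vale.Agent.P158.Any.Pivot
import Vale.Agent.P158.V4.CocycleLimit

/-!
P158, arbitrary laws (note 1453, U8): states with nonnegative weights, compact sets carrying the states
of passage times, and convergence of increments between random sites when the configuration keeps
its law.
-/

namespace Vale.Agent.P158.Any

open MeasureTheory Filter Topology BoundedContinuousFunction

/-- Nonnegative weights and a normalised function below every edge weight. -/
structure RegA (X : V4.St) : Prop where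
  nonneg : ∀ e, 0 ≤ X.1 e
  zero : X.2 (0, 0) = 0
  step : ∀ u z, grid.Adj u z → X.2 u ≤ X.1 s(u, z) + X.2 z

namespace RegA

variable {X : V4.St} (h : RegA X)
include h

theorem sub_le_wt : ∀ {u z : Pt} (p : grid.Walk u z), X.2 u - X.2 z ≤ V4.wt X.1 p
  | _, _, .nil => by simp [V4.wt]
  | _, _, .cons hadj p => by
    have := sub_le_wt p
    have := h.step _ _ hadj
    simp only [V4.wt, SimpleGraph.Walk.edges_cons, List.map_cons, List.sum_cons] at *
    linarith

theorem sub_le_tt (u z : Pt) : X.2 u - X.2 z ≤ V4.tt X.1 u z := V4.le_tt fun p => h.sub_le_wt p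

theorem abs_sub_le_tt (u z : Pt) : |X.2 u - X.2 z| ≤ V4.tt X.1 u z := by
  refine abs_sub_le_iff.2 ⟨h.sub_le_tt u z, ?_⟩
  rw [V4.tt_comm h.nonneg]
  exact h.sub_le_tt z u

theorem move (a : Pt) : RegA (V4.moveSt a X) := by
  refine ⟨fun e => h.nonneg _, by simp [V4.moveSt, show ((0, 0) : Pt) = 0 from rfl], fun u z huz => ?_⟩
  have := h.step _ _ ((V4.shift a).map_adj huz)
  simp only [V4.shift, RelHom.coeFn_mk] at this
  simp only [V4.moveSt, V4.moveCfg_edge]
  linarith

end RegA

theorem regA_depthSt {ω : Cfg} (h0 : ∀ e, 0 ≤ ω e) (s : ℤ) : RegA (V4.depthSt s ω) :=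
  ⟨h0, by simp [V4.depthSt], fun u z h => by
    have := V4.depth_step h0 s h
    simp only [V4.depthSt]
    linarith⟩

theorem isClosed_regA : IsClosed {X : V4.St | RegA X} := by
  have h : {X : V4.St | RegA X} = ((⋂ e, {X : V4.St | 0 ≤ X.1 e}) ∩ {X : V4.St | X.2 (0, 0) = 0}) ∩
      ⋂ u, ⋂ z, ⋂ (_ : grid.Adj u z), {X : V4.St | X.2 u ≤ X.1 s(u, z) + X.2 z} := by
    ext X
    simp only [Set.mem_ofPred_eq, Set.mem_inter_iff, Set.mem_iInter]
    exact ⟨fun h => ⟨⟨h.nonneg, h.zero⟩, h.step⟩, fun h => ⟨h.1.1, h.1.2, h.2⟩⟩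
  rw [h]
  exact ((isClosed_iInter fun e => isClosed_le continuous_const (by fun_prop)).inter
    (isClosed_eq (by fun_prop) continuous_const)).inter
    (isClosed_iInter fun u => isClosed_iInter fun z => isClosed_iInter fun _ =>
      isClosed_le (by fun_prop) (by fun_prop))

variable (G : Measure ℝ) [IsProbabilityMeasure G]

/-- A finite measurable quantity is rarely large. -/
theorem exists_tail {Y : Cfg → ℝ} (hY : Measurable Y) {ε : ENNReal} (hε : ε ≠ 0) :
    ∃ M : ℝ, V4.law G {ω | M < Y ω} ≤ ε := by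
  have h := tendsto_measure_iInter_atTop (μ := V4.law G) (s := fun M : ℝ => {ω | M < Y ω})
    (fun M => (measurableSet_lt measurable_const hY).nullMeasurableSet)
    (fun M N hMN ω (hω : N < Y ω) => show M < Y ω from hMN.trans_lt hω) ⟨0, measure_ne_top _ _⟩
  rw [show ⋂ M : ℝ, {ω | M < Y ω} = ∅ from
    Set.eq_empty_of_forall_notMem fun ω hω => lt_irrefl (Y ω) (Set.mem_iInter.1 hω (Y ω)),
    measure_empty] at h
  exact ((h.eventually (eventually_le_nhds (pos_iff_ne_zero.2 hε))).exists)

/-- A compact set of states missed with small probability by all states of passage times. -/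
theorem exists_box (hG : ∀ᵐ t ∂G, 0 < t) {ε : ENNReal} (hε : ε ≠ 0) :
    ∃ K : Set V4.St, IsCompact K ∧ ∀ s : ℤ, V4.law G (V4.depthSt s ⁻¹' Kᶜ) ≤ ε := by
  obtain ⟨δ, hδ, hsum⟩ := ENNReal.exists_pos_sum_of_countable' hε (Sym2 Pt ⊕ Pt)
  set Y : Sym2 Pt ⊕ Pt → Cfg → ℝ :=
    Sum.elim (fun e ω => ω e) (fun x ω => V4.tt ω (0, 0) x) with hYdef
  have hY : ∀ i, Measurable (Y i) := by
    rintro (e | x)
    · exact measurable_pi_apply e
    · exact V4.measurable_tt _ _
  choose M hM using fun i => exists_tail G (hY i) (hδ i).ne'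
  refine ⟨(Set.univ.pi fun e : Sym2 Pt => Set.Icc 0 (M (.inl e))) ×ˢ
    Set.univ.pi fun x : Pt => Set.Icc (-M (.inr x)) (M (.inr x)),
    (isCompact_univ_pi fun _ => isCompact_Icc).prod (isCompact_univ_pi fun _ => isCompact_Icc),
    fun s => ?_⟩
  have hnull : V4.law G {ω | ¬ ∀ e, 0 ≤ ω e} = 0 := ae_iff.1 (ae_nonneg hG)
  refine (measure_mono (t := {ω | ¬ ∀ e, 0 ≤ ω e} ∪ ⋃ i, {ω | M i < Y i ω}) ?_).trans
    ((measure_union_le _ _).trans ?_)
  · intro ω hω
    by_contra hno
    simp only [Set.mem_union, Set.mem_ofPred_eq, Set.mem_iUnion, not_or, not_not, not_exists, not_lt]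
      at hno
    obtain ⟨h0, hi⟩ := hno
    refine hω ⟨fun e _ => ⟨h0 e, hi (.inl e)⟩, fun x _ => ?_⟩
    have h1 := (regA_depthSt h0 s).abs_sub_le_tt x (0, 0)
    rw [(regA_depthSt h0 s).zero, sub_zero, V4.tt_comm (ω := (V4.depthSt s ω).1) h0] at h1
    exact abs_le.1 (h1.trans (hi (.inr x)))
  · rw [hnull, zero_add]
    exact (measure_iUnion_le _).trans ((ENNReal.tsum_le_tsum hM).trans hsum.le)

variable {G}

/-- Bounded continuous functions of the state restricted to an event of the configuration: their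
integrals converge when the configuration keeps its law. -/
theorem tendsto_integral_event {P : ℕ → ProbabilityMeasure V4.St} {ν : ProbabilityMeasure V4.St}
    {U : Filter ℕ} (hlim : Tendsto P U (𝓝 ν)) (hP : ∀ n, (P n : Measure V4.St).map Prod.fst = V4.law G)
    (hν : (ν : Measure V4.St).map Prod.fst = V4.law G) {E : Set Cfg} (hE : MeasurableSet E)
    (g : V4.St →ᵇ ℝ) :
    Tendsto (fun n => ∫ X, E.indicator (fun _ => (1 : ℝ)) X.1 * g X ∂(P n : Measure V4.St)) U
      (𝓝 (∫ X, E.indicator (fun _ => (1 : ℝ)) X.1 * g X ∂(ν : Measure V4.St))) := by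
  refine Metric.tendsto_nhds.2 fun ε hε => ?_
  set δ := ε / (4 * (‖g‖ + 1)) with hδdef
  have hδ : 0 < δ := by positivity
  have hi : Integrable (E.indicator fun _ => (1 : ℝ)) (V4.law G) := (integrable_const _).indicator hE
  obtain ⟨φ, hφ, hφi⟩ := hi.exists_boundedContinuous_integral_sub_le hδ
  set ψ : V4.St →ᵇ ℝ := φ.compContinuous ⟨Prod.fst, continuous_fst⟩ * g
  have key : ∀ μ : Measure V4.St, IsProbabilityMeasure μ → μ.map Prod.fst = V4.law G →
      |∫ X, E.indicator (fun _ => (1 : ℝ)) X.1 * g X ∂μ - ∫ X, ψ X ∂μ| ≤ ‖g‖ * δ := by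
    intro μ _ hμ
    have hd : Integrable (fun ω => E.indicator (fun _ => (1 : ℝ)) ω - φ ω) (V4.law G) := hi.sub hφi
    have hd' : Integrable (fun X : V4.St => |E.indicator (fun _ => (1 : ℝ)) X.1 - φ X.1|) μ := by
      have hm : Integrable (fun ω => |E.indicator (fun _ => (1 : ℝ)) ω - φ ω|) (μ.map Prod.fst) := by
        rw [hμ]; exact hd.abs
      exact hm.comp_measurable measurable_fst
    have hi' : Integrable (fun X : V4.St => E.indicator (fun _ => (1 : ℝ)) X.1 * g X) μ := by
      refine Integrable.of_bound (((measurable_const.indicator hE).comp measurable_fst).mul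
        g.continuous.measurable).aestronglyMeasurable ‖g‖ (ae_of_all _ fun X => ?_)
      rw [norm_mul]
      refine (mul_le_of_le_one_left (norm_nonneg _) ?_).trans (g.norm_coe_le_norm X)
      rw [Real.norm_eq_abs, Set.indicator]
      split_ifs <;> simp
    rw [← integral_sub hi' (ψ.integrable _)]
    refine (abs_integral_le_integral_abs).trans ((integral_mono_of_nonneg
      (ae_of_all _ fun X => abs_nonneg _) (hd'.const_mul ‖g‖) (ae_of_all _ fun X => ?_)).trans ?_)
    · show |E.indicator (fun _ => (1 : ℝ)) X.1 * g X - φ X.1 * g X| ≤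
        ‖g‖ * |E.indicator (fun _ => (1 : ℝ)) X.1 - φ X.1|
      rw [← sub_mul, abs_mul, mul_comm ‖g‖]
      exact mul_le_mul_of_nonneg_left (g.norm_coe_le_norm X) (abs_nonneg _)
    · rw [integral_const_mul]
      refine mul_le_mul_of_nonneg_left (le_of_eq_of_le ?_ hφ) (norm_nonneg _)
      have hm : AEStronglyMeasurable (fun ω => |E.indicator (fun _ => (1 : ℝ)) ω - φ ω|)
          (μ.map Prod.fst) := by
        rw [hμ]; exact hd.abs.aestronglyMeasurable
      calc ∫ X, |E.indicator (fun _ => (1 : ℝ)) X.1 - φ X.1| ∂μ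
          = ∫ ω, |E.indicator (fun _ => (1 : ℝ)) ω - φ ω| ∂μ.map Prod.fst :=
            (integral_map measurable_fst.aemeasurable hm).symm
        _ = ∫ ω, ‖E.indicator (fun _ => (1 : ℝ)) ω - φ ω‖ ∂V4.law G := by
            rw [hμ]
            simp only [Real.norm_eq_abs]
  have hgδ : ‖g‖ * δ ≤ ε / 4 := by
    rw [hδdef, mul_div_assoc', div_le_iff₀ (by positivity)]
    linarith
  filter_upwards [Metric.tendsto_nhds.1
    (ProbabilityMeasure.tendsto_iff_forall_integral_tendsto.1 hlim ψ) (ε / 4) (by positivity)] with n hn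
  rw [Real.dist_eq] at hn ⊢
  have h1 := abs_le.1 (key (P n : Measure V4.St) inferInstance (hP n))
  have h2 := abs_le.1 (key (ν : Measure V4.St) inferInstance hν)
  have h3 := abs_lt.1 hn
  rw [abs_lt]
  constructor <;> linarith

/-- The increment between two random sites converges in mean, if the passage time between them has a
finite mean. -/
theorem tendsto_integral_sub {P : ℕ → ProbabilityMeasure V4.St} {ν : ProbabilityMeasure V4.St}
    {U : Filter ℕ} (hlim : Tendsto P U (𝓝 ν)) (hP : ∀ n, (P n : Measure V4.St).map Prod.fst = V4.law G)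
    (hν : (ν : Measure V4.St).map Prod.fst = V4.law G)
    (hPr : ∀ n, ∀ᵐ X ∂(P n : Measure V4.St), RegA X) (hνr : ∀ᵐ X ∂(ν : Measure V4.St), RegA X)
    {p q : Cfg → Pt} (hp : ∀ z, MeasurableSet {ω | p ω = z}) (hq : ∀ z, MeasurableSet {ω | q ω = z})
    (hi : Integrable (fun ω => V4.tt ω (p ω) (q ω)) (V4.law G)) :
    Tendsto (fun n => ∫ X, X.2 (p X.1) - X.2 (q X.1) ∂(P n : Measure V4.St)) U
      (𝓝 (∫ X, X.2 (p X.1) - X.2 (q X.1) ∂(ν : Measure V4.St))) := by
  set T : Cfg → ℝ := fun ω => V4.tt ω (p ω) (q ω)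
  have hTm : Measurable T :=
    V4.measurable_index (e := p) hp (F := fun z ω => V4.tt ω z (q ω)) fun z =>
      V4.measurable_index (e := q) hq (F := fun w ω => V4.tt ω z w) fun w => V4.measurable_tt z w
  set f : V4.St → ℝ := fun X => X.2 (p X.1) - X.2 (q X.1)
  have hfm : Measurable f := by
    have key : ∀ {r : Cfg → Pt}, (∀ z, MeasurableSet {ω | r ω = z}) →
        Measurable fun X : V4.St => X.2 (r X.1) := fun {r} hr =>
      V4.measurable_index (e := fun X : V4.St => r X.1) (fun z => measurable_fst (hr z))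
        (F := fun z X => X.2 z) fun z => (measurable_pi_apply z).comp measurable_snd
    exact (key hp).sub (key hq)
  -- finitely many values of the sites and a level
  set sq : ℕ → Finset Pt := fun r => Finset.Icc (-(r : ℤ)) r ×ˢ Finset.Icc (-(r : ℤ)) r
  have hmem : ∀ {u : Cfg → Pt}, (∀ z, MeasurableSet {ω | u ω = z}) → ∀ F : Finset Pt,
      MeasurableSet {ω | u ω ∈ F} := fun {u} hu F => by
    have : {ω | u ω ∈ F} = ⋃ z ∈ F, {ω | u ω = z} := by ext ω; simp
    rw [this]
    exact Finset.measurableSet_biUnion _ fun z _ => hu z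
  set good : ℕ → Set Cfg := fun r => {ω | p ω ∈ sq r ∧ q ω ∈ sq r ∧ T ω ≤ r}
  have hgood : ∀ r, MeasurableSet (good r) := fun r =>
    (hmem hp (sq r)).inter ((hmem hq (sq r)).inter (measurableSet_le hTm measurable_const))
  set g : ℕ → Pt × Pt → (V4.St →ᵇ ℝ) := fun r a => BoundedContinuousFunction.ofNormedAddCommGroup
    (fun X : V4.St => max (-(r : ℝ)) (min (r : ℝ) (X.2 a.1 - X.2 a.2))) (by fun_prop) (r : ℝ)
    fun X => by
      have h : (0 : ℝ) ≤ r := Nat.cast_nonneg r
      rw [Real.norm_eq_abs, abs_le]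
      exact ⟨le_max_left _ _, max_le (by linarith) (min_le_left _ _)⟩
  set E : ℕ → Pt × Pt → Set Cfg := fun r a => {ω | p ω = a.1} ∩ {ω | q ω = a.2} ∩ {ω | T ω ≤ r}
  have hE : ∀ r a, MeasurableSet (E r a) := fun r a =>
    ((hp _).inter (hq _)).inter (measurableSet_le hTm measurable_const)
  set S : ℕ → V4.St → ℝ := fun r X =>
    ∑ a ∈ sq r ×ˢ sq r, (E r a).indicator (fun _ => (1 : ℝ)) X.1 * g r a X
  set err : ℕ → ℝ := fun r => ∫ ω, (good r)ᶜ.indicator T ω ∂V4.law G
  have hpt : ∀ r, ∀ X : V4.St, RegA X → |f X - S r X| ≤ (good r)ᶜ.indicator T X.1 := by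
    intro r X hX
    have hb : |f X| ≤ T X.1 := hX.abs_sub_le_tt _ _
    by_cases hX1 : X.1 ∈ good r
    · obtain ⟨h1, h2, h3⟩ := hX1
      rw [Set.indicator_of_notMem (show X.1 ∉ (good r)ᶜ from not_not.2 ⟨h1, h2, h3⟩)]
      have hS : S r X = g r (p X.1, q X.1) X := by
        refine (Finset.sum_eq_single (p X.1, q X.1) (fun a _ ha => ?_) fun hno => absurd
          (Finset.mem_product.2 ⟨h1, h2⟩) hno).trans ?_
        · rw [Set.indicator_of_notMem, zero_mul]
          exact fun h => ha (Prod.ext h.1.1.symm h.1.2.symm)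
        · rw [Set.indicator_of_mem (show X.1 ∈ E r (p X.1, q X.1) from ⟨⟨rfl, rfl⟩, h3⟩), one_mul]
      have h4 := abs_le.1 (hb.trans h3)
      rw [hS]
      show |f X - max (-(r : ℝ)) (min (r : ℝ) (f X))| ≤ 0
      rw [min_eq_right h4.2, max_eq_right h4.1, sub_self, abs_zero]
    · rw [Set.indicator_of_mem (show X.1 ∈ (good r)ᶜ from hX1)]
      have hS : S r X = 0 := Finset.sum_eq_zero fun a ha => by
        rw [Set.indicator_of_notMem, zero_mul]
        rintro ⟨⟨h1, h2⟩, h3⟩
        obtain ⟨ha1, ha2⟩ := Finset.mem_product.1 ha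
        exact hX1 ⟨h1 ▸ ha1, h2 ▸ ha2, h3⟩
      rwa [hS, sub_zero]
  have herr : Tendsto err atTop (𝓝 0) := by
    have h := tendsto_integral_of_dominated_convergence (μ := V4.law G) (F := fun r => (good r)ᶜ.indicator T)
      (f := fun _ => 0) (fun ω => |T ω|) (fun r => (hTm.indicator (hgood r).compl).aestronglyMeasurable)
      hi.abs (fun r => ae_of_all _ fun ω => by
        rw [Real.norm_eq_abs]
        by_cases h : ω ∈ (good r)ᶜ
        · rw [Set.indicator_of_mem h]
        · rw [Set.indicator_of_notMem h, abs_zero]; exact abs_nonneg _)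
      (ae_of_all _ fun ω => ?_)
    · simpa using h
    refine tendsto_const_nhds.congr' ?_
    filter_upwards [eventually_ge_atTop (max (max (V4.l1 (0, 0) (p ω)) (V4.l1 (0, 0) (q ω))) ⌈T ω⌉₊)]
      with r hr
    rw [Set.indicator_of_notMem]
    simp only [max_le_iff] at hr
    refine not_not.2 ⟨?_, ?_, (Nat.le_ceil _).trans (Nat.cast_le.2 hr.2)⟩
    all_goals
      simp only [V4.l1] at hr
      simp only [sq, Finset.mem_product, Finset.mem_Icc]
      omega
  have key : ∀ r, ∀ μ : Measure V4.St, IsProbabilityMeasure μ → μ.map Prod.fst = V4.law G →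
      (∀ᵐ X ∂μ, RegA X) → |∫ X, f X ∂μ - ∫ X, S r X ∂μ| ≤ err r := by
    intro r μ _ hμ hμr
    have hTi : ∀ {u : Cfg → ℝ}, Integrable u (V4.law G) → Integrable (fun X : V4.St => u X.1) μ :=
      fun {u} hu => (hμ.symm ▸ hu : Integrable u (μ.map Prod.fst)).comp_measurable measurable_fst
    have hfi : Integrable f μ :=
      Integrable.mono' (hTi hi) hfm.aestronglyMeasurable (hμr.mono fun X hX => by
        rw [Real.norm_eq_abs]; exact hX.abs_sub_le_tt _ _)
    have hSi : Integrable (S r) μ := integrable_finsetSum _ fun a _ =>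
      Integrable.of_bound (((measurable_const.indicator (hE r a)).comp measurable_fst).mul
        (g r a).continuous.measurable).aestronglyMeasurable ‖g r a‖ (ae_of_all _ fun X => by
          rw [norm_mul]
          refine (mul_le_of_le_one_left (norm_nonneg _) ?_).trans ((g r a).norm_coe_le_norm X)
          rw [Real.norm_eq_abs, Set.indicator]
          split_ifs <;> simp)
    rw [← integral_sub hfi hSi]
    refine abs_integral_le_integral_abs.trans ((integral_mono_of_nonneg
      (ae_of_all _ fun X => abs_nonneg _) (hTi (hi.indicator (hgood r).compl))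
      (hμr.mono fun X hX => hpt r X hX)).trans_eq ?_)
    simp only [err]
    rw [← hμ]
    exact (integral_map measurable_fst.aemeasurable
      (hTm.indicator (hgood r).compl).aestronglyMeasurable).symm
  refine Metric.tendsto_nhds.2 fun ε hε => ?_
  obtain ⟨r, hr⟩ := (herr.eventually (eventually_le_nhds (show (0 : ℝ) < ε / 4 by positivity))).exists
  have hS : Tendsto (fun n => ∫ X, S r X ∂(P n : Measure V4.St)) U
      (𝓝 (∫ X, S r X ∂(ν : Measure V4.St))) := by
    have hint : ∀ μ : Measure V4.St, IsProbabilityMeasure μ → ∫ X, S r X ∂μ =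
        ∑ a ∈ sq r ×ˢ sq r, ∫ X, (E r a).indicator (fun _ => (1 : ℝ)) X.1 * g r a X ∂μ :=
      fun μ _ => integral_finsetSum _ fun a _ =>
        Integrable.of_bound (((measurable_const.indicator (hE r a)).comp measurable_fst).mul
          (g r a).continuous.measurable).aestronglyMeasurable ‖g r a‖ (ae_of_all _ fun X => by
            rw [norm_mul]
            refine (mul_le_of_le_one_left (norm_nonneg _) ?_).trans ((g r a).norm_coe_le_norm X)
            rw [Real.norm_eq_abs, Set.indicator]
            split_ifs <;> simp)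
    rw [hint _ inferInstance]
    exact (tendsto_finsetSum _ fun a _ => tendsto_integral_event hlim hP hν (hE r a) (g r a)).congr
      fun n => (hint _ inferInstance).symm
  filter_upwards [Metric.tendsto_nhds.1 hS (ε / 4) (by positivity)] with n hn
  rw [Real.dist_eq] at hn ⊢
  have h1 := abs_le.1 ((key r _ inferInstance (hP n) (hPr n)).trans hr)
  have h2 := abs_le.1 ((key r _ inferInstance hν hνr).trans hr)
  have h3 := abs_lt.1 hn
  rw [abs_lt]
  constructor <;> linarith

end Vale.Agent.P158.Any
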