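import Vale.Agent.P158.V4.Norm
import Vale.Agent.P158.V4.Faces

/-!
P158: a lattice norm without facets between corners is neither a diamond nor a square.
-/

namespace Vale.Agent.P158.V4.IsLatticeNorm

variable {μ : ℝ × ℝ → ℝ}

theorem flip' (h : IsLatticeNorm μ) (x y : ℝ) : μ (x, -y) = μ (x, y) := by
  rw [h.swap (-y) x, h.flip, h.swap]

theorem ge_axis (h : IsLatticeNorm μ) (z : ℝ × ℝ) : μ (1, 0) * |z.1| ≤ μ z := by
  obtain ⟨x, y⟩ := z
  have h1 := h.tri (x, y) (x, -y)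
  rw [Prod.mk_add_mk, add_neg_cancel, h.flip', h.horizontal, show x + x = 2 * x by ring, abs_mul,
    abs_two] at h1
  dsimp only
  linarith

theorem ge_axis' (h : IsLatticeNorm μ) (z : ℝ × ℝ) : μ (1, 0) * |z.2| ≤ μ z := by
  have := h.ge_axis z.swap
  rwa [show μ z.swap = μ z from h.swap z.1 z.2] at this

/-- The unit ball is not a diamond. -/
theorem diag_ne_two_axis_of_noFacet (h : IsLatticeNorm μ) (hnf : NoFacet μ) :
    μ (1, 1) ≠ 2 * μ (1, 0) := by
  intro he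
  set m := μ (1, 0) with hm
  have hm0 : 0 < m := h.axis_pos
  have hpos : ∀ x y : ℝ, 0 ≤ x → 0 ≤ y → m * (x + y) ≤ μ (x, y) := by
    intro x y hx hy
    have hd : ∀ a : ℝ, 0 ≤ a → μ (a, a) = a * (2 * m) := fun a ha => by
      have := h.scale a 1 1 ha
      rwa [mul_one, he] at this
    rcases le_total y x with hyx | hyx
    · have h1 := h.tri (x, y) (0, x - y)
      rw [h.vertical, abs_of_nonneg (sub_nonneg.2 hyx), Prod.mk_add_mk, add_zero, add_sub_cancel,
        hd x hx] at h1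
      linarith
    · have h1 := h.tri (x, y) (y - x, 0)
      rw [h.horizontal, abs_of_nonneg (sub_nonneg.2 hyx), Prod.mk_add_mk, add_zero, add_sub_cancel,
        hd y hy] at h1
      linarith
  have habs : ∀ z : ℝ × ℝ, m * (|z.1| + |z.2|) ≤ μ z := by
    rintro ⟨x, y⟩
    refine (hpos _ _ (abs_nonneg x) (abs_nonneg y)).trans_eq ?_
    rcases abs_choice x with e | e <;> rcases abs_choice y with e' | e' <;>
      simp [e, e', h.flip, h.flip']
  have sup : ∀ s t : ℝ, |s| = m → |t| = m → ∀ z : ℝ × ℝ, s * z.1 + t * z.2 ≤ μ z := fun s t hs ht z => by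
    refine le_trans ?_ (habs z)
    have h1 := le_abs_self (s * z.1)
    have h2 := le_abs_self (t * z.2)
    rw [abs_mul, hs] at h1
    rw [abs_mul, ht] at h2
    linarith
  have hmm : |m| = m := abs_of_pos hm0
  have hmn : |(-m)| = m := by rw [abs_neg, hmm]
  have hne : m ≠ -m := fun e => by linarith
  have h01 : μ (0, 1) = m := h.swap 1 0
  refine hnf (1, 0) (0, 1) (m, m) (by simp) ⟨sup _ _ hmm hmm, by simp [hm]⟩
    ⟨sup _ _ hmm hmm, by simp [h01]⟩
    ⟨(m, m), (m, -m), ⟨sup _ _ hmm hmm, by simp [hm]⟩, ⟨sup _ _ hmm hmn, by simp [hm]⟩, fun e => hne (congrArg Prod.snd e)⟩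
    ⟨(m, m), (-m, m), ⟨sup _ _ hmm hmm, by simp [h01]⟩, ⟨sup _ _ hmn hmm, by simp [h01]⟩, fun e => hne (congrArg Prod.fst e)⟩

/-- The unit ball is not a square. -/
theorem diag_ne_axis_of_noFacet (h : IsLatticeNorm μ) (hnf : NoFacet μ) :
    μ (1, 1) ≠ μ (1, 0) := by
  intro he
  set m := μ (1, 0) with hm
  have hm0 : 0 < m := h.axis_pos
  have s1 : ∀ s : ℝ, |s| = m → ∀ z : ℝ × ℝ, s * z.1 + 0 * z.2 ≤ μ z := fun s hs z => by
    have h1 := h.ge_axis z
    have h2 := le_abs_self (s * z.1)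
    rw [abs_mul, hs] at h2
    linarith
  have s2 : ∀ s : ℝ, |s| = m → ∀ z : ℝ × ℝ, 0 * z.1 + s * z.2 ≤ μ z := fun s hs z => by
    have h1 := h.ge_axis' z
    have h2 := le_abs_self (s * z.2)
    rw [abs_mul, hs] at h2
    linarith
  have hmm : |m| = m := abs_of_pos hm0
  have hmn : |(-m)| = m := by rw [abs_neg, hmm]
  have hflip : μ (1, -1) = m := by rw [h.flip', he]
  refine hnf (1, 1) (1, -1) (m, 0) (by norm_num) ⟨s1 _ hmm, by simp [he]⟩ ⟨s1 _ hmm, by simp [hflip]⟩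
    ⟨(m, 0), (0, m), ⟨s1 _ hmm, by simp [he]⟩, ⟨s2 _ hmm, by simp [he]⟩, fun e => hm0.ne' (congrArg Prod.fst e)⟩
    ⟨(m, 0), (0, -m), ⟨s1 _ hmm, by simp [hflip]⟩, ⟨s2 _ hmn, by simp [hflip]⟩, fun e => hm0.ne' (congrArg Prod.fst e)⟩

end Vale.Agent.P158.V4.IsLatticeNorm
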