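import Vale.Agent.P158.V4.Ergodic

/-!
P158, arbitrary laws (note 1452, U5): `V4.tendsto_exceed` for an integrable, unbounded function (the
proof of `V4.Ergodic`, with the slack at each point taken from the value there).
-/

namespace Vale.Agent.P158.Any

open MeasureTheory Filter Topology Vale.Agent.P158.V4

variable {Ω : Type*} (T : Ω → Ω) (f : Ω → ℝ)

theorem preimage_exceed (c : ℝ) : T ⁻¹' exceed T f c = exceed T f c := by
  have slack : ∀ (B : ℝ) (n r : ℕ), ∃ R : ℕ, r ≤ R ∧ ∀ j : ℕ, R ≤ j →
      B + |c| + 1 ≤ (1 / ((n : ℝ) + 1) - 1 / ((n : ℝ) + 2)) * j := by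
    intro B n r
    have hd : (0 : ℝ) < 1 / ((n : ℝ) + 1) - 1 / ((n : ℝ) + 2) := by
      rw [sub_pos]
      exact one_div_lt_one_div_of_lt (by positivity) (by linarith)
    refine ⟨max r ⌈(B + |c| + 1) / (1 / ((n : ℝ) + 1) - 1 / ((n : ℝ) + 2))⌉₊, le_max_left _ _,
      fun j hj => ?_⟩
    have := (Nat.le_ceil _).trans (Nat.cast_le.2 ((le_max_right _ _).trans hj) :
      ((⌈(B + |c| + 1) / (1 / ((n : ℝ) + 1) - 1 / ((n : ℝ) + 2))⌉₊ : ℕ) : ℝ) ≤ (j : ℝ))
    rw [div_le_iff₀ hd] at this
    linarith
  have hle : ∀ n : ℕ, (0 : ℝ) < 1 / ((n : ℝ) + 2) ∧ 1 / ((n : ℝ) + 2) ≤ 1 := fun n =>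
    ⟨by positivity, by rw [div_le_one (by positivity)]; linarith [(n.cast_nonneg : (0 : ℝ) ≤ n)]⟩
  ext x
  constructor
  · rintro ⟨n, hn⟩
    refine ⟨n + 1, fun r => ?_⟩
    obtain ⟨R, hR, hR'⟩ := slack |f x| n r
    obtain ⟨j, hj, hlt⟩ := hn R
    refine ⟨j + 1, by omega, ?_⟩
    rw [Finset.sum_range_succ']
    simp only [Function.iterate_succ_apply, Function.iterate_zero_apply]
    have h1 := hR' j hj
    have h2 := hle n
    have h3 := abs_le.1 (le_refl |f x|)
    push_cast
    rw [show (n : ℝ) + 1 + 1 = n + 2 by ring]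
    nlinarith [le_abs_self c]
  · rintro ⟨n, hn⟩
    refine ⟨n + 1, fun r => ?_⟩
    obtain ⟨R, hR, hR'⟩ := slack |f x| n (r + 1)
    obtain ⟨j, hj, hlt⟩ := hn R
    obtain ⟨j, rfl⟩ : ∃ k, j = k + 1 := ⟨j - 1, by omega⟩
    refine ⟨j, by omega, ?_⟩
    rw [Finset.sum_range_succ'] at hlt
    simp only [Function.iterate_succ_apply, Function.iterate_zero_apply] at hlt
    have h1 := hR' (j + 1) hj
    have h2 := hle n
    have h3 := abs_le.1 (le_refl |f x|)
    push_cast at hlt h1 ⊢
    rw [show (n : ℝ) + 1 + 1 = n + 2 by ring]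
    nlinarith [neg_abs_le c]

variable [MeasurableSpace Ω] {T f} {P : Measure Ω} [IsProbabilityMeasure P]

/-- Averages beyond a late time exceed a level above the mean only with small probability. -/
theorem tendsto_exceed (hT : MeasurePreserving T P P)
    (herg : ∀ A, MeasurableSet A → T ⁻¹' A = A → P A = 0 ∨ P A = 1) (hf : Measurable f)
    (hfi : Integrable f P) {c : ℝ} (hc : ∫ x, f x ∂P < c) :
    Tendsto (fun r : ℕ => P {x | ∃ j, r ≤ j ∧ c * j < ∑ i ∈ Finset.range j, f (T^[i] x)})
      atTop (𝓝 0) := by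
  set I := ∫ x, f x ∂P with hI
  set c' := (I + c) / 2 with hc'
  have hA := measurableSet_exceed hT.measurable hf c'
  have hzero : P (exceed T f c') = 0 := by
    rcases herg _ hA (preimage_exceed T f c') with h | h
    · exact h
    exfalso
    set g : Ω → ℝ := fun x => f x - c' with hg
    have hgm : Measurable g := hf.sub_const c'
    have hgi : Integrable g P := hfi.sub (integrable_const c')
    have hm : ∀ k, Measurable (mx T g k) := by
      intro k
      induction k with
      | zero => exact measurable_const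
      | succ k ih => exact measurable_const.max (hgm.add (ih.comp hT.measurable))
    have hi : ∀ k, Integrable (mx T g k) P := by
      intro k
      induction k with
      | zero => exact integrable_const 0
      | succ k ih =>
        exact (integrable_const 0).sup (hgi.add
          ((hT.integrable_comp (hm k).aestronglyMeasurable).2 ih))
    set E : ℕ → Set Ω := fun n => {x | 0 < mx T g n x}
    have hE : ∀ n, MeasurableSet (E n) := fun n => measurableSet_lt measurable_const (hm n)
    have hmono : Monotone E := fun a b hab x hx =>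
      lt_of_lt_of_le hx (mx_le_of_le T g hab x)
    have h0 : ∀ n, 0 ≤ ∫ x in E n, g x ∂P := by
      intro n
      have hmap : ∫ x, mx T g n (T x) ∂P = ∫ x, mx T g n x ∂P := by
        have h := integral_map hT.measurable.aemeasurable (μ := P)
          (f := mx T g n) (by rw [hT.map_eq]; exact (hm n).aestronglyMeasurable)
        rw [hT.map_eq] at h
        exact h.symm
      have hiT : Integrable (fun x => mx T g n (T x)) P :=
        (hT.integrable_comp (hm n).aestronglyMeasurable).2 (hi n)
      have hpt : ∀ x, mx T g n x - mx T g n (T x) ≤ (E n).indicator g x := by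
        intro x
        by_cases hx : x ∈ E n
        · rw [Set.indicator_of_mem hx]; exact sub_le_of_pos T g hx
        · rw [Set.indicator_of_notMem hx]
          have h1 : mx T g n x ≤ 0 := not_lt.1 hx
          linarith [mx_nonneg T g n (T x)]
      rw [← integral_indicator (hE n)]
      refine le_trans (le_of_eq ?_) (integral_mono ((hi n).sub hiT) (hgi.indicator (hE n)) hpt)
      rw [Pi.sub_def, integral_sub (hi n) hiT, hmap, sub_self]
    have hsub : exceed T f c' ⊆ ⋃ n, E n := by
      rintro x ⟨n, hn⟩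
      obtain ⟨j, hj, hlt⟩ := hn 1
      refine Set.mem_iUnion.2 ⟨j, lt_of_lt_of_le ?_ (sum_le_mx T g j x j le_rfl)⟩
      simp only [hg, Finset.sum_sub_distrib, Finset.sum_const, Finset.card_range, nsmul_eq_mul]
      have : (0 : ℝ) < 1 / ((n : ℝ) + 1) := by positivity
      have hj' : (0 : ℝ) < j := by exact_mod_cast (show 0 < j by omega)
      nlinarith
    have hfull : ∫ x in ⋃ n, E n, g x ∂P = I - c' := by
      rw [setIntegral_congr_set (t := Set.univ), setIntegral_univ, hg,
        integral_sub ((hgi.add (integrable_const c')).congr (ae_of_all _ fun x => by simp [hg]))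
          (integrable_const _)]
      · simp [hI]
      · rw [ae_eq_univ]
        refine measure_mono_null (Set.compl_subset_compl.2 hsub) ?_
        rw [prob_compl_eq_zero_iff hA]
        exact h
    have := ge_of_tendsto' (tendsto_setIntegral_of_monotone hE hmono hgi.integrableOn) h0
    rw [hfull] at this
    linarith
  have hcap : P (⋂ r : ℕ, {x | ∃ j, r ≤ j ∧ c * j < ∑ i ∈ Finset.range j, f (T^[i] x)}) = 0 := by
    refine measure_mono_null (fun x hx => ?_) hzero
    obtain ⟨n, hn⟩ := exists_nat_one_div_lt (show 0 < c - c' by linarith)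
    refine ⟨n, fun r => ?_⟩
    obtain ⟨j, hj, hlt⟩ := Set.mem_iInter.1 hx r
    exact ⟨j, hj, lt_of_le_of_lt (mul_le_mul_of_nonneg_right (by linarith) (Nat.cast_nonneg j)) hlt⟩
  rw [← hcap]
  refine tendsto_measure_iInter_atTop (fun r => ?_) (fun a b hab x ⟨j, hj, hlt⟩ =>
    ⟨j, hab.trans hj, hlt⟩) ⟨0, measure_ne_top _ _⟩
  refine MeasurableSet.nullMeasurableSet ?_
  have : {x | ∃ j, r ≤ j ∧ c * j < ∑ i ∈ Finset.range j, f (T^[i] x)} =
      ⋃ j ∈ Set.Ici r, {x | c * j < ∑ i ∈ Finset.range j, f (T^[i] x)} := by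
    ext x
    simp
  rw [this]
  exact MeasurableSet.biUnion (Set.to_countable _) fun j _ =>
    measurableSet_lt measurable_const (measurable_sum_orbit hT.measurable hf j)

end Vale.Agent.P158.Any
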