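import Vale.Agent.P158.Any.Law
import Vale.Agent.P158.V4.CocycleDepth
import Vale.Agent.P158.V4.MainLanes

/-!
P158, arbitrary laws (note 1453, U8): what is used of the choice of a hub on the line of every site,
and the passage times between chosen hubs.
-/

namespace Vale.Agent.P158.Any

open MeasureTheory Filter Topology

/-- A translation covariant measurable choice of a hub to the right of every site, with integrable
offset and integrable passage times between the chosen hubs. -/
structure IsPivot (G : Measure ℝ) [IsProbabilityMeasure G] (b : ℝ) (π : Cfg → Pt → Pt) : Prop where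
  fibre : ∀ x z, MeasurableSet {ω | π ω x = z}
  cov : ∀ a ω x, π (V4.moveCfg a ω) x + a = π ω (x + a)
  line : ∀ ω x, (π ω x).2 = x.2
  right : ∀ ω x, x.1 ≤ (π ω x).1
  hub : ∀ x, ∀ᵐ ω ∂V4.law G, Hub b ω Set.univ (π ω x)
  offset : Integrable (fun ω => ((π ω (0, 0)).1 : ℝ)) (V4.law G)
  hop : ∀ x, Integrable (fun ω => V4.tt ω (π ω (0, 0)) (π ω x)) (V4.law G)

/-- The increment of a function of sites between the chosen hubs at the origin and at `a`. -/
def inc (π : Cfg → Pt → Pt) (a : Pt) (X : V4.St) : ℝ := X.2 (π X.1 (0, 0)) - X.2 (π X.1 a)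

/-- The passage time between the chosen hubs at the origin and at `a`. -/
noncomputable def hopTime (π : Cfg → Pt → Pt) (a : Pt) (ω : Cfg) : ℝ :=
  V4.tt ω (π ω (0, 0)) (π ω a)

variable {G : Measure ℝ} [IsProbabilityMeasure G] {b : ℝ} {π : Cfg → Pt → Pt}

theorem ae_nonneg (hG : ∀ᵐ t ∂G, 0 < t) : ∀ᵐ ω ∂V4.law G, ∀ e, 0 ≤ ω e :=
  (V4.law_all G measurableSet_Ioi hG).mono fun _ h e => (h e).le

namespace IsPivot

variable (h : IsPivot G b π)
include h

theorem measurable_tt (x y : Pt) : Measurable fun ω => V4.tt ω (π ω x) (π ω y) :=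
  V4.measurable_index (e := fun ω => π ω x) (h.fibre x)
    (F := fun z ω => V4.tt ω z (π ω y)) fun z =>
      V4.measurable_index (e := fun ω => π ω y) (h.fibre y) (F := fun w ω => V4.tt ω z w)
        fun w => V4.measurable_tt z w

theorem measurable_inc (a : Pt) : Measurable (inc π a) := by
  have key : ∀ x : Pt, Measurable fun X : V4.St => X.2 (π X.1 x) := fun x =>
    V4.measurable_index (e := fun X : V4.St => π X.1 x) (fun z => measurable_fst (h.fibre x z))
      (F := fun z X => X.2 z) fun z => (measurable_pi_apply z).comp measurable_snd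
  exact (key _).sub (key a)

theorem cov_zero (a : Pt) (ω : Cfg) : π (V4.moveCfg a ω) (0, 0) + a = π ω a := by
  rw [h.cov, Prod.mk_zero_zero, zero_add]

theorem tt_move (a x y : Pt) (ω : Cfg) :
    V4.tt (V4.moveCfg a ω) (π (V4.moveCfg a ω) x) (π (V4.moveCfg a ω) y) =
      V4.tt ω (π ω (x + a)) (π ω (y + a)) := by
  rw [V4.tt_move_any, h.cov, h.cov]

theorem hopTime_move (a x : Pt) (ω : Cfg) :
    hopTime π x (V4.moveCfg a ω) = V4.tt ω (π ω a) (π ω (x + a)) := by
  unfold hopTime
  rw [h.tt_move, Prod.mk_zero_zero, zero_add]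

theorem integrable_tt (x y : Pt) : Integrable (fun ω => V4.tt ω (π ω x) (π ω y)) (V4.law G) := by
  have hi : Integrable (fun ω => hopTime π (y - x) (V4.moveCfg x ω)) (V4.law G) := by
    have hm : Integrable (hopTime π (y - x)) ((V4.law G).map (V4.moveCfg x)) := by
      rw [V4.map_moveCfg]; exact h.hop _
    exact hm.comp_measurable (V4.measurable_moveCfg x)
  refine hi.congr (ae_of_all _ fun ω => ?_)
  show hopTime π (y - x) (V4.moveCfg x ω) = V4.tt ω (π ω x) (π ω y)
  rw [h.hopTime_move, sub_add_cancel]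

theorem integral_tt (x y : Pt) :
    ∫ ω, V4.tt ω (π ω x) (π ω y) ∂V4.law G = ∫ ω, hopTime π (y - x) ω ∂V4.law G := by
  conv_rhs => rw [← V4.map_moveCfg G x]
  have hm : AEStronglyMeasurable (hopTime π (y - x)) ((V4.law G).map (V4.moveCfg x)) :=
    (h.measurable_tt _ _).aestronglyMeasurable
  rw [integral_map (V4.measurable_moveCfg x).aemeasurable hm]
  refine integral_congr_ae (ae_of_all _ fun ω => ?_)
  simp only [h.hopTime_move, sub_add_cancel]

theorem hopTime_le_sum {ω : Cfg} (h0 : ∀ e, 0 ≤ ω e) (v : Pt) :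
    ∀ n : ℕ, hopTime π (n • v) ω ≤ ∑ i ∈ Finset.range n, hopTime π v (V4.moveCfg (i • v) ω)
  | 0 => by simp [hopTime, Prod.mk_zero_zero, V4.tt_self h0]
  | n + 1 => by
    rw [Finset.sum_range_succ, h.hopTime_move, succ_nsmul']
    have := hopTime_le_sum h0 v n
    have := V4.tt_triangle h0 (π ω (0, 0)) (π ω (n • v)) (π ω (v + n • v))
    unfold hopTime at *
    linarith

theorem integral_hopTime_nsmul_le (hG : ∀ᵐ t ∂G, 0 < t) (v : Pt) (n : ℕ) :
    ∫ ω, hopTime π (n • v) ω ∂V4.law G ≤ n * ∫ ω, hopTime π v ω ∂V4.law G := by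
  have hi : ∀ i : ℕ, Integrable (fun ω => hopTime π v (V4.moveCfg (i • v) ω)) (V4.law G) := fun i =>
    (h.integrable_tt (i • v) (v + i • v)).congr (ae_of_all _ fun ω => (h.hopTime_move _ _ ω).symm)
  refine (integral_mono_ae (h.hop _) (integrable_finsetSum _ fun i _ => hi i)
    ((ae_nonneg hG).mono fun ω h0 => h.hopTime_le_sum h0 v n)).trans_eq ?_
  rw [integral_finsetSum _ fun i _ => hi i]
  have key : ∀ i : ℕ, ∫ ω, hopTime π v (V4.moveCfg (i • v) ω) ∂V4.law G =
      ∫ ω, hopTime π v ω ∂V4.law G := fun i => by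
    simp only [h.hopTime_move]
    rw [h.integral_tt, add_sub_cancel_right]
  rw [Finset.sum_congr rfl fun i _ => key i, Finset.sum_const, Finset.card_range, nsmul_eq_mul]

/-- The distance to the chosen hub has the law of the offset at the origin. -/
theorem l1_eq (x : Pt) (ω : Cfg) :
    (V4.l1 x (π ω x) : ℝ) = ((π (V4.moveCfg x ω) (0, 0)).1 : ℝ) := by
  have h1 := congrArg Prod.fst (h.cov_zero x ω)
  simp only [Prod.fst_add] at h1
  have h2 := h.right ω x
  have h3 := h.line ω x
  rw [show (V4.l1 x (π ω x) : ℝ) = ((V4.l1 x (π ω x) : ℤ) : ℝ) by simp]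
  congr 1
  simp only [V4.l1]
  omega

theorem integrable_dist (x : Pt) : Integrable (fun ω => (V4.l1 x (π ω x) : ℝ)) (V4.law G) := by
  simp only [h.l1_eq]
  have hi : Integrable (fun ω => ((π ω (0, 0)).1 : ℝ)) ((V4.law G).map (V4.moveCfg x)) := by
    rw [V4.map_moveCfg]; exact h.offset
  exact hi.comp_measurable (V4.measurable_moveCfg x)

theorem integral_dist (x : Pt) :
    ∫ ω, (V4.l1 x (π ω x) : ℝ) ∂V4.law G = ∫ ω, ((π ω (0, 0)).1 : ℝ) ∂V4.law G := by
  simp only [h.l1_eq]
  conv_rhs => rw [← V4.map_moveCfg G x]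
  rw [integral_map (V4.measurable_moveCfg x).aemeasurable]
  rw [V4.map_moveCfg]
  exact h.offset.aestronglyMeasurable

/-- The chosen hubs are rarely far. -/
theorem tendsto_far {δ : ℝ} (hδ : 0 < δ) (x : ℕ → Pt) :
    Tendsto (fun n : ℕ => (V4.law G).real {ω | δ * n < V4.l1 (x n) (π ω (x n))}) atTop (𝓝 0) := by
  set Y : Cfg → ℝ := fun ω => ((π ω (0, 0)).1 : ℝ)
  have hY : Measurable Y := V4.measurable_index (e := fun ω => π ω (0, 0)) (h.fibre _)
    (F := fun z _ => (z.1 : ℝ)) fun z => measurable_const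
  set E : ℕ → Set Cfg := fun n => {ω | δ * n < Y ω}
  have hE : ∀ n, MeasurableSet (E n) := fun n => measurableSet_lt measurable_const hY
  have hanti : Antitone E := fun m n hmn ω (hω : δ * n < Y ω) =>
    show δ * m < Y ω from lt_of_le_of_lt (mul_le_mul_of_nonneg_left (Nat.cast_le.2 hmn) hδ.le) hω
  have hlim := tendsto_measure_iInter_atTop (μ := V4.law G) (fun n => (hE n).nullMeasurableSet) hanti
    ⟨0, measure_ne_top _ _⟩
  have hnil : ⋂ n, E n = ∅ := Set.eq_empty_of_forall_notMem fun ω hω => by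
    obtain ⟨n, hn⟩ := exists_nat_ge (Y ω / δ)
    have h1 : δ * n < Y ω := Set.mem_iInter.1 hω n
    rw [div_le_iff₀ hδ] at hn
    linarith
  rw [hnil, measure_empty] at hlim
  have h' := (ENNReal.tendsto_toReal ENNReal.zero_ne_top).comp hlim
  rw [ENNReal.toReal_zero] at h'
  refine h'.congr fun n => ?_
  have e : {ω | δ * n < V4.l1 (x n) (π ω (x n))} = V4.moveCfg (x n) ⁻¹' E n := by
    ext ω
    simp only [Set.mem_ofPred_eq, Set.mem_preimage, E, Y, h.l1_eq]
  rw [e, measureReal_def, ← Measure.map_apply (V4.measurable_moveCfg _) (hE n), V4.map_moveCfg]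
  rfl

end IsPivot

end Vale.Agent.P158.Any
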