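import Mathlib
import Vale.Agent.P158.Any.FirstHub
import Vale.Agent.P158.Any.Pivot
import Vale.Agent.P158.Facet.Frame
import Vale.Agent.P158.V4.Norm

/-!
P158 facets for every law: passage times between first hubs, and the properties of them that the
argument against facets uses.
-/

namespace Vale.Agent.P158.Any

open MeasureTheory Filter Topology

/-- The passage time between the first hubs to the right of two sites. -/
noncomputable def hubTime (b : ℝ) (u v : Pt) (ω : Cfg) : ℝ :=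
  V4.tt ω (firstHub b ω Set.univ u) (firstHub b ω Set.univ v)

/-- The cost of reaching the first hub. -/
noncomputable def hubJunk (b : ℝ) (v : Pt) (ω : Cfg) : ℝ := V4.tt ω v (firstHub b ω Set.univ v)

/-- The mean passage time between first hubs. -/
noncomputable def hubMean (G : Measure ℝ) (b : ℝ) (z : Pt) : ℝ :=
  ∫ ω, hubTime b ((0 : ℤ), (0 : ℤ)) z ω ∂V4.law G

/-- The variance of the times between hubs is of smaller order than the distance. -/
def SmallVarH (G : Measure ℝ) [IsProbabilityMeasure G] (b : ℝ) : Prop :=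
  ∀ ε > 0, ∃ N : ℕ, ∀ n ≥ N, ∀ u v : Pt, V4.l1 u v ≤ n →
    ∫ ω, (hubTime b u v ω - hubMean G b (v - u)) ^ 2 ∂V4.law G ≤ ε * n

/-- A slack of smaller order than the square root. -/
noncomputable def slack (n : ℕ) : ℝ := √√(n : ℝ) + 1

theorem one_le_slack (n : ℕ) : 1 ≤ slack n := le_add_of_nonneg_left (Real.sqrt_nonneg _)

theorem slack_nonneg (n : ℕ) : 0 ≤ slack n := zero_le_one.trans (one_le_slack n)

theorem slack_le_sqrt {η : ℝ} (hη : 0 < η) : ∀ᶠ n : ℕ in atTop, slack n ≤ η * √(n : ℝ) := by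
  have h : Tendsto (fun n : ℕ => √√(n : ℝ)) atTop atTop :=
    (Real.tendsto_sqrt_atTop.comp Real.tendsto_sqrt_atTop).comp tendsto_natCast_atTop_atTop
  filter_upwards [h.eventually_ge_atTop (max 1 (2 / η))] with n hn
  have h1 := (le_max_left _ _).trans hn
  have h2 := (le_max_right _ _).trans hn
  rw [div_le_iff₀ hη] at h2
  have h3 : √√(n : ℝ) * √√(n : ℝ) = √(n : ℝ) := Real.mul_self_sqrt (Real.sqrt_nonneg _)
  unfold slack
  nlinarith

/-- Up to distance `R n`: times between hubs have modulus `B` up to the slack, they are up to the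
slack below the passage times, and long walks are expensive. -/
structure Calm (b B c R : ℝ) (n : ℕ) (ω : Cfg) : Prop where
  nonneg : ∀ e, 0 ≤ ω e
  mod : ∀ y y' : Pt, (V4.l1 (0, 0) y : ℝ) ≤ R * n → (V4.l1 (0, 0) y' : ℝ) ≤ R * n →
    hubTime b y y' ω ≤ B * (V4.l1 y y' + slack n)
  low : ∀ y y' : Pt, (V4.l1 (0, 0) y : ℝ) ≤ R * n → (V4.l1 (0, 0) y' : ℝ) ≤ R * n →
    hubTime b y y' ω ≤ V4.tt ω y y' + B * slack n
  near : ∀ y : Pt, (V4.l1 (0, 0) y : ℝ) ≤ R * n →
    (V4.l1 y (firstHub b ω Set.univ y) : ℝ) ≤ B * slack n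
  ray : ∀ y : Pt, (V4.l1 (0, 0) y : ℝ) ≤ R * n → RayOK b ω y ⌊slack n⌋₊
  far : ∀ a : Pt, (V4.l1 (0, 0) a : ℝ) ≤ R * n → ∀ y : Pt, n ≤ V4.l1 a y →
    c * V4.l1 a y ≤ V4.tt ω a y

/-- What the argument against facets uses. -/
structure Ctx (G : Measure ℝ) [IsProbabilityMeasure G] (μ : ℝ × ℝ → ℝ) (b B c : ℝ) : Prop where
  B_nonneg : 0 ≤ B
  c_pos : 0 < c
  pos : ∀ᵐ t ∂G, 0 < t
  norm : V4.IsLatticeNorm μ
  sq : ∀ u v : Pt, MemLp (hubTime b u v) 2 (V4.law G)
  mean_eq : ∀ u v : Pt, ∫ ω, hubTime b u v ω ∂V4.law G = hubMean G b (v - u)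
  step : ∀ y z : Pt, |hubMean G b y - hubMean G b z| ≤ B * V4.l1 y z
  le_mean : ∀ z : Pt, μ (V4.rvec z) ≤ hubMean G b z
  tends : ∀ (z : ℝ × ℝ) (y : ℕ → Pt), Tendsto (fun n : ℕ => ((y n).1 : ℝ) / n) atTop (𝓝 z.1) →
    Tendsto (fun n : ℕ => ((y n).2 : ℝ) / n) atTop (𝓝 z.2) →
      Tendsto (fun n : ℕ => hubMean G b (y n) / n) atTop (𝓝 (μ z))
  var : SmallVarH G b
  calm : ∀ R : ℝ, Tendsto (fun n : ℕ => (n : ℝ) * (V4.law G).real {ω | ¬ Calm b B c R n ω}) atTop (𝓝 0)
  junk : ∀ η > 0, ∀ ε > 0, ∀ᶠ n : ℕ in atTop, ∀ v : Pt,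
    (V4.law G).real {ω | η * √(n : ℝ) < hubJunk b v ω} ≤ ε

variable {G : Measure ℝ} [IsProbabilityMeasure G] {μ : ℝ × ℝ → ℝ} {b B c : ℝ}

theorem tt_self {ω : Cfg} (hω : ∀ e, 0 ≤ ω e) (p : Pt) : V4.tt ω p p = 0 :=
  le_antisymm ((V4.tt_le hω (SimpleGraph.Walk.nil : grid.Walk p p)).trans_eq (by simp [V4.wt]))
    (V4.tt_nonneg hω)

theorem hubTime_nonneg {ω : Cfg} (hω : ∀ e, 0 ≤ ω e) (u v : Pt) : 0 ≤ hubTime b u v ω :=
  V4.tt_nonneg hω

theorem hubTime_comm {ω : Cfg} (hω : ∀ e, 0 ≤ ω e) (u v : Pt) :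
    hubTime b u v ω = hubTime b v u ω :=
  V4.tt_comm hω _ _

theorem hubTime_triangle {ω : Cfg} (hω : ∀ e, 0 ≤ ω e) (u v w : Pt) :
    hubTime b u w ω ≤ hubTime b u v ω + hubTime b v w ω :=
  V4.tt_triangle hω _ _ _

/-- From the first site of a walk, the first hub costs no more than the junk. -/
theorem tt_le_hubTime {ω : Cfg} (hω : ∀ e, 0 ≤ ω e) (u v : Pt) :
    V4.tt ω u v ≤ hubTime b u v ω + hubJunk b u ω + hubJunk b v ω := by
  have h1 := V4.tt_triangle hω u (firstHub b ω Set.univ u) v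
  have h2 := V4.tt_triangle hω (firstHub b ω Set.univ u) (firstHub b ω Set.univ v) v
  have h3 := V4.tt_comm hω (firstHub b ω Set.univ v) v
  unfold hubTime hubJunk
  linarith

theorem hubJunk_of_hub {ω : Cfg} (hω : ∀ e, 0 ≤ ω e) {u : Pt} (hu : Hub b ω Set.univ u) :
    hubJunk b u ω = 0 := by
  have : firstK b ω Set.univ u = 0 := Nat.sInf_eq_zero.2 (Or.inl (by simpa using hu))
  rw [hubJunk, firstHub, this]
  simpa using tt_self hω u

theorem firstHub_idem {ω : Cfg} (u : Pt) :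
    firstHub b ω Set.univ (firstHub b ω Set.univ u) = firstHub b ω Set.univ u := by
  by_cases hu : ∃ k : ℕ, Hub b ω Set.univ (u.1 + k, u.2)
  · have : firstK b ω Set.univ (firstHub b ω Set.univ u) = 0 :=
      Nat.sInf_eq_zero.2 (Or.inl (by simpa using hub_firstHub hu))
    ext <;> simp [firstHub] at this ⊢ <;> simp [this]
  · have : firstK b ω Set.univ u = 0 :=
      Nat.sInf_eq_zero.2 (Or.inr (Set.eq_empty_of_forall_notMem fun k hk => hu ⟨k, hk⟩))
    have e : firstHub b ω Set.univ u = u := by ext <;> simp [firstHub, this]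
    rw [e, e]

theorem hubTime_firstHub {ω : Cfg} (u v : Pt) :
    hubTime b (firstHub b ω Set.univ u) v ω = hubTime b u v ω := by
  rw [hubTime, firstHub_idem, hubTime]

theorem measurable_hubTime (b : ℝ) (u v : Pt) : Measurable (hubTime b u v) :=
  measurable_choose (K := fun k ω => V4.tt ω ((u.1 + (k : ℤ), u.2) : Pt) (firstHub b ω Set.univ v))
    (fun k => measurable_at_firstHub (F := fun q ω => V4.tt ω ((u.1 + (k : ℤ), u.2) : Pt) q)
      (fun _ => V4.measurable_tt _ _) b Set.univ v) (measurable_firstK b Set.univ u)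

theorem measurable_hubJunk (b : ℝ) (v : Pt) : Measurable (hubJunk b v) :=
  measurable_at_firstHub (F := fun q ω => V4.tt ω v q) (fun _ => V4.measurable_tt _ _) b Set.univ v

namespace Ctx

variable (h : Ctx G μ b B c)
include h

theorem integrable (u v : Pt) : Integrable (hubTime b u v) (V4.law G) :=
  (h.sq u v).integrable one_le_two

theorem mean_nonneg (z : Pt) : 0 ≤ hubMean G b z :=
  (h.norm.nonneg _).trans (h.le_mean z)

theorem mean_zero : hubMean G b ((0 : ℤ), (0 : ℤ)) = 0 := by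
  refine le_antisymm ?_ (h.mean_nonneg _)
  refine (integral_congr_ae ((ae_nonneg h.pos).mono fun ω hω => ?_)).trans_le (integral_zero _ _).le
  exact tt_self hω _

theorem mean_neg (z : Pt) : hubMean G b (-z) = hubMean G b z := by
  have h1 := h.mean_eq z (0, 0)
  rw [show ((0 : ℤ), (0 : ℤ)) - z = -z by simp] at h1
  rw [← h1]
  exact integral_congr_ae ((ae_nonneg h.pos).mono fun ω hω => hubTime_comm hω _ _)

theorem mean_add_le (y z : Pt) : hubMean G b (y + z) ≤ hubMean G b y + hubMean G b z := by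
  have h1 := h.mean_eq (0, 0) (y + z)
  have h2 := h.mean_eq (0, 0) y
  have h3 := h.mean_eq y (y + z)
  rw [show y + z - y = z by simp] at h3
  rw [show y + z - ((0 : ℤ), (0 : ℤ)) = y + z by simp] at h1
  rw [show y - ((0 : ℤ), (0 : ℤ)) = y by simp] at h2
  rw [← h1, ← h2, ← h3, ← integral_add (h.integrable _ _) (h.integrable _ _)]
  exact integral_mono_ae (h.integrable _ _) ((h.integrable _ _).add (h.integrable _ _))
    ((ae_nonneg h.pos).mono fun ω hω => hubTime_triangle hω _ _ _)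

theorem mean_le_l1 (z : Pt) : hubMean G b z ≤ B * V4.l1 (0, 0) z := by
  have := (abs_le.1 (h.step ((0 : ℤ), (0 : ℤ)) z)).1
  rw [h.mean_zero] at this
  linarith

end Ctx

end Vale.Agent.P158.Any
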