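import Mathlib
import Vale.Agent.P158.Any.FacetCtx
import Vale.Agent.P158.Any.PivotHub

/-!
P158 facets for every law: up to a linear distance everything is calm, with probability tending to one faster
than the inverse of the distance, and the junk at a site is of smaller order than the square root.
-/

namespace Vale.Agent.P158.Any

open MeasureTheory Filter Topology

/-- Something is not calm up to distance `K`: an animal too large for the slack `N`, or a cheap walk. -/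
def Loud (b c : ℝ) (K N n : ℕ) : Set Cfg :=
  {ω | ∃ e, ω e < 0} ∪ ((⋃ p ∈ square K (0, 0), {ω | ¬ RayOK b ω p N} ∪ V4.Cheap p n c) ∪
    ⋃ x ∈ square K (0, 0) ×ˢ square K (0, 0),
      {ω | ¬ NoAnimals b ω (segRoots x.1 x.2) (V4.l1 x.1 x.2 + 1 + N)})

variable {b c : ℝ}

/-- Two sites of a walk are joined for at most its weight. -/
theorem tt_le_of_support {ω : Cfg} (h0 : ∀ e, 0 ≤ ω e) {x y : Pt} (w : grid.Walk x y) {d d' : Pt}
    (hd : d ∈ w.support) (hd' : d' ∈ w.support) : V4.tt ω d d' ≤ V4.wt ω w := by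
  have e := V4.wt_append (ω := ω) (w.takeUntil d hd) (w.dropUntil d hd)
  rw [SimpleGraph.Walk.take_spec] at e
  have n1 := V4.wt_nonneg h0 (w.takeUntil d hd)
  have n2 := V4.wt_nonneg h0 (w.dropUntil d hd)
  rw [← SimpleGraph.Walk.take_spec w hd, SimpleGraph.Walk.mem_support_append_iff] at hd'
  rcases hd' with h | h
  · have e' := V4.wt_append (ω := ω) ((w.takeUntil d hd).takeUntil d' h) ((w.takeUntil d hd).dropUntil d' h)
    rw [SimpleGraph.Walk.take_spec] at e'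
    have := V4.wt_nonneg h0 ((w.takeUntil d hd).takeUntil d' h)
    rw [V4.tt_comm h0]
    linarith [V4.tt_le h0 ((w.takeUntil d hd).dropUntil d' h)]
  · have e' := V4.wt_append (ω := ω) ((w.dropUntil d hd).takeUntil d' h) ((w.dropUntil d hd).dropUntil d' h)
    rw [SimpleGraph.Walk.take_spec] at e'
    have := V4.wt_nonneg h0 ((w.dropUntil d hd).dropUntil d' h)
    linarith [V4.tt_le h0 ((w.dropUntil d hd).takeUntil d' h)]

/-- Quiet configurations are calm. -/
theorem calm_of_not_loud (hb : 0 ≤ b) (hc : 0 < c) {B : ℝ} (hB : 160 * b + 2 ≤ B) {R : ℝ} {K n : ℕ}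
    (hK : R * n + 3 * (⌊slack n⌋₊ + 1) ≤ K) {ω : Cfg} (h : ω ∉ Loud b c K ⌊slack n⌋₊ n) :
    Calm b B c R n ω := by
  set N := ⌊slack n⌋₊
  simp only [Loud, Set.mem_union, Set.mem_iUnion, Set.mem_ofPred_eq, not_or, not_exists, not_lt, not_not,
    Finset.mem_product] at h
  obtain ⟨h0, hp, hseg⟩ := h
  have hs1 := one_le_slack n
  have hN : ((N + 1 : ℕ) : ℝ) ≤ 2 * slack n := by
    have := Nat.floor_le (slack_nonneg n)
    push_cast
    linarith
  have hbs : 0 ≤ b * slack n := mul_nonneg hb (slack_nonneg n)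
  have sq : ∀ y z : Pt, (V4.l1 (0, 0) y : ℝ) ≤ R * n → V4.l1 y z ≤ 3 * (N + 1) →
      z ∈ square K (0, 0) := fun y z hy hz => by
    refine mem_square_of_l1 ?_
    have h1 : (V4.l1 (0, 0) z : ℝ) ≤ V4.l1 (0, 0) y + V4.l1 y z := by
      exact_mod_cast Any.l1_triangle (0, 0) y z
    have h2 : (V4.l1 y z : ℝ) ≤ 3 * ((N : ℝ) + 1) := by exact_mod_cast hz
    exact_mod_cast h1.trans (le_trans (add_le_add hy h2) hK)
  have sq0 : ∀ y : Pt, (V4.l1 (0, 0) y : ℝ) ≤ R * n → y ∈ square K (0, 0) := fun y hy =>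
    sq y y hy (by simp [V4.l1])
  have ray : ∀ y : Pt, (V4.l1 (0, 0) y : ℝ) ≤ R * n → RayOK b ω y N := fun y hy =>
    (hp y (sq0 y hy)).1
  have hub : ∀ y : Pt, (V4.l1 (0, 0) y : ℝ) ≤ R * n → Hub b ω Set.univ (firstHub b ω Set.univ y) ∧
      V4.l1 y (firstHub b ω Set.univ y) ≤ N + 1 := fun y hy => by
    obtain ⟨h1, h2⟩ := firstK_le_of_rayOK reg_univ (Set.mem_univ y) (ray y hy)
    exact ⟨h2, l1_firstHub.trans_le h1⟩
  have key : ∀ p q : Pt, p ∈ square K (0, 0) → q ∈ square K (0, 0) → Hub b ω Set.univ p →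
      Hub b ω Set.univ q → V4.tt ω p q ≤ b * (10 * V4.l1 p q + 9 * ((N + 1 : ℕ) : ℝ)) := by
    intro p q hpK hqK hp' hq'
    have h1 := segRoots_spec hb h0 reg_univ hp' hq' (hseg (p, q) ⟨hpK, hqK⟩)
    rw [← V4.tt_eq_ttIn] at h1
    push_cast at h1 ⊢
    linarith
  have hmod : ∀ y y' : Pt, (V4.l1 (0, 0) y : ℝ) ≤ R * n → (V4.l1 (0, 0) y' : ℝ) ≤ R * n →
      hubTime b y y' ω ≤ b * (10 * V4.l1 y y' + 29 * ((N + 1 : ℕ) : ℝ)) := by
    intro y y' hy hy'
    obtain ⟨a1, a2⟩ := hub y hy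
    obtain ⟨b1, b2⟩ := hub y' hy'
    have h1 := key _ _ (sq y _ hy (by omega)) (sq y' _ hy' (by omega)) a1 b1
    have h2 : (V4.l1 (firstHub b ω Set.univ y) (firstHub b ω Set.univ y') : ℝ) ≤
        V4.l1 y y' + 2 * ((N + 1 : ℕ) : ℝ) := by
      have : V4.l1 (firstHub b ω Set.univ y) (firstHub b ω Set.univ y') ≤ V4.l1 y y' + 2 * (N + 1) := by
        simp only [V4.l1] at a2 b2 ⊢
        omega
      exact_mod_cast this
    have := mul_le_mul_of_nonneg_left h2 hb
    unfold hubTime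
    linarith
  have hBs : ∀ {r : ℝ}, r ≤ 160 * b + 2 → r * slack n ≤ B * slack n := fun hr =>
    mul_le_mul_of_nonneg_right (hr.trans hB) (slack_nonneg n)
  have hNs := mul_le_mul_of_nonneg_left hN hb
  refine ⟨h0, fun y y' hy hy' => ?_, fun y y' hy hy' => ?_, fun y hy => ?_, ray, fun a ha y hn => ?_⟩
  · refine (hmod y y' hy hy').trans ?_
    have : (0 : ℝ) ≤ V4.l1 y y' := Nat.cast_nonneg _
    have := mul_le_mul_of_nonneg_right (show 10 * b ≤ B by linarith) this
    have := hBs (show 58 * b ≤ 160 * b + 2 by linarith)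
    linarith
  · by_cases hnear : Near (N + 1) y y'
    · have h2 : (V4.l1 y y' : ℝ) ≤ 2 * ((N + 1 : ℕ) : ℝ) := by
        have : V4.l1 y y' ≤ 2 * (N + 1) := by
          simp only [Near, abs_le] at hnear
          simp only [V4.l1]
          omega
        exact_mod_cast this
      have := mul_le_mul_of_nonneg_left h2 hb
      have := hBs (show 98 * b ≤ 160 * b + 2 by linarith)
      linarith [hmod y y' hy hy', V4.tt_nonneg (u := y) (v := y') h0]
    refine le_of_forall_pos_le_add fun δ hδ => ?_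
    obtain ⟨w, hw⟩ := exists_lt_of_ciInf_lt
      (show V4.tt ω y y' < V4.tt ω y y' + δ by linarith)
    have hn1 : ¬ Near N y y' := fun hn => hnear (by simp only [Near, abs_le] at hn ⊢; omega)
    have hn2 : ¬ Near N y' y := fun hn => hnear (by simp only [Near, abs_le] at hn ⊢; omega)
    obtain ⟨d, hd, hdw, hdn, -⟩ := gate reg_univ (Set.mem_univ y) ((ray y hy).tame reg_univ (Set.mem_univ y))
      w (fun _ _ => trivial) hn1
    obtain ⟨d', hd', hdw', hdn', -⟩ := gate reg_univ (Set.mem_univ y')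
      ((ray y' hy').tame reg_univ (Set.mem_univ y')) w.reverse (fun _ _ => trivial) hn2
    rw [SimpleGraph.Walk.support_reverse, List.mem_reverse] at hdw'
    have hdd : V4.tt ω d d' ≤ V4.wt ω w := tt_le_of_support h0 w hdw hdw'
    have near : ∀ (z e : Pt), (V4.l1 (0, 0) z : ℝ) ≤ R * n → Hub b ω Set.univ e → Near (N + 1) z e →
        V4.tt ω (firstHub b ω Set.univ z) e ≤ 39 * (b * ((N + 1 : ℕ) : ℝ)) := by
      intro z e hz he hze
      obtain ⟨a1, a2⟩ := hub z hz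
      have hze' : V4.l1 z e ≤ 2 * (N + 1) := by
        simp only [Near, abs_le] at hze
        simp only [V4.l1]
        omega
      have h1 := key _ _ (sq z _ hz (by omega)) (sq z e hz (by omega)) a1 he
      have h2 : (V4.l1 (firstHub b ω Set.univ z) e : ℝ) ≤ 3 * ((N + 1 : ℕ) : ℝ) := by
        have : V4.l1 (firstHub b ω Set.univ z) e ≤ 3 * (N + 1) := by
          simp only [V4.l1] at a2 hze' ⊢
          omega
        exact_mod_cast this
      have := mul_le_mul_of_nonneg_left h2 hb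
      linarith
    have n1 := near y d hy hd hdn
    have n2 := near y' d' hy' hd' hdn'
    rw [V4.tt_comm h0] at n2
    have t1 := V4.tt_triangle h0 (firstHub b ω Set.univ y) d (firstHub b ω Set.univ y')
    have t2 := V4.tt_triangle h0 d d' (firstHub b ω Set.univ y')
    have := hBs (show 156 * b ≤ 160 * b + 2 by linarith)
    have hw' : V4.wt ω w ≤ V4.tt ω y y' + δ := hw.le
    unfold hubTime
    linarith
  · have : (V4.l1 y (firstHub b ω Set.univ y) : ℝ) ≤ ((N + 1 : ℕ) : ℝ) := Nat.cast_le.2 (hub y hy).2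
    have := hBs (show (2 : ℝ) ≤ 160 * b + 2 by linarith)
    linarith
  · refine V4.le_tt fun w => le_trans ?_ (V4.wt_bypass_le h0 w)
    have hl := V4.l1_le_length w.bypass
    refine le_trans ?_ (V4.not_cheap (hp a (sq0 a ha)).2 _ w.bypass_isPath (hn.trans hl)).le
    exact mul_le_mul_of_nonneg_left (Nat.cast_le.2 hl) hc.le

variable (G : Measure ℝ) [IsProbabilityMeasure G]

/-- Configurations are quiet outside a set of small probability. -/
theorem prob_loud_le (hG : ∀ᵐ t ∂G, 0 < t) (hb : rate G b ≤ 1 / 2)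
    (hc : ∀ u n, V4.law G (V4.Cheap u n c) ≤ ENNReal.ofReal (2 * (1 / 4) ^ n)) {K N n : ℕ}
    (hn : N ≤ 2 * n) :
    (V4.law G).real (Loud b c K N n) ≤
      4 * ((K : ℝ) + 1) ^ 2 * ((4 * ((N : ℝ) + 2) + 2 + 4 * ((K : ℝ) + 1) ^ 2) * (1 / 2) ^ N) := by
  have hneg : (V4.law G).real {ω : Cfg | ∃ e, ω e < 0} = 0 := by
    rw [measureReal_eq_zero_iff]
    refine measure_mono_null (fun ω hω => ?_) (ae_iff.1 (V4.law_all G measurableSet_Ioi hG))
    obtain ⟨e, he⟩ := hω
    exact fun h => (lt_asymm he) (h e)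
  have hq : ∀ k : ℕ, N ≤ k → rate G b ^ k ≤ (1 / 2 : ℝ) ^ N := fun k hk =>
    (pow_le_pow_left₀ (rate_nonneg G b) hb _).trans (pow_le_pow_of_le_one (by norm_num) (by norm_num) hk)
  have hone : ∀ p : Pt, (V4.law G).real ({ω | ¬ RayOK b ω p N} ∪ V4.Cheap p n c) ≤
      (4 * ((N : ℝ) + 2) + 2) * (1 / 2) ^ N := fun p => by
    refine (measureReal_union_le _ _).trans ((add_le_add ((prob_not_rayOK_le G hb p N).trans
      (mul_le_mul_of_nonneg_left (hq _ N.le_succ) (by positivity)))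
        (ENNReal.toReal_le_of_le_ofReal (by positivity) (hc p n))).trans ?_)
    have : (1 / 4 : ℝ) ^ n ≤ (1 / 2) ^ N := by
      rw [show (1 / 4 : ℝ) = (1 / 2) ^ 2 by norm_num, ← pow_mul]
      exact pow_le_pow_of_le_one (by norm_num) (by norm_num) hn
    linarith
  have htwo : ∀ x : Pt × Pt, (V4.law G).real
      {ω | ¬ NoAnimals b ω (segRoots x.1 x.2) (V4.l1 x.1 x.2 + 1 + N)} ≤ (1 / 2) ^ N := fun x => by
    refine (prob_not_noAnimals_le G hb _ _).trans ?_
    refine (mul_le_mul (pow_le_pow_right₀ one_le_two (card_segRoots_le x.1 x.2))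
      (pow_le_pow_left₀ (rate_nonneg G b) hb _) (pow_nonneg (rate_nonneg G b) _) (by positivity)).trans ?_
    rw [show V4.l1 x.1 x.2 + 1 + N + 1 = (V4.l1 x.1 x.2 + 1) + (N + 1) by omega,
      pow_add (1 / 2 : ℝ) (V4.l1 x.1 x.2 + 1) (N + 1), ← mul_assoc, ← mul_pow]
    norm_num
    exact pow_le_pow_of_le_one (by norm_num) (by norm_num) N.le_succ
  set S := square K ((0 : ℤ), (0 : ℤ))
  have hS : (S.card : ℝ) ≤ 4 * ((K : ℝ) + 1) ^ 2 := card_square_le K _
  calc (V4.law G).real (Loud b c K N n)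
      ≤ 0 + (∑ p ∈ S, (4 * ((N : ℝ) + 2) + 2) * (1 / 2) ^ N + ∑ _x ∈ S ×ˢ S, (1 / 2 : ℝ) ^ N) := by
        refine (measureReal_union_le _ _).trans (add_le_add hneg.le ((measureReal_union_le _ _).trans
          (add_le_add ?_ ?_)))
        · exact (measureReal_biUnion_finset_le _ _).trans (Finset.sum_le_sum fun p _ => hone p)
        · exact (measureReal_biUnion_finset_le _ _).trans (Finset.sum_le_sum fun x _ => htwo x)
    _ = (S.card : ℝ) * ((4 * ((N : ℝ) + 2) + 2) * (1 / 2) ^ N) + S.card * S.card * (1 / 2) ^ N := by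
        simp [Finset.sum_const, Finset.card_product]
    _ ≤ 4 * ((K : ℝ) + 1) ^ 2 * ((4 * ((N : ℝ) + 2) + 2) * (1 / 2) ^ N) +
        4 * ((K : ℝ) + 1) ^ 2 * (4 * ((K : ℝ) + 1) ^ 2) * (1 / 2) ^ N := by gcongr
    _ = _ := by ring

/-- Up to a linear distance the configuration is calm, with probability tending to one faster than the
inverse of the distance. -/
theorem exists_calm (hG : ∀ᵐ t ∂G, 0 < t) (hb0 : 0 ≤ b) (hb : rate G b ≤ 1 / 2) :
    ∃ c : ℝ, 0 < c ∧ ∀ B, 160 * b + 2 ≤ B → ∀ R : ℝ,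
      Tendsto (fun n : ℕ => (n : ℝ) * (V4.law G).real {ω | ¬ Calm b B c R n ω}) atTop (𝓝 0) := by
  obtain ⟨c, hc, hrate⟩ := V4.exists_cheap_rate G hG
  refine ⟨c, hc, fun B hB R => ?_⟩
  set K₀ := ⌈|R|⌉₊ + 9
  have hslack : Tendsto (fun n : ℕ => ⌊slack n⌋₊) atTop atTop := tendsto_nat_floor_atTop.comp
    (tendsto_atTop_add_const_right _ 1
      ((Real.tendsto_sqrt_atTop.comp Real.tendsto_sqrt_atTop).comp tendsto_natCast_atTop_atTop))
  have hlim : Tendsto (fun n : ℕ => 4 * ((K₀ : ℝ) + 1) ^ 2 * (18 + 4 * ((K₀ : ℝ) + 1) ^ 2) *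
      (((⌊slack n⌋₊ : ℕ) : ℝ) + 1) ^ 20 * (1 / 2) ^ ⌊slack n⌋₊) atTop (𝓝 0) := by
    have h := ((summable_poly_geometric 20 (q := 1 / 2) (by norm_num) (by norm_num)).mul_left
      (4 * ((K₀ : ℝ) + 1) ^ 2 * (18 + 4 * ((K₀ : ℝ) + 1) ^ 2))).tendsto_atTop_zero.comp hslack
    simpa only [Function.comp_def, mul_assoc] using h
  refine squeeze_zero' (Eventually.of_forall fun n => by positivity) ?_ hlim
  filter_upwards [eventually_ge_atTop 1] with n hn
  set N := ⌊slack n⌋₊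
  have hn1 : (1 : ℝ) ≤ n := Nat.one_le_cast.2 hn
  have hsn : slack n ≤ 2 * n := by
    have h1 : √√(n : ℝ) ≤ √(n : ℝ) := Real.sqrt_le_sqrt (Real.sqrt_le_iff.2 ⟨by linarith, by nlinarith⟩)
    have h2 : √(n : ℝ) ≤ n := Real.sqrt_le_iff.2 ⟨by linarith, by nlinarith⟩
    unfold slack
    linarith
  have hN2 : (N : ℝ) ≤ 2 * n := (Nat.floor_le (slack_nonneg n)).trans hsn
  have hK : R * n + 3 * ((N : ℝ) + 1) ≤ ((K₀ * n : ℕ) : ℝ) := by
    have h1 : R * n ≤ (⌈|R|⌉₊ : ℝ) * n :=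
      mul_le_mul_of_nonneg_right ((le_abs_self R).trans (Nat.le_ceil _)) (by linarith)
    simp only [K₀]
    push_cast
    linarith
  have h1 : (V4.law G).real {ω | ¬ Calm b B c R n ω} ≤ (V4.law G).real (Loud b c (K₀ * n) N n) := by
    refine measureReal_mono (fun ω hω => by_contra fun h => hω ?_) (measure_ne_top _ _)
    exact calm_of_not_loud hb0 hc hB hK h
  have h2 := prob_loud_le G hG hb hrate (K := K₀ * n) (N := N) (n := n) (by exact_mod_cast hN2)
  have hn5 : (n : ℝ) ^ 5 ≤ ((N : ℝ) + 1) ^ 20 := by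
    have h3 : √√(n : ℝ) ≤ (N : ℝ) + 1 := by
      have := Nat.lt_floor_add_one (slack n)
      have h4 : √√(n : ℝ) ≤ slack n := by unfold slack; linarith
      linarith
    calc (n : ℝ) ^ 5 = (√√(n : ℝ)) ^ 20 := by
          have e1 : √√(n : ℝ) ^ 2 = √(n : ℝ) := Real.sq_sqrt (Real.sqrt_nonneg _)
          have e2 : √(n : ℝ) ^ 2 = n := Real.sq_sqrt (by linarith)
          rw [show (20 : ℕ) = 2 * (2 * 5) by norm_num, pow_mul, e1, pow_mul, e2]
      _ ≤ _ := pow_le_pow_left₀ (Real.sqrt_nonneg _) h3 20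
  have hK1 : (((K₀ * n : ℕ) : ℝ) + 1) ^ 2 ≤ ((K₀ : ℝ) + 1) ^ 2 * (n : ℝ) ^ 2 := by
    rw [← mul_pow]
    refine pow_le_pow_left₀ (by positivity) ?_ 2
    push_cast
    linarith
  have hp : 4 * ((N : ℝ) + 2) + 2 + 4 * (((K₀ * n : ℕ) : ℝ) + 1) ^ 2 ≤
      (18 + 4 * ((K₀ : ℝ) + 1) ^ 2) * (n : ℝ) ^ 2 := by
    have : (n : ℝ) ≤ (n : ℝ) ^ 2 := le_self_pow₀ hn1 two_ne_zero
    linarith
  calc (n : ℝ) * (V4.law G).real {ω | ¬ Calm b B c R n ω}
      ≤ n * (4 * (((K₀ : ℝ) + 1) ^ 2 * (n : ℝ) ^ 2) *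
          ((18 + 4 * ((K₀ : ℝ) + 1) ^ 2) * (n : ℝ) ^ 2 * (1 / 2) ^ N)) := by
        refine mul_le_mul_of_nonneg_left ((h1.trans h2).trans ?_) (Nat.cast_nonneg _)
        gcongr
    _ = 4 * ((K₀ : ℝ) + 1) ^ 2 * (18 + 4 * ((K₀ : ℝ) + 1) ^ 2) * (n : ℝ) ^ 5 * (1 / 2) ^ N := by ring
    _ ≤ _ := by gcongr

/-- The junk at a site is of smaller order than the square root. -/
theorem tendsto_junk {η : ℝ} (hη : 0 < η) {ε : ℝ} (hε : 0 < ε) :
    ∀ᶠ n : ℕ in atTop, ∀ v : Pt,
      (V4.law G).real {ω | η * √(n : ℝ) < hubJunk b v ω} ≤ ε := by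
  have hT : Tendsto (fun n : ℕ => η * √(n : ℝ)) atTop atTop :=
    (Real.tendsto_sqrt_atTop.comp tendsto_natCast_atTop_atTop).const_mul_atTop hη
  set X := hubJunk b ((0 : ℤ), (0 : ℤ))
  have hX : Measurable X := measurable_hubJunk b _
  have h0 : Tendsto (fun n : ℕ => V4.law G {ω | η * √(n : ℝ) < X ω}) atTop (𝓝 0) := by
    have h := tendsto_measure_iInter_atTop (μ := V4.law G) (s := fun n : ℕ => {ω | η * √(n : ℝ) < X ω})
      (fun n => (measurableSet_lt measurable_const hX).nullMeasurableSet)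
      (fun m n hmn ω hω => show η * √(m : ℝ) < X ω from
        lt_of_le_of_lt (mul_le_mul_of_nonneg_left (Real.sqrt_le_sqrt (Nat.cast_le.2 hmn)) hη.le) hω)
      ⟨0, measure_ne_top _ _⟩
    rwa [show ⋂ n : ℕ, {ω | η * √(n : ℝ) < X ω} = ∅ from Set.eq_empty_of_forall_notMem fun ω hω => by
      obtain ⟨n, hn⟩ := (hT.eventually_ge_atTop (X ω)).exists
      exact absurd (Set.mem_iInter.1 hω n) hn.not_gt, measure_empty] at h
  have h1 := (ENNReal.tendsto_toReal ENNReal.zero_ne_top).comp h0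
  rw [ENNReal.toReal_zero] at h1
  filter_upwards [h1.eventually (eventually_le_nhds hε)] with n hn v
  refine le_trans (le_of_eq ?_) hn
  have hmp : MeasurePreserving (V4.moveCfg v) (V4.law G) (V4.law G) :=
    ⟨V4.measurable_moveCfg v, V4.map_moveCfg G v⟩
  have hset : {ω : Cfg | η * √(n : ℝ) < hubJunk b v ω} = V4.moveCfg v ⁻¹' {ω | η * √(n : ℝ) < X ω} := by
    ext ω
    have e : X (V4.moveCfg v ω) = hubJunk b v ω := by
      simp only [X, hubJunk]
      rw [V4.tt_move_any, ← planeHub, planeHub_cov, Prod.mk_zero_zero, zero_add]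
      rfl
    simp [e]
  simp only [Function.comp_apply]
  rw [hset, measureReal_def, hmp.measure_preimage (measurableSet_lt measurable_const hX).nullMeasurableSet]

end Vale.Agent.P158.Any
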