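import Mathlib
import Vale.Agent.P158.Any.FacetCtx
import Vale.Agent.P158.Facet.Frame

/-!
P158 facets for every law: the least mean time between hubs beyond a level across a corner.
-/

namespace Vale.Agent.P158.Any

open MeasureTheory Filter Topology Vale.Agent.P158.V4 Vale.Agent.P158.Facet

/-- The least mean beyond a level. -/
noncomputable def least (G : Measure ℝ) (b : ℝ) {μ : ℝ × ℝ → ℝ} (F : Frame μ) (t : ℝ) : ℝ :=
  sInf (hubMean G b '' {z | t ≤ F.x z})

/-- Its excess over the linear value. -/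
noncomputable def excess (G : Measure ℝ) (b : ℝ) {μ : ℝ × ℝ → ℝ} (F : Frame μ) (t : ℝ) : ℝ :=
  least G b F t - t

theorem beyond_fl {μ : ℝ × ℝ → ℝ} (F : Frame μ) (t r : ℝ) (hr : t + 2 * F.K ≤ r) :
    t ≤ F.x (fl (r • F.v)) := by
  have h := (abs_le.1 (F.x_fl r 0).1).1
  simp only [zero_smul, add_zero] at h
  linarith

namespace Ctx

variable {G : Measure ℝ} [IsProbabilityMeasure G] {μ : ℝ × ℝ → ℝ} {b B c : ℝ}
variable (hX : Ctx G μ b B c) (F : Frame μ)
include hX

theorem frame_le_mean (z : Pt) : F.x z + |F.h z| ≤ hubMean G b z :=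
  (F.abs_le_mu z).trans (hX.le_mean z)

theorem mean_fl_le (r : ℝ) :
    hubMean G b (fl (r • F.v)) ≤ B * (F.L * |r| + 2) := by
  have h := (le_abs_self _).trans (hX.step (fl (r • F.v)) (0, 0))
  rw [hX.mean_zero, sub_zero] at h
  refine h.trans ?_
  refine mul_le_mul_of_nonneg_left ?_ (hX.B_nonneg)
  have h' := F.l1_le (0, 0) (0, 0) r 0
  rw [show l1 (fl (r • F.v)) (0, 0) = l1 (0, 0) (fl (r • F.v)) by simp [l1]]
  simp only [rvec_zero, zero_add, zero_smul, add_zero, sub_self, F.coord_zero.1, F.coord_zero.2, zero_sub,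
    abs_neg, abs_zero] at h'
  exact h'

theorem least_le {t : ℝ} {z : ℤ × ℤ} (h : t ≤ F.x z) : least G b F t ≤ hubMean G b z :=
  csInf_le ⟨0, by rintro _ ⟨y, -, rfl⟩; exact hX.mean_nonneg y⟩ ⟨z, h, rfl⟩

theorem le_least (t : ℝ) : t ≤ least G b F t := by
  refine le_csInf ⟨_, _, beyond_fl F t _ le_rfl, rfl⟩ ?_
  rintro _ ⟨y, hy, rfl⟩
  exact le_trans hy ((le_add_of_nonneg_right (abs_nonneg _)).trans (hX.frame_le_mean F y))

theorem excess_nonneg (t : ℝ) : 0 ≤ excess G b F t := sub_nonneg.2 (hX.le_least F t)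

/-- A near minimiser beyond a level. -/
theorem exists_near (t : ℝ) :
    ∃ z, t ≤ F.x z ∧ hubMean G b z ≤ least G b F t + 1 ∧ F.x z - t + |F.h z| ≤ excess G b F t + 1 := by
  obtain ⟨_, ⟨z, hz, rfl⟩, hlt⟩ := exists_lt_of_csInf_lt
    (s := hubMean G b '' {z | t ≤ F.x z}) ⟨_, _, beyond_fl F t _ le_rfl, rfl⟩ (lt_add_one (least G b F t))
  refine ⟨z, hz, hlt.le, ?_⟩
  have := hX.frame_le_mean F z
  unfold excess
  linarith

theorem excess_le_linear (t : ℝ) (ht : 0 ≤ t) :
    excess G b F t ≤ B * F.L * t + B * (2 * F.K * F.L + 2) := by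
  have h := (hX.least_le F (Any.beyond_fl F t _ le_rfl)).trans (hX.mean_fl_le F (t + 2 * F.K))
  rw [abs_of_nonneg (by linarith [F.one_le_K])] at h
  unfold excess
  linarith

/-- Levels at a bounded distance have comparable minimal means. -/
theorem least_shift (t s : ℝ) :
    least G b F t ≤ least G b F s + B * (F.L * (|t - s| + 2 * F.K) + 2) := by
  rw [← sub_le_iff_le_add]
  refine le_csInf ⟨_, _, beyond_fl F s _ le_rfl, rfl⟩ ?_
  rintro _ ⟨y, hy, rfl⟩
  rw [sub_le_iff_le_add]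
  set r := |t - s| + 2 * F.K with hr
  have hx : t ≤ F.x (y + fl (r • F.v)) := by
    rw [F.x_add]
    have := Any.beyond_fl F (|t - s|) r le_rfl
    have := le_abs_self (t - s)
    simp only [Set.mem_ofPred_eq] at hy
    linarith
  refine (hX.least_le F hx).trans ((hX.mean_add_le _ _).trans (add_le_add le_rfl ?_))
  refine (hX.mean_fl_le F r).trans_eq ?_
  rw [abs_of_nonneg (by rw [hr]; linarith [abs_nonneg (t - s), F.one_le_K])]

/-- The excess is sublinear. -/
theorem excess_sublinear {ε : ℝ} (hε : 0 < ε) :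
    ∀ᶠ t : ℝ in atTop, excess G b F t ≤ ε * t := by
  set C := B * (F.L * (1 + 4 * F.K) + 2) + 2 * F.K + 1
  have h := hX.tends F.v (fun n : ℕ => fl ((n : ℝ) * F.v.1, (n : ℝ) * F.v.2))
    (tendsto_floor_div _) (tendsto_floor_div _)
  rw [F.μv] at h
  have h' : ∀ᶠ n : ℕ in atTop, hubMean G b (fl ((n : ℝ) • F.v)) ≤ (1 + ε / 2) * n := by
    filter_upwards [h.eventually_le_const (show (1 : ℝ) < 1 + ε / 2 by linarith), eventually_gt_atTop 0]
      with n hn hn0
    rw [div_le_iff₀ (by exact_mod_cast hn0)] at hn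
    exact hn
  filter_upwards [tendsto_nat_floor_atTop.eventually h', eventually_ge_atTop (0 : ℝ),
    eventually_ge_atTop (C / (ε / 2))] with t hn ht0 htC
  set n := ⌊t⌋₊
  have h1 : (n : ℝ) ≤ t := Nat.floor_le ht0
  have h2 : t ≤ n + 1 := (Nat.lt_floor_add_one t).le
  have h3 := hX.least_le F (Any.beyond_fl F ((n : ℝ) - 2 * F.K) n (by linarith))
  have h4 := hX.least_shift F t ((n : ℝ) - 2 * F.K)
  have h5 : |t - ((n : ℝ) - 2 * F.K)| + 2 * F.K ≤ 1 + 4 * F.K := by
    rw [abs_of_nonneg (by linarith [F.one_le_K])]; linarith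
  have h6 := mul_le_mul_of_nonneg_left (add_le_add (mul_le_mul_of_nonneg_left h5 (zero_le_one.trans F.one_le_L))
    (le_refl (2 : ℝ))) (hX.B_nonneg)
  rw [div_le_iff₀ (by positivity)] at htC
  unfold excess
  nlinarith [F.one_le_K]

/-- A near minimiser is near the axis. -/
theorem mean_axis_le (t : ℝ) :
    hubMean G b (fl (t • F.v)) ≤ t + excess G b F t + 1 + B * (F.L * (excess G b F t + 1) + 2) := by
  obtain ⟨z, h1, h2, h3⟩ := hX.exists_near F t
  have h4 := (abs_le.1 (hX.step z (fl (t • F.v)))).1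
  have h5 := F.l1_le z (0, 0) t 0
  simp only [rvec_zero, zero_add, zero_smul, add_zero, sub_zero, F.h_sub, F.x_sub, F.x_zero, F.h_zero] at h5
  rw [abs_of_nonneg (sub_nonneg.2 h1)] at h5
  have h6 : F.L * (F.x z - t + |F.h z|) ≤ F.L * (excess G b F t + 1) :=
    mul_le_mul_of_nonneg_left h3 (zero_le_one.trans F.one_le_L)
  have h7 := mul_le_mul_of_nonneg_left (h5.trans (add_le_add h6 le_rfl)) hX.B_nonneg
  unfold excess at *
  linarith

end Ctx

end Vale.Agent.P158.Any
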