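import Mathlib
import Vale.Agent.P158.Any.FacetFrame
import Vale.Agent.P158.Facet.Rate

/-!
P158 facets for every law: deviations of the times between hubs, uniformly over all sites seen from an
anchor across a corner, and the cost of a detour.
-/

namespace Vale.Agent.P158.Any

open MeasureTheory Filter Topology Vale.Agent.P158.V4 Vale.Agent.P158.Facet

variable {G : Measure ℝ} [IsProbabilityMeasure G] {μ : ℝ × ℝ → ℝ} {b B c : ℝ}

theorem Calm.mono {R R' : ℝ} (hR : R ≤ R') {n : ℕ} {ω : Cfg} (h : Calm b B c R' n ω) :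
    Calm b B c R n ω := by
  have hb : ∀ y : Pt, (l1 (0, 0) y : ℝ) ≤ R * n → (l1 (0, 0) y : ℝ) ≤ R' * n := fun y hy =>
    hy.trans (mul_le_mul_of_nonneg_right hR (Nat.cast_nonneg n))
  exact ⟨h.nonneg, fun y y' hy hy' => h.mod y y' (hb y hy) (hb y' hy'),
    fun y y' hy hy' => h.low y y' (hb y hy) (hb y' hy'), fun y hy => h.near y (hb y hy),
    fun y hy => h.ray y (hb y hy), fun a ha => h.far a (hb a ha)⟩

/-- The excess of a deviation over a threshold. -/
noncomputable def excH (G : Measure ℝ) (b θ : ℝ) (u v : Pt) (ω : Cfg) : ℝ :=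
  max 0 (|hubTime b u v ω - hubMean G b (v - u)| - θ)

theorem l1_add_le {u v : Pt} {p q : ℝ} (h1 : (l1 (0, 0) u : ℝ) ≤ p) (h2 : (l1 u v : ℝ) ≤ q) :
    (l1 (0, 0) v : ℝ) ≤ p + q := by
  have : (l1 (0, 0) v : ℝ) ≤ (l1 (0, 0) u : ℝ) + l1 u v := by exact_mod_cast Facet.l1_triangle (0, 0) u v
  linarith

namespace Ctx

variable (hX : Ctx G μ b B c)
include hX

theorem excH_integrable (θ : ℝ) (u v : Pt) : Integrable (excH G b θ u v) (law G) :=
  (integrable_const (0 : ℝ)).sup (((hX.integrable u v).sub' (integrable_const _)).abs.sub' (integrable_const θ))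

theorem integral_excH_le {θ : ℝ} (hθ : 0 < θ) (u v : Pt) :
    ∫ ω, excH G b θ u v ω ∂law G ≤
      (∫ ω, (hubTime b u v ω - hubMean G b (v - u)) ^ 2 ∂law G) / (4 * θ) := by
  rw [← integral_div]
  refine integral_mono (hX.excH_integrable θ u v)
    (((hX.sq u v).sub (memLp_const (hubMean G b (v - u)))).integrable_sq.div_const _) fun ω => ?_
  refine max_le (by positivity) ?_
  rw [le_div_iff₀ (by positivity), ← sq_abs]
  nlinarith [sq_nonneg (|hubTime b u v ω - hubMean G b (v - u)| - 2 * θ)]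

/-- The excesses at finitely many pairs have small mean. -/
theorem exists_excH {ι : Type*} (R : Finset ι) (u r : ι → Pt) (θ V : ι → ℝ) (hθ : ∀ i ∈ R, 0 < θ i)
    (hV : ∀ i ∈ R, ∫ ω, (hubTime b (u i) (r i) ω - hubMean G b (r i - u i)) ^ 2 ∂law G ≤ V i) :
    ∃ S : Cfg → ℝ, (∀ ω, 0 ≤ S ω) ∧ Integrable S (law G) ∧
      ∫ ω, S ω ∂law G ≤ ∑ i ∈ R, V i / (4 * θ i) ∧
      ∀ ω, ∀ i ∈ R, |hubTime b (u i) (r i) ω - hubMean G b (r i - u i)| ≤ θ i + S ω := by
  refine ⟨fun ω => ∑ i ∈ R, excH G b (θ i) (u i) (r i) ω, fun ω => Finset.sum_nonneg fun i _ => le_max_left _ _,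
    integrable_finsetSum _ fun i _ => hX.excH_integrable _ _ _, ?_, fun ω i hi => ?_⟩
  · rw [integral_finsetSum _ fun i _ => hX.excH_integrable _ _ _]
    refine Finset.sum_le_sum fun i hi => (hX.integral_excH_le (hθ i hi) _ _).trans ?_
    exact div_le_div_of_nonneg_right (hV i hi) (by linarith [hθ i hi])
  · have h : excH G b (θ i) (u i) (r i) ω ≤ ∑ j ∈ R, excH G b (θ j) (u j) (r j) ω :=
      Finset.single_le_sum (f := fun j => excH G b (θ j) (u j) (r j) ω) (fun j _ => le_max_left _ _) hi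
    have := le_max_right (0 : ℝ) (|hubTime b (u i) (r i) ω - hubMean G b (r i - u i)| - θ i)
    simp only [excH] at h ⊢
    linarith

/-- Moving the far end of a deviation. -/
theorem abs_dev_le {ω : Cfg} {R : ℝ} {n : ℕ} (hω : Calm b B c R n ω) (u : Pt) {y r : Pt}
    (hy : (l1 (0, 0) y : ℝ) ≤ R * n) (hr : (l1 (0, 0) r : ℝ) ≤ R * n) :
    |hubTime b u y ω - hubMean G b (y - u)| ≤
      |hubTime b u r ω - hubMean G b (r - u)| + B * (2 * l1 y r + slack n) := by
  have h0 := hω.nonneg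
  have t1 := hubTime_triangle (b := b) h0 u r y
  have t2 := hubTime_triangle (b := b) h0 u y r
  have t3 := hubTime_comm (b := b) h0 r y
  have t4 := hω.mod y r hy hr
  have h2 := abs_le.1 (hX.step (y - u) (r - u))
  rw [show l1 (y - u) (r - u) = l1 y r by simp [l1]] at h2
  have h3 := abs_le.1 (le_refl |hubTime b u r ω - hubMean G b (r - u)|)
  rw [abs_le]
  constructor <;> linarith

/-- Moving both ends of a deviation. -/
theorem abs_dev_le2 {ω : Cfg} {R : ℝ} {n : ℕ} (hω : Calm b B c R n ω) {u y u' y' : Pt}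
    (hu : (l1 (0, 0) u : ℝ) ≤ R * n) (hy : (l1 (0, 0) y : ℝ) ≤ R * n) (hu' : (l1 (0, 0) u' : ℝ) ≤ R * n)
    (hy' : (l1 (0, 0) y' : ℝ) ≤ R * n) :
    |hubTime b u y ω - hubMean G b (y - u)| ≤ |hubTime b u' y' ω - hubMean G b (y' - u')| +
      2 * B * ((l1 u u' : ℝ) + l1 y y' + slack n) := by
  have sym : ∀ p q : Pt, hubTime b p q ω - hubMean G b (q - p) = hubTime b q p ω - hubMean G b (p - q) :=
    fun p q => by rw [hubTime_comm hω.nonneg p q, ← hX.mean_neg (p - q), neg_sub]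
  have h1 := hX.abs_dev_le hω u hy hy'
  have h2 := hX.abs_dev_le hω y' hu hu'
  rw [sym y' u, sym y' u'] at h2
  linarith

/-- A deviation bound on the grid spreads to the whole window. -/
theorem dev_of_rep (F : Frame μ) {ω : Cfg} {R : ℝ} {n : ℕ} (hω : Calm b B c R n ω) (u y : Pt)
    {t H κ C η S : ℝ} (hκ : 0 < κ) (hH0 : 0 < H) (hC : 1 ≤ C) (hη : 0 < η) (hκb : 4 * B * F.L * κ ≤ η / 8)
    (hnb : 32 * B + 8 * B * slack n ≤ η * H) {J : ℕ} {X : ℝ} (hJ : X ≤ 2 ^ J * H)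
    (hyx : |F.x (y - u) - t| ≤ C * (H + |F.h (y - u)|)) (hyh : |F.h (y - u)| ≤ X)
    (hy : (l1 (0, 0) y : ℝ) ≤ R * n)
    (hS : ∀ i ∈ Finset.range (J + 1) ×ˢ Finset.Icc (-((⌈2 * C / κ⌉₊ + 1 : ℕ) : ℤ)) (⌈2 * C / κ⌉₊ + 1 : ℕ) ×ˢ
        Finset.Icc (-((⌈2 * C / κ⌉₊ + 1 : ℕ) : ℤ)) (⌈2 * C / κ⌉₊ + 1 : ℕ),
      (l1 (0, 0) (rep F u t H κ i) : ℝ) ≤ R * n ∧
        |hubTime b u (rep F u t H κ i) ω - hubMean G b (rep F u t H κ i - u)| ≤ η * (2 ^ i.1 * H) / 4 + S) :
    |hubTime b u y ω - hubMean G b (y - u)| ≤ η * (|F.h (y - u)| + H) + S := by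
  have hb : 0 ≤ B := hX.B_nonneg
  have hL := F.one_le_L
  classical
  have hex : ∃ j : ℕ, |F.h (y - u)| ≤ 2 ^ j * H := ⟨J, hyh.trans hJ⟩
  set j := Nat.find hex with hj
  have hjh : |F.h (y - u)| ≤ 2 ^ j * H := Nat.find_spec hex
  have hjJ : j ≤ J := Nat.find_le (hyh.trans hJ)
  have hj1 : (1 : ℝ) ≤ 2 ^ j := one_le_pow₀ one_le_two
  have hjle : 2 ^ j * H ≤ 2 * (|F.h (y - u)| + H) := by
    rcases Nat.eq_zero_or_pos j with h | h
    · rw [h, pow_zero, one_mul]; linarith [abs_nonneg (F.h (y - u))]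
    · have := Nat.find_min hex (show j - 1 < Nat.find hex by omega)
      rw [show j = j - 1 + 1 by omega, pow_succ]
      linarith [not_le.1 this]
  set s := κ * (2 ^ j * H) with hs
  have hs0 : 0 < s := by positivity
  have hxs : |F.x (y - u) - t| ≤ 2 * C / κ * s := by
    rw [hs, div_mul_eq_mul_div, le_div_iff₀ hκ]
    have : H + |F.h (y - u)| ≤ 2 * (2 ^ j * H) := by nlinarith
    nlinarith [mul_le_mul_of_nonneg_left this (zero_le_one.trans hC)]
  have hhs : |F.h (y - u)| ≤ 2 * C / κ * s := by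
    rw [hs, div_mul_eq_mul_div, le_div_iff₀ hκ]
    nlinarith [mul_le_mul_of_nonneg_right hjh hκ.le, mul_nonneg (pow_nonneg zero_le_two j) hH0.le]
  obtain ⟨hi1, he1⟩ := exists_grid hs0 hxs
  obtain ⟨hi2, he2⟩ := exists_grid hs0 hhs
  set i : ℕ × ℤ × ℤ := (j, ⌊(F.x (y - u) - t) / s⌋, ⌊F.h (y - u) / s⌋) with hi
  have hl : (l1 y (rep F u t H κ i) : ℝ) ≤ F.L * (2 * s) + 2 := by
    refine (show (l1 y (rep F u t H κ i) : ℝ) ≤ _ from F.l1_le y u _ _).trans (add_le_add (mul_le_mul_of_nonneg_left ?_ (zero_le_one.trans hL)) le_rfl)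
    simp only [hi, ← hs]
    rw [two_mul]
    refine add_le_add (le_of_eq_of_le ?_ he1) he2
    congr 1; ring
  obtain ⟨hir, hiS⟩ := hS i (Finset.mem_product.2 ⟨Finset.mem_range.2 (by simp only [hi]; omega),
    Finset.mem_product.2 ⟨hi1, hi2⟩⟩)
  have h := (hX.abs_dev_le hω u hy hir).trans (add_le_add hiS le_rfl)
  refine h.trans ?_
  have h2 := mul_le_mul_of_nonneg_left hl (by positivity : 0 ≤ 2 * B)
  have h3 : 4 * B * F.L * s ≤ η / 8 * (2 ^ j * H) := by
    rw [hs, ← mul_assoc]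
    gcongr
  have h4 : 32 * B + 8 * B * slack n ≤ η * (2 ^ j * H) := by
    nlinarith [le_mul_of_one_le_left hH0.le hj1]
  simp only [hi]
  nlinarith [mul_le_mul_of_nonneg_left hjle hη.le]

/-- Deviations at all scales beyond `H` are small, up to an error of small mean. -/
theorem far_dev (F : Frame μ) {C : ℝ} (hC : 1 ≤ C) {η : ℝ} (hη : 0 < η) {ε : ℝ} (hε : 0 < ε) :
    ∃ R : ℝ, C ≤ R ∧ ∀ᶠ n : ℕ in atTop, ∀ (u : Pt) (t H : ℝ), (l1 (0, 0) u : ℝ) ≤ C * n → |t| ≤ C * n →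
      √(n : ℝ) ≤ H → H ≤ C * n →
        ∃ S : Cfg → ℝ, (∀ ω, 0 ≤ S ω) ∧ Integrable S (law G) ∧ ∫ ω, S ω ∂law G ≤ ε * √(n : ℝ) ∧
          ∀ ω, Calm b B c R n ω → ∀ y, |F.x (y - u) - t| ≤ C * (H + |F.h (y - u)|) → |F.h (y - u)| ≤ C * n →
            (l1 (0, 0) y : ℝ) ≤ R * n ∧
              |hubTime b u y ω - hubMean G b (y - u)| ≤ η * (|F.h (y - u)| + H) + S ω := by
  have hb := hX.B_nonneg
  have hL := F.one_le_L
  set κ := η / (32 * (B * F.L + 1)) with hκdef
  have hκ : 0 < κ := by positivity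
  have hκb : 4 * B * F.L * κ ≤ η / 8 := by
    have : κ * (32 * (B * F.L + 1)) = η := by rw [hκdef]; field_simp
    nlinarith
  set M := ⌈2 * C / κ⌉₊ + 1 with hM
  obtain ⟨A, hA⟩ := exists_nat_ge (F.L * (C + 4 * M * κ * C) + 2)
  have hA0 : (0 : ℝ) < A := lt_of_lt_of_le (by positivity) hA
  set D := ((2 * M + 1 : ℕ) : ℝ) ^ 2 with hD
  set ε' := ε * η / (2 * D * A) with hε'
  have hD0 : 0 < D := by positivity
  obtain ⟨N, hN⟩ := hX.var ε' (by positivity)
  set R := C + A + F.L * (2 * C + 2 * C ^ 2) + 2 with hR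
  have hR1 : 0 ≤ F.L * (2 * C + 2 * C ^ 2) := by positivity
  refine ⟨R, by linarith, ?_⟩
  filter_upwards [eventually_ge_atTop N, eventually_ge_atTop 1,
    slack_le_sqrt (show 0 < η / (2 * (8 * B + 1)) by positivity),
    (Real.tendsto_sqrt_atTop.comp tendsto_natCast_atTop_atTop).eventually_ge_atTop (2 * (32 * B) / η)]
    with n hn hn1 hsl hnb u t H hu ht hH1 hH2
  simp only [Function.comp_apply] at hnb
  rw [div_le_iff₀ hη] at hnb
  have hn0 : (1 : ℝ) ≤ n := by exact_mod_cast hn1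
  have hH0 : 0 < H := lt_of_lt_of_le (Real.sqrt_pos.2 (by linarith)) hH1
  have hbH : 32 * B + 8 * B * slack n ≤ η * H := by
    have h1 : 8 * B * slack n ≤ η / 2 * √(n : ℝ) := by
      refine (mul_le_mul_of_nonneg_left hsl (by positivity)).trans ?_
      rw [← mul_assoc]
      refine mul_le_mul_of_nonneg_right ?_ (Real.sqrt_nonneg _)
      rw [mul_div_assoc', div_le_div_iff₀ (by positivity) two_pos]
      linarith
    linarith [mul_le_mul_of_nonneg_left hH1 hη.le]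
  obtain ⟨J, hJ, hJ2⟩ := Facet.exists_level hH0 hH2
  set Rs : Finset (ℕ × ℤ × ℤ) := Finset.range (J + 1) ×ˢ Finset.Icc (-(M : ℤ)) M ×ˢ Finset.Icc (-(M : ℤ)) M
    with hRs
  obtain ⟨S, hS0, hSi, hSm, hSb⟩ := hX.exists_excH Rs (fun _ => u) (rep F u t H κ)
    (fun i => η * (2 ^ i.1 * H) / 4) (fun _ => ε' * ((A * n : ℕ) : ℝ)) (fun i _ => by positivity) fun i hi => by
      refine hN (A * n) (le_trans hn (Nat.le_mul_of_pos_left n (by exact_mod_cast hA0))) u _ ?_
      exact rep_far F u hκ hH0 hn0 ht hA hJ2 hi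
  refine ⟨S, hS0, hSi, hSm.trans ?_, ?_⟩
  · rw [hRs, Finset.sum_product]
    simp only [Finset.sum_const, Finset.card_product, Int.card_Icc, nsmul_eq_mul]
    rw [show ((M : ℤ) + 1 - -(M : ℤ)).toNat = 2 * M + 1 by omega]
    have hgeo : ∑ j ∈ Finset.range (J + 1), (1 / (2 : ℝ) ^ j) ≤ 2 := by
      simpa [div_pow] using sum_geometric_two_le (J + 1)
    calc ∑ j ∈ Finset.range (J + 1), (((2 * M + 1) * (2 * M + 1) : ℕ) : ℝ) *
          (ε' * ((A * n : ℕ) : ℝ) / (4 * (η * (2 ^ j * H) / 4)))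
        = (∑ j ∈ Finset.range (J + 1), (1 / (2 : ℝ) ^ j)) * (D * ε' * A * n / (η * H)) := by
          rw [Finset.sum_mul]
          refine Finset.sum_congr rfl fun j _ => ?_
          rw [hD]
          push_cast
          field_simp
      _ ≤ 2 * (D * ε' * A * n / (η * H)) := mul_le_mul_of_nonneg_right hgeo (by positivity)
      _ = ε * (n / H) := by rw [hε']; field_simp
      _ ≤ ε * √(n : ℝ) := by
          refine mul_le_mul_of_nonneg_left ?_ hε.le
          rw [div_le_iff₀ hH0]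
          calc (n : ℝ) = √(n : ℝ) * √(n : ℝ) := (Real.mul_self_sqrt (by linarith)).symm
            _ ≤ √(n : ℝ) * H := mul_le_mul_of_nonneg_left hH1 (Real.sqrt_nonneg _)
  · intro ω hω y hyx hyh
    have hy : (l1 (0, 0) y : ℝ) ≤ R * n := by
      have h2 : (l1 u y : ℝ) ≤ F.L * (|F.x (y - u)| + |F.h (y - u)|) + 2 := by
        have := F.l1_origin (y - u)
        rwa [show l1 ((0 : ℤ), (0 : ℤ)) (y - u) = l1 u y by simp [l1] ] at this
      have h3 : |F.x (y - u)| + |F.h (y - u)| ≤ (2 * C + 2 * C ^ 2) * n := by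
        have := abs_sub_abs_le_abs_sub (F.x (y - u)) t
        have := mul_le_mul_of_nonneg_left (add_le_add hH2 hyh) (zero_le_one.trans hC)
        linarith
      refine (l1_add_le hu h2).trans ?_
      have := mul_le_mul_of_nonneg_left h3 (zero_le_one.trans hL)
      have := mul_nonneg hA0.le (Nat.cast_nonneg (α := ℝ) n)
      rw [hR]
      linarith
    refine ⟨hy, hX.dev_of_rep F hω u y hκ hH0 hC hη hκb hbH hJ hyx hyh hy fun i hi => ⟨?_, hSb ω i hi⟩⟩
    refine (l1_add_le hu (Nat.cast_le.2 (rep_far F u hκ hH0 hn0 ht hA hJ2 hi))).trans ?_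
    push_cast
    rw [hR]
    linarith [mul_nonneg hR1 (Nat.cast_nonneg (α := ℝ) n)]

/-- The cost of a detour from `a` to `z` through a site. -/
theorem detour (F : Frame μ) {C : ℝ} (hC : 1 ≤ C) {η : ℝ} (hη : 0 < η) {ε : ℝ} (hε : 0 < ε) :
    ∃ R : ℝ, C ≤ R ∧ ∀ᶠ n : ℕ in atTop, ∀ (a z : Pt) (t H : ℝ), (l1 (0, 0) a : ℝ) ≤ C * n → |t| ≤ C * n →
      |F.x (z - a)| ≤ C * n → √(n : ℝ) ≤ H → H ≤ C * n → |F.h (z - a)| ≤ H →
        ∃ S : Cfg → ℝ, (∀ ω, 0 ≤ S ω) ∧ Integrable S (law G) ∧ ∫ ω, S ω ∂law G ≤ ε * √(n : ℝ) ∧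
          ∀ ω, Calm b B c R n ω → ∀ y, |F.x (y - a) - t| ≤ C * (H + |F.h (y - a)|) → |F.h (y - a)| ≤ C * n →
            F.x (z - a) + (1 - η) * (hubMean G b (y - a) + hubMean G b (z - y) - F.x (z - a)) - 2 * η * H -
              S ω ≤ hubTime b a y ω + hubTime b y z ω := by
  have hL := F.one_le_L
  set C' := C + 2 * F.L * C + 2 + 2 * C with hC'
  have hC'0 : 0 ≤ 2 * F.L * C := by positivity
  obtain ⟨R, hR, hev⟩ := hX.far_dev F (C := C') (by linarith) hη (show 0 < ε / 2 by positivity)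
  refine ⟨R, by linarith, ?_⟩
  filter_upwards [hev, eventually_ge_atTop 1] with n hn hn1 a z t H ha ht hz hH1 hH2 hh
  have hb := hX.B_nonneg
  have hn0 : (1 : ℝ) ≤ n := by exact_mod_cast hn1
  have hH00 : 0 ≤ H := (Real.sqrt_nonneg _).trans hH1
  have hCn : C * n ≤ C' * n := by gcongr; linarith
  have hCn2 : 2 * (C * n) ≤ C' * n := by rw [← mul_assoc]; gcongr; linarith
  have hzl : (l1 (0, 0) z : ℝ) ≤ C' * n := by
    have h2 : (l1 a z : ℝ) ≤ F.L * (|F.x (z - a)| + |F.h (z - a)|) + 2 := by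
      have := F.l1_origin (z - a)
      rwa [show l1 ((0 : ℤ), (0 : ℤ)) (z - a) = l1 a z by simp [l1] ] at this
    refine (l1_add_le ha h2).trans ?_
    have := mul_le_mul_of_nonneg_left (add_le_add hz (hh.trans hH2)) (zero_le_one.trans hL)
    have : 0 ≤ 2 * C * (n : ℝ) := by positivity
    rw [hC']
    linarith
  obtain ⟨S1, p1, i1, m1, b1⟩ := hn a t H (ha.trans hCn) (ht.trans hCn) hH1 (hH2.trans hCn)
  obtain ⟨S2, p2, i2, m2, b2⟩ := hn z (t - F.x (z - a)) H hzl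
    ((abs_sub _ _).trans ((add_le_add ht hz).trans (by linarith))) hH1 (hH2.trans hCn)
  refine ⟨fun ω => S1 ω + S2 ω, fun ω => add_nonneg (p1 ω) (p2 ω), i1.add i2, ?_, ?_⟩
  · rw [integral_add i1 i2]
    linarith
  · intro ω hω y hy hyh
    have hh2 : F.h (y - z) = F.h (y - a) - F.h (z - a) := by simp only [F.h_sub]; ring
    have hx2 : F.x (y - z) - (t - F.x (z - a)) = F.x (y - a) - t := by simp only [F.x_sub]; ring
    obtain ⟨-, e1⟩ := b1 ω hω y (hy.trans (by gcongr; linarith)) (hyh.trans hCn)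
    have hb1 : |F.h (y - a)| ≤ |F.h (y - z)| + H := by
      rw [hh2]
      have := abs_sub_abs_le_abs_sub (F.h (y - a)) (F.h (z - a))
      linarith
    obtain ⟨-, e2⟩ := b2 ω hω y (by
        rw [hx2]
        refine hy.trans ?_
        calc C * (H + |F.h (y - a)|) ≤ C * (2 * (H + |F.h (y - z)|)) := by
              gcongr; linarith [abs_nonneg (F.h (y - z))]
          _ ≤ C' * (H + |F.h (y - z)|) := by rw [← mul_assoc]; gcongr; linarith) (by
        rw [hh2]
        exact (abs_sub _ _).trans (by linarith [hh.trans hH2]))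
    rw [hubTime_comm hω.nonneg z y, show hubMean G b (y - z) = hubMean G b (z - y) by
      rw [← hX.mean_neg, neg_sub]] at e2
    have l1' := hX.frame_le_mean F (y - a)
    have l2' := hX.frame_le_mean F (z - y)
    rw [show |F.h (z - y)| = |F.h (y - z)| by rw [F.h_sub, F.h_sub, abs_sub_comm]] at l2'
    have hx3 : F.x (z - a) = F.x (y - a) + F.x (z - y) := by simp only [F.x_sub]; ring
    have hL' : |F.h (y - a)| + |F.h (y - z)| ≤ hubMean G b (y - a) + hubMean G b (z - y) - F.x (z - a) := by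
      linarith
    rw [abs_le] at e1 e2
    linarith [mul_le_mul_of_nonneg_left hL' hη.le]

end Ctx

end Vale.Agent.P158.Any
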