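import Mathlib
import Vale.Agent.P158.Any.FacetDev

/-!
P158 facets for every law: at a corner the mean time between hubs along the corner exceeds its linear
value by less than the square root of the distance.
-/

namespace Vale.Agent.P158.Any

open MeasureTheory Filter Topology Vale.Agent.P158.V4 Vale.Agent.P158.Facet

namespace Ctx

variable {G : Measure ℝ} [IsProbabilityMeasure G] {μ : ℝ × ℝ → ℝ} {b B c : ℝ}
variable (hX : Ctx G μ b B c)
include hX

/-- Every walk between the hubs passes the slab, so a bound on all detours through it bounds the time. -/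
theorem slab_le (F : Frame μ) {R : ℝ} {n : ℕ} {ω : Cfg} (hω : Calm b B c R n ω) {t X₀ : ℝ} {z : Pt}
    (ht : F.K * (B * slack n) < t) (hz : t + F.K * (B * slack n) ≤ F.x z)
    (hzR : (l1 (0, 0) z : ℝ) + B * slack n ≤ R * n) (hnR : n + B * slack n ≤ R * n)
    (hcap : X₀ ≤ c * (R * n - B * slack n))
    (h : ∀ y, t ≤ F.x y → F.x y ≤ t + F.K → (l1 (0, 0) y : ℝ) ≤ R * n →
      X₀ ≤ hubTime b (0, 0) y ω + hubTime b y z ω) :
    X₀ - 2 * (B * slack n) ≤ hubTime b (0, 0) z ω := by
  have hB : 0 ≤ B * slack n := mul_nonneg hX.B_nonneg (slack_nonneg n)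
  have hK : 0 ≤ F.K := zero_le_one.trans F.one_le_K
  have h0 : (l1 ((0 : ℤ), (0 : ℤ)) (0, 0) : ℝ) ≤ R * n := by
    simp only [l1, sub_self, Int.natAbs_zero, add_zero, Nat.cast_zero]
    linarith [Nat.cast_nonneg (α := ℝ) n]
  set p₀ := firstHub b ω Set.univ ((0 : ℤ), (0 : ℤ)) with hp₀
  set pz := firstHub b ω Set.univ z with hpz
  have n0 := hω.near (0, 0) h0
  have nz := hω.near z (by linarith)
  rw [← hp₀] at n0
  rw [← hpz] at nz
  have hp₀R : (l1 (0, 0) p₀ : ℝ) ≤ R * n := by linarith [Nat.cast_nonneg (α := ℝ) n]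
  have hpzR : (l1 (0, 0) pz : ℝ) ≤ R * n := (l1_add_le le_rfl nz).trans hzR
  have x0 : F.x p₀ < t := by
    have := (abs_le.1 (F.abs_x_le p₀ (0, 0)).1).2
    rw [F.x_zero, Facet.l1_symm p₀] at this
    have := mul_le_mul_of_nonneg_left n0 hK
    linarith
  have xz : t ≤ F.x pz := by
    have := (abs_le.1 (F.abs_x_le pz z).1).1
    rw [Facet.l1_symm pz] at this
    have := mul_le_mul_of_nonneg_left nz hK
    linarith
  refine le_tt fun p => ?_
  obtain ⟨y, y1, y2, y3⟩ := exists_crossing F hω.nonneg p x0 xz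
  have t1 := tt_nonneg (u := y) (v := pz) hω.nonneg
  rcases le_or_gt (l1 (0, 0) y : ℝ) (R * n) with hy | hy
  · have l2 := hω.low p₀ y hp₀R hy
    have l3 := hω.low y pz hy hpzR
    rw [hubTime_firstHub] at l2
    rw [hubTime_comm hω.nonneg y pz, hubTime_firstHub, hubTime_comm hω.nonneg z y] at l3
    linarith [h y y1 y2 hy]
  · have hl : R * n - B * slack n ≤ l1 p₀ y := by
      have : (l1 (0, 0) y : ℝ) ≤ B * slack n + l1 p₀ y := l1_add_le n0 le_rfl
      linarith
    have hn : n ≤ l1 p₀ y := by exact_mod_cast (show (n : ℝ) ≤ l1 p₀ y by linarith)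
    have := mul_le_mul_of_nonneg_left hl hX.c_pos.le
    linarith [hω.far p₀ hp₀R y hn]

/-- The slab bound for the mean. -/
theorem le_mean_of_slab (F : Frame μ) {R R' : ℝ} (hR : R ≤ R') {n : ℕ} {t X₀ : ℝ} {z : Pt} (ht : F.K * (B * slack n) < t)
    (hz : t + F.K * (B * slack n) ≤ F.x z) (hzR : (l1 (0, 0) z : ℝ) + B * slack n ≤ R * n)
    (hnR : n + B * slack n ≤ R * n) (hcap : X₀ ≤ c * (R * n - B * slack n)) {S : Cfg → ℝ}
    (hS0 : ∀ ω, 0 ≤ S ω) (hS : Integrable S (law G))
    (h : ∀ ω, Calm b B c R' n ω → ∀ y, t ≤ F.x y → F.x y ≤ t + F.K → (l1 (0, 0) y : ℝ) ≤ R * n →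
      X₀ - S ω ≤ hubTime b (0, 0) y ω + hubTime b y z ω) :
    X₀ - ∫ ω, S ω ∂law G - 2 * (B * slack n) - X₀ * (law G).real {ω | ¬ Calm b B c R' n ω} ≤
      hubMean G b z := by
  set E := toMeasurable (law G) {ω | ¬ Calm b B c R' n ω}
  have hEm : MeasurableSet E := measurableSet_toMeasurable _ _
  have hi : Integrable (E.indicator fun _ => X₀) (law G) := (integrable_const _).indicator hEm
  have hae : ∀ᵐ ω ∂law G, X₀ - S ω - 2 * (B * slack n) - E.indicator (fun _ => X₀) ω ≤
      hubTime b (0, 0) z ω := by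
    filter_upwards [ae_nonneg hX.pos] with ω hω0
    by_cases hE : ω ∈ E
    · rw [Set.indicator_of_mem hE]
      linarith [hS0 ω, hubTime_nonneg (b := b) hω0 (0, 0) z, mul_nonneg hX.B_nonneg (slack_nonneg n)]
    · rw [Set.indicator_of_notMem hE, sub_zero]
      have hω : Calm b B c R' n ω := not_not.1 fun hn => hE (subset_toMeasurable _ _ hn)
      exact hX.slab_le F (hω.mono hR) ht hz hzR hnR (by linarith [hS0 ω]) (h ω hω)
  have := integral_mono_ae ((((integrable_const X₀).sub' hS).sub' (integrable_const _)).sub' hi)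
    (hX.integrable _ _) hae
  rw [integral_sub (((integrable_const X₀).sub' hS).sub' (integrable_const _)) hi,
    integral_sub ((integrable_const X₀).sub' hS) (integrable_const _), integral_sub (integrable_const X₀) hS,
    integral_indicator hEm, setIntegral_const, smul_eq_mul] at this
  have e : (law G).real E = (law G).real {ω | ¬ Calm b B c R' n ω} := by
    simp only [measureReal_def, E, measure_toMeasurable]
  simp only [integral_const, probReal_univ, one_smul, e] at this
  unfold hubMean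
  linarith

/-- The means through the slab are at least twice the minimal mean. -/
theorem two_least_le (F : Frame μ) {t : ℝ} {y z : ℤ × ℤ} (h1 : t ≤ F.x y)
    (h2 : F.x y ≤ t + F.K) (hz : 2 * t ≤ F.x z) :
    2 * least G b F t - B * (F.L * (3 * F.K) + 2) ≤ hubMean G b y + hubMean G b (z - y) := by
  have a := hX.least_le F h1
  have c := hX.least_le F (t := t - F.K) (z := z - y) (by rw [F.x_sub]; linarith)
  have d := hX.least_shift F t (t - F.K)
  rw [show |t - (t - F.K)| + 2 * F.K = 3 * F.K by rw [sub_sub_cancel, abs_of_nonneg (zero_le_one.trans F.one_le_K)]; ring] at d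
  linarith

/-- A bound on the excess linear in the level. -/
theorem exists_linear (F : Frame μ) :
    ∃ E : ℝ, 1 ≤ E ∧ ∀ t : ℝ, 1 ≤ t → excess G b F t ≤ E * t := by
  have hb := hX.B_nonneg
  have hL := F.one_le_L
  have hK := F.one_le_K
  have h1 : 0 ≤ B * F.L := by positivity
  have h2 : 0 ≤ B * (2 * F.K * F.L + 2) := by positivity
  refine ⟨B * F.L + B * (2 * F.K * F.L + 2) + 1, by linarith, fun t ht => ?_⟩
  have := hX.excess_le_linear F t (by linarith)
  have := mul_le_mul_of_nonneg_left ht h2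
  rw [mul_one] at this
  linarith

/-- Deviations over a whole line across the corner are at most of the order of the three-quarter power. -/
theorem line_dev (F : Frame μ) (C : ℕ) :
    ∃ D : ℝ, 0 ≤ D ∧ ∃ R : ℝ, (C : ℝ) ≤ R ∧ ∀ᶠ n : ℕ in atTop, ∀ (u : Pt) (t : ℝ), |t| ≤ C * n →
      (l1 (0, 0) u : ℝ) ≤ C * n → ∃ S : Cfg → ℝ, Integrable S (law G) ∧
        ∫ ω, S ω ∂law G ≤ D * (√(n : ℝ) * √√(n : ℝ)) ∧ (∀ ω, 0 ≤ S ω) ∧
        ∀ ω, Calm b B c R n ω → ∀ y, |F.x y - t| ≤ F.K → |F.h y| ≤ C * n → (l1 (0, 0) y : ℝ) ≤ R * n →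
          |hubTime b u y ω - hubMean G b (y - u)| ≤ D * (√(n : ℝ) * √√(n : ℝ)) + S ω := by
  have hb := hX.B_nonneg
  have hL := F.one_le_L
  have hK := F.one_le_K
  obtain ⟨A, hA⟩ := exists_nat_ge ((C : ℝ) + F.L * (C + (C + 2)) + 2)
  obtain ⟨N, hN⟩ := hX.var 1 one_pos
  have hA1 : (1 : ℝ) ≤ A := le_trans (by
    have : 0 ≤ (C : ℝ) + F.L * (C + (C + 2)) := by positivity
    linarith) hA
  have hLC : 0 ≤ F.L * ((C : ℝ) + (C + 2)) := by positivity
  refine ⟨(1 + 2 * B * (F.L * (F.K + 1) + 4)) + ((2 * C + 5) * A / 4 : ℝ), by positivity, A, by linarith, ?_⟩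
  filter_upwards [eventually_ge_atTop N, eventually_ge_atTop 1] with n hn hn1 u t ht hu
  have hn0 : (1 : ℝ) ≤ n := by exact_mod_cast hn1
  set r := √(n : ℝ) with hr
  set q := √r with hq
  have hr1 : 1 ≤ r := Real.one_le_sqrt.2 hn0
  have hq1 : 1 ≤ q := Real.one_le_sqrt.2 hr1
  have hrn : r * r = n := Real.mul_self_sqrt (by linarith)
  have hqr : q * q = r := Real.mul_self_sqrt (by linarith)
  set M := ⌈(C : ℝ) * r⌉₊ + 1 with hM
  have hM2 : (M : ℝ) ≤ (C + 2) * r := by
    rw [hM]; push_cast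
    linarith [Nat.ceil_lt_add_one (show (0 : ℝ) ≤ C * r by positivity)]
  set g : ℤ → Pt := fun i => fl (t • F.v + ((i : ℝ) * r) • F.w)
  have hg : ∀ i ∈ Finset.Icc (-(M : ℤ)) M,
      (l1 (0, 0) (g i) : ℝ) ≤ F.L * ((C : ℝ) * n + (C + 2) * n) + 2 := by
    intro i hi
    rw [Finset.mem_Icc] at hi
    have h := F.l1_le (0, 0) (0, 0) t ((i : ℝ) * r)
    simp only [rvec_zero, zero_add, sub_self, F.coord_zero.1, F.coord_zero.2, zero_sub, abs_neg] at h
    refine h.trans ?_
    gcongr
    rw [abs_mul, abs_of_pos (by linarith : 0 < r)]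
    calc |(i : ℝ)| * r ≤ M * r := by
          gcongr; exact abs_le.2 ⟨by exact_mod_cast hi.1, by exact_mod_cast hi.2⟩
      _ ≤ (C + 2) * r * r := by gcongr
      _ = (C + 2) * n := by rw [mul_assoc, hrn]
  obtain ⟨S, hS0, hSi, hSm, hSb⟩ := hX.exists_excH (Finset.Icc (-(M : ℤ)) M) (fun _ => u) g
    (fun _ => r * q) (fun _ => ((A * n : ℕ) : ℝ)) (fun i _ => by positivity) fun i hi => by
      refine (hN (A * n) (le_trans hn (Nat.le_mul_of_pos_left n (by exact_mod_cast lt_of_lt_of_le one_pos hA1)))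
        u _ ?_).trans_eq (one_mul _)
      have h2 : (l1 u (g i) : ℝ) ≤ l1 (0, 0) u + l1 (0, 0) (g i) := by
        have := Facet.l1_triangle u (0, 0) (g i)
        rw [Facet.l1_symm u (0, 0)] at this
        exact_mod_cast this
      have h3 : (l1 u (g i) : ℝ) ≤ ((A * n : ℕ) : ℝ) := by
        have := mul_le_mul_of_nonneg_right hA (Nat.cast_nonneg (α := ℝ) n)
        push_cast
        linarith [hg i hi]
      exact_mod_cast h3
  refine ⟨S, hSi, hSm.trans ?_, hS0, ?_⟩
  · simp only [Finset.sum_const, Int.card_Icc, nsmul_eq_mul]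
    rw [show ((M : ℤ) + 1 - -(M : ℤ)).toNat = 2 * M + 1 by omega]
    push_cast
    calc (2 * (M : ℝ) + 1) * (A * n / (4 * (r * q))) ≤ ((2 * C + 5) * r) * (A * n / (4 * (r * q))) := by
          gcongr; linarith
      _ = (2 * C + 5) * A / 4 * (r * q) := by
          rw [← hrn]
          field_simp
          rw [← hqr]
          ring
      _ ≤ _ := by gcongr; exact le_add_of_nonneg_left (by positivity)
  · intro ω hω y hyx hyh hy
    have hyh' : |F.h y| ≤ (C : ℝ) * r * r := by rw [mul_assoc, hrn]; exact hyh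
    obtain ⟨hi, he⟩ := exists_grid (by linarith : 0 < r) hyh'
    have hl := F.l1_le y (0, 0) t ((⌊F.h y / r⌋ : ℤ) * r)
    simp only [rvec_zero, zero_add, show y - ((0 : ℤ), (0 : ℤ)) = y by simp] at hl
    have hgi : (l1 (0, 0) (g ⌊F.h y / r⌋) : ℝ) ≤ A * n := by
      refine (hg _ hi).trans ?_
      have := mul_le_mul_of_nonneg_right hA (Nat.cast_nonneg (α := ℝ) n)
      have : 0 ≤ (C : ℝ) * n := by positivity
      linarith
    have h := (hX.abs_dev_le hω u hy hgi).trans (add_le_add (hSb ω _ hi) le_rfl)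
    refine h.trans ?_
    have h1 : r ≤ r * q := le_mul_of_one_le_right (by linarith) hq1
    have hq' : q ≤ r * q := le_mul_of_one_le_left (by linarith) hr1
    have h2 := mul_le_mul_of_nonneg_left (hl.trans (add_le_add
      (mul_le_mul_of_nonneg_left (add_le_add hyx he) (zero_le_one.trans hL)) le_rfl)) (by positivity : 0 ≤ 2 * B)
    have h3 : F.L * (F.K + r) + 2 ≤ (F.L * (F.K + 1) + 2) * (r * q) := by
      nlinarith [mul_le_mul_of_nonneg_left h1 (zero_le_one.trans hL), mul_nonneg (zero_le_one.trans hL)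
        (sub_nonneg.2 (hr1.trans h1))]
    have h4 := mul_le_mul_of_nonneg_left h3 (by positivity : 0 ≤ 2 * B)
    have h5 := mul_le_mul_of_nonneg_left hq' hb
    have h6 : slack n = q + 1 := rfl
    rw [h6]
    have h7 : B ≤ B * (r * q) := le_mul_of_one_le_right hb (hr1.trans h1)
    linarith [show 0 ≤ (2 * (C : ℝ) + 5) * A / 4 * (r * q) by positivity, show 0 ≤ B * (r * q) by positivity]

theorem eventually_calm (R : ℝ) {ε : ℝ} (hε : 0 < ε) :
    ∀ᶠ n : ℕ in atTop, (n : ℝ) * (law G).real {ω | ¬ Calm b B c R n ω} ≤ ε :=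
  (hX.calm R).eventually_le_const hε

theorem eventually_slack {η : ℝ} (hη : 0 < η) :
    ∀ᶠ n : ℕ in atTop, B * slack n ≤ η * √(n : ℝ) := by
  filter_upwards [slack_le_sqrt (show 0 < η / (B + 1) by have := hX.B_nonneg; positivity)] with n hn
  refine (mul_le_mul_of_nonneg_left hn hX.B_nonneg).trans ?_
  rw [← mul_assoc]
  refine mul_le_mul_of_nonneg_right ?_ (Real.sqrt_nonneg _)
  rw [mul_div_assoc', div_le_iff₀ (by linarith [hX.B_nonneg])]
  linarith

/-- The rough recursion. -/
theorem rough (F : Frame μ) :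
    ∃ D : ℝ, 0 ≤ D ∧ ∀ᶠ t : ℝ in atTop, 2 * excess G b F t - D * (√t * √√t) ≤ excess G b F (2 * t) := by
  obtain ⟨E, hE1, hE⟩ := hX.exists_linear F
  have hb := hX.B_nonneg
  have hc := hX.c_pos
  have hL := F.one_le_L
  have hK := F.one_le_K
  set R₀ := (4 * E + 4) / c + (F.L * (4 * E + 2) + 2) + 3 with hR₀
  have hR₀1 : 0 ≤ (4 * E + 4) / c := by positivity
  have hR₀2 : 0 ≤ F.L * (4 * E + 2) := by positivity
  obtain ⟨C, hC⟩ := exists_nat_ge (F.K * R₀ + R₀)
  obtain ⟨D, hD0, R, hR, hD⟩ := hX.line_dev F C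
  set C0 := B * (F.L * (3 * F.K) + 2)
  have hC00 : 0 ≤ C0 := by positivity
  refine ⟨8 * D + C0 + 9, by positivity, ?_⟩
  filter_upwards [tendsto_nat_ceil_atTop.eventually (hD.and ((hX.eventually_slack (show 0 < 1 / (2 * F.K) by positivity)).and
    (hX.eventually_calm R (show (0 : ℝ) < 1 / (4 * E + 4) by positivity)))), eventually_ge_atTop (1 : ℝ)]
    with t ⟨ht, hsl, hcalm⟩ ht1
  set n := ⌈t⌉₊ with hn
  have hn1 : t ≤ n := Nat.le_ceil t
  have hn2 : (n : ℝ) ≤ 2 * t := by linarith [Nat.ceil_lt_add_one (show 0 ≤ t by linarith)]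
  have hn0 : 0 ≤ (n : ℝ) := Nat.cast_nonneg n
  obtain ⟨z, hz1, hz2, hz3⟩ := hX.exists_near F (2 * t)
  have e20 := hX.excess_nonneg F (2 * t)
  have hEt := hE t ht1
  have hEt2 := hE (2 * t) (by linarith)
  have hsn : B * slack n ≤ t / F.K / 2 * √2 ∧ F.K * (B * slack n) < t ∧ B * slack n ≤ t := by
    have h1 : √(n : ℝ) ≤ √2 * t := by
      refine (Real.sqrt_le_sqrt hn2).trans ?_
      rw [Real.sqrt_mul zero_le_two]
      refine mul_le_mul_of_nonneg_left ?_ (Real.sqrt_nonneg _)
      rw [Real.sqrt_le_left (by linarith)]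
      nlinarith
    have h2 : B * slack n ≤ t / F.K / 2 * √2 := by
      refine hsl.trans ((mul_le_mul_of_nonneg_left h1 (by positivity)).trans_eq ?_)
      field_simp
    have h3 : √2 < 2 := by rw [Real.sqrt_lt' two_pos]; norm_num
    have h4 : F.K * (B * slack n) ≤ t / 2 * √2 := by
      refine (mul_le_mul_of_nonneg_left h2 (by linarith)).trans_eq ?_
      field_simp
    have h5 : t / 2 * √2 < t := by nlinarith
    exact ⟨h2, h4.trans_lt h5,
      ((le_mul_of_one_le_left (mul_nonneg hb (slack_nonneg n)) hK).trans h4).trans h5.le⟩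
  have hzx : |F.x z| + |F.h z| ≤ (4 * E + 2) * t := by
    rw [abs_of_nonneg (by linarith : 0 ≤ F.x z)]
    linarith [one_le_mul_of_one_le_of_one_le hE1 ht1]
  have hzl : (l1 (0, 0) z : ℝ) ≤ (F.L * (4 * E + 2) + 2) * n := by
    refine (F.l1_origin z).trans ?_
    calc F.L * (|F.x z| + |F.h z|) + 2 ≤ F.L * ((4 * E + 2) * t) + 2 * t := by gcongr; linarith
      _ = (F.L * (4 * E + 2) + 2) * t := by ring
      _ ≤ _ := mul_le_mul_of_nonneg_left hn1 (by linarith)
  have hR₀C : R₀ * n ≤ (C : ℝ) * n := mul_le_mul_of_nonneg_right (by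
    have : 0 ≤ F.K * R₀ := by positivity
    linarith) hn0
  have hz' : (l1 (0, 0) z : ℝ) + B * slack n ≤ R₀ * n := by
    refine (add_le_add hzl (hsn.2.2.trans hn1)).trans ?_
    rw [hR₀]
    have : 0 ≤ ((4 * E + 4) / c + 2) * (n : ℝ) := by positivity
    linarith
  have hS0 := mul_nonneg hb (slack_nonneg n)
  have hnR : n + B * slack n ≤ R₀ * n := by
    have : 0 ≤ ((4 * E + 4) / c + F.L * (4 * E + 2) + 2) * (n : ℝ) := by positivity
    rw [hR₀]
    linarith [hsn.2.2]
  have htC : |t| ≤ (C : ℝ) * n := by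
    rw [abs_of_nonneg (by linarith)]
    linarith
  obtain ⟨S1, i1, m1, p1, b1⟩ := ht (0, 0) t htC (by
    rw [show l1 ((0 : ℤ), (0 : ℤ)) (0, 0) = 0 from rfl, Nat.cast_zero]; positivity)
  obtain ⟨S2, i2, m2, p2, b2⟩ := ht z t htC (by linarith)
  set g := √(n : ℝ) * √√(n : ℝ) with hg
  set T := (4 * E + 4) * t with hT
  have hg0 : 0 ≤ D * g := by positivity
  have hm : least G b F t = t + excess G b F t := by simp [excess]
  have hXT : 2 * least G b F t - C0 - 2 * (D * g) ≤ T := by
    rw [hm, hT]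
    linarith
  have hcap : T ≤ c * (R₀ * n - B * slack n) := by
    have h1 : ((4 * E + 4) / c + 2) * n ≤ R₀ * n := mul_le_mul_of_nonneg_right (by rw [hR₀]; linarith) hn0
    have h2 := mul_le_mul_of_nonneg_left (show (4 * E + 4) / c * n ≤ R₀ * n - B * slack n by linarith [hsn.2.2]) hc.le
    rw [← mul_assoc, mul_div_cancel₀ _ hc.ne'] at h2
    linarith [mul_le_mul_of_nonneg_left hn1 (show 0 ≤ 4 * E + 4 by linarith)]
  have hCR : R₀ ≤ R := by
    have : 0 ≤ F.K * R₀ := by positivity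
    linarith
  have key := hX.le_mean_of_slab F hCR (t := t) (z := z) (X₀ := 2 * least G b F t - C0 - 2 * (D * g)) (n := n)
    hsn.2.1 (by linarith [hsn.2.1]) hz' hnR (hXT.trans hcap) (S := fun ω => S1 ω + S2 ω)
    (fun ω => add_nonneg (p1 ω) (p2 ω)) (i1.add i2) fun ω hω' y y1 y2 hy => by
      have d3 := hX.two_least_le F y1 y2 hz1
      have hxy : |F.x y - t| ≤ F.K := abs_le.2 ⟨by linarith, by linarith⟩
      have hyh : |F.h y| ≤ (C : ℝ) * n := by
        have := (F.abs_x_le y (0, 0)).2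
        rw [F.h_zero, sub_zero, Facet.l1_symm y] at this
        refine this.trans ((mul_le_mul_of_nonneg_left hy (by linarith)).trans ?_)
        rw [← mul_assoc]
        gcongr
        have : 0 ≤ R₀ := by positivity
        linarith
      have hy' : (l1 (0, 0) y : ℝ) ≤ R * n := hy.trans (by gcongr)
      have d1 := (abs_le.1 (b1 ω hω' y hxy hyh hy')).1
      have d2 := (abs_le.1 (b2 ω hω' y hxy hyh hy')).1
      rw [hubTime_comm hω'.nonneg z y, show hubMean G b (y - z) = hubMean G b (z - y) by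
        rw [← hX.mean_neg, neg_sub]] at d2
      rw [show y - ((0 : ℤ), (0 : ℤ)) = y by simp] at d1
      linarith
  rw [integral_add i1 i2] at key
  set P := (law G).real {ω | ¬ Calm b B c R n ω}
  have hXP : (2 * least G b F t - C0 - 2 * (D * g)) * P ≤ 1 := by
    rw [le_div_iff₀ (by positivity)] at hcalm
    refine (mul_le_mul_of_nonneg_right hXT measureReal_nonneg).trans (le_trans ?_ hcalm)
    have := mul_le_mul_of_nonneg_left hn1 (mul_nonneg (measureReal_nonneg : 0 ≤ P) (show 0 ≤ 4 * E + 4 by linarith))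
    rw [hT]
    linarith
  have hBq : D * g ≤ D * (2 * (√t * √√t)) := mul_le_mul_of_nonneg_left (scale_le hn2) hD0
  have hg1 : 1 ≤ √t * √√t :=
    one_le_mul_of_one_le_of_one_le (Real.one_le_sqrt.2 ht1) (Real.one_le_sqrt.2 (Real.one_le_sqrt.2 ht1))
  have hD : (C0 + 3) * 1 ≤ (C0 + 3) * (√t * √√t) := mul_le_mul_of_nonneg_left hg1 (by positivity)
  have hsl2 : B * slack n ≤ 3 * (√t * √√t) := by
    refine hsl.trans ?_
    have h1 : 1 / (2 * F.K) ≤ 1 := by rw [div_le_one (by positivity)]; linarith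
    have h2 : √(n : ℝ) ≤ 2 * √t := by
      rw [show (2 : ℝ) * √t = √4 * √t by rw [show (4 : ℝ) = 2 ^ 2 by norm_num, Real.sqrt_sq zero_le_two],
        ← Real.sqrt_mul (by norm_num)]
      exact Real.sqrt_le_sqrt (by linarith)
    have h3 : √t ≤ √t * √√t := le_mul_of_one_le_right (Real.sqrt_nonneg _) (Real.one_le_sqrt.2 (Real.one_le_sqrt.2 ht1))
    have := mul_le_mul h1 h2 (Real.sqrt_nonneg _) zero_le_one
    linarith
  have hm2 : least G b F (2 * t) = 2 * t + excess G b F (2 * t) := by simp [excess]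
  linarith

/-- The sharp recursion. -/
theorem sharp (F : Frame μ) {θ : ℝ} (hθ : 0 < θ) :
    ∀ᶠ t : ℝ in atTop, 7 / 4 * excess G b F t - θ * √t ≤ excess G b F (2 * t) := by
  have hb := hX.B_nonneg
  have hc := hX.c_pos
  have hL := F.one_le_L
  have hK := F.one_le_K
  obtain ⟨E, hE1, hE⟩ := hX.exists_linear F
  set η := min (1 / 64) (θ / 32) with hη
  have hη0 : 0 < η := lt_min (by norm_num) (by linarith)
  have hη1 : η ≤ 1 / 64 := min_le_left _ _
  have hη2 : η ≤ θ / 32 := min_le_right _ _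
  set C := 6 * E + 6 + F.K + 2 with hC
  set R₀ := C / c + (F.L * (6 * E + 6) + 2) + 3 with hR₀
  have hR₀1 : 0 ≤ C / c := by positivity
  have hR₀2 : 0 ≤ F.L * (6 * E + 6) := by positivity
  set C0 := B * (F.L * (3 * F.K) + 2) with hC0
  set C' := C + F.K * R₀ + R₀ with hC'
  have hC'0 : C ≤ C' ∧ R₀ ≤ C' := by
    constructor <;> nlinarith
  obtain ⟨R, hR, hd⟩ := hX.detour F (C := C') (by linarith) hη0 (show 0 < θ / 64 by positivity)
  filter_upwards [tendsto_nat_ceil_atTop.eventually (hd.and ((hX.eventually_slack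
      (show 0 < min (θ / 256) (1 / (2 * F.K)) by positivity)).and
      (hX.eventually_calm R (show (0 : ℝ) < 1 / C by positivity)))), eventually_ge_atTop (1 : ℝ),
    eventually_gt_atTop (1 : ℝ), Real.tendsto_sqrt_atTop.eventually_ge_atTop ((C0 + 3) / (θ / 4)),
    Real.tendsto_sqrt_atTop.eventually_ge_atTop (64 / θ),
    eventually_ge_atTop (θ ^ 2)] with t ⟨ht, hsl, hcalm⟩ ht1 ht1' ht2 ht3 htθ
  set n := ⌈t⌉₊ with hn
  have hn1 : t ≤ n := Nat.le_ceil t
  have hn2 : (n : ℝ) ≤ 2 * t := by linarith [Nat.ceil_lt_add_one (show 0 ≤ t by linarith)]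
  have hn0 : 0 ≤ (n : ℝ) := Nat.cast_nonneg n
  obtain ⟨z, hz1, hz2, hz3⟩ := hX.exists_near F (2 * t)
  have e0 := hX.excess_nonneg F t
  have e20 := hX.excess_nonneg F (2 * t)
  have hE2 := hE (2 * t) (by linarith)
  set H := √(n : ℝ) + excess G b F (2 * t) + 1 with hH
  have hsn : √(n : ℝ) ≤ 2 * √t := by
    rw [show (2 : ℝ) * √t = √4 * √t by rw [show (4 : ℝ) = 2 ^ 2 by norm_num, Real.sqrt_sq zero_le_two],
      ← Real.sqrt_mul (by norm_num)]
    exact Real.sqrt_le_sqrt (by linarith)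
  have hst : √t ≤ t := by
    calc √t = √t * 1 := (mul_one _).symm
      _ ≤ √t * √t := mul_le_mul_of_nonneg_left (Real.one_le_sqrt.2 ht1) (Real.sqrt_nonneg _)
      _ = t := Real.mul_self_sqrt (by linarith)
  have hθt : θ / 16 * √t ≤ t := by
    calc θ / 16 * √t ≤ √t * √t := by gcongr; linarith [Real.le_sqrt_of_sq_le htθ]
      _ = t := Real.mul_self_sqrt (by linarith)
  have hsl1 : B * slack n ≤ θ / 128 * √t := by
    refine hsl.trans ?_
    have := mul_le_mul (min_le_left (θ / 256) (1 / (2 * F.K))) hsn (Real.sqrt_nonneg _) (by positivity)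
    linarith
  have hsl2 : F.K * (B * slack n) ≤ √t := by
    refine (mul_le_mul_of_nonneg_left (hsl.trans (mul_le_mul (min_le_right _ _) hsn (Real.sqrt_nonneg _)
      (by positivity))) (by linarith)).trans_eq ?_
    field_simp
  have hst' : √t < t := by
    calc √t = √t * 1 := (mul_one _).symm
      _ < √t * √t := mul_lt_mul_of_pos_left (Real.lt_sqrt_of_sq_lt (by linarith)) (Real.sqrt_pos.2 (by linarith))
      _ = t := Real.mul_self_sqrt (by linarith)
  have hS0 := mul_nonneg hb (slack_nonneg n)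
  have hslt : B * slack n ≤ t := (le_mul_of_one_le_left hS0 hK).trans (hsl2.trans hst)
  have hCn : C * t ≤ C * n := mul_le_mul_of_nonneg_left hn1 (by linarith)
  have hsn0 : 0 ≤ √(n : ℝ) := Real.sqrt_nonneg _
  have hEt : E * t ≥ t := le_mul_of_one_le_left (by linarith) hE1
  have hKt : 0 ≤ (F.K + 2) * t := by positivity
  have hz0 : z - ((0 : ℤ), (0 : ℤ)) = z := by simp
  have h0 := abs_nonneg (F.h z)
  have hCt : C * t = 6 * (E * t) + 6 * t + (F.K + 2) * t := by rw [hC]; ring
  have hC'n : C * n ≤ C' * n := by gcongr; exact hC'0.1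
  obtain ⟨S, hS0', i, mS, bS⟩ := ht (0, 0) z t H
    (by rw [show l1 ((0 : ℤ), (0 : ℤ)) (0, 0) = 0 from rfl, Nat.cast_zero]; positivity)
    (by rw [abs_of_nonneg (by linarith : 0 ≤ t)]; linarith)
    (by rw [hz0, abs_of_nonneg (by linarith)]; linarith)
    (by linarith) (by linarith) (by rw [hz0]; linarith)
  have hzl : (l1 (0, 0) z : ℝ) + B * slack n ≤ R₀ * n := by
    have h1 : |F.x z| + |F.h z| ≤ (6 * E + 6) * n := by
      rw [abs_of_nonneg (by linarith : 0 ≤ F.x z)]
      have := mul_le_mul_of_nonneg_left hn1 (show 0 ≤ 6 * E + 6 by linarith)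
      linarith
    have := (F.l1_origin z).trans (add_le_add (mul_le_mul_of_nonneg_left h1 (zero_le_one.trans hL)) le_rfl)
    have : 0 ≤ C / c * (n : ℝ) := by positivity
    rw [hR₀]
    linarith
  have hnR : n + B * slack n ≤ R₀ * n := by
    have : 0 ≤ (C / c + F.L * (6 * E + 6)) * (n : ℝ) := by positivity
    rw [hR₀]
    linarith
  have hcap : C * n ≤ c * (R₀ * n - B * slack n) := by
    have h2 := mul_le_mul_of_nonneg_left (show C / c * n ≤ R₀ * n - B * slack n by
      have : 0 ≤ (F.L * (6 * E + 6)) * (n : ℝ) := by positivity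
      rw [hR₀]; linarith) hc.le
    rwa [← mul_assoc, mul_div_cancel₀ _ hc.ne'] at h2
  have hR₀R : R₀ ≤ R := hC'0.2.trans hR
  have key := hX.le_mean_of_slab F hR₀R (t := t) (z := z) (n := n)
    (X₀ := min (F.x z + (1 - η) * (2 * least G b F t - C0 - F.x z) - 2 * η * H) (C * n))
    (by linarith) (by linarith) hzl hnR ((min_le_right _ _).trans hcap) (S := S) hS0' i fun ω hω' y hy1 hy2 hy => by
      have hy0 : y - ((0 : ℤ), (0 : ℤ)) = y := by simp
      have h := bS ω hω' y (by
        rw [hy0, abs_of_nonneg (by linarith)]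
        calc F.x y - t ≤ 1 * F.K := by linarith
          _ ≤ C' * 1 := by linarith
          _ ≤ C' * (H + |F.h y|) := by gcongr; linarith [abs_nonneg (F.h y)]) (by
        rw [hy0]
        have := (F.abs_x_le y (0, 0)).2
        rw [F.h_zero, sub_zero, Facet.l1_symm y] at this
        refine this.trans ((mul_le_mul_of_nonneg_left hy (by linarith)).trans ?_)
        rw [← mul_assoc]
        gcongr
        linarith)
      rw [hy0, hz0] at h
      refine le_trans (sub_le_sub_right (le_trans (min_le_left _ _) ?_) _) h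
      gcongr
      · linarith
      · exact hX.two_least_le F hy1 hy2 hz1
  have hP2 : min (F.x z + (1 - η) * (2 * least G b F t - C0 - F.x z) - 2 * η * H) (C * n) *
      (law G).real {ω | ¬ Calm b B c R n ω} ≤ 1 := by
    refine (mul_le_mul_of_nonneg_right (min_le_right _ _) measureReal_nonneg).trans ?_
    rw [le_div_iff₀ (by positivity)] at hcalm
    linarith
  have hm : least G b F t = t + excess G b F t := by simp [excess]
  have hm2 : least G b F (2 * t) = 2 * t + excess G b F (2 * t) := by simp [excess]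
  have hεs : θ / 64 * √(n : ℝ) ≤ θ / 64 * (2 * √t) := mul_le_mul_of_nonneg_left hsn (by linarith)
  have h64 : 1 ≤ θ / 64 * √t := by
    rw [div_le_iff₀ hθ] at ht3
    linarith
  have hkey : min (F.x z + (1 - η) * (2 * (t + excess G b F t) - C0 - F.x z) - 2 * η * H) (C * n) ≤
      2 * t + excess G b F (2 * t) + 1 + θ / 16 * √t := by
    rw [← hm]
    linarith
  rw [div_le_iff₀ (by positivity)] at ht2
  rcases min_le_iff.1 hkey with h | h
  · exact sharp_algebra e0 e20 hη0.le hη1 (mul_le_mul hη2 hsn hsn0 (by positivity)) (by positivity)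
      (by linarith) hz1 (by positivity) h
  · exfalso
    linarith

/-- The excess is of smaller order than the square root. -/
theorem rate (F : Frame μ) {θ : ℝ} (hθ : 0 < θ) :
    ∀ᶠ t : ℝ in atTop, excess G b F t ≤ θ * √t := by
  obtain ⟨D, hB0, hB⟩ := hX.rough F
  obtain ⟨T1, hT1⟩ := eventually_atTop.1 hB
  set r1 := √2 * √√2 with hr1
  have hr1' : r1 < 7 / 4 := by
    have h1 : √2 < 1.4143 := by rw [Real.sqrt_lt' (by norm_num)]; norm_num
    have h2 : √√2 < 1.19 := by rw [Real.sqrt_lt' (by norm_num)]; linarith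
    nlinarith [Real.sqrt_nonneg 2, Real.sqrt_nonneg (√2)]
  have hq : ∀ s : ℝ, 0 ≤ s → √(2 * s) * √√(2 * s) = r1 * (√s * √√s) := fun s _ => by
    rw [Real.sqrt_mul zero_le_two, Real.sqrt_mul (Real.sqrt_nonneg 2), hr1]; ring
  set B1 := D / (2 - r1) with hB1
  have hlim1 : ∀ t : ℝ, 0 < t → Tendsto (fun k : ℕ => excess G b F (2 ^ k * t) / 2 ^ k) atTop (𝓝 0) := by
    intro t ht
    rw [Metric.tendsto_atTop]
    intro ε hε
    obtain ⟨T, hT⟩ := eventually_atTop.1 (hX.excess_sublinear F (show 0 < ε / (2 * t) by positivity))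
    obtain ⟨k0, hk0⟩ := pow_unbounded_of_one_lt (T / t) (one_lt_two : (1 : ℝ) < 2)
    refine ⟨k0, fun k hk => ?_⟩
    rw [div_lt_iff₀ ht] at hk0
    have h2 : (2 : ℝ) ^ k0 ≤ 2 ^ k := pow_le_pow_right₀ one_le_two hk
    have := hT (2 ^ k * t) (by nlinarith)
    rw [dist_zero_right, Real.norm_eq_abs, abs_of_nonneg (div_nonneg (hX.excess_nonneg F _) (by positivity)),
      div_lt_iff₀ (by positivity)]
    refine this.trans_lt ?_
    field_simp
    nlinarith [pow_pos (two_pos : (0 : ℝ) < 2) k]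
  have pass1 : ∀ t, max T1 1 ≤ t → excess G b F t ≤ B1 * (√t * √√t) := fun t ht => by
    have ht0 : 0 < t := lt_of_lt_of_le one_pos ((le_max_right _ _).trans ht)
    refine (le_of_doubling (g := fun s => D * (√s * √√s)) (r := r1) ht ht0.le (by linarith) two_pos
      (fun s hs => hT1 s ((le_max_left _ _).trans hs)) (fun s hs => by simp only [hq s hs]; ring)
      (hlim1 t ht0) (by positivity) (by positivity)).trans_eq ?_
    rw [hB1]; ring
  have hθ' : 0 < θ * (7 / 4 - √2) := by
    have : √2 < 1.5 := by rw [Real.sqrt_lt' (by norm_num)]; norm_num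
    exact mul_pos hθ (by linarith)
  obtain ⟨T2, hT2⟩ := eventually_atTop.1 (hX.sharp F hθ')
  filter_upwards [eventually_ge_atTop (max (max T1 1) T2)] with t ht
  have ht1 : max T1 1 ≤ t := (le_max_left _ _).trans ht
  have ht0 : 0 < t := lt_of_lt_of_le one_pos ((le_max_right _ _).trans ht1)
  refine (le_of_doubling (g := fun s => θ * (7 / 4 - √2) * √s) (r := √2) ((le_max_right _ _).trans ht) ht0.le
    (by nlinarith [Real.sqrt_nonneg 2, Real.mul_self_sqrt (zero_le_two (α := ℝ))]) (by norm_num)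
    hT2 (fun s _ => by rw [Real.sqrt_mul zero_le_two]; ring) ?_ (Real.sqrt_nonneg 2) (by positivity)).trans_eq ?_
  · refine squeeze_zero (g := fun k : ℕ => B1 * (√t * √√t) * (r1 / (7 / 4)) ^ k)
      (fun k => div_nonneg (hX.excess_nonneg F _) (by positivity)) (fun k => ?_) ?_
    · have hk : ∀ j : ℕ, √(2 ^ j * t) * √√(2 ^ j * t) = r1 ^ j * (√t * √√t) := by
        intro j
        induction j with
        | zero => simp
        | succ j ih => rw [pow_succ', mul_assoc, hq _ (by positivity), ih]; ring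
      rw [div_le_iff₀ (by positivity), mul_assoc, ← mul_pow, div_mul_cancel₀ _ (by norm_num)]
      refine (pass1 _ (ht1.trans (le_mul_of_one_le_left ht0.le (one_le_pow₀ one_le_two)))).trans_eq ?_
      rw [hk]; ring
    · simpa using (tendsto_pow_atTop_nhds_zero_of_lt_one (by positivity)
        (by rw [div_lt_one (by norm_num)]; exact hr1')).const_mul (B1 * (√t * √√t))
  · have hne : (7 / 4 : ℝ) - √2 ≠ 0 := (pos_of_mul_pos_right hθ' hθ.le).ne'
    rw [mul_right_comm, mul_div_cancel_right₀ _ hne]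

/-- Along the corner the mean exceeds the linear value by little, at all distances. -/
theorem axis_rate (F : Frame μ) {θ : ℝ} (hθ : 0 < θ) :
    ∃ D : ℝ, ∀ t : ℝ, 0 ≤ t → hubMean G b (fl (t • F.v)) ≤ t + θ * √t + D := by
  have hb := hX.B_nonneg
  have hL := F.one_le_L
  have hpos : 0 < 1 + B * F.L := by positivity
  obtain ⟨T, hT⟩ := eventually_atTop.1 (hX.rate F (div_pos hθ hpos))
  refine ⟨B * (F.L * |T| + 2) + (1 + B * (F.L + 2)), fun t ht => ?_⟩
  have h0 : 0 ≤ θ * √t := by positivity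
  have h1 : 0 ≤ B * (F.L * |T| + 2) := by positivity
  have h2 : 0 ≤ 1 + B * (F.L + 2) := by positivity
  rcases le_or_gt T t with h | h
  · have h3 := hX.mean_axis_le F t
    have h4 := hT t h
    rw [div_mul_eq_mul_div, le_div_iff₀ hpos] at h4
    linarith
  · have h5 := hX.mean_fl_le F t
    rw [abs_of_nonneg ht] at h5
    have : B * (F.L * t + 2) ≤ B * (F.L * |T| + 2) := by gcongr; exact h.le.trans (le_abs_self T)
    linarith

end Ctx

end Vale.Agent.P158.Any
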