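import Mathlib
import Vale.Agent.P158.Any.FacetRate
import Vale.Agent.P158.Facet.Pair

/-!
P158 facets for every law: two corners on one facet and the means between them.
-/

namespace Vale.Agent.P158.Any

open MeasureTheory Filter Topology Vale.Agent.P158.V4 Vale.Agent.P158.Facet

namespace Ctx

variable {G : Measure ℝ} [IsProbabilityMeasure G] {μ : ℝ × ℝ → ℝ} {b B c : ℝ}
variable (hX : Ctx G μ b B c)
include hX

/-- Going backwards along the second axis costs more than linearly. -/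
theorem mean_ge_back (p : Pair μ) (z : ℤ × ℤ) :
    p.ax.a z + p.γ * p.ax.c z ≤ hubMean G b z := by
  refine le_trans ?_ (hX.le_mean z)
  have e := p.ax.rvec_eq z
  have hv : p.ax.v = p.F.v := rfl
  have hw : p.ax.w = p.F'.v := rfl
  rcases min_choice (dot p.F.ρ p.F'.v) (dot p.F.σ p.F'.v) with h | h
  · refine le_trans (le_of_eq ?_) (p.F.leρ (rvec z))
    rw [e, dot_add, dot_smul, dot_smul, hv, hw, p.F.ρv, Pair.γ, h]; ring
  · refine le_trans (le_of_eq ?_) (p.F.leσ (rvec z))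
    rw [e, dot_add, dot_smul, dot_smul, hv, hw, p.F.σv, Pair.γ, h]; ring

/-- On the facet the time constant is linear. -/
theorem mean_ge (p : Pair μ) (z : ℤ × ℤ) (ha : 0 ≤ p.ax.a z) (hc : 0 ≤ p.ax.c z) :
    p.ax.a z + p.ax.c z ≤ hubMean G b z := by
  refine le_trans ?_ (hX.le_mean z)
  set α := p.ax.a z
  set β := p.ax.c z
  rw [p.ax.rvec_eq z, show p.ax.v = p.F.v from rfl, show p.ax.w = p.F'.v from rfl]
  rcases le_total β α with h | h
  · have h1 := hX.norm.tri (α • p.F.v + β • p.F'.v) ((α - β) • p.F'.v)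
    rw [show α • p.F.v + β • p.F'.v + (α - β) • p.F'.v = α • (p.F.v + p.F'.v) by module,
      hX.norm.homog α ha, hX.norm.homog (α - β) (by linarith), p.sum, p.F'.μv] at h1
    linarith
  · have h1 := hX.norm.tri (α • p.F.v + β • p.F'.v) ((β - α) • p.F.v)
    rw [show α • p.F.v + β • p.F'.v + (β - α) • p.F.v = β • (p.F.v + p.F'.v) by module,
      hX.norm.homog β hc, hX.norm.homog (β - α) (by linarith), p.sum, p.F.μv] at h1
    linarith

/-- Between the corners the mean exceeds the linear value by little. -/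
theorem mean_le (p : Pair μ) {θ : ℝ} (hθ : 0 < θ) :
    ∃ D : ℝ, 0 ≤ D ∧ ∀ z : ℤ × ℤ, -(4 * p.ax.K) ≤ p.ax.a z → -(4 * p.ax.K) ≤ p.ax.c z →
      hubMean G b z ≤ p.ax.a z + p.ax.c z + θ * (√(|p.ax.a z|) + √(|p.ax.c z|)) + D := by
  obtain ⟨B1, h1⟩ := hX.axis_rate p.F hθ
  obtain ⟨B2, h2⟩ := hX.axis_rate p.F' hθ
  set E := |p.F.v.1| + |p.F.v.2| + |p.F'.v.1| + |p.F'.v.2|
  refine ⟨|B1| + |B2| + B * (8 * p.ax.K * E + 4) + 16 * p.ax.K,
    by have := hX.B_nonneg; have := p.ax.one_le_K; positivity, fun z ha hc => ?_⟩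
  have hK := p.ax.one_le_K
  set α := max (p.ax.a z) 0 with hα
  set β := max (p.ax.c z) 0 with hβ
  have hα1 : |α - p.ax.a z| ≤ 4 * p.ax.K := by
    rcases le_total (p.ax.a z) 0 with h | h
    · rw [hα, max_eq_right h, zero_sub, abs_neg, abs_of_nonpos h]; linarith
    · rw [hα, max_eq_left h, sub_self, abs_zero]; linarith
  have hβ1 : |β - p.ax.c z| ≤ 4 * p.ax.K := by
    rcases le_total (p.ax.c z) 0 with h | h
    · rw [hβ, max_eq_right h, zero_sub, abs_neg, abs_of_nonpos h]; linarith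
    · rw [hβ, max_eq_left h, sub_self, abs_zero]; linarith
  have hsa : √α ≤ √(|p.ax.a z|) := Real.sqrt_le_sqrt (max_le (le_abs_self _) (abs_nonneg _))
  have hsc : √β ≤ √(|p.ax.c z|) := Real.sqrt_le_sqrt (max_le (le_abs_self _) (abs_nonneg _))
  set w := fl (α • p.F.v) + fl (β • p.F'.v) with hw
  have hmw : hubMean G b w ≤ α + β + θ * (√α + √β) + (B1 + B2) := by
    refine (hX.mean_add_le _ _).trans ?_
    linarith [h1 α (le_max_right _ _), h2 β (le_max_right _ _)]
  have hl : (l1 z w : ℝ) ≤ 8 * p.ax.K * E + 4 := by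
    rw [l1_cast]
    have e1 := congrArg Prod.fst (p.ax.rvec_eq z)
    have e2 := congrArg Prod.snd (p.ax.rvec_eq z)
    simp only [rvec, Prod.fst_add, Prod.snd_add, Prod.smul_fst, Prod.smul_snd, smul_eq_mul,
      show p.ax.v = p.F.v from rfl, show p.ax.w = p.F'.v from rfl] at e1 e2
    have k : ∀ (zi : ℤ) (s t : ℝ), (zi : ℝ) = p.ax.a z * s + p.ax.c z * t →
        |(zi : ℝ) - ((⌊α * s⌋ + ⌊β * t⌋ : ℤ) : ℝ)| ≤ 4 * p.ax.K * (|s| + |t|) + 2 := by
      intro zi s t e
      have g1 := Int.floor_le (α * s); have g2 := Int.sub_one_lt_floor (α * s)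
      have g3 := Int.floor_le (β * t); have g4 := Int.sub_one_lt_floor (β * t)
      have g5 := mul_le_mul_of_nonneg_right hα1 (abs_nonneg s)
      have g6 := mul_le_mul_of_nonneg_right hβ1 (abs_nonneg t)
      rw [← abs_mul, abs_le] at g5 g6
      rw [abs_le]
      push_cast
      constructor <;> nlinarith
    have k1 := k z.1 _ _ e1
    have k2 := k z.2 _ _ e2
    simp only [hw, fl, Prod.fst_add, Prod.snd_add, Prod.smul_fst, Prod.smul_snd, smul_eq_mul]
    have e : 4 * p.ax.K * (|p.F.v.1| + |p.F'.v.1|) + 4 * p.ax.K * (|p.F.v.2| + |p.F'.v.2|) ≤ 8 * p.ax.K * E := by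
      simp only [E]
      nlinarith [abs_nonneg p.F.v.1, abs_nonneg p.F.v.2, abs_nonneg p.F'.v.1, abs_nonneg p.F'.v.2]
    linarith
  have hz := (abs_le.1 (hX.step z w)).2
  have hlb := mul_le_mul_of_nonneg_left hl hX.B_nonneg
  have := mul_le_mul_of_nonneg_left (add_le_add hsa hsc) hθ.le
  rw [abs_le] at hα1 hβ1
  linarith [le_abs_self B1, le_abs_self B2]

end Ctx

end Vale.Agent.P158.Any
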