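import Mathlib
import Vale.Agent.P158.Any.FacetPair
import Vale.Agent.P158.Facet.Escape
import Vale.Agent.P158.Facet.Cell

/-!
P158 facets for every law: near-optimal routes rarely leave the band of a line or pass beside a cell on
their way to the target.
-/

namespace Vale.Agent.P158.Any

open MeasureTheory Filter Topology Vale.Agent.P158.V4 Vale.Agent.P158.Facet

/-- Some hub at the far end of the band of the second direction has an almost optimal route to the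
target through the right part of the box. -/
def HubSlip (b : ℝ) (ax : Axes) (A C W : ℝ) (P : Pt) : Set Cfg :=
  {ω | ∃ u y : Pt, Hub b ω Set.univ u ∧ |ax.a u - A| ≤ W ∧ |ax.c u - (C + 8 * W)| ≤ W ∧
    ax.Right A C W (8 * W) y ∧ tt ω u y + tt ω y P ≤ tt ω u P + 1}

theorem stray_algebra {xz L η W k T S S3 n B m : ℝ} (hk : 0 < k) (hη : 0 < η) (hη1 : η ≤ 1 / 8)
    (hη2 : η ≤ k / 8) (hW : 0 ≤ W) (hL : 2 * k * W - B ≤ L) (hxz : n - B ≤ xz) (hm : m ≤ n + k / 4 * W + B)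
    (hT : T ≤ m + k / 8 * W + S3) (hB : 8 * B + 2 ≤ k * W) (hB0 : 0 ≤ B)
    (h : xz + (1 - η) * L - 2 * η * W - S ≤ T + 3 * (k / 32 * W) + 1) : k / 8 * W ≤ S + S3 := by
  have h1 : (1 - η) * (2 * k * W - B) ≤ (1 - η) * L := mul_le_mul_of_nonneg_left hL (by linarith)
  nlinarith [mul_le_mul_of_nonneg_right hη1 (mul_nonneg hk.le hW), mul_le_mul_of_nonneg_right hη2 hW,
    mul_nonneg hη.le hB0]

theorem slip_algebra {m1 m2 m3 t1 t2 t3 s g W S B sl : ℝ} (hg : 0 < g) (hlow : g * s + m3 ≤ m1 + m2 + g * W + B)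
    (hs : 6 * W ≤ s) (h1 : |t1 - m1| ≤ g / 2 * W + S) (h2 : |t2 - m2| ≤ g / 2 * W + S)
    (h3 : |t3 - m3| ≤ g / 2 * W + S) (h : t1 + t2 ≤ t3 + sl + 1) (hsl : sl ≤ g * W) (hB : B + 1 ≤ g * W) :
    g / 2 * W ≤ S := by
  rw [abs_le] at h1 h2 h3
  have := mul_le_mul_of_nonneg_left hs hg.le
  linarith

variable {G : Measure ℝ} [IsProbabilityMeasure G] {μ : ℝ × ℝ → ℝ} {b B c : ℝ}

/-- Markov's bound. -/
theorem markov {S : Cfg → ℝ} (h0 : ∀ ω, 0 ≤ S ω) (hi : Integrable S (law G)) {T ε : ℝ} (hT : 0 < T)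
    (hm : ∫ ω, S ω ∂law G ≤ ε * T) : (law G).real {ω | T ≤ S ω} ≤ ε := by
  have h := mul_meas_ge_le_integral_of_nonneg (μ := law G) (Eventually.of_forall h0) hi T
  exact le_of_mul_le_mul_right ((le_of_eq (mul_comm _ _)).trans (h.trans hm)) hT

/-- Off the slip set and on calm configurations the escape property holds. -/
theorem escapes_hubSlip (ax : Axes) {A C W R : ℝ} {n : ℕ} {P : Pt} {Q : Set Cfg}
    (hQ : HubSlip b ax A C W P ∪ {ω | ¬ Calm b B c R n ω} ⊆ Q)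
    (hsl : ax.K * (2 * slack n + 4) ≤ W) (hball : ∀ r, |ax.a r - A| ≤ W → |ax.c r - C| ≤ 8 * W + ax.K →
      (l1 (0, 0) r : ℝ) ≤ R * n) :
    Escapes ax A C W P Q := by
  intro x hx0 hx z r π hz hr hbox
  have hK := ax.one_le_K
  have hs := slack_nonneg n
  have hKs := mul_nonneg (zero_le_one.trans hK) hs
  have hω : Calm b B c R n x := not_not.1 fun h => hx (hQ (Or.inr h))
  obtain ⟨hra, hrc⟩ := hbox r π.end_mem_support
  set N := ⌊slack n⌋₊
  have hN : (N : ℝ) ≤ slack n := Nat.floor_le hs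
  have hdist : ∀ d : Pt, Near (N + 1) r d → |ax.c r - ax.c d| ≤ ax.K * (2 * slack n + 2) := by
    intro d hd
    have hl : (l1 r d : ℝ) ≤ 2 * (N : ℝ) + 2 := by
      have : l1 r d ≤ 2 * N + 2 := by
        simp only [Near, abs_le] at hd
        simp only [l1]
        omega
      exact_mod_cast this
    exact (ax.abs_sub_le r d).2.trans (mul_le_mul_of_nonneg_left (by linarith) (by linarith))
  have hfar : ¬ Near N r z := by
    intro h
    have := (abs_le.1 (hdist z (by simp only [Near, abs_le] at h ⊢; omega))).2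
    linarith
  obtain ⟨d, hd, hdw, hnear, -⟩ := gate reg_univ (Set.mem_univ r)
    ((hω.ray r (hball r hra hrc)).tame reg_univ (Set.mem_univ r)) π.reverse (fun _ _ => trivial) hfar
  rw [SimpleGraph.Walk.support_reverse, List.mem_reverse] at hdw
  obtain ⟨hda, hdc⟩ := hbox d hdw
  rw [abs_le] at hdc
  have hd2 := abs_le.1 (hdist d hnear)
  refine ⟨d, hdw, by linarith, fun y hy => ?_⟩
  by_contra hle
  exact hx (hQ (Or.inl ⟨d, y, hd, hda, abs_le.2 ⟨by linarith, by linarith⟩, hy, not_lt.1 hle⟩))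

namespace Ctx

variable (hX : Ctx G μ b B c)
include hX

/-- The geometry of a site outside the band. -/
theorem stray_geometry (p : Pair μ) {A C k C0 W B1 B' : ℝ} {n : ℕ} {a z y : ℤ × ℤ}
    (hk' : k = |p.hw|) (hW1 : 1 ≤ W) (hWn : W * W = n) (hn0 : (1 : ℝ) ≤ n) (hB10 : 0 ≤ B1)
    (hB : B' = B1 + 8 * p.ax.K * (1 + |p.xw| + k) + k * p.ax.K + k)
    (hC0 : C0 = 8 + 3 * p.ax.K + |p.xw| / k + 8 * p.ax.K * (1 + |p.xw|))
    (hKW : 8 * p.ax.K ≤ W) (haa : |p.ax.a a| ≤ 2 * p.ax.K) (hca : |p.ax.c a - C| ≤ 2 * p.ax.K)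
    (haz : |p.ax.a z - n| ≤ 2 * p.ax.K) (hcz : |p.ax.c z - C| ≤ 2 * p.ax.K)
    (hB1 : ∀ q : ℤ × ℤ, -(4 * p.ax.K) ≤ p.ax.a q → -(4 * p.ax.K) ≤ p.ax.c q →
      hubMean G b q ≤ p.ax.a q + p.ax.c q + k / 16 * (√(|p.ax.a q|) + √(|p.ax.c q|)) + B1)
    (hy1 : |p.ax.a y - A| ≤ 8 * W + p.ax.K) (hy2 : W < |p.ax.c y - C|) :
    |p.F.x (y - a) - A| ≤ C0 * (W + |p.F.h (y - a)|) ∧
      2 * k * W - B' ≤ hubMean G b (y - a) + hubMean G b (z - y) - p.F.x (z - a) ∧
      hubMean G b (z - a) ≤ n + k / 4 * W + B' := by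
  have hK := p.ax.one_le_K
  have hk : 0 < k := hk' ▸ abs_pos.2 p.hw_ne
  have hdc : |p.ax.c z - p.ax.c a| ≤ 4 * p.ax.K := by
    rw [abs_le] at hca hcz ⊢; constructor <;> linarith
  have hhz : |p.F.h (z - a)| ≤ 4 * p.ax.K * k := by
    rw [hk', p.h_eq, p.ax.c_sub, abs_mul]; gcongr
  have hyx : p.F.x (y - a) = (p.ax.a y - p.ax.a a) + (p.ax.c y - p.ax.c a) * p.xw := by
    rw [p.x_eq, p.ax.a_sub, p.ax.c_sub]
  have hyh : |p.F.h (y - a)| = |p.ax.c y - p.ax.c a| * k := by rw [p.h_eq, p.ax.c_sub, abs_mul, hk']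
  have hreg : |p.F.x (y - a) - A| ≤ C0 * (W + |p.F.h (y - a)|) := by
    have e : |(p.ax.c y - p.ax.c a) * p.xw| = |p.xw| / k * |p.F.h (y - a)| := by
      rw [hyh, abs_mul]; field_simp
    have e2 : p.F.x (y - a) - A = (p.ax.a y - A) + (-p.ax.a a) + (p.ax.c y - p.ax.c a) * p.xw := by rw [hyx]; ring
    rw [e2]
    refine (abs_add_three _ _ _).trans ?_
    rw [abs_neg, e]
    have c1 : |p.xw| / k ≤ C0 := by
      have : 0 ≤ 8 * p.ax.K * (1 + |p.xw|) := by positivity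
      linarith
    have c2 : 8 + 3 * p.ax.K ≤ C0 := by
      have : 0 ≤ |p.xw| / k := by positivity
      have : 0 ≤ 8 * p.ax.K * (1 + |p.xw|) := by positivity
      linarith
    have c3 := mul_le_mul_of_nonneg_right c1 (abs_nonneg (p.F.h (y - a)))
    have c4 := mul_le_mul_of_nonneg_right c2 (zero_le_one.trans hW1)
    have c5 : 3 * p.ax.K ≤ 3 * p.ax.K * W := le_mul_of_one_le_right (by positivity) hW1
    linarith
  set L := hubMean G b (y - a) + hubMean G b (z - y) - p.F.x (z - a)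
  have l1' := hX.frame_le_mean p.F (y - a)
  have l2' := hX.frame_le_mean p.F (z - y)
  have hx3 : p.F.x (z - a) = p.F.x (y - a) + p.F.x (z - y) := by simp only [p.F.x_sub]; ring
  have hh3 : p.F.h (z - y) = p.F.h (z - a) - p.F.h (y - a) := by simp only [p.F.h_sub]; ring
  have hh4 : |p.F.h (y - a)| - |p.F.h (z - a)| ≤ |p.F.h (z - y)| := by
    rw [hh3, abs_sub_comm]; exact abs_sub_abs_le_abs_sub _ _
  have hcy : W - 2 * p.ax.K ≤ |p.ax.c y - p.ax.c a| := by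
    have := abs_sub_le (p.ax.c y) (p.ax.c a) C
    linarith
  have hL : 2 * k * W - B' ≤ L := by
    have h5 := mul_le_mul_of_nonneg_right hcy hk.le
    have : 0 ≤ 8 * p.ax.K * (1 + |p.xw|) := by positivity
    have : 0 ≤ k * p.ax.K := by positivity
    rw [hyh] at hh4 l1'
    simp only [L, hB]
    linarith
  have hza : p.ax.a (z - a) = p.ax.a z - p.ax.a a := p.ax.a_sub z a
  have hzc : p.ax.c (z - a) = p.ax.c z - p.ax.c a := p.ax.c_sub z a
  rw [abs_le] at haa haz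
  rw [abs_le] at hdc
  have hm := hB1 (z - a) (by rw [hza]; linarith) (by rw [hzc]; linarith)
  have hWle : W ≤ (n : ℝ) := hWn ▸ le_mul_of_one_le_left (by linarith) hW1
  have hs1 : √(|p.ax.a (z - a)|) ≤ 2 * W :=
    sqrt_abs_le (by linarith) hWn (by rw [hza]; exact abs_le.2 ⟨by linarith, by linarith⟩)
  have hs2 : √(|p.ax.c (z - a)|) ≤ 2 * W :=
    sqrt_abs_le (by linarith) hWn (by rw [hzc]; exact abs_le.2 ⟨by linarith, by linarith⟩)
  have hm' : hubMean G b (z - a) ≤ n + k / 4 * W + B' := by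
    have := mul_le_mul_of_nonneg_left (add_le_add hs1 hs2) (show 0 ≤ k / 16 by positivity)
    rw [hza, hzc] at hm this
    have : 0 ≤ 8 * p.ax.K * (|p.xw| + k) := by positivity
    have : 0 ≤ k * p.ax.K + k := by positivity
    simp only [hB]
    linarith
  exact ⟨hreg, hL, hm'⟩

/-- The means along a route through the right part of the cell. -/
theorem slip_geometry (p : Pair μ) {A C W B' g : ℝ} {n : ℕ} {u y P : ℤ × ℤ}
    (hg : 0 < g) (hg' : g = 1 - p.γ) (hW20 : 20 ≤ W) (hWn : W * W = n) (hKW : 8 * p.ax.K ≤ W)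
    (hA0n : 0 ≤ A) (hAn : A ≤ n) (hC0n : 0 ≤ C) (hCn : C ≤ n)
    (hB : ∀ q : ℤ × ℤ, -(4 * p.ax.K) ≤ p.ax.a q → -(4 * p.ax.K) ≤ p.ax.c q →
      hubMean G b q ≤ p.ax.a q + p.ax.c q + g / 4 * (√(|p.ax.a q|) + √(|p.ax.c q|)) + B')
    (hu1 : -W ≤ p.ax.a u - A ∧ p.ax.a u - A ≤ W) (hu2 : -W ≤ p.ax.c u - (C + 8 * W) ∧ p.ax.c u - (C + 8 * W) ≤ W)
    (hy2 : -W ≤ p.ax.c y - C ∧ p.ax.c y - C ≤ W) (hy1 : -(8 * W + p.ax.K) ≤ p.ax.a y - A ∧ p.ax.a y - A ≤ 8 * W + p.ax.K)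
    (haP : -(2 * p.ax.K) ≤ p.ax.a P - 3 * n ∧ p.ax.a P - 3 * n ≤ 2 * p.ax.K)
    (hcP : -(2 * p.ax.K) ≤ p.ax.c P - 3 * n ∧ p.ax.c P - 3 * n ≤ 2 * p.ax.K) :
    g * (p.ax.c u - p.ax.c y) + hubMean G b (P - u) ≤ hubMean G b (y - u) + hubMean G b (P - y) + g * W + B' := by
  have hK := p.ax.one_le_K
  have m1 := hX.mean_ge_back p (y - u)
  have h20 : 20 * W ≤ n := hWn ▸ mul_le_mul_of_nonneg_right hW20 (by linarith)
  have ePy := p.ax.a_sub P y
  have eQy := p.ax.c_sub P y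
  have ePu := p.ax.a_sub P u
  have eQu := p.ax.c_sub P u
  have m2 := hX.mean_ge p (P - y) (by rw [ePy]; linarith) (by rw [eQy]; linarith)
  have m3 := hB (P - u) (by rw [ePu]; linarith) (by rw [eQu]; linarith)
  rw [p.ax.a_sub, p.ax.c_sub] at m1
  rw [ePy, eQy] at m2
  rw [ePu, eQu] at m3
  have r1 : √(|p.ax.a P - p.ax.a u|) ≤ 2 * W :=
    sqrt_abs_le (by linarith) hWn (abs_le.2 ⟨by linarith, by linarith⟩)
  have r2 : √(|p.ax.c P - p.ax.c u|) ≤ 2 * W :=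
    sqrt_abs_le (by linarith) hWn (abs_le.2 ⟨by linarith, by linarith⟩)
  have r := mul_le_mul_of_nonneg_left (add_le_add r1 r2) (show 0 ≤ g / 4 by positivity)
  have hγ : p.γ = 1 - g := by linarith
  rw [hγ] at m1
  linarith [show (1 - g) * (p.ax.c y - p.ax.c u) = p.ax.c y - p.ax.c u + g * (p.ax.c u - p.ax.c y) by ring]

theorem eventually_calm_prob (R : ℝ) {ε : ℝ} (hε : 0 < ε) :
    ∀ᶠ n : ℕ in atTop, (law G).real {ω | ¬ Calm b B c R n ω} ≤ ε := by
  filter_upwards [hX.eventually_calm R hε, eventually_ge_atTop 1] with n hn hn1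
  exact (le_mul_of_one_le_left measureReal_nonneg (by exact_mod_cast hn1)).trans hn

/-- A site outside the band on an almost optimal route forces a deviation. -/
theorem stray_core (p : Pair μ) {ω : Cfg} {R R₁ A0 C0 C1 A η k W B' S S3 : ℝ} {n : ℕ} {a z y : Pt}
    (hω : Calm b B c R n ω) (hk : 0 < k) (hη : 0 < η) (hη1 : η ≤ 1 / 8) (hη2 : η ≤ k / 8) (hW : 0 ≤ W)
    (hL : 2 * k * W - B' ≤ hubMean G b (y - a) + hubMean G b (z - y) - p.F.x (z - a))
    (hm' : hubMean G b (z - a) ≤ n + k / 4 * W + B') (hxz : (n : ℝ) - B' ≤ p.F.x (z - a))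
    (hkn : k * W + 8 * B' + 2 ≤ n) (hB : 8 * B' + 2 ≤ k * W) (hB0 : 0 ≤ B') (hC00 : 0 ≤ C0)
    (hla : (l1 (0, 0) a : ℝ) ≤ A0 * n) (hlz : (l1 (0, 0) z : ℝ) ≤ A0 * n)
    (hR₁ : A0 + 4 / c + 2 ≤ R₁) (hR₁R : R₁ ≤ R)
    (hC1 : C0 + R₁ + p.F.K * (R₁ + A0) ≤ C1) (hC01 : C0 ≤ C1) (hsl : B * slack n ≤ k / 64 * W)
    (hdev : hubTime b a z ω - hubMean G b (z - a) ≤ k / 8 * W + S3)
    (ja : hubJunk b a ω ≤ k / 32 * W) (jz : hubJunk b z ω ≤ k / 32 * W) (hy3 : tt ω a y + tt ω y z ≤ tt ω a z + 1)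
    (hreg : |p.F.x (y - a) - A| ≤ C0 * (W + |p.F.h (y - a)|))
    (hS : |p.F.x (y - a) - A| ≤ C1 * (W + |p.F.h (y - a)|) → |p.F.h (y - a)| ≤ C1 * n →
      p.F.x (z - a) + (1 - η) * (hubMean G b (y - a) + hubMean G b (z - y) - p.F.x (z - a)) - 2 * η * W - S ≤
        hubTime b a y ω + hubTime b y z ω)
    (hS0 : 0 ≤ S) (_ : 0 ≤ S3) : k / 8 * W ≤ S + S3 := by
  have hc := hX.c_pos
  have hFK := p.F.one_le_K
  have h40 : 0 ≤ 4 / c := by positivity
  have hn0 : (0 : ℝ) ≤ n := Nat.cast_nonneg n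
  have hA0R : A0 * n ≤ R * n := by gcongr; linarith
  have haz' := tt_le_hubTime (b := b) hω.nonneg a z
  rcases le_or_gt (l1 (0, 0) y : ℝ) (R₁ * n) with hy | hy
  · have hR₁R' : R₁ * n ≤ R * n := by gcongr
    have hyh : |p.F.h (y - a)| ≤ C1 * n := by
      have h1 := (p.F.abs_x_le y a).2
      rw [← p.F.h_sub] at h1
      have h2 : (l1 y a : ℝ) ≤ R₁ * n + A0 * n := by
        have h := Facet.l1_triangle y (0, 0) a
        rw [Facet.l1_symm y (0, 0)] at h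
        have h' : (l1 y a : ℝ) ≤ l1 (0, 0) y + l1 (0, 0) a := by exact_mod_cast h
        linarith
      refine h1.trans ((mul_le_mul_of_nonneg_left h2 (by linarith)).trans ?_)
      rw [← add_mul, ← mul_assoc]
      refine mul_le_mul_of_nonneg_right ?_ hn0
      rcases Nat.eq_zero_or_pos n with rfl | hn
      · push_cast at hkn
        linarith
      have : 0 ≤ A0 := nonneg_of_mul_nonneg_left ((Nat.cast_nonneg _).trans hla) (Nat.cast_pos.2 hn)
      linarith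
    have d := hS (hreg.trans (by gcongr)) hyh
    have l1' := hω.low a y (hla.trans hA0R) (hy.trans hR₁R')
    have l2' := hω.low y z (hy.trans hR₁R') (hlz.trans hA0R)
    exact stray_algebra hk hη hη1 hη2 hW hL hxz hm'
      (show hubTime b a z ω ≤ hubMean G b (z - a) + k / 8 * W + S3 by linarith) hB hB0 (S := S) (by linarith)
  · have h2 : 4 / c * n + n ≤ l1 a y := by
      have : (l1 (0, 0) y : ℝ) ≤ A0 * n + l1 a y := l1_add_le hla le_rfl
      have := mul_le_mul_of_nonneg_right hR₁ hn0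
      linarith
    have h4 : 0 ≤ 4 / c * (n : ℝ) := by positivity
    have hn' : n ≤ l1 a y := by exact_mod_cast (show (n : ℝ) ≤ l1 a y by linarith)
    have h5 := hω.far a (hla.trans hA0R) y hn'
    have h6 := mul_le_mul_of_nonneg_left (show 4 / c * (n : ℝ) ≤ l1 a y by linarith) hc.le
    rw [← mul_assoc, mul_div_cancel₀ _ hc.ne'] at h6
    linarith [tt_nonneg (u := y) (v := z) hω.nonneg]

/-- Near-optimal routes along a line stay in its band beside a given cell. -/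
theorem stray_small (p : Pair μ) {κ : ℝ} (hκ : 0 < κ) :
    ∀ᶠ n : ℕ in atTop, ∀ (A C : ℝ) (a z : Pt), 0 ≤ A → A ≤ n → 0 ≤ C → C ≤ n → |p.ax.a a| ≤ 2 * p.ax.K →
      |p.ax.c a - C| ≤ 2 * p.ax.K → |p.ax.a z - n| ≤ 2 * p.ax.K → |p.ax.c z - C| ≤ 2 * p.ax.K →
      (law G).real (Stray p.ax A C √(n : ℝ) (8 * √(n : ℝ)) a z) ≤ κ := by
  have hK := p.ax.one_le_K
  have hB := hX.B_nonneg
  have hc := hX.c_pos
  have hFK := p.F.one_le_K
  set k := |p.hw| with hk'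
  have hk : 0 < k := abs_pos.2 p.hw_ne
  set η := min (1 / 8) (k / 8) with hη'
  have hη : 0 < η := lt_min (by norm_num) (by linarith)
  obtain ⟨B1, hB10, hB1⟩ := hX.mean_le p (show 0 < k / 16 by linarith)
  set E := |p.F.v.1| + |p.F.v.2| + |p.F'.v.1| + |p.F'.v.2| with hE
  set B' := B1 + 8 * p.ax.K * (1 + |p.xw| + k) + k * p.ax.K + k with hB'
  have hB0 : 0 ≤ B' := by positivity
  set C0 := 8 + 3 * p.ax.K + |p.xw| / k + 8 * p.ax.K * (1 + |p.xw|) with hC0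
  have hC00 : 8 ≤ C0 := by
    have : 0 ≤ |p.xw| / k := by positivity
    have : 0 ≤ 8 * p.ax.K * (1 + |p.xw|) := by positivity
    linarith
  obtain ⟨A0, hA0⟩ := exists_nat_ge (E * (2 + 8 * p.ax.K) + 2)
  have hA0' : 0 < (A0 : ℝ) := lt_of_lt_of_le (by positivity) hA0
  set R₁ := (A0 : ℝ) + 4 / c + 2 with hR₁
  set C1 := C0 + R₁ + p.F.K * (R₁ + A0) with hC1
  have hR₁0 : 0 ≤ 4 / c := by positivity
  have hC1' : C0 ≤ C1 ∧ (A0 : ℝ) ≤ C1 ∧ R₁ ≤ C1 := by
    have : 0 ≤ p.F.K * (R₁ + A0) := by positivity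
    refine ⟨?_, ?_, ?_⟩ <;> linarith
  set ε := κ / 4 * (k / 8) / 3 with hε
  obtain ⟨R, hR, hd⟩ := hX.detour p.F (C := C1) (by linarith) hη (show 0 < ε by positivity)
  obtain ⟨N, hN⟩ := hX.var (ε * (4 * (k / 8)) / A0) (by positivity)
  filter_upwards [hd, eventually_ge_atTop N, eventually_ge_atTop 1,
    hX.eventually_calm_prob R (show 0 < κ / 4 by positivity),
    hX.junk (k / 32) (by positivity) (κ / 4) (by positivity),
    hX.eventually_slack (show 0 < k / 64 by positivity),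
    (Real.tendsto_sqrt_atTop.comp tendsto_natCast_atTop_atTop).eventually_ge_atTop
      ((9 * B' + 2) / k + k + 8 * B' + 4 * p.ax.K * k + 8 * p.ax.K + 2)]
    with n hd hn hn1 hcalm hjunk hsl hW A C a z hA0n hAn hC0n' hCn haa hca haz hcz
  simp only [Function.comp_apply] at hW
  set W := √(n : ℝ) with hW'
  have hn0 : (1 : ℝ) ≤ n := by exact_mod_cast hn1
  have hW1 : 1 ≤ W := Real.one_le_sqrt.2 hn0
  have hWn : W * W = n := Real.mul_self_sqrt (by linarith)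
  have hWle : W ≤ n := (le_mul_of_one_le_left (by linarith) hW1).trans_eq hWn
  have hsum : (9 * B' + 2) / k ≤ W ∧ k + 8 * B' + 2 ≤ W ∧ 4 * p.ax.K * k ≤ W := by
    have : 0 ≤ (9 * B' + 2) / k := by positivity
    have : 0 ≤ 4 * p.ax.K * k := by positivity
    exact ⟨by linarith, by linarith, by linarith⟩
  have hKW : 8 * p.ax.K ≤ W := by
    have : 0 ≤ (9 * B' + 2) / k := by positivity
    have : 0 ≤ 4 * p.ax.K * k := by positivity
    linarith
  have hkW : 9 * B' + 2 ≤ k * W := by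
    have := hsum.1; rw [div_le_iff₀ hk] at this; linarith
  have hkn : k * W + 8 * B' + 2 ≤ n := by
    have h1 := mul_le_mul_of_nonneg_right hsum.2.1 (show 0 ≤ W by linarith)
    have h2 : 8 * B' + 2 ≤ (8 * B' + 2) * W := le_mul_of_one_le_right (by linarith) hW1
    linarith
  have hx : p.F.x (z - a) = (p.ax.a z - p.ax.a a) + (p.ax.c z - p.ax.c a) * p.xw := by
    rw [p.x_eq, p.ax.a_sub, p.ax.c_sub]
  have hdc : |p.ax.c z - p.ax.c a| ≤ 4 * p.ax.K := by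
    rw [abs_le] at hca hcz ⊢; constructor <;> linarith
  have hxw : |(p.ax.c z - p.ax.c a) * p.xw| ≤ 4 * p.ax.K * |p.xw| := by rw [abs_mul]; gcongr
  have hhz : |p.F.h (z - a)| ≤ 4 * p.ax.K * k := by
    rw [p.h_eq, p.ax.c_sub, abs_mul]; gcongr
  have hxz : |p.F.x (z - a) - n| ≤ 4 * p.ax.K * (1 + |p.xw|) := by
    rw [hx]; rw [abs_le] at haa haz hxw ⊢; constructor <;> linarith
  have hKxw : 4 * p.ax.K * (1 + |p.xw|) ≤ B' := by
    have : 0 ≤ 8 * p.ax.K * k := by positivity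
    have : 0 ≤ k * p.ax.K := by positivity
    have : 0 ≤ 4 * p.ax.K * (1 + |p.xw|) := by positivity
    linarith
  have hC0n : 8 * (n : ℝ) ≤ C1 * n := by gcongr; linarith
  have hK8 : 8 * p.ax.K ≤ 8 * p.ax.K * n := le_mul_of_one_le_right (by positivity) hn0
  have hball : ∀ q : Pt, |p.ax.a q| ≤ n + 2 * p.ax.K → |p.ax.c q| ≤ n + 2 * p.ax.K →
      (l1 (0, 0) q : ℝ) ≤ A0 * n := fun q q1 q2 => by
    have h := p.ax.l1_le ((0 : ℤ), (0 : ℤ)) q
    simp only [show p.ax.v = p.F.v from rfl, show p.ax.w = p.F'.v from rfl, ← hE] at h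
    rw [show p.ax.a ((0 : ℤ), (0 : ℤ)) = 0 by simp [Axes.a], show p.ax.c ((0 : ℤ), (0 : ℤ)) = 0 by simp [Axes.c],
      sub_zero, sub_zero] at h
    refine h.trans ((mul_le_mul_of_nonneg_left (add_le_add q1 q2) (by positivity)).trans ?_)
    calc E * (n + 2 * p.ax.K + (n + 2 * p.ax.K)) ≤ E * ((2 + 8 * p.ax.K) * n) := by gcongr; linarith
      _ ≤ A0 * n := by rw [← mul_assoc]; gcongr; linarith
  have hC : |C| ≤ n := by rw [abs_of_nonneg hC0n']; exact hCn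
  have hc' : ∀ q : Pt, |p.ax.c q - C| ≤ 2 * p.ax.K → |p.ax.c q| ≤ n + 2 * p.ax.K := fun q hq => by
    have := abs_sub_abs_le_abs_sub (p.ax.c q) C
    linarith
  have hla := hball a (by linarith) (hc' a hca)
  have hlz := hball z (by
    have := abs_sub_abs_le_abs_sub (p.ax.a z) (n : ℝ)
    rw [abs_of_nonneg (Nat.cast_nonneg n : (0 : ℝ) ≤ n)] at this
    linarith) (hc' z hcz)
  have hC1n : (A0 : ℝ) * n ≤ C1 * n := by gcongr; exact hC1'.2.1
  obtain ⟨S, hS0, hSi, hSm, hS⟩ := hd a z A W (hla.trans hC1n)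
    (by rw [abs_of_nonneg hA0n]; linarith)
    (by
      rw [abs_le] at hxz
      exact abs_le.2 ⟨by linarith, by linarith⟩)
    le_rfl (by linarith) (hhz.trans hsum.2.2)
  obtain ⟨S3, h30, h3i, h3m, h3⟩ := hX.exists_excH ({()} : Finset Unit) (fun _ => a) (fun _ => z)
    (fun _ => k / 8 * W) (fun _ => ε * (4 * (k / 8)) / A0 * ((2 * A0 * n : ℕ) : ℝ)) (fun _ _ => by positivity)
    fun i _ => by
      refine hN (2 * A0 * n) (le_trans hn (Nat.le_mul_of_pos_left n (by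
        have : 0 < A0 := by exact_mod_cast hA0'
        omega))) a z ?_
      have : (l1 a z : ℝ) ≤ ((2 * A0 * n : ℕ) : ℝ) := by
        have h := Facet.l1_triangle a (0, 0) z
        rw [Facet.l1_symm a (0, 0)] at h
        have h' : (l1 a z : ℝ) ≤ l1 (0, 0) a + l1 (0, 0) z := by exact_mod_cast h
        push_cast
        linarith
      exact_mod_cast this
  have hm3 : ∫ ω, S3 ω ∂law G ≤ 2 * ε * W := by
    refine h3m.trans (le_of_eq ?_)
    simp only [Finset.sum_singleton]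
    push_cast
    rw [← hWn]
    field_simp
  have hmarkov : (law G).real {ω | k / 8 * W ≤ S ω + S3 ω} ≤ κ / 4 := by
    refine markov (fun ω => add_nonneg (hS0 ω) (h30 ω)) (hSi.add h3i) (by positivity) ?_
    rw [integral_add hSi h3i]
    calc _ ≤ ε * W + 2 * ε * W := add_le_add hSm hm3
      _ = κ / 4 * (k / 8 * W) := by rw [hε]; ring
  have hsub : Stray p.ax A C W (8 * W) a z ⊆ {ω | k / 8 * W ≤ S ω + S3 ω} ∪ {ω | ¬ Calm b B c R n ω} ∪
      ({ω | k / 32 * W < hubJunk b a ω} ∪ {ω | k / 32 * W < hubJunk b z ω}) := by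
    intro ω hst
    by_contra hno
    simp only [Set.mem_union, Set.mem_ofPred_eq, not_or, not_not, not_le, not_lt] at hno
    obtain ⟨⟨hSS, hω⟩, ja, jz⟩ := hno
    obtain ⟨y, hy1, hy2, hy3⟩ := hst
    obtain ⟨hreg, hL, hm'⟩ := hX.stray_geometry p (A := A) (y := y) hk' hW1 hWn hn0 hB10 hB' hC0 hKW haa hca haz
      hcz hB1 hy1 hy2
    have := hX.stray_core p (R₁ := R₁) (A0 := A0) hω hk hη (min_le_left _ _) (min_le_right _ _) (by positivity : 0 ≤ W)
      hL hm' (by rw [abs_le] at hxz; linarith) hkn (by linarith) hB0 (hC00.trans' (by norm_num)) hla hlz hR₁.ge (hC1'.2.2.trans hR)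
      hC1.ge hC1'.1 hsl (abs_le.1 (h3 ω () (Finset.mem_singleton_self ()))).2 ja jz hy3 hreg (hS ω hω y) (hS0 ω) (h30 ω)
    linarith
  refine (measureReal_mono hsub (measure_ne_top _ _)).trans ((measureReal_union_le _ _).trans ?_)
  refine (add_le_add ((measureReal_union_le _ _).trans (add_le_add hmarkov hcalm))
    ((measureReal_union_le _ _).trans (add_le_add (hjunk a) (hjunk z)))).trans ?_
  linarith

/-- A hub at the far end with an almost optimal route through the right part forces a deviation. -/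
theorem slip_core (p : Pair μ) {ω : Cfg} {R A C s s0 g B' S W : ℝ} {n : ℕ} {u y P : Pt} {pt : Option (ℤ × ℤ) → Pt}
    {Rs : Finset (Option (ℤ × ℤ))} (hω : Calm b B c R n ω) (hg : 0 < g) (hg' : g = 1 - p.γ)
    (hW20 : 20 ≤ W) (hWn : W * W = n) (hKW : 8 * p.ax.K ≤ W)
    (hA0n : 0 ≤ A) (hAn : A ≤ n) (hC0n : 0 ≤ C) (hCn : C ≤ n)
    (hB : ∀ q : Pt, -(4 * p.ax.K) ≤ p.ax.a q → -(4 * p.ax.K) ≤ p.ax.c q →
      hubMean G b q ≤ p.ax.a q + p.ax.c q + g / 4 * (√(|p.ax.a q|) + √(|p.ax.c q|)) + B')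
    (hBW : B' + 1 ≤ g * W)
    (hnear : ∀ q : Pt, |p.ax.a q - A| ≤ 11 * W → |p.ax.c q - C| ≤ 11 * W → ∃ i ∈ Rs,
      (l1 q (pt i) : ℝ) ≤ (|p.F.v.1| + |p.F.v.2| + |p.F'.v.1| + |p.F'.v.2|) * (2 * s) + 2)
    (hs0 : 0 ≤ s) (_ : 0 ≤ s0) (hnone : none ∈ Rs) (hP : pt none = P)
    (hpt : ∀ i ∈ Rs, (l1 (0, 0) (pt i) : ℝ) +
      ((|p.F.v.1| + |p.F.v.2| + |p.F'.v.1| + |p.F'.v.2|) * (2 * s) + 2) ≤ R * n)
    (hmesh : 2 * B * (2 * ((|p.F.v.1| + |p.F.v.2| + |p.F'.v.1| + |p.F'.v.2|) * (2 * s) + 2)) ≤ g / 6 * W)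
    (hsl : B * slack n ≤ g / 12 * W) (hj : hubJunk b P ω ≤ g / 2 * W)
    (hS : ∀ i ∈ Rs ×ˢ Rs, |hubTime b (pt i.1) (pt i.2) ω - hubMean G b (pt i.2 - pt i.1)| ≤ g / 6 * W + S)
    (haP : |p.ax.a P - 3 * n| ≤ 2 * p.ax.K) (hcP : |p.ax.c P - 3 * n| ≤ 2 * p.ax.K) (hu : Hub b ω Set.univ u)
    (hu1 : |p.ax.a u - A| ≤ W) (hu2 : |p.ax.c u - (C + 8 * W)| ≤ W) (hy : p.ax.Right A C W (8 * W) y)
    (hst : tt ω u y + tt ω y P ≤ tt ω u P + 1) : g / 2 * W ≤ S := by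
  have hK := p.ax.one_le_K
  set E := |p.F.v.1| + |p.F.v.2| + |p.F'.v.1| + |p.F'.v.2|
  obtain ⟨⟨hy2, hy1⟩, -⟩ := hy
  rw [abs_le] at hu1 hu2 hy1 hy2 haP hcP
  obtain ⟨iu, miu, liu⟩ := hnear u (abs_le.2 ⟨by linarith, by linarith⟩) (abs_le.2 ⟨by linarith, by linarith⟩)
  obtain ⟨iy, miy, liy⟩ := hnear y (abs_le.2 ⟨by linarith, by linarith⟩) (abs_le.2 ⟨by linarith, by linarith⟩)
  have hEs : 0 ≤ E * (2 * s) + 2 := by positivity
  have ball : ∀ (q : Pt), ∀ i ∈ Rs, (l1 q (pt i) : ℝ) ≤ E * (2 * s) + 2 → (l1 (0, 0) q : ℝ) ≤ R * n := by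
    intro q i hi hl
    rw [Facet.l1_symm] at hl
    exact (l1_add_le le_rfl hl).trans (hpt i hi)
  have ballpt : ∀ i ∈ Rs, (l1 (0, 0) (pt i) : ℝ) ≤ R * n := fun i hi => by linarith [hpt i hi]
  have hlP : (l1 P (pt none) : ℝ) = 0 := by simp [hP, l1]
  have dev : ∀ (q r : Pt) (i j : Option (ℤ × ℤ)), i ∈ Rs → j ∈ Rs → (l1 (0, 0) q : ℝ) ≤ R * n →
      (l1 (0, 0) r : ℝ) ≤ R * n → (l1 q (pt i) : ℝ) + l1 r (pt j) ≤ 2 * (E * (2 * s) + 2) →
      |hubTime b q r ω - hubMean G b (r - q)| ≤ g / 2 * W + S := by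
    intro q r i j hi hj' hq hr hl
    refine (hX.abs_dev_le2 hω hq hr (ballpt i hi) (ballpt j hj')).trans ?_
    have h1 := hS (i, j) (Finset.mem_product.2 ⟨hi, hj'⟩)
    have h2 := mul_le_mul_of_nonneg_left hl (mul_nonneg zero_le_two hX.B_nonneg)
    simp only at h1
    linarith
  have bu := ball u iu miu liu
  have bY := ball y iy miy liy
  have bP : (l1 (0, 0) P : ℝ) ≤ R * n := hP ▸ ballpt none hnone
  have d1 := dev u y iu iy miu miy bu bY (by linarith)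
  have d2 := dev y P iy none miy hnone bY bP (by linarith)
  have d3 := dev u P iu none miu hnone bu bP (by linarith)
  have w1 := hω.low u y bu bY
  have w2 := hω.low y P bY bP
  have w3 := tt_le_hubTime (b := b) hω.nonneg u P
  rw [hubJunk_of_hub hω.nonneg hu] at w3
  have hgW : 0 ≤ g * W := mul_nonneg hg.le (by linarith)
  refine slip_algebra (m1 := hubMean G b (y - u)) (m2 := hubMean G b (P - y)) (m3 := hubMean G b (P - u))
    (s := p.ax.c u - p.ax.c y) (B := B') (sl := g / 2 * W + 2 * (g / 12 * W)) hg ?_ (by linarith) d1 d2 d3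
    (by linarith) (by linarith) hBW
  exact hX.slip_geometry p hg hg' hW20 hWn hKW hA0n hAn hC0n hCn hB hu1 hu2 hy2 hy1 haP hcP

/-- Routes to the target from hubs at the far end of a band rarely pass beside the cell. -/
theorem slip_small (p : Pair μ) {κ : ℝ} (hκ : 0 < κ) :
    ∃ R : ℝ, ∀ R' ≥ R, ∀ᶠ n : ℕ in atTop, ∀ (A C : ℝ) (P : Pt), 0 ≤ A → A ≤ n → 0 ≤ C → C ≤ n →
      |p.ax.a P - 3 * n| ≤ 2 * p.ax.K → |p.ax.c P - 3 * n| ≤ 2 * p.ax.K →
        (law G).real (HubSlip b p.ax A C √(n : ℝ) P ∪ {ω | ¬ Calm b B c R' n ω}) ≤ κ := by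
  have hb := hX.B_nonneg
  have hK := p.ax.one_le_K
  set g := 1 - p.γ with hg'
  have hg : 0 < g := sub_pos.2 p.γ_lt
  obtain ⟨B', hB0, hB⟩ := hX.mean_le p (show 0 < g / 4 by linarith)
  set E := |p.F.v.1| + |p.F.v.2| + |p.F'.v.1| + |p.F'.v.2| with hE
  have hE0 : 0 ≤ E := by positivity
  set s0 := g / 3 / (64 * (B * E + 1)) with hs0'
  have hs0 : 0 < s0 := by positivity
  set M := ⌈11 / s0⌉₊ + 1 with hM
  set Rs : Finset (Option (ℤ × ℤ)) := insert none ((Finset.Icc (-(M : ℤ)) M ×ˢ Finset.Icc (-(M : ℤ)) M).image some)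
    with hRs
  obtain ⟨A0, hA0⟩ := exists_nat_ge (E * (4 * (4 + 8 * p.ax.K + 2 * M * s0) + 2 * s0) + 6)
  have hA0' : 0 < (A0 : ℝ) := lt_of_lt_of_le (by positivity) hA0
  set ε := κ / 4 * (g / 2) * (4 * (g / 6)) / ((((Rs ×ˢ Rs).card : ℕ) + 1 : ℝ) * A0) with hε
  obtain ⟨N, hN⟩ := hX.var ε (by positivity)
  refine ⟨A0, fun R hR => ?_⟩
  filter_upwards [eventually_ge_atTop N, eventually_ge_atTop 1,
    hX.eventually_calm_prob R (show 0 < κ / 4 by positivity),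
    hX.junk (g / 2) (by positivity) (κ / 4) (by positivity),
    hX.eventually_slack (show 0 < g / 12 by positivity),
    (Real.tendsto_sqrt_atTop.comp tendsto_natCast_atTop_atTop).eventually_ge_atTop
      ((B' + 1) / g + 8 * p.ax.K + 96 * B / g + 20)] with n hn hn1 hcalm hjunk hsl hW A C P hA0n hAn hC0n hCn haP hcP
  simp only [Function.comp_apply] at hW
  set W := √(n : ℝ) with hW'
  have hn0 : (1 : ℝ) ≤ n := by exact_mod_cast hn1
  have hWn : W * W = n := Real.mul_self_sqrt (by linarith)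
  have hq1 : 0 ≤ (B' + 1) / g := by positivity
  have hq2 : 0 ≤ 96 * B / g := by positivity
  have hW20 : 20 ≤ W := by linarith
  have hKW : 8 * p.ax.K ≤ W := by linarith
  have hBW : B' + 1 ≤ g * W := by
    have : (B' + 1) / g ≤ W := by linarith
    rw [div_le_iff₀ hg] at this; linarith
  have hbW : 96 * B ≤ g * W := by
    have : 96 * B / g ≤ W := by linarith
    rw [div_le_iff₀ hg] at this; linarith
  have hWle : W ≤ n := (le_mul_of_one_le_left (by linarith) (by linarith)).trans_eq hWn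
  set s := s0 * W with hs
  have hsp : 0 < s := by positivity
  set pt : Option (ℤ × ℤ) → Pt := fun o => o.elim P fun i =>
    fl ((A + i.1 * s) • p.ax.v + (C + i.2 * s) • p.ax.w)
  have hpt : ∀ i ∈ Rs, (l1 ((0 : ℤ), (0 : ℤ)) (pt i) : ℝ) ≤ E * (2 * ((4 + 8 * p.ax.K + 2 * M * s0) * n)) + 2 :=
    fun i hi => slip_dist p hn0 hsp.le hs0.le (mul_le_mul_of_nonneg_left hWle hs0.le) hA0n hAn hC0n hCn haP hcP i hi
  have hA0n' := mul_le_mul_of_nonneg_right hA0 (Nat.cast_nonneg (α := ℝ) n)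
  have hEW : E * (2 * s) ≤ E * (2 * (s0 * n)) := by rw [hs]; gcongr
  have hE1 : 0 ≤ E * s0 * (n : ℝ) := by positivity
  have hptR : ∀ i ∈ Rs, (l1 ((0 : ℤ), (0 : ℤ)) (pt i) : ℝ) + (E * (2 * s) + 2) ≤ R * n := fun i hi => by
    have : 0 ≤ E * (4 + 8 * p.ax.K + 2 * M * s0) * (n : ℝ) := by positivity
    have := mul_le_mul_of_nonneg_right hR (Nat.cast_nonneg (α := ℝ) n)
    linarith [hpt i hi]
  obtain ⟨S, hS0, hSi, hSm, hS⟩ := hX.exists_excH (Rs ×ˢ Rs) (fun i => pt i.1) (fun i => pt i.2)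
    (fun _ => g / 6 * W) (fun _ => ε * ((A0 * n : ℕ) : ℝ)) (fun _ _ => by positivity) fun i hi => by
      refine hN (A0 * n) (le_trans hn (Nat.le_mul_of_pos_left n (by exact_mod_cast hA0'))) _ _ ?_
      rw [Finset.mem_product] at hi
      have h3 : (l1 (pt i.1) (pt i.2) : ℝ) ≤ ((A0 * n : ℕ) : ℝ) := by
        have h := Facet.l1_triangle (pt i.1) ((0 : ℤ), (0 : ℤ)) (pt i.2)
        rw [Facet.l1_symm (pt i.1) ((0 : ℤ), (0 : ℤ))] at h
        have ht : (l1 (pt i.1) (pt i.2) : ℝ) ≤ l1 ((0 : ℤ), (0 : ℤ)) (pt i.1) + l1 ((0 : ℤ), (0 : ℤ)) (pt i.2) := by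
          exact_mod_cast h
        push_cast
        linarith [add_le_add (hpt _ hi.1) (hpt _ hi.2)]
      exact_mod_cast h3
  have hmk : (law G).real {ω | g / 2 * W ≤ S ω} ≤ κ / 4 := by
    refine markov hS0 hSi (by positivity) (hSm.trans ?_)
    simp only [Finset.sum_const, nsmul_eq_mul]
    refine (mul_le_mul_of_nonneg_right (show (((Rs ×ˢ Rs).card : ℕ) : ℝ) ≤ ((Rs ×ˢ Rs).card : ℕ) + 1 by linarith)
      (by positivity)).trans (le_of_eq ?_)
    push_cast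
    rw [hε, ← hWn]
    field_simp
  have hsub : HubSlip b p.ax A C W P ∪ {ω | ¬ Calm b B c R n ω} ⊆
      {ω | g / 2 * W ≤ S ω} ∪ {ω | g / 2 * W < hubJunk b P ω} ∪ {ω | ¬ Calm b B c R n ω} := by
    rintro ω (⟨u, y, hu, hu1, hu2, hy, hst⟩ | h)
    · by_contra hno
      simp only [Set.mem_union, Set.mem_ofPred_eq, not_or, not_not, not_le, not_lt] at hno
      obtain ⟨⟨hSS, hj⟩, hω⟩ := hno
      have := hX.slip_core p (pt := pt) (Rs := Rs) (s0 := s0) hω hg hg' hW20 hWn hKW hA0n hAn hC0n hCn hB hBW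
        (fun q q1 q2 => slip_near p P hs0 hsp hs q q1 q2) hsp.le hs0.le (by simp [hRs]) rfl hptR
        (mesh_le hb hE0 hg hs0' hs hbW (by linarith)) hsl hj (fun i hi => hS ω i hi) haP hcP hu hu1 hu2 hy hst
      linarith
    · exact Or.inr h
  refine (measureReal_mono hsub (measure_ne_top _ _)).trans ((measureReal_union_le _ _).trans ?_)
  refine (add_le_add ((measureReal_union_le _ _).trans (add_le_add hmk (hjunk P))) hcalm).trans ?_
  linarith

end Ctx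

end Vale.Agent.P158.Any
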