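import Mathlib
import Vale.Agent.P158.Any.FacetEscape
import Vale.Agent.P158.Facet.Main

/-!
P158 facets for every law: the defect of a line, and the count of defects over a square of cells.
-/

namespace Vale.Agent.P158.Any

open MeasureTheory Filter Topology Finset Vale.Agent.P158.V4 Vale.Agent.P158.Facet

namespace Ctx

variable {G : Measure ℝ} [IsProbabilityMeasure G] {μ : ℝ × ℝ → ℝ} {b B c : ℝ}
variable (hX : Ctx G μ b B c)
include hX

/-- The mean defect of a line bounds the chances of expensive cells along it. -/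
theorem line_sum (ax : Axes) {D W C g R σ δ : ℝ} {n : ℕ} (hg : 0 ≤ g) (hD : ax.K ≤ D) {k : ℕ} {a z P : Pt}
    (ha : ax.a a < 2 * D) (hz : 2 * D * (k + 1) ≤ ax.a z) (hla : (l1 (0, 0) a : ℝ) ≤ R * n)
    (hlP : (l1 (0, 0) P : ℝ) ≤ R * n) (hσ : 0 ≤ σ)
    (hbad : (law G).real {ω | ¬ Calm b B c R n ω} + (law G).real {ω | σ < hubJunk b a ω} +
      (law G).real {ω | σ < hubJunk b z ω} + (law G).real {ω | σ < hubJunk b P ω} ≤ δ) :
    g * ∑ i ∈ range k, ((law G).real (Cross ax ((2 * i + 3) * D) C W D g P)ᶜ -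
        (law G).real (Stray ax ((2 * i + 3) * D) C W D a z)) ≤
      hubMean G b (z - a) + 1 + hubMean G b (P - z) - hubMean G b (P - a) + 4 * σ + B * slack n + g * k * δ := by
  have hm1 : ∀ i : ℕ, MeasurableSet (Cross ax ((2 * i + 3) * D) C W D g P)ᶜ := fun i =>
    (measurableSet_cross _ _ _ _ _ _ _).compl
  have hm2 : ∀ i : ℕ, MeasurableSet (Stray ax ((2 * i + 3) * D) C W D a z) := fun i =>
    measurableSet_stray _ _ _ _ _ _ _
  set T : ℕ → Cfg → ℝ := fun i ω => g * ((Cross ax ((2 * i + 3) * D) C W D g P)ᶜ.indicator (fun _ => (1 : ℝ)) ω -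
      (Stray ax ((2 * i + 3) * D) C W D a z).indicator (fun _ => (1 : ℝ)) ω)
  have hi : ∀ i : ℕ, Integrable (T i) (law G) := fun i =>
    (((integrable_const _).indicator (hm1 i)).sub' ((integrable_const _).indicator (hm2 i))).const_mul g
  set bad : Set Cfg := {ω | ¬ Calm b B c R n ω} ∪ {ω | σ < hubJunk b a ω} ∪ {ω | σ < hubJunk b z ω} ∪
    {ω | σ < hubJunk b P ω}
  set E := toMeasurable (law G) bad
  have hEm : MeasurableSet E := measurableSet_toMeasurable _ _
  have hEP : (law G).real E ≤ δ := by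
    rw [show (law G).real E = (law G).real bad by simp only [E, measureReal_def, measure_toMeasurable]]
    refine le_trans ?_ hbad
    exact (measureReal_union_le _ _).trans (add_le_add ((measureReal_union_le _ _).trans
      (add_le_add (measureReal_union_le _ _) le_rfl)) le_rfl)
  set K₀ := 1 + 4 * σ + B * slack n
  have hK₀ : 0 ≤ K₀ := by have := hX.B_nonneg; have := slack_nonneg n; positivity
  have hI : Integrable (fun ω => hubTime b a z ω + hubTime b z P ω - hubTime b a P ω + K₀ +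
      E.indicator (fun _ => g * k) ω) (law G) :=
    ((((hX.integrable a z).fun_add (hX.integrable z P)).sub' (hX.integrable a P)).fun_add
      (integrable_const K₀)).fun_add ((integrable_const _).indicator hEm)
  have hae : ∀ᵐ ω ∂law G, ∑ i ∈ range k, T i ω ≤ hubTime b a z ω + hubTime b z P ω - hubTime b a P ω + K₀ +
      E.indicator (fun _ => g * k) ω := by
    filter_upwards [ae_nonneg hX.pos] with ω h0
    have htri := hubTime_triangle (b := b) h0 a z P
    by_cases hE : ω ∈ E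
    · rw [Set.indicator_of_mem hE]
      have : ∑ i ∈ range k, T i ω ≤ g * k := by
        refine (sum_le_card_nsmul _ _ g fun i _ => ?_).trans_eq (by rw [card_range, nsmul_eq_mul, mul_comm])
        refine mul_le_of_le_one_right hg ?_
        have h1 : (Cross ax ((2 * i + 3) * D) C W D g P)ᶜ.indicator (fun _ => (1 : ℝ)) ω ≤ 1 :=
          Set.indicator_apply_le' (fun _ => le_rfl) fun _ => zero_le_one
        have h2 : 0 ≤ (Stray ax ((2 * i + 3) * D) C W D a z).indicator (fun _ => (1 : ℝ)) ω :=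
          Set.indicator_nonneg (fun _ _ => zero_le_one) _
        linarith
      linarith
    · rw [Set.indicator_of_notMem hE, add_zero]
      have hno := fun h => hE (subset_toMeasurable _ bad h)
      simp only [bad, Set.mem_union, Set.mem_ofPred_eq, imp_false, not_or, not_not, not_lt] at hno
      obtain ⟨⟨⟨hω, ja⟩, jz⟩, jP⟩ := hno
      refine (line_pointwise ax hg hD ha hz h0).trans ?_
      have h1 := tt_le_hubTime (b := b) h0 a z
      have h2 := tt_le_hubTime (b := b) h0 z P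
      linarith [hω.low a P hla hlP]
  have h := integral_mono_ae (integrable_finsetSum _ fun i _ => hi i) hI hae
  have e1 : ∫ ω, ∑ i ∈ range k, T i ω ∂law G = g * ∑ i ∈ range k,
      ((law G).real (Cross ax ((2 * i + 3) * D) C W D g P)ᶜ -
        (law G).real (Stray ax ((2 * i + 3) * D) C W D a z)) := by
    rw [integral_finsetSum _ fun i _ => hi i, mul_sum]
    refine sum_congr rfl fun i _ => ?_
    rw [integral_const_mul, integral_sub ((integrable_const _).indicator (hm1 i)) ((integrable_const _).indicator (hm2 i)),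
      integral_indicator (hm1 i), integral_indicator (hm2 i), setIntegral_const, setIntegral_const, smul_eq_mul,
      smul_eq_mul, mul_one, mul_one]
  rw [e1, integral_add ((((hX.integrable a z).fun_add (hX.integrable z P)).sub' (hX.integrable a P)).fun_add
      (integrable_const K₀)) ((integrable_const _).indicator hEm),
    integral_add (((hX.integrable a z).fun_add (hX.integrable z P)).sub' (hX.integrable a P)) (integrable_const K₀),
    integral_sub ((hX.integrable a z).fun_add (hX.integrable z P)) (hX.integrable a P),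
    integral_add (hX.integrable a z) (hX.integrable z P), hX.mean_eq, hX.mean_eq, hX.mean_eq,
    integral_indicator hEm, setIntegral_const, smul_eq_mul, integral_const, probReal_univ, one_smul] at h
  have := mul_le_mul_of_nonneg_right hEP (mul_nonneg hg (Nat.cast_nonneg (α := ℝ) k))
  linarith

/-- The defect of a line is of smaller order than the square root of its length. -/
theorem line_value (p : Pair μ) {θ : ℝ} (hθ : 0 < θ) :
    ∃ D : ℝ, ∀ (n : ℕ) (C : ℝ), (8 * p.ax.K ≤ n) → 0 ≤ C → C ≤ n →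
      hubMean G b (fl ((n : ℝ) • p.F.v + C • p.F'.v) - fl ((0 : ℝ) • p.F.v + C • p.F'.v)) + 1 +
        hubMean G b (fl ((3 * n : ℝ) • p.F.v + (3 * n : ℝ) • p.F'.v) - fl ((n : ℝ) • p.F.v + C • p.F'.v)) -
        hubMean G b (fl ((3 * n : ℝ) • p.F.v + (3 * n : ℝ) • p.F'.v) - fl ((0 : ℝ) • p.F.v + C • p.F'.v)) ≤
        θ * √(n : ℝ) + D := by
  obtain ⟨D, hB0, hB⟩ := hX.mean_le p (show 0 < θ / 8 by linarith)
  refine ⟨2 * D + 1 + 24 * p.ax.K, fun n C hn hC0 hC => ?_⟩
  set a := fl ((0 : ℝ) • p.F.v + C • p.F'.v)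
  set z := fl ((n : ℝ) • p.F.v + C • p.F'.v)
  set P := fl ((3 * n : ℝ) • p.F.v + (3 * n : ℝ) • p.F'.v)
  obtain ⟨a1, a2⟩ := p.near_fl 0 C
  obtain ⟨z1, z2⟩ := p.near_fl (n : ℝ) C
  obtain ⟨P1, P2⟩ := p.near_fl (3 * n : ℝ) (3 * n)
  rw [abs_le] at a1 a2 z1 z2 P1 P2
  have hK := p.ax.one_le_K
  have e1 := p.ax.a_sub z a
  have e2 := p.ax.c_sub z a
  have e3 := p.ax.a_sub P z
  have e4 := p.ax.c_sub P z
  have e5 := p.ax.a_sub P a
  have e6 := p.ax.c_sub P a
  have m1 := hB (z - a) (by linarith) (by linarith)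
  have m2 := hB (P - z) (by linarith) (by linarith)
  have m3 := hX.mean_ge p (P - a) (by linarith) (by linarith)
  have hs : ∀ x : ℝ, |x| ≤ 4 * n → √(|x|) ≤ 2 * √(n : ℝ) := fun x hx => by
    rw [Real.sqrt_le_left (by positivity), mul_pow, Real.sq_sqrt (Nat.cast_nonneg n)]
    linarith
  have s1 := hs _ (abs_le.2 ⟨by linarith, by linarith⟩ : |p.ax.a (z - a)| ≤ 4 * n)
  have s2 := hs _ (abs_le.2 ⟨by linarith, by linarith⟩ : |p.ax.c (z - a)| ≤ 4 * n)
  have s3 := hs _ (abs_le.2 ⟨by linarith, by linarith⟩ : |p.ax.a (P - z)| ≤ 4 * n)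
  have s4 := hs _ (abs_le.2 ⟨by linarith, by linarith⟩ : |p.ax.c (P - z)| ≤ 4 * n)
  have t := mul_le_mul_of_nonneg_left (add_le_add (add_le_add s1 s2) (add_le_add s3 s4)) (show 0 ≤ θ / 8 by linarith)
  linarith

/-- No two corners on a facet. -/
theorem no_pair (hatom : ∀ x, G {x} = 0) (p : Pair μ) : False := by
  obtain ⟨g, hg, κ, hκ, hcell⟩ := cell_of_escapes hX.pos hatom p.ax
  set θ := g * κ / 256 with hθ
  have hθ0 : 0 < θ := by positivity
  obtain ⟨D₁, hD₁⟩ := hX.line_value p (show 0 < θ / 4 by positivity)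
  obtain ⟨D₂, hD₂⟩ := hX.line_value p.swap (show 0 < θ / 4 by positivity)
  have hW := Real.tendsto_sqrt_atTop.comp tendsto_natCast_atTop_atTop
  have hκ8 : 0 < κ / 8 := by linarith
  obtain ⟨R₀, hR₀⟩ := hX.slip_small p hκ8
  have hK := p.ax.one_le_K
  set E := |p.F.v.1| + |p.F.v.2| + |p.F'.v.1| + |p.F'.v.2| with hE
  set R := max R₀ (E * (24 + 8 * p.ax.K)) with hR
  obtain ⟨n, hn, hns, hns', hnsl, hcalm, hjunk, hsl, hsl', hWn⟩ := ((hW.eventually hcell).and ((hX.stray_small p hκ8).and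
    ((hX.stray_small p.swap hκ8).and ((hR₀ R (le_max_left _ _)).and
    ((hX.eventually_calm_prob R (show 0 < θ / (16 * g) by positivity)).and
    ((hX.junk (θ / 32) (by positivity) (θ / (16 * g)) (by positivity)).and
    ((hX.eventually_slack (show 0 < θ / 8 by positivity)).and
    ((slack_le_sqrt (show 0 < 1 / (6 * p.ax.K) by positivity)).and
    (hW.eventually_ge_atTop (96 + 8 * p.ax.K + 512 * (max |D₁| |D₂| + 1) / (g * κ))))))))))).exists
  simp only [Function.comp_apply] at hn hWn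
  set W := √(n : ℝ) with hW'
  have h0 : 0 ≤ 512 * (max |D₁| |D₂| + 1) / (g * κ) := by positivity
  have hW96 : 96 ≤ W := by linarith
  have hWW : W * W = n := Real.mul_self_sqrt (Nat.cast_nonneg n)
  have hnW : 96 * W ≤ n := hWW ▸ mul_le_mul_of_nonneg_right hW96 (by linarith)
  set k := ⌊W / 16⌋₊ - 2 with hk
  have hk2 : 2 ≤ ⌊W / 16⌋₊ := Nat.le_floor (by push_cast; linarith)
  have hkle : ((k : ℕ) : ℝ) + 2 ≤ W / 16 := by
    have : ((k + 2 : ℕ) : ℝ) ≤ W / 16 := le_trans (by rw [hk, Nat.sub_add_cancel hk2]) (Nat.floor_le (by linarith))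
    push_cast at this
    exact this
  have hkge : W / 32 ≤ k := by
    have := Nat.lt_floor_add_one (W / 16)
    have : ((⌊W / 16⌋₊ : ℕ) : ℝ) = k + 2 := by rw [hk, Nat.cast_sub hk2]; push_cast; ring
    linarith
  have hend : 2 * (8 * W) * ((k : ℝ) + 1) ≤ n - 2 * p.ax.K := by
    have h1 := mul_le_mul_of_nonneg_left hkle (show 0 ≤ 16 * W by linarith)
    rw [show 16 * W * (W / 16) = W * W by ring, hWW] at h1
    have h2 : 2 * p.ax.K ≤ W * 1 := by linarith
    have h3 := mul_le_mul_of_nonneg_left (show (1 : ℝ) ≤ 16 by norm_num) (show 0 ≤ W by linarith)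
    linarith
  have hpos : ∀ i < k, 0 ≤ (2 * (i : ℝ) + 3) * (8 * W) ∧ (2 * (i : ℝ) + 3) * (8 * W) ≤ n := fun i hi => by
    have hi' : (i : ℝ) + 1 ≤ k := by exact_mod_cast hi
    refine ⟨by positivity, le_trans (mul_le_mul_of_nonneg_right (show 2 * (i : ℝ) + 3 ≤ 2 * (k + 1) by linarith)
      (by linarith)) (by linarith)⟩
  have hKn : 8 * p.ax.K ≤ n := by linarith
  have hn1 : (1 : ℝ) ≤ n := by linarith
  have hball : ∀ q : Pt, |p.ax.a q| ≤ 12 * n + 4 * p.ax.K → |p.ax.c q| ≤ 12 * n + 4 * p.ax.K →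
      (l1 (0, 0) q : ℝ) ≤ R * n := fun q q1 q2 => by
    have h := p.ax.l1_le ((0 : ℤ), (0 : ℤ)) q
    simp only [show p.ax.v = p.F.v from rfl, show p.ax.w = p.F'.v from rfl, ← hE] at h
    rw [show p.ax.a ((0 : ℤ), (0 : ℤ)) = 0 by simp [Axes.a], show p.ax.c ((0 : ℤ), (0 : ℤ)) = 0 by simp [Axes.c],
      sub_zero, sub_zero] at h
    refine h.trans ((mul_le_mul_of_nonneg_left (add_le_add q1 q2) (by positivity)).trans ?_)
    have h8 : 8 * p.ax.K ≤ 8 * p.ax.K * n := le_mul_of_one_le_right (by positivity) hn1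
    calc E * (12 * n + 4 * p.ax.K + (12 * n + 4 * p.ax.K)) ≤ E * ((24 + 8 * p.ax.K) * n) := by gcongr; linarith
      _ ≤ R * n := by rw [← mul_assoc]; gcongr; exact le_max_right _ _
  have hPeq : fl ((3 * n : ℝ) • p.swap.F.v + (3 * n : ℝ) • p.swap.F'.v) =
      fl ((3 * n : ℝ) • p.F.v + (3 * n : ℝ) • p.F'.v) := by
    rw [add_comm]; rfl
  set P := fl ((3 * n : ℝ) • p.F.v + (3 * n : ℝ) • p.F'.v) with hP
  set pos : ℕ → ℝ := fun i => (2 * (i : ℝ) + 3) * (8 * W) with hposdef
  have hK' : p.swap.ax.K = p.ax.K := by rw [p.swap_ax, p.ax.swap_K]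
  have hlin : ∀ (a' z' : Pt) (D : ℝ), |D| ≤ max |D₁| |D₂| → (l1 (0, 0) a' : ℝ) ≤ R * n →
      (law G).real {ω | ¬ Calm b B c R n ω} + (law G).real {ω | θ / 32 * W < hubJunk b a' ω} +
        (law G).real {ω | θ / 32 * W < hubJunk b z' ω} + (law G).real {ω | θ / 32 * W < hubJunk b P ω} ≤
          θ / (4 * g) ∧ θ / 4 * W + D + 4 * (θ / 32 * W) + B * slack n + g * k * (θ / (4 * g)) ≤
            θ * W + max |D₁| |D₂| := by
    intro a' z' D hD _
    refine ⟨?_, ?_⟩
    · refine (add_le_add (add_le_add (add_le_add hcalm (hjunk a')) (hjunk z')) (hjunk P)).trans (le_of_eq ?_)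
      field_simp; ring
    · have h1 : g * k * (θ / (4 * g)) = θ / 4 * k := by field_simp
      have h2 : θ / 4 * k ≤ θ / 4 * W := mul_le_mul_of_nonneg_left (by linarith) (by positivity)
      have := le_abs_self D
      have : 0 ≤ θ * W := mul_nonneg hθ0.le (by linarith)
      linarith
  obtain ⟨P1, P2⟩ := p.near_fl (3 * n : ℝ) (3 * n)
  have hPR : (l1 (0, 0) P : ℝ) ≤ R * n := by
    rw [abs_le] at P1 P2
    exact hball P (abs_le.2 ⟨by linarith, by linarith⟩) (abs_le.2 ⟨by linarith, by linarith⟩)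
  refine count_false (k := k) (B := max |D₁| |D₂|) (W := W)
    (fun i j => (law G).real (Cross p.ax (pos i) (pos j) W (8 * W) g P)ᶜ)
    (fun i j => (law G).real (Cross p.ax.swap (pos j) (pos i) W (8 * W) g P)ᶜ)
    (fun i j => (law G).real (Stray p.ax (pos i) (pos j) W (8 * W) (fl ((0 : ℝ) • p.F.v + pos j • p.F'.v))
      (fl ((n : ℝ) • p.F.v + pos j • p.F'.v))))
    (fun i j => (law G).real (Stray p.swap.ax (pos j) (pos i) W (8 * W) (fl ((0 : ℝ) • p.F'.v + pos i • p.F.v))
      (fl ((n : ℝ) • p.F'.v + pos i • p.F.v))))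
    (fun i j => (law G).real (HubSlip b p.ax (pos i) (pos j) W P ∪ {ω | ¬ Calm b B c R n ω}))
    hg hκ hθ hkge ?_ (by linarith) (fun i hi j hj => ?_) (fun i hi j hj => ⟨?_, ?_, ?_⟩) (fun j hj => ?_)
    fun i hi => ?_
  · rw [abs_of_nonneg ((abs_nonneg D₁).trans (le_max_left _ _))]
    have : 512 * (max |D₁| |D₂| + 1) / (g * κ) ≤ W := by linarith
    rw [div_le_iff₀ (by positivity)] at this
    linarith
  · set Q := HubSlip b p.ax (pos i) (pos j) W P ∪ {ω | ¬ Calm b B c R n ω}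
    have hesc : Escapes p.ax (pos i) (pos j) W P (toMeasurable (law G) Q) := by
      refine escapes_hubSlip p.ax (subset_toMeasurable _ _) ?_ fun r r1 r2 => ?_
      · have h1 := mul_le_mul_of_nonneg_left hsl' (show 0 ≤ 6 * p.ax.K by linarith)
        rw [← mul_assoc, show 6 * p.ax.K * (1 / (6 * p.ax.K)) = 1 by field_simp, one_mul] at h1
        have h2 : p.ax.K * 1 ≤ p.ax.K * slack n := mul_le_mul_of_nonneg_left (one_le_slack n) (by linarith)
        linarith
      · obtain ⟨i0, i1⟩ := hpos i hi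
        obtain ⟨j0, j1⟩ := hpos j hj
        rw [abs_le] at r1 r2
        simp only [hposdef] at r1 r2
        exact hball r (abs_le.2 ⟨by linarith, by linarith⟩) (abs_le.2 ⟨by linarith, by linarith⟩)
    have h := hn (pos i) (pos j) P _ (measurableSet_toMeasurable _ _) hesc
    simp only [measureReal_def, measure_toMeasurable] at h ⊢
    exact h
  · obtain ⟨a1, a2⟩ := p.near_fl 0 (pos j)
    obtain ⟨z1, z2⟩ := p.near_fl (n : ℝ) (pos j)
    rw [sub_zero] at a1
    exact hns _ _ _ _ (hpos i hi).1 (hpos i hi).2 (hpos j hj).1 (hpos j hj).2 a1 a2 z1 z2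
  · obtain ⟨a1, a2⟩ := p.swap.near_fl 0 (pos i)
    obtain ⟨z1, z2⟩ := p.swap.near_fl (n : ℝ) (pos i)
    rw [sub_zero] at a1
    exact hns' _ _ _ _ (hpos j hj).1 (hpos j hj).2 (hpos i hi).1 (hpos i hi).2 a1 a2 z1 z2
  · exact hnsl _ _ _ (hpos i hi).1 (hpos i hi).2 (hpos j hj).1 (hpos j hj).2 P1 P2
  · obtain ⟨a1, a2⟩ := p.near_fl 0 (pos j)
    obtain ⟨z1, -⟩ := p.near_fl (n : ℝ) (pos j)
    rw [abs_le] at a1 a2 z1
    obtain ⟨j0, j1⟩ := hpos j hj
    have haR : (l1 (0, 0) (fl ((0 : ℝ) • p.F.v + pos j • p.F'.v)) : ℝ) ≤ R * n := by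
      simp only [hposdef] at a1 a2 ⊢
      exact hball _ (abs_le.2 ⟨by linarith, by linarith⟩) (abs_le.2 ⟨by linarith, by linarith⟩)
    obtain ⟨l1', l2'⟩ := hlin _ (fl ((n : ℝ) • p.F.v + pos j • p.F'.v)) D₁ (le_max_left _ _) haR
    refine (hX.line_sum p.ax (D := 8 * W) (k := k) (σ := θ / 32 * W) hg.le (by linarith) (by linarith)
      (by linarith) haR hPR (by positivity) l1').trans (le_trans ?_ l2')
    linarith [hD₁ n _ hKn j0 j1]
  · obtain ⟨a1, a2⟩ := p.swap.near_fl 0 (pos i)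
    obtain ⟨z1, -⟩ := p.swap.near_fl (n : ℝ) (pos i)
    rw [abs_le, hK'] at a1 a2 z1
    obtain ⟨i0, i1⟩ := hpos i hi
    have h := hD₂ n _ (by rw [hK']; exact hKn) i0 i1
    rw [hPeq] at h
    simp only [show p.swap.F = p.F' from rfl, show p.swap.F' = p.F from rfl] at a1 a2 z1 h
    have haR : (l1 (0, 0) (fl ((0 : ℝ) • p.F'.v + pos i • p.F.v)) : ℝ) ≤ R * n := by
      rw [p.swap_ax, p.ax.swap_a] at a1
      rw [p.swap_ax, p.ax.swap_c] at a2
      simp only [hposdef] at a1 a2 ⊢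
      exact hball _ (abs_le.2 ⟨by linarith, by linarith⟩) (abs_le.2 ⟨by linarith, by linarith⟩)
    obtain ⟨l1', l2'⟩ := hlin _ (fl ((n : ℝ) • p.F'.v + pos i • p.F.v)) D₂ (le_max_right _ _) haR
    refine (hX.line_sum p.swap.ax (σ := θ / 32 * W) hg.le (by rw [hK']; linarith) (by linarith) (by linarith)
      haR hPR (by positivity) l1').trans (le_trans ?_ l2')
    linarith

end Ctx

end Vale.Agent.P158.Any
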