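import Mathlib
import Vale.Agent.P158.Any.FacetCtx
import Vale.Agent.P158.Any.PivotHub
import Vale.Agent.P158.Any.FacetDev

/-!
P158 facets for every law: the mean time between first hubs is stationary, Lipschitz, at least the time
constant and asymptotic to it, given that its deviations are of smaller order than the distance.
-/

namespace Vale.Agent.P158.Any

open MeasureTheory Filter Topology

variable {G : Measure ℝ} [IsProbabilityMeasure G] {b : ℝ}

theorem hubTime_eq (b : ℝ) (u v : Pt) :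
    hubTime b u v = fun ω => V4.tt ω (planeHub b ω u) (planeHub b ω v) := rfl

omit [IsProbabilityMeasure G] in
theorem hubMean_eq (b : ℝ) (z : Pt) : hubMean G b z = ∫ ω, hopTime (planeHub b) z ω ∂V4.law G := rfl

variable (hG : ∀ᵐ t ∂G, 0 < t) (hb0 : 0 ≤ b) (hb : rate G b ≤ 1 / 64)
include hG hb0 hb

theorem integrable_hubTime (u v : Pt) : Integrable (hubTime b u v) (V4.law G) :=
  (isPivot_planeHub hG hb0 hb).integrable_tt u v

theorem integral_hubTime (u v : Pt) :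
    ∫ ω, hubTime b u v ω ∂V4.law G = hubMean G b (v - u) :=
  (isPivot_planeHub hG hb0 hb).integral_tt u v

theorem hubMean_triangle (y z : Pt) : hubMean G b (y + z) ≤ hubMean G b y + hubMean G b z := by
  have h1 := integral_hubTime hG hb0 hb (0, 0) (y + z)
  have h2 := integral_hubTime hG hb0 hb (0, 0) y
  have h3 := integral_hubTime hG hb0 hb y (y + z)
  rw [Prod.mk_zero_zero, sub_zero] at h1 h2
  rw [add_sub_cancel_left] at h3
  rw [← h1, ← h2, ← h3, ← integral_add (integrable_hubTime hG hb0 hb _ _) (integrable_hubTime hG hb0 hb _ _)]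
  exact integral_mono_ae (integrable_hubTime hG hb0 hb _ _)
    ((integrable_hubTime hG hb0 hb _ _).add (integrable_hubTime hG hb0 hb _ _))
    ((ae_nonneg hG).mono fun ω hω => hubTime_triangle hω _ _ _)

theorem hubMean_neg (z : Pt) : hubMean G b (-z) = hubMean G b z := by
  have h1 := integral_hubTime hG hb0 hb z (0, 0)
  rw [Prod.mk_zero_zero, zero_sub] at h1
  rw [← h1]
  exact integral_congr_ae ((ae_nonneg hG).mono fun ω hω => hubTime_comm hω _ _)

omit hb0 hb in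
theorem hubMean_nonneg (z : Pt) : 0 ≤ hubMean G b z :=
  integral_nonneg_of_ae ((ae_nonneg hG).mono fun _ hω => hubTime_nonneg hω _ _)

theorem hubMean_zsmul_le (k : ℤ) (v : Pt) : hubMean G b (k • v) ≤ (k.natAbs : ℝ) * hubMean G b v := by
  have h := (isPivot_planeHub hG hb0 hb).integral_hopTime_nsmul_le hG v k.natAbs
  simp only [← hubMean_eq] at h
  rcases Int.natAbs_eq k with e | e
  · rwa [← natCast_zsmul, ← e] at h
  · rw [← natCast_zsmul, ← hubMean_neg hG hb0 hb, ← neg_smul, ← e] at h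
    exact h

/-- The mean is Lipschitz. -/
theorem exists_hubMean_step :
    ∃ B : ℝ, 0 ≤ B ∧ ∀ y z : Pt, |hubMean G b y - hubMean G b z| ≤ B * V4.l1 y z := by
  set B₁ := hubMean G b (1, 0)
  set B₂ := hubMean G b (0, 1)
  have h1 : 0 ≤ B₁ := hubMean_nonneg hG _
  have h2 : 0 ≤ B₂ := hubMean_nonneg hG _
  refine ⟨B₁ + B₂, add_nonneg h1 h2, fun y z => ?_⟩
  have key : ∀ y z : Pt, hubMean G b y - hubMean G b z ≤ (B₁ + B₂) * V4.l1 y z := by
    intro y z
    have e : y = z + ((y.1 - z.1) • ((1, 0) : Pt) + (y.2 - z.2) • ((0, 1) : Pt)) := by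
      ext <;> simp
    have a1 := hubMean_triangle hG hb0 hb z ((y.1 - z.1) • ((1, 0) : Pt) + (y.2 - z.2) • ((0, 1) : Pt))
    have a2 := hubMean_triangle hG hb0 hb ((y.1 - z.1) • ((1, 0) : Pt)) ((y.2 - z.2) • ((0, 1) : Pt))
    have a3 := hubMean_zsmul_le hG hb0 hb (y.1 - z.1) (1, 0)
    have a4 := hubMean_zsmul_le hG hb0 hb (y.2 - z.2) (0, 1)
    rw [← e] at a1
    have i1 : ((y.1 - z.1).natAbs : ℝ) ≤ V4.l1 y z := by
      exact_mod_cast (show (y.1 - z.1).natAbs ≤ V4.l1 y z by simp [V4.l1])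
    have i2 : ((y.2 - z.2).natAbs : ℝ) ≤ V4.l1 y z := by
      exact_mod_cast (show (y.2 - z.2).natAbs ≤ V4.l1 y z by simp [V4.l1])
    have := mul_le_mul_of_nonneg_right i1 h1
    have := mul_le_mul_of_nonneg_right i2 h2
    linarith
  rw [abs_le]
  have := key z y
  rw [Facet.l1_symm z y] at this
  exact ⟨by linarith, key y z⟩

omit hG hb0 hb in
/-- The deviations of the time from the origin are of smaller order than the distance, in probability. -/
theorem tendsto_dev (hsq : ∀ u v : Pt, MemLp (hubTime b u v) 2 (V4.law G)) (hvar : SmallVarH G b)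
    {A : ℕ} (y : ℕ → Pt) (hy : ∀ᶠ n in atTop, V4.l1 (0, 0) (y n) ≤ A * n) {ε : ℝ} (hε : 0 < ε) :
    Tendsto (fun n : ℕ => (V4.law G).real
      {ω | ε * n ≤ |hubTime b (0, 0) (y n) ω - hubMean G b (y n)|}) atTop (𝓝 0) := by
  rw [Metric.tendsto_atTop]
  intro δ hδ
  obtain ⟨N, hN⟩ := hvar (δ * ε ^ 2 / (2 * (A + 1))) (by positivity)
  obtain ⟨N₁, hN₁⟩ := eventually_atTop.1 (hy.and ((eventually_ge_atTop N).and (eventually_ge_atTop 1)))
  refine ⟨N₁, fun n hn => ?_⟩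
  obtain ⟨hyn, hnN, hn1⟩ := hN₁ n hn
  have h := hN ((A + 1) * n) (hnN.trans (Nat.le_mul_of_pos_left n A.succ_pos)) (0, 0) (y n)
    (hyn.trans (Nat.mul_le_mul_right n A.le_succ))
  rw [Prod.mk_zero_zero, sub_zero, ← Prod.mk_zero_zero] at h
  have hn0 : (0 : ℝ) < n := by exact_mod_cast hn1
  have hi := ((hsq (0, 0) (y n)).sub (memLp_const (hubMean G b (y n)))).integrable_sq
  have h1 := mul_meas_ge_le_integral_of_nonneg (μ := V4.law G)
    (Eventually.of_forall fun ω => sq_nonneg (hubTime b (0, 0) (y n) ω - hubMean G b (y n))) hi ((ε * n) ^ 2)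
  have h2 : (V4.law G).real {ω | ε * n ≤ |hubTime b (0, 0) (y n) ω - hubMean G b (y n)|} ≤
      (V4.law G).real {ω | (ε * n) ^ 2 ≤ (hubTime b (0, 0) (y n) ω - hubMean G b (y n)) ^ 2} :=
    measureReal_mono (fun ω hω => by
      rw [Set.mem_ofPred_eq] at hω ⊢
      rw [← sq_abs (hubTime b (0, 0) (y n) ω - _)]
      exact pow_le_pow_left₀ (by positivity) hω 2) (measure_ne_top _ _)
  rw [dist_zero_right, Real.norm_eq_abs, abs_of_nonneg measureReal_nonneg]
  have h3 := mul_le_mul_of_nonneg_left h2 (sq_nonneg (ε * n))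
  have h4 : δ * ε ^ 2 / (2 * (A + 1)) * (((A + 1) * n : ℕ) : ℝ) = δ / 2 * ε ^ 2 * n := by
    push_cast
    field_simp
  rw [h4] at h
  have hn2 : (n : ℝ) ≤ n * n := le_mul_of_one_le_right hn0.le (by exact_mod_cast hn1)
  have h5 : δ / 2 * ε ^ 2 * n ≤ δ / 2 * (ε * n) ^ 2 :=
    (mul_le_mul_of_nonneg_left hn2 (by positivity)).trans_eq (by ring)
  have h6 : (ε * (n : ℝ)) ^ 2 * (V4.law G).real {ω | ε * n ≤ |hubTime b (0, 0) (y n) ω - hubMean G b (y n)|} ≤
      (ε * n) ^ 2 * (δ / 2) := by linarith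
  linarith [le_of_mul_le_mul_left h6 (by positivity)]

/-- The mean is asymptotic to the time constant. -/
theorem tendsto_hubMean {μ : ℝ × ℝ → ℝ} {C₀ : ℝ} (hμ : V4.IsLatticeNorm μ)
    (hshape : ∀ ε > 0, Tendsto (fun r : ℕ => V4.law G {ω | ¬ HShape μ b C₀ ε r ω (0, 0)}) atTop (𝓝 0))
    (hsq : ∀ u v : Pt, MemLp (hubTime b u v) 2 (V4.law G)) (hvar : SmallVarH G b) (z : ℝ × ℝ) (y : ℕ → Pt)
    (h1 : Tendsto (fun n : ℕ => ((y n).1 : ℝ) / n) atTop (𝓝 z.1))
    (h2 : Tendsto (fun n : ℕ => ((y n).2 : ℝ) / n) atTop (𝓝 z.2)) :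
    Tendsto (fun n : ℕ => hubMean G b (y n) / n) atTop (𝓝 (μ z)) := by
  have hpiv := isPivot_planeHub hG hb0 hb
  rw [Metric.tendsto_atTop]
  intro ε hε
  set m := μ (1, 0)
  have hm : 0 < m := hμ.axis_pos
  obtain ⟨A, hA⟩ := exists_nat_ge (|z.1| + |z.2| + 4)
  have hA0 : 4 ≤ (A : ℝ) := by linarith [abs_nonneg z.1, abs_nonneg z.2]
  set δ := min 1 (ε / (16 * (m + 1))) with hδdef
  have hδ : 0 < δ := lt_min one_pos (by positivity)
  have hδ1 : δ ≤ 1 := min_le_left _ _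
  have hmδ : m * (2 * δ + (δ + δ)) ≤ ε / 4 := by
    have h : δ * (16 * (m + 1)) ≤ ε := (le_div_iff₀ (by positivity)).1 (min_le_right _ _)
    nlinarith
  set η := ε / (8 * A)
  have hη : 0 < η := by positivity
  have d1 := (Metric.tendsto_nhds.1 h1) δ hδ
  have d2 := (Metric.tendsto_nhds.1 h2) δ hδ
  simp only [Real.dist_eq] at d1 d2
  have hy : ∀ᶠ n in atTop, V4.l1 (0, 0) (y n) ≤ A * n := by
    filter_upwards [d1, d2, eventually_ge_atTop 1] with n e1 e2 hn
    have hn0 : (0 : ℝ) < n := by exact_mod_cast hn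
    have : ((V4.l1 (0, 0) (y n) : ℕ) : ℝ) ≤ ((A * n : ℕ) : ℝ) := by
      rw [V4.l1_cast]
      push_cast
      simp only [zero_sub, abs_neg]
      refine (div_le_iff₀ hn0).1 ?_
      rw [add_div, ← abs_of_pos hn0, ← abs_div, ← abs_div]
      have := abs_sub_abs_le_abs_sub (((y n).1 : ℝ) / n) z.1
      have := abs_sub_abs_le_abs_sub (((y n).2 : ℝ) / n) z.2
      linarith
    exact_mod_cast this
  have hP := tendsto_dev hsq hvar y hy (show 0 < ε / 4 by positivity)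
  have hS : Tendsto (fun r : ℕ => (V4.law G).real {ω | ¬ HShape μ b C₀ η r ω (0, 0)}) atTop (𝓝 0) := by
    have h := (ENNReal.tendsto_toReal ENNReal.zero_ne_top).comp (hshape η hη)
    rwa [ENNReal.toReal_zero] at h
  have hF0 := hpiv.tendsto_far hδ (fun _ => ((0 : ℤ), (0 : ℤ)))
  have hFy := hpiv.tendsto_far hδ y
  obtain ⟨N, hN⟩ := eventually_atTop.1 (d1.and (d2.and (hy.and ((eventually_ge_atTop 1).and
    ((hP.eventually (gt_mem_nhds (show (0 : ℝ) < 1 / 8 by norm_num))).and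
    ((hS.eventually (gt_mem_nhds (show (0 : ℝ) < 1 / 8 by norm_num))).and
    ((hF0.eventually (gt_mem_nhds (show (0 : ℝ) < 1 / 8 by norm_num))).and
      (hFy.eventually (gt_mem_nhds (show (0 : ℝ) < 1 / 8 by norm_num))))))))))
  refine ⟨N, fun n hn => ?_⟩
  obtain ⟨e1, e2, hyn, hn1, p1, p2, p3, p4⟩ := hN n hn
  set E0 : Set Cfg := {ω | ¬ ((∀ e, 0 ≤ ω e) ∧ Hub b ω Set.univ (planeHub b ω (0, 0)) ∧
    Hub b ω Set.univ (planeHub b ω (y n)))}
  have p5 : (V4.law G).real E0 = 0 := by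
    rw [measureReal_eq_zero_iff, ← ae_iff]
    filter_upwards [ae_nonneg hG, hpiv.hub (0, 0), hpiv.hub (y n)] with ω a1 a2 a3 using ⟨a1, a2, a3⟩
  obtain ⟨ω, hω⟩ : ∃ ω, ω ∉ {ω | ε / 4 * n ≤ |hubTime b (0, 0) (y n) ω - hubMean G b (y n)|} ∪
      {ω | ¬ HShape μ b C₀ η n ω (0, 0)} ∪
      {ω | δ * n < V4.l1 ((0 : ℤ), (0 : ℤ)) (planeHub b ω (0, 0))} ∪
      {ω | δ * n < V4.l1 (y n) (planeHub b ω (y n))} ∪ E0 := by
    refine (Set.ne_univ_iff_exists_notMem _).1 fun hu => ?_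
    have h := congrArg (V4.law G).real hu
    rw [probReal_univ] at h
    have := (measureReal_union_le _ _).trans (add_le_add ((measureReal_union_le _ _).trans (add_le_add
      ((measureReal_union_le _ _).trans (add_le_add (measureReal_union_le _ _) le_rfl)) le_rfl)) le_rfl)
        |>.trans' h.ge
    linarith
  simp only [Set.mem_union, Set.mem_ofPred_eq, not_or, not_le, not_lt, not_not, E0] at hω
  obtain ⟨⟨⟨⟨q1, q2⟩, q3⟩, q4⟩, q5, q6, q7⟩ := hω
  set p0 := planeHub b ω (0, 0)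
  set py := planeHub b ω (y n)
  have hn0 : (0 : ℝ) < n := by exact_mod_cast hn1
  have hAy : (V4.l1 (0, 0) (y n) : ℝ) ≤ A * n := by exact_mod_cast hyn
  have hl0 : (V4.l1 (0, 0) p0 : ℝ) ≤ 2 * A * n := by
    have : δ * n ≤ 2 * A * n := mul_le_mul_of_nonneg_right (by linarith) hn0.le
    linarith
  have hly : (V4.l1 (0, 0) py : ℝ) ≤ 2 * A * n := by
    have : (V4.l1 (0, 0) py : ℝ) ≤ (V4.l1 (0, 0) (y n) : ℝ) + V4.l1 (y n) py := by
      exact_mod_cast Any.l1_triangle (0, 0) (y n) py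
    have : δ * n ≤ A * n := mul_le_mul_of_nonneg_right (by linarith) hn0.le
    linarith
  have hR : (n : ℝ) ≤ 2 * A * n := le_mul_of_one_le_left hn0.le (by linarith)
  have lo := q2.lo _ hR p0 py hl0 hly
  have hi := q2.hi _ hR p0 py hl0 hly q6 q7
  have hTT : hubTime b (0, 0) (y n) ω = V4.tt ω p0 py := rfl
  rw [hTT] at q1
  have hηA : η * (2 * A * n) = ε / 4 * n := by
    simp only [η]
    field_simp
    ring
  -- the displacement
  have k1 := hμ.sub_le (V4.toR (py - p0)) ((n : ℝ) • z)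
  have k2 := hμ.sub_le ((n : ℝ) • z) (V4.toR (py - p0))
  have k3 : |(V4.toR (py - p0)).1 - ((n : ℝ) • z).1| + |(V4.toR (py - p0)).2 - ((n : ℝ) • z).2| ≤
      (2 * δ + (δ + δ)) * n := by
    rw [V4.l1_cast] at q3 q4
    simp only [V4.toR, Prod.fst_sub, Prod.snd_sub, Int.cast_sub, Prod.smul_fst, Prod.smul_snd, smul_eq_mul]
    have f1 : |((y n).1 : ℝ) - n * z.1| ≤ δ * n := by
      rw [← div_le_iff₀ hn0, ← abs_of_pos hn0, ← abs_div, abs_of_pos hn0, sub_div, mul_div_cancel_left₀ _ hn0.ne']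
      exact e1.le
    have f2 : |((y n).2 : ℝ) - n * z.2| ≤ δ * n := by
      rw [← div_le_iff₀ hn0, ← abs_of_pos hn0, ← abs_div, abs_of_pos hn0, sub_div, mul_div_cancel_left₀ _ hn0.ne']
      exact e2.le
    simp only [Int.cast_zero, zero_sub, abs_neg] at q3
    have g1 := abs_sub_le ((py.1 : ℝ) - p0.1) (((y n).1 : ℝ)) (n * z.1)
    have g2 := abs_sub_le ((py.2 : ℝ) - p0.2) (((y n).2 : ℝ)) (n * z.2)
    have g3 : |(py.1 : ℝ) - p0.1 - (y n).1| ≤ |((y n).1 : ℝ) - py.1| + |(p0.1 : ℝ)| := by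
      rw [abs_sub_comm ((y n).1 : ℝ) py.1, sub_right_comm]
      exact abs_sub _ _
    have g4 : |(py.2 : ℝ) - p0.2 - (y n).2| ≤ |((y n).2 : ℝ) - py.2| + |(p0.2 : ℝ)| := by
      rw [abs_sub_comm ((y n).2 : ℝ) py.2, sub_right_comm]
      exact abs_sub _ _
    linarith
  rw [hμ.homog _ hn0.le] at k1 k2
  rw [abs_sub_comm ((n : ℝ) • z).1, abs_sub_comm ((n : ℝ) • z).2] at k2
  have k4 : m * (|(V4.toR (py - p0)).1 - ((n : ℝ) • z).1| + |(V4.toR (py - p0)).2 - ((n : ℝ) • z).2|) ≤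
      ε / 4 * n := by
    refine (mul_le_mul_of_nonneg_left k3 hm.le).trans ?_
    rw [← mul_assoc]
    exact mul_le_mul_of_nonneg_right hmδ hn0.le
  rw [Real.dist_eq, div_sub' hn0.ne', abs_div, abs_of_pos hn0, div_lt_iff₀ hn0]
  rw [abs_lt] at q1 ⊢
  rw [hηA] at lo hi
  have : 0 < ε / 4 * n := by positivity
  constructor <;> linarith

/-- The mean is at least the time constant. -/
theorem le_hubMean {μ : ℝ × ℝ → ℝ} {C₀ : ℝ} (hμ : V4.IsLatticeNorm μ)
    (hshape : ∀ ε > 0, Tendsto (fun r : ℕ => V4.law G {ω | ¬ HShape μ b C₀ ε r ω (0, 0)}) atTop (𝓝 0))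
    (hsq : ∀ u v : Pt, MemLp (hubTime b u v) 2 (V4.law G)) (hvar : SmallVarH G b) (z : Pt) :
    μ (V4.rvec z) ≤ hubMean G b z := by
  have hlim : ∀ k : ℤ, Tendsto (fun n : ℕ => (((n : ℤ) * k : ℤ) : ℝ) / n) atTop (𝓝 (k : ℝ)) := fun k => by
    refine tendsto_const_nhds.congr' ?_
    filter_upwards [eventually_gt_atTop 0] with n hn
    push_cast
    field_simp
  refine le_of_tendsto (tendsto_hubMean hG hb0 hb hμ hshape hsq hvar (V4.rvec z)
    (fun n => n • z) ?_ ?_) ?_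
  · refine (hlim z.1).congr fun n => ?_
    simp
  · refine (hlim z.2).congr fun n => ?_
    simp
  · filter_upwards [eventually_gt_atTop 0] with n hn
    have h := (isPivot_planeHub hG hb0 hb).integral_hopTime_nsmul_le hG z n
    rw [div_le_iff₀ (by exact_mod_cast hn), mul_comm]
    exact h

end Vale.Agent.P158.Any
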