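import Mathlib
import Vale.Agent.P158.Facet.Pair
import Vale.Agent.P158.V4.Norm
import Vale.Agent.P158.V4.Faces

/-!
P158 facets: for a lattice norm, the absence of pairs of corners on a flat piece is `NoFacet`.
-/

namespace Vale.Agent.P158.Any

open Vale.Agent.P158.V4 Vale.Agent.P158.Facet

variable {μ : ℝ × ℝ → ℝ} (h : IsLatticeNorm μ)
include h

/-- Without pairs of corners on a flat piece there is no facet between kinks. -/
theorem noFacet_of_no_pair (hp : Pair μ → False) : NoFacet μ := by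
  rintro v w ρ hind hv hw ⟨α, β, hα, hβ, hαβ⟩ ⟨α', β', hα', hβ', hαβ'⟩
  have hv0 : v ≠ 0 := by rintro rfl; simp at hind
  have hw0 : w ≠ 0 := by rintro rfl; simp at hind
  have pv := h.pos_of_ne hv0
  have pw := h.pos_of_ne hw0
  obtain ⟨F, hF⟩ := exists_frame h.homog pv hα hβ hαβ
  obtain ⟨F', hF'⟩ := exists_frame h.homog pw hα' hβ' hαβ'
  have hdot : dot ρ F.v = 1 ∧ dot ρ F'.v = 1 := by
    rw [hF, hF', dot_smul, dot_smul, show dot ρ v = μ v from hv.2, show dot ρ w = μ w from hw.2]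
    exact ⟨inv_mul_cancel₀ pv.ne', inv_mul_cancel₀ pw.ne'⟩
  have hsum : μ (F.v + F'.v) = 2 := by
    refine le_antisymm ((h.tri _ _).trans_eq (by rw [F.μv, F'.μv]; norm_num)) ?_
    refine le_trans (le_of_eq ?_) (hv.1 (F.v + F'.v))
    change 2 = dot ρ (F.v + F'.v)
    rw [dot_add, hdot.1, hdot.2]
    norm_num
  refine hp ⟨F, F', hsum, ?_⟩
  rw [hF, hF']
  simp only [Prod.smul_fst, Prod.smul_snd, smul_eq_mul]
  rw [show (μ v)⁻¹ * v.1 * ((μ w)⁻¹ * w.2) - (μ v)⁻¹ * v.2 * ((μ w)⁻¹ * w.1) =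
    (μ v)⁻¹ * (μ w)⁻¹ * (v.1 * w.2 - v.2 * w.1) by ring]
  exact mul_ne_zero (mul_ne_zero (inv_ne_zero pv.ne') (inv_ne_zero pw.ne')) (sub_ne_zero.2 hind)

end Vale.Agent.P158.Any
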