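import Vale.Agent.P158.Any.Law
import Vale.Agent.P158.Any.ShapeDefs
import Vale.Agent.P158.Any.AnimalProb

/-!
P158, arbitrary laws (note 1452, U4): the bad events behind `HShape` become unlikely at large scales.
-/

namespace Vale.Agent.P158.Any

open MeasureTheory Filter Topology

variable (G : Measure ℝ) [IsProbabilityMeasure G]

/-- A union over a tail of events with summable probabilities is unlikely. -/
theorem tendsto_tail {B : ℕ → Set Cfg} {f : ℕ → ℝ} (hf : Summable f) (K : ℕ)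
    (h : ∀ k, K ≤ k → (V4.law G).real (B k) ≤ f k) :
    Tendsto (fun r : ℕ => V4.law G {ω | ∃ k, r ≤ k ∧ ω ∈ B k}) atTop (𝓝 0) := by
  set g : ℕ → ENNReal := fun k => ENNReal.ofReal |f k|
  have hg : ∑' k, g k ≠ ⊤ := by
    rw [← ENNReal.ofReal_tsum_of_nonneg (fun k => abs_nonneg _) hf.abs]
    exact ENNReal.ofReal_ne_top
  refine tendsto_of_tendsto_of_tendsto_of_le_of_le' tendsto_const_nhds
    (ENNReal.tendsto_sum_nat_add g hg) (Eventually.of_forall fun _ => zero_le) ?_
  filter_upwards [eventually_ge_atTop K] with r hr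
  calc V4.law G {ω | ∃ k, r ≤ k ∧ ω ∈ B k} ≤ V4.law G (⋃ j : ℕ, B (j + r)) := by
        refine measure_mono fun ω hω => ?_
        obtain ⟨k, hk, hB⟩ := hω
        exact Set.mem_iUnion.2 ⟨k - r, by rwa [Nat.sub_add_cancel hk]⟩
    _ ≤ ∑' j : ℕ, V4.law G (B (j + r)) := measure_iUnion_le _
    _ ≤ ∑' j : ℕ, g (j + r) := by
        refine ENNReal.tsum_le_tsum fun j => ?_
        rw [← ofReal_measureReal]
        exact ENNReal.ofReal_le_ofReal ((h _ (by omega)).trans (le_abs_self _))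

theorem summable_poly_geometric (d : ℕ) {q : ℝ} (hq : 0 ≤ q) (hq1 : q < 1) :
    Summable fun k : ℕ => ((k : ℝ) + 1) ^ d * q ^ k := by
  rcases hq.eq_or_lt with rfl | hq0
  · exact summable_of_ne_finset_zero (s := {0}) fun k hk => by
      simp [zero_pow (by simpa using hk : k ≠ 0)]
  have h := (summable_nat_add_iff 1).2
    (summable_pow_mul_geometric_of_norm_lt_one d (r := q) (by rwa [Real.norm_eq_abs, abs_of_pos hq0]))
  refine (h.div_const q).congr fun k => ?_
  rw [pow_succ]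
  push_cast
  field_simp

/-- A polynomial times a power with exponent linear in the scale is summable. -/
theorem summable_poly_floor (d : ℕ) {a : ℝ} (ha : 0 < a) :
    Summable fun k : ℕ => ((k : ℝ) + 1) ^ d * (1 / 2 : ℝ) ^ ⌊a * k⌋₊ := by
  set q : ℝ := Real.exp (-(a * Real.log 2))
  have hl : 0 < Real.log 2 := Real.log_pos one_lt_two
  refine Summable.of_nonneg_of_le (fun k => by positivity) (fun k => ?_)
    ((summable_poly_geometric d (q := q) (Real.exp_pos _).le
      (Real.exp_lt_one_iff.2 (by nlinarith))).mul_left 2)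
  have h1 : (1 / 2 : ℝ) ^ ⌊a * k⌋₊ ≤ 2 * q ^ k := by
    have e : (1 / 2 : ℝ) ^ ⌊a * k⌋₊ = Real.exp (-((⌊a * k⌋₊ : ℝ) * Real.log 2)) := by
      rw [Real.exp_neg, Real.exp_nat_mul, Real.exp_log two_pos, one_div, inv_pow]
    rw [e, ← Real.exp_nat_mul,
      show 2 * Real.exp ((k : ℝ) * -(a * Real.log 2)) = Real.exp (Real.log 2 + (k : ℝ) * -(a * Real.log 2)) by
        rw [Real.exp_add, Real.exp_log two_pos]]
    refine Real.exp_le_exp.2 ?_
    nlinarith [Nat.lt_floor_add_one (a * (k : ℝ))]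
  calc ((k : ℝ) + 1) ^ d * (1 / 2 : ℝ) ^ ⌊a * k⌋₊ ≤ ((k : ℝ) + 1) ^ d * (2 * q ^ k) :=
        mul_le_mul_of_nonneg_left h1 (by positivity)
    _ = _ := by ring

theorem card_square_le (k : ℕ) (u : Pt) : ((square k u).card : ℝ) ≤ 4 * ((k : ℝ) + 1) ^ 2 := by
  rw [card_square]
  push_cast
  nlinarith [(Nat.cast_nonneg k : (0 : ℝ) ≤ k)]

theorem RayOK.mono {b : ℝ} {ω : Cfg} {p : Pt} {N N' : ℕ} (h : RayOK b ω p N) (hN : N ≤ N') :
    RayOK b ω p N' := fun k U h1 h2 h3 => (h k U h1 h2 h3).trans hN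

theorem NoAnimals.mono {b : ℝ} {ω : Cfg} {roots : Finset Pt} {M M' : ℕ}
    (h : NoAnimals b ω roots M) (hM : M ≤ M') : NoAnimals b ω roots M' :=
  fun U h1 h2 => (h U h1 h2).trans hM

/-- A site of the square whose ray is not OK. -/
def TameFail (b a : ℝ) (k : ℕ) (u : Pt) : Set Cfg :=
  {ω | ∃ p ∈ square k u, ¬ RayOK b ω p ⌊a * k⌋₊}

theorem tendsto_tameFail {b a : ℝ} (hb : rate G b ≤ 1 / 2) (ha : 0 < a) (u : Pt) :
    Tendsto (fun r : ℕ => V4.law G {ω | ∃ k, r ≤ k ∧ ω ∈ TameFail b a k u}) atTop (𝓝 0) := by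
  refine tendsto_tail G ((summable_poly_floor 3 ha).mul_left (16 * (a + 2))) 0 fun k _ => ?_
  set N := ⌊a * k⌋₊
  have hN : (N : ℝ) ≤ a * k := Nat.floor_le (by positivity)
  calc (V4.law G).real (TameFail b a k u)
      ≤ (V4.law G).real (⋃ p ∈ square k u, {ω | ¬ RayOK b ω p N}) :=
        measureReal_mono (fun ω hω => by
          obtain ⟨p, hp, h⟩ := hω
          exact Set.mem_biUnion hp h) (measure_ne_top _ _)
    _ ≤ ∑ p ∈ square k u, (V4.law G).real {ω | ¬ RayOK b ω p N} := measureReal_biUnion_finset_le _ _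
    _ ≤ ∑ _p ∈ square k u, 4 * ((a + 2) * ((k : ℝ) + 1)) * (1 / 2) ^ N := by
        refine Finset.sum_le_sum fun p _ => (prob_not_rayOK_le G hb p N).trans ?_
        have h1 : rate G b ^ (N + 1) ≤ (1 / 2 : ℝ) ^ N :=
          (pow_le_pow_left₀ (rate_nonneg G b) hb _).trans
            (pow_le_pow_of_le_one (by norm_num) (by norm_num) N.le_succ)
        have h2 : (N : ℝ) + 2 ≤ (a + 2) * ((k : ℝ) + 1) := by nlinarith
        exact mul_le_mul (by linarith) h1 (pow_nonneg (rate_nonneg G b) _) (by positivity)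
    _ ≤ 4 * ((k : ℝ) + 1) ^ 2 * (4 * ((a + 2) * ((k : ℝ) + 1)) * (1 / 2) ^ N) := by
        rw [Finset.sum_const, nsmul_eq_mul]
        exact mul_le_mul_of_nonneg_right (card_square_le k u) (by positivity)
    _ = _ := by ring

/-- The sites of the rectangle walk between two sites. -/
noncomputable def segRoots (p q : Pt) : Finset Pt := (V4.exists_box_walk p q).choose.support.toFinset

theorem card_segRoots_le (p q : Pt) : (segRoots p q).card ≤ V4.l1 p q + 1 := by
  refine (List.toFinset_card_le _).trans ?_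
  rw [SimpleGraph.Walk.length_support, (V4.exists_box_walk p q).choose_spec.1]

/-- Two sites of the square with a large animal grown from the walk between them. -/
def SegFail (b a : ℝ) (k : ℕ) (u : Pt) : Set Cfg :=
  {ω | ∃ p ∈ square k u, ∃ q ∈ square k u,
    ¬ NoAnimals b ω (segRoots p q) (V4.l1 p q + 1 + ⌊a * k⌋₊)}

theorem tendsto_segFail {b a : ℝ} (hb : rate G b ≤ 1 / 2) (ha : 0 < a) (u : Pt) :
    Tendsto (fun r : ℕ => V4.law G {ω | ∃ k, r ≤ k ∧ ω ∈ SegFail b a k u}) atTop (𝓝 0) := by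
  refine tendsto_tail G ((summable_poly_floor 4 ha).mul_left 16) 0 fun k _ => ?_
  set N := ⌊a * k⌋₊
  set P : Finset (Pt × Pt) := square k u ×ˢ square k u
  calc (V4.law G).real (SegFail b a k u)
      ≤ (V4.law G).real (⋃ x ∈ P,
          {ω | ¬ NoAnimals b ω (segRoots x.1 x.2) (V4.l1 x.1 x.2 + 1 + N)}) :=
        measureReal_mono (fun ω hω => by
          obtain ⟨p, hp, q, hq, h⟩ := hω
          exact Set.mem_biUnion (x := (p, q)) (Finset.mem_product.2 ⟨hp, hq⟩) h) (measure_ne_top _ _)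
    _ ≤ ∑ x ∈ P, (V4.law G).real {ω | ¬ NoAnimals b ω (segRoots x.1 x.2) (V4.l1 x.1 x.2 + 1 + N)} :=
        measureReal_biUnion_finset_le _ _
    _ ≤ ∑ _x ∈ P, (1 / 2 : ℝ) ^ N := by
        refine Finset.sum_le_sum fun x _ => (prob_not_noAnimals_le G hb _ _).trans ?_
        refine (mul_le_mul (pow_le_pow_right₀ one_le_two (card_segRoots_le x.1 x.2))
          (pow_le_pow_left₀ (rate_nonneg G b) hb _) (pow_nonneg (rate_nonneg G b) _)
          (by positivity)).trans ?_
        calc (2 : ℝ) ^ (V4.l1 x.1 x.2 + 1) * (1 / 2) ^ (V4.l1 x.1 x.2 + 1 + N + 1)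
            = ((2 : ℝ) * (1 / 2)) ^ (V4.l1 x.1 x.2 + 1) * (1 / 2) ^ (N + 1) := by
              rw [show V4.l1 x.1 x.2 + 1 + N + 1 = (V4.l1 x.1 x.2 + 1) + (N + 1) by omega, pow_add,
                mul_pow]
              ring
          _ ≤ _ := by
              norm_num
              exact pow_le_pow_of_le_one (by norm_num) (by norm_num) N.le_succ
    _ ≤ (4 * ((k : ℝ) + 1) ^ 2) * (4 * ((k : ℝ) + 1) ^ 2) * (1 / 2) ^ N := by
        rw [Finset.sum_const, nsmul_eq_mul]
        refine mul_le_mul_of_nonneg_right ?_ (by positivity)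
        simp only [P, Finset.card_product, Nat.cast_mul]
        exact mul_le_mul (card_square_le k u) (card_square_le k u) (Nat.cast_nonneg _) (by positivity)
    _ = _ := by ring

/-- A cheap long path starting in the square, for the weights capped at `1`. -/
def CheapFail (c : ℝ) (A k : ℕ) (u : Pt) : Set Cfg :=
  {ω | ∃ p ∈ square k u, (fun e => min (ω e) 1) ∈ V4.Cheap p (A * k) c}

theorem exists_cheapFail_small (hG : ∀ᵐ t ∂G, 0 < t) :
    ∃ c > 0, ∀ A : ℕ, 0 < A → ∀ u : Pt,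
      Tendsto (fun r : ℕ => V4.law G {ω | ∃ k, r ≤ k ∧ ω ∈ CheapFail c A k u}) atTop (𝓝 0) := by
  set H := G.map fun t => min t 1
  have hm : Measurable fun t : ℝ => min t 1 := measurable_id.min measurable_const
  have : IsProbabilityMeasure H := Measure.isProbabilityMeasure_map hm.aemeasurable
  have hH : ∀ᵐ t ∂H, 0 < t := by
    rw [ae_map_iff hm.aemeasurable (measurableSet_Ioi : MeasurableSet {t : ℝ | 0 < t})]
    exact hG.mono fun t ht => lt_min ht one_pos
  obtain ⟨c, hc, hrate⟩ := V4.exists_cheap_rate H hH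
  refine ⟨c, hc, fun A hA u => tendsto_tail G
    ((summable_poly_geometric 2 (q := 1 / 4) (by norm_num) (by norm_num)).mul_left 8) 0 fun k _ => ?_⟩
  set T : Cfg → Cfg := fun ω e => min (ω e) 1
  have hT : Measurable T := measurable_pi_iff.2 fun e => hm.comp (measurable_pi_apply e)
  have hmap : (V4.law G).map T = V4.law H := by
    refine Measure.eq_infinitePi _ fun s t ht => ?_
    rw [Measure.map_apply hT (MeasurableSet.pi s.countable_toSet fun i _ => ht i)]
    have : T ⁻¹' Set.pi (s : Set (Sym2 Pt)) t = Set.pi (s : Set (Sym2 Pt)) fun i => (fun x => min x 1) ⁻¹' t i := by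
      ext ω; simp [T]
    rw [this, V4.law, Measure.infinitePi_pi _ fun i _ => hm (ht i)]
    exact Finset.prod_congr rfl fun i _ => (Measure.map_apply hm (ht i)).symm
  have hone : ∀ p : Pt, (V4.law G).real (T ⁻¹' V4.Cheap p (A * k) c) ≤ 2 * (1 / 4) ^ k := fun p => by
    refine ENNReal.toReal_le_of_le_ofReal (by positivity)
      ((Measure.le_map_apply hT.aemeasurable _).trans ?_)
    rw [hmap]
    refine (hrate p (A * k)).trans (ENNReal.ofReal_le_ofReal ?_)
    exact mul_le_mul_of_nonneg_left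
      (pow_le_pow_of_le_one (by norm_num) (by norm_num) (Nat.le_mul_of_pos_left k hA)) two_pos.le
  calc (V4.law G).real (CheapFail c A k u)
      ≤ (V4.law G).real (⋃ p ∈ square k u, T ⁻¹' V4.Cheap p (A * k) c) :=
        measureReal_mono (fun ω hω => by
          obtain ⟨p, hp, h⟩ := hω
          exact Set.mem_biUnion hp h) (measure_ne_top _ _)
    _ ≤ ∑ p ∈ square k u, (V4.law G).real (T ⁻¹' V4.Cheap p (A * k) c) :=
        measureReal_biUnion_finset_le _ _
    _ ≤ ∑ _p ∈ square k u, 2 * (1 / 4 : ℝ) ^ k := Finset.sum_le_sum fun p _ => hone p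
    _ ≤ 4 * ((k : ℝ) + 1) ^ 2 * (2 * (1 / 4) ^ k) := by
        rw [Finset.sum_const, nsmul_eq_mul]
        exact mul_le_mul_of_nonneg_right (card_square_le k u) (by positivity)
    _ = _ := by ring

/-- The path event of U2 over the tail of scales. -/
theorem exists_pathFail_tail {b : ℝ} (hb : rate G b ≤ 1 / 2) (A : ℕ) {η : ℝ} (hη : 0 < η) :
    ∃ t₁ : ℝ, b ≤ t₁ ∧ 0 < t₁ ∧ ∀ t, t₁ ≤ t → ∀ u : Pt, Tendsto (fun r : ℕ => V4.law G
      {ω | ∃ k, r ≤ k ∧ ω ∈ PathFail b t ((A : ℝ) * k) ⌊η * k⌋₊ u}) atTop (𝓝 0) := by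
  obtain ⟨t₁, h1, h2, h⟩ := exists_pathFail_small G hb A hη
  refine ⟨t₁, h1, h2, fun t ht u => ?_⟩
  obtain ⟨c, hc, R₀, hR⟩ := h t ht
  refine tendsto_tail G (f := fun k : ℕ => Real.exp (-(c * k))) ?_ R₀ fun k hk =>
    hR k hk u _ (Nat.lt_floor_add_one _).le
  refine (summable_geometric_of_lt_one (Real.exp_pos (-c)).le (Real.exp_lt_one_iff.2 (by linarith))).congr
    fun k => ?_
  rw [← Real.exp_nat_mul]
  congr 1
  ring

/-- Some of three regions has no hub cheaply reached from `u` within `x`. -/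
def SelfFail (b x : ℝ) (u : Pt) : Set Cfg :=
  {ω | ∃ S, RegAt u S ∧ ∀ d, Hub b ω S d → x < (V4.l1 u d : ℝ) ∨ x < V4.ttIn S ω u d}

theorem tendsto_selfFail {b ε : ℝ} (hb : rate G b ≤ 1 / 2) (hε : 0 < ε) (u : Pt) :
    Tendsto (fun r : ℕ => V4.law G (SelfFail b (ε * r) u)) atTop (𝓝 0) := by
  have hN : Tendsto (fun N : ℕ => V4.law G {ω | ¬ RayOK b ω u N}) atTop (𝓝 0) := by
    have hs := (summable_poly_geometric 1 (q := 1 / 2) (by norm_num) (by norm_num)).mul_left 8
    refine tendsto_of_tendsto_of_tendsto_of_le_of_le tendsto_const_nhds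
      (by
      have := ENNReal.tendsto_ofReal hs.tendsto_atTop_zero
      rwa [ENNReal.ofReal_zero] at this) (fun _ => zero_le) fun N => ?_
    rw [← ofReal_measureReal]
    refine ENNReal.ofReal_le_ofReal ((prob_not_rayOK_le G hb u N).trans ?_)
    rw [pow_one, ← mul_assoc]
    refine mul_le_mul (by linarith [(Nat.cast_nonneg N : (0 : ℝ) ≤ N)]) ?_
      (pow_nonneg (rate_nonneg G b) _) (by positivity)
    exact (pow_le_pow_left₀ (rate_nonneg G b) hb _).trans
      (pow_le_pow_of_le_one (by norm_num) (by norm_num) N.le_succ)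
  rw [ENNReal.tendsto_nhds_zero] at hN ⊢
  intro δ hδ
  obtain ⟨N, hNδ⟩ := (hN (δ / 2) (ENNReal.half_pos hδ.ne')).exists
  set X : ℕ → Set Cfg := fun r => ⋃ k ∈ Finset.range (N + 2),
    ({ω | ε * r < V4.ttIn Set.univ ω u (u.1 + (k : ℤ), u.2)} ∪
      ({ω | ε * r < V4.ttIn (V4.upper u.2) ω u (u.1 + (k : ℤ), u.2)} ∪
      ({ω | ε * r < V4.ttIn (V4.lower u.2) ω u (u.1 + (k : ℤ), u.2)} ∪ {_ω | ε * r < (k : ℝ)})))
  have hXm : ∀ r, MeasurableSet (X r) := fun r => Finset.measurableSet_biUnion _ fun k _ =>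
    (measurableSet_lt measurable_const (V4.measurable_ttIn _ _ _)).union
      ((measurableSet_lt measurable_const (V4.measurable_ttIn _ _ _)).union
        ((measurableSet_lt measurable_const (V4.measurable_ttIn _ _ _)).union (MeasurableSet.const _)))
  have hXa : Antitone X := fun r r' h ω hω => by
    have h' : ε * r ≤ ε * r' := mul_le_mul_of_nonneg_left (Nat.cast_le.2 h) hε.le
    simp only [X, Set.mem_iUnion, Set.mem_union, Set.mem_ofPred_eq] at hω ⊢
    obtain ⟨k, hk, hω⟩ := hω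
    exact ⟨k, hk, hω.imp h'.trans_lt (Or.imp h'.trans_lt (Or.imp h'.trans_lt h'.trans_lt))⟩
  have hX0 : ⋂ r, X r = ∅ := by
    refine Set.eq_empty_of_forall_notMem fun ω hω => ?_
    obtain ⟨r, hr⟩ := exists_nat_gt ((∑ k ∈ Finset.range (N + 2),
      (|V4.ttIn Set.univ ω u (u.1 + (k : ℤ), u.2)| + |V4.ttIn (V4.upper u.2) ω u (u.1 + (k : ℤ), u.2)| +
        |V4.ttIn (V4.lower u.2) ω u (u.1 + (k : ℤ), u.2)| + (k : ℝ))) / ε)
    rw [div_lt_iff₀ hε, mul_comm (r : ℝ)] at hr
    have := Set.mem_iInter.1 hω r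
    simp only [X, Set.mem_iUnion, Set.mem_union, Set.mem_ofPred_eq] at this
    obtain ⟨k, hk, hω⟩ := this
    have hle := Finset.single_le_sum (f := fun k : ℕ =>
      |V4.ttIn Set.univ ω u (u.1 + (k : ℤ), u.2)| + |V4.ttIn (V4.upper u.2) ω u (u.1 + (k : ℤ), u.2)| +
        |V4.ttIn (V4.lower u.2) ω u (u.1 + (k : ℤ), u.2)| + (k : ℝ)) (fun k _ => by positivity) hk
    have k0 : (0 : ℝ) ≤ k := Nat.cast_nonneg k
    have := abs_nonneg (V4.ttIn Set.univ ω u (u.1 + (k : ℤ), u.2))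
    have := abs_nonneg (V4.ttIn (V4.upper u.2) ω u (u.1 + (k : ℤ), u.2))
    have := abs_nonneg (V4.ttIn (V4.lower u.2) ω u (u.1 + (k : ℤ), u.2))
    have := le_abs_self (V4.ttIn Set.univ ω u (u.1 + (k : ℤ), u.2))
    have := le_abs_self (V4.ttIn (V4.upper u.2) ω u (u.1 + (k : ℤ), u.2))
    have := le_abs_self (V4.ttIn (V4.lower u.2) ω u (u.1 + (k : ℤ), u.2))
    rcases hω with h | h | h | h <;> linarith
  have hXt := tendsto_measure_iInter_atTop (μ := V4.law G) (fun r => (hXm r).nullMeasurableSet) hXa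
    ⟨0, measure_ne_top _ _⟩
  rw [hX0, measure_empty, ENNReal.tendsto_nhds_zero] at hXt
  filter_upwards [hXt (δ / 2) (ENNReal.half_pos hδ.ne')] with r hr
  refine (measure_mono (t := {ω | ¬ RayOK b ω u N} ∪ X r) fun ω hω => ?_).trans
    ((measure_union_le _ _).trans ((add_le_add hNδ hr).trans_eq (ENNReal.add_halves δ)))
  obtain ⟨S, hS, hfail⟩ := hω
  by_cases hray : RayOK b ω u N
  · refine Or.inr ?_
    obtain ⟨k, hk, hhub⟩ := exists_hub_right hS.reg hS.mem hray
    simp only [X, Set.mem_iUnion, Set.mem_union, Set.mem_ofPred_eq, Finset.mem_range]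
    refine ⟨k, by omega, ?_⟩
    rcases hfail _ hhub with h | h
    · exact Or.inr (Or.inr (Or.inr (h.trans_le (le_of_eq (by simp [V4.l1])))))
    · rcases hS with rfl | rfl | rfl
      exacts [Or.inl h, Or.inr (Or.inl h), Or.inr (Or.inr (Or.inl h))]
  · exact Or.inl hray

end Vale.Agent.P158.Any
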