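import Mathlib
import Vale.Agent.P158.Any.AnimalProb
import Vale.Agent.P158.V4.StripTime

/-!
P158, arbitrary laws (note 1453, U9, variance): a finite core with the bad sites grown from it, the
boundary of what it encloses, and detours along that boundary.
-/

namespace Vale.Agent.P158.Any

open SimpleGraph

variable {b : ℝ} {ω : Cfg} {K : Finset Pt} {M : ℕ}

/-- The sites next to the core by a king's move. -/
noncomputable def rim (K : Finset Pt) : Finset Pt := starHood K \ K

theorem mem_rim {z : Pt} : z ∈ rim K ↔ (∃ k ∈ K, Star k z) ∧ z ∉ K := by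
  rw [rim, Finset.mem_sdiff, mem_starHood]

/-- At most `M` bad sites outside the core grow from its rim. -/
def NoGrow (b : ℝ) (ω : Cfg) (K : Finset Pt) (M : ℕ) : Prop :=
  ∀ U : Finset Pt, Rooted U (rim K) → (∀ z ∈ U, z ∉ K ∧ Bad b ω z) → U.card ≤ M

theorem NoGrow.mono {M' : ℕ} (h : NoGrow b ω K M) (hM : M ≤ M') : NoGrow b ω K M' :=
  fun U h1 h2 => (h U h1 h2).trans hM

theorem measurableSet_noGrow (b : ℝ) (K : Finset Pt) (M : ℕ) :
    MeasurableSet {ω : Cfg | NoGrow b ω K M} := by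
  have hb : ∀ z : Pt, MeasurableSet {ω : Cfg | Bad b ω z} := fun z => by
    simp only [Bad, Set.ofPred_exists]
    exact MeasurableSet.iUnion fun w => (MeasurableSet.const _).inter
      (measurableSet_lt measurable_const (measurable_pi_apply _))
  have : {ω : Cfg | NoGrow b ω K M} = ⋂ U : Finset Pt,
      {ω : Cfg | Rooted U (rim K) → (∀ z ∈ U, z ∉ K ∧ Bad b ω z) → U.card ≤ M} := by
    ext ω; simp [NoGrow]
  rw [this]
  refine MeasurableSet.iInter fun U => ?_
  by_cases hU : U.card ≤ M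
  · simp [hU]
  by_cases hr : Rooted U (rim K)
  · have : {ω : Cfg | Rooted U (rim K) → (∀ z ∈ U, z ∉ K ∧ Bad b ω z) → U.card ≤ M} =
        (⋂ z ∈ U, {ω : Cfg | z ∉ K} ∩ {ω : Cfg | Bad b ω z})ᶜ := by
      ext ω; simp [hr, hU]
    rw [this]
    exact (Finset.measurableSet_biInter U fun z _ => (MeasurableSet.const _).inter (hb z)).compl
  · simp [hr]

/-- A grown core: the core with all bad sites reachable from it. -/
structure IsGrown (b : ℝ) (ω : Cfg) (K : Finset Pt) (M : ℕ) (C : Finset Pt) : Prop where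
  sup : K ⊆ C
  conn : StarConn C
  closed : ∀ c ∈ C, ∀ y, y ∉ K → Bad b ω y → Star c y → y ∈ C
  card : (C \ K).card ≤ M
  rooted : Rooted (C \ K) (rim K)

theorem exists_grown (hK : StarConn K) (h : NoGrow b ω K M) : ∃ C, IsGrown b ω K M C := by
  classical
  set P : ℕ → Prop := fun n => ∃ U : Finset Pt, Rooted U (rim K) ∧
    (∀ z ∈ U, z ∉ K ∧ Bad b ω z) ∧ U.card = n
  have h0 : P 0 := ⟨∅, fun y hy => by simp at hy, by simp, rfl⟩
  have hPM : ∀ n, P n → n ≤ M := fun n ⟨U, h1, h2, h3⟩ => h3 ▸ h U h1 h2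
  obtain ⟨U, hr, hU, hn⟩ := Nat.findGreatest_spec (P := P) (hPM 0 h0) h0
  have hdis : (K ∪ U) \ K = U := by
    ext z
    simp only [Finset.mem_sdiff, Finset.mem_union]
    exact ⟨fun hz => hz.1.resolve_left hz.2, fun hz => ⟨Or.inr hz, (hU z hz).1⟩⟩
  refine ⟨K ∪ U, Finset.subset_union_left, ?_, fun c hc y hyK hy hcy => ?_, ?_, by rwa [hdis]⟩
  · have key : ∀ a ∈ K ∪ U, ∀ k ∈ K, Relation.ReflTransGen
        (fun x y => x ∈ K ∪ U ∧ y ∈ K ∪ U ∧ Star x y) a k := by
      intro a ha k hk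
      rcases Finset.mem_union.1 ha with ha | ha
      · exact starConn_mono Finset.subset_union_left (hK a ha k hk)
      · obtain ⟨r, hr', hrU, hreach⟩ := hr a ha
        obtain ⟨⟨k', hk', hs⟩, -⟩ := mem_rim.1 hr'
        exact ((reach_symm (starConn_mono Finset.subset_union_right hreach)).tail
          ⟨Finset.mem_union_right _ hrU, Finset.mem_union_left _ hk', hs.symm⟩).trans
          (starConn_mono Finset.subset_union_left (hK k' hk' k hk))
    intro a ha c hc
    by_cases hKe : K.Nonempty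
    · obtain ⟨k, hk⟩ := hKe
      exact (key a ha k hk).trans (reach_symm (key c hc k hk))
    · rw [Finset.not_nonempty_iff_eq_empty] at hKe
      subst hKe
      rcases Finset.mem_union.1 ha with ha | ha
      · simp at ha
      · obtain ⟨r, hr', -⟩ := hr a ha
        simp [rim, starHood] at hr'
  · by_contra hyC
    rw [Finset.mem_union, not_or] at hyC
    have hP : P (U.card + 1) := by
      refine ⟨insert y U, fun z hz => ?_, fun z hz => ?_, Finset.card_insert_of_notMem hyC.2⟩
      · rcases Finset.mem_insert.1 hz with rfl | hz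
        · rcases Finset.mem_union.1 hc with hc | hc
          · exact ⟨z, mem_rim.2 ⟨⟨c, hc, hcy⟩, hyK⟩, Finset.mem_insert_self _ _, .refl⟩
          · obtain ⟨r, hr', hrU, hreach⟩ := hr c hc
            exact ⟨r, hr', Finset.mem_insert_of_mem hrU, (starConn_mono (Finset.subset_insert _ _)
              hreach).tail ⟨Finset.mem_insert_of_mem hc, Finset.mem_insert_self _ _, hcy⟩⟩
        · obtain ⟨r, hr', hrU, hreach⟩ := hr z hz
          exact ⟨r, hr', Finset.mem_insert_of_mem hrU, starConn_mono (Finset.subset_insert _ _) hreach⟩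
      · rcases Finset.mem_insert.1 hz with rfl | hz
        exacts [⟨hyK, hy⟩, hU z hz]
    have := Nat.le_findGreatest (P := P) (hPM _ hP) hP
    omega
  · rw [hdis]
    exact h U hr hU

variable {C : Finset Pt}

theorem IsGrown.bdry_good (h : IsGrown b ω K M C) {d : Pt} (hd : Bdry Set.univ C d) :
    ¬ Bad b ω d := by
  obtain ⟨hout, c, hc, hs⟩ := hd
  exact fun hb => hout.mem.2 (h.closed c hc d (fun hK => hout.mem.2 (h.sup hK)) hb hs)

/-- The enclosed sites are near the core. -/
theorem IsGrown.near_core (h : IsGrown b ω K M C) {c : Pt} (hc : c ∈ C) :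
    ∃ k ∈ K, |c.1 - k.1| ≤ M + 1 ∧ |c.2 - k.2| ≤ M + 1 := by
  by_cases hK : c ∈ K
  · exact ⟨c, hK, by simp; positivity, by simp; positivity⟩
  obtain ⟨r, hr, hrU, hreach⟩ := h.rooted c (Finset.mem_sdiff.2 ⟨hc, hK⟩)
  obtain ⟨⟨k, hk, hs⟩, -⟩ := mem_rim.1 hr
  refine ⟨k, hk, ?_⟩
  have hcard : ((C \ K).card : ℤ) ≤ M := by exact_mod_cast h.card
  have h1 : Finset.Icc (min r.1 c.1) (max r.1 c.1) ⊆ (C \ K).image Prod.fst := fun x hx => by
    rw [Finset.mem_Icc] at hx
    obtain ⟨z, hz, hzx⟩ := exists_fst hreach hrU x hx.1 hx.2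
    exact Finset.mem_image.2 ⟨z, hz, hzx⟩
  have h2 : Finset.Icc (min r.2 c.2) (max r.2 c.2) ⊆ (C \ K).image Prod.snd := fun x hx => by
    rw [Finset.mem_Icc] at hx
    obtain ⟨z, hz, hzx⟩ := exists_snd hreach hrU x hx.1 hx.2
    exact Finset.mem_image.2 ⟨z, hz, hzx⟩
  have h1' := (Finset.card_le_card h1).trans Finset.card_image_le
  have h2' := (Finset.card_le_card h2).trans Finset.card_image_le
  rw [Int.card_Icc] at h1' h2'
  obtain ⟨s1, s2⟩ := hs
  simp only [abs_le] at s1 s2 ⊢
  omega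

theorem IsGrown.near_enclosed (h : IsGrown b ω K M C) {z : Pt} (hz : ¬ Out Set.univ C z) :
    (∃ k ∈ K, z.1 ≤ k.1 + (M + 1)) ∧ (∃ k ∈ K, k.1 ≤ z.1 + (M + 1)) ∧
      (∃ k ∈ K, z.2 ≤ k.2 + (M + 1)) ∧ ∃ k ∈ K, k.2 ≤ z.2 + (M + 1) := by
  obtain ⟨⟨a, ha, ha'⟩, ⟨a₂, ha₂, ha₂'⟩, ⟨a₃, ha₃, ha₃'⟩, ⟨a₄, ha₄, ha₄'⟩⟩ :=
    not_far_of_not_out (Set.mem_univ z) hz
  obtain ⟨k, hk, k1, -⟩ := h.near_core ha
  obtain ⟨k₂, hk₂, k2, -⟩ := h.near_core ha₂
  obtain ⟨k₃, hk₃, -, k3⟩ := h.near_core ha₃
  obtain ⟨k₄, hk₄, -, k4⟩ := h.near_core ha₄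
  simp only [abs_le] at k1 k2 k3 k4
  exact ⟨⟨k, hk, by omega⟩, ⟨k₂, hk₂, by omega⟩, ⟨k₃, hk₃, by omega⟩, ⟨k₄, hk₄, by omega⟩⟩

theorem IsGrown.bdry_mem (h : IsGrown b ω K M C) {d : Pt} (hd : Bdry Set.univ C d) :
    d ∈ rim K ∪ starHood (C \ K) := by
  obtain ⟨hout, c, hc, hs⟩ := hd
  by_cases hcK : c ∈ K
  · exact Finset.mem_union_left _ (mem_rim.2 ⟨⟨c, hcK, hs⟩, fun hK => hout.mem.2 (h.sup hK)⟩)
  · exact Finset.mem_union_right _ (mem_starHood.2 ⟨c, Finset.mem_sdiff.2 ⟨hc, hcK⟩, hs⟩)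

/-- Two boundary sites are joined along the boundary by a short light path. -/
theorem IsGrown.boundary_path (h : IsGrown b ω K M C) {a e : Pt} (ha : Bdry Set.univ C a)
    (he : Bdry Set.univ C e) :
    ∃ q : grid.Walk a e, q.length ≤ (rim K).card + 9 * M ∧ (∀ z ∈ q.support, Bdry Set.univ C z) ∧
      ∀ x ∈ q.edges, ω x ≤ b := by
  classical
  obtain ⟨q, hq⟩ := bdry_connected reg_univ h.conn (fun _ _ => trivial) ha he
  have hsup : ∀ z ∈ q.bypass.support, Bdry Set.univ C z := fun z hz =>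
    hq z (q.support_bypass_subset_support hz)
  refine ⟨q.bypass, ?_, hsup, fun x hx => ?_⟩
  · have h1 : q.bypass.support.toFinset ⊆ rim K ∪ starHood (C \ K) := fun z hz =>
      h.bdry_mem (hsup z (List.mem_toFinset.1 hz))
    have h2 := (Finset.card_le_card h1).trans ((Finset.card_union_le _ _).trans
      (add_le_add le_rfl ((card_starHood _).trans (Nat.mul_le_mul_left 9 h.card))))
    rw [List.toFinset_card_of_nodup q.bypass_isPath.support_nodup, Walk.length_support] at h2
    omega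
  · induction x using Sym2.ind with
    | _ u v =>
      exact edge_le_of_not_bad (q.bypass.adj_of_mem_edges hx)
        (h.bdry_good (hsup u (q.bypass.fst_mem_support_of_mem_edges hx)))

/-- A walk that meets an enclosed site and starts outside has a first part outside, to the boundary. -/
theorem exists_before {C : Finset Pt} {u s : Pt} (hu : Out Set.univ C u) (A : grid.Walk u s)
    (hs : ∃ z ∈ A.support, ¬ Out Set.univ C z) :
    ∃ (a : Pt) (w : grid.Walk u a), Bdry Set.univ C a ∧ (∀ z ∈ w.support, Out Set.univ C z) ∧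
      w.edges.Sublist A.edges := by
  obtain ⟨a, q, s', ha, r, hs', -, hq, -, -, he⟩ :=
    exists_entry (fun z => ¬ Out Set.univ C z) A (not_not.2 hu) hs
  have hao : Out Set.univ C a := not_not.1 (hq a q.end_mem_support)
  refine ⟨a, q, (mem_of_exit hs' trivial hao ha.symm).2, fun z hz => not_not.1 (hq z hz), ?_⟩
  rw [← he, Walk.edges_concat, List.concat_eq_append, List.append_assoc]
  exact List.sublist_append_left _ _

/-- The detour: around everything enclosed, between the first and the last visit. -/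
theorem IsGrown.detour (h : IsGrown b ω K M C) {u v s t : Pt} (hu : Out Set.univ C u)
    (hv : Out Set.univ C v) (A : grid.Walk u s) (B : grid.Walk t v)
    (hA : ∃ z ∈ A.support, ¬ Out Set.univ C z) (hB : ∃ z ∈ B.support, ¬ Out Set.univ C z) :
    ∃ W : grid.Walk u v, (∀ z ∈ W.support, Out Set.univ C z) ∧
      ∀ x : Cfg, (∀ e, 0 ≤ x e) → ∀ r : ℝ, 0 ≤ r → (∀ e ∈ W.edges, ω e ≤ b → x e ≤ r) →
        V4.wt x W ≤ V4.wt x A + V4.wt x B + r * ((rim K).card + 9 * M : ℕ) := by
  obtain ⟨a, w₁, hba, hw₁, hs₁⟩ := exists_before hu A hA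
  obtain ⟨e, w₂, hbe, hw₂, hs₂⟩ := exists_before hv B.reverse (by simpa using hB)
  obtain ⟨q, hlen, hq, hqe⟩ := h.boundary_path hba hbe
  refine ⟨(w₁.append q).append w₂.reverse, fun z hz => ?_, fun x h0 r hr hlow => ?_⟩
  · simp only [Walk.mem_support_append_iff, Walk.support_reverse, List.mem_reverse] at hz
    rcases hz with (hz | hz) | hz
    exacts [hw₁ z hz, (hq z hz).1, hw₂ z hz]
  · have h1 : V4.wt x w₁ ≤ V4.wt x A := (hs₁.map x).sum_le_sum fun z hz => by
      obtain ⟨f, -, rfl⟩ := List.mem_map.1 hz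
      exact h0 f
    have h2 : V4.wt x w₂ ≤ V4.wt x B := by
      rw [← V4.wt_reverse B]
      exact (hs₂.map x).sum_le_sum fun z hz => by
        obtain ⟨f, -, rfl⟩ := List.mem_map.1 hz
        exact h0 f
    have h3 : V4.wt x q ≤ r * ((rim K).card + 9 * M : ℕ) := by
      refine (List.sum_le_card_nsmul _ r fun z hz => ?_).trans ?_
      · obtain ⟨f, hf, rfl⟩ := List.mem_map.1 hz
        exact hlow f (by simp [Walk.edges_append, hf]) (hqe f hf)
      · rw [List.length_map, Walk.length_edges, nsmul_eq_mul, mul_comm]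
        exact mul_le_mul_of_nonneg_left (Nat.cast_le.2 hlen) hr
    rw [V4.wt_append, V4.wt_append, V4.wt_reverse]
    linarith

theorem starConn_pair {a c : Pt} (h : Star a c) : StarConn {a, c} := by
  intro x hx y hy
  simp only [Finset.mem_insert, Finset.mem_singleton] at hx hy
  rcases hx with rfl | rfl <;> rcases hy with rfl | rfl
  · exact .refl
  · exact .single ⟨by simp, by simp, h⟩
  · exact .single ⟨by simp, by simp, h.symm⟩
  · exact .refl

theorem card_rim_pair (a c : Pt) : (rim {a, c}).card ≤ 18 := by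
  refine (Finset.card_le_card (Finset.sdiff_subset)).trans ((card_starHood _).trans ?_)
  have := Finset.card_le_two (a := a) (b := c)
  omega

theorem card_rim_square (R : ℕ) (o : Pt) : (rim (square R o)).card ≤ 8 * R + 8 := by
  have hsub : rim (square R o) ⊆ square (R + 1) o \ square R o := fun z hz => by
    obtain ⟨⟨k, hk, hs⟩, hz⟩ := mem_rim.1 hz
    refine Finset.mem_sdiff.2 ⟨?_, hz⟩
    simp only [square, Finset.mem_product, Finset.mem_Icc] at hk ⊢
    simp only [Star, abs_le] at hs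
    omega
  refine (Finset.card_le_card hsub).trans ?_
  have hin : square R o ⊆ square (R + 1) o := fun z hz => by
    simp only [square, Finset.mem_product, Finset.mem_Icc] at hz ⊢
    omega
  rw [Finset.card_sdiff_of_subset hin, card_square, card_square]
  have : (2 * (R + 1) + 1) ^ 2 = (2 * R + 1) ^ 2 + (8 * R + 8) := by ring
  omega

theorem starConn_square (R : ℕ) (o : Pt) : StarConn (square R o) := by
  suffices h : ∀ a ∈ square R o, Relation.ReflTransGen
      (fun x y => x ∈ square R o ∧ y ∈ square R o ∧ Star x y) a o by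
    exact fun a ha c hc => (h a ha).trans (reach_symm (h c hc))
  intro a ha
  obtain ⟨w, -, hw⟩ := V4.exists_box_walk a o
  have hmem : ∀ z ∈ w.support, z ∈ square R o := fun z hz => by
    have := hw z hz
    simp only [square, Finset.mem_product, Finset.mem_Icc] at ha ⊢
    omega
  clear ha hw
  induction w with
  | nil => exact .refl
  | @cons x y z hadj w ih =>
    exact .head ⟨hmem x (by simp), hmem y (by simp), star_of_adj hadj⟩
      (ih fun t ht => hmem t (by simp [ht]))

end Vale.Agent.P158.Any
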