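import Mathlib
import Vale.Agent.P158.Any.VarCore
import Vale.Agent.P158.Any.ShapeEvents
import Vale.Agent.P158.Facet.VarPaths
import Vale.Agent.P158.V4.Split

/-!
P158, arbitrary laws (note 1453, U9, variance): passage times between two boxes, as passage times
between their centres with the edges inside the boxes free, and walks in a normal form.
-/

namespace Vale.Agent.P158.Any

open MeasureTheory SimpleGraph Vale.Agent.P158.Facet

/-- The edges inside one of the two boxes. -/
def ZEdge (ρ : ℕ) (u v : Pt) (e : Sym2 Pt) : Prop :=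
  (∀ z ∈ e, z ∈ square ρ u) ∨ ∀ z ∈ e, z ∈ square ρ v

open Classical in
/-- The weights with the boxes free. -/
noncomputable def zeroBox (ρ : ℕ) (u v : Pt) (ω : Cfg) : Cfg :=
  fun e => if ZEdge ρ u v e then 0 else ω e

/-- The passage time from box to box. -/
noncomputable def Xb (ρ : ℕ) (u v : Pt) (ω : Cfg) : ℝ := V4.tt (zeroBox ρ u v ω) u v

variable {ρ : ℕ} {u v : Pt} {ω x : Cfg} {b : ℝ}

theorem zeroBox_of_z {e : Sym2 Pt} (h : ZEdge ρ u v e) : zeroBox ρ u v ω e = 0 := if_pos h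

theorem zeroBox_of_not {e : Sym2 Pt} (h : ¬ ZEdge ρ u v e) : zeroBox ρ u v ω e = ω e := if_neg h

theorem zeroBox_nonneg (h0 : ∀ e, 0 ≤ ω e) (e : Sym2 Pt) : 0 ≤ zeroBox ρ u v ω e := by
  unfold zeroBox; split_ifs
  exacts [le_rfl, h0 e]

theorem zeroBox_le_self (h0 : ∀ e, 0 ≤ ω e) (e : Sym2 Pt) : zeroBox ρ u v ω e ≤ ω e := by
  unfold zeroBox; split_ifs
  exacts [h0 e, le_rfl]

theorem zeroBox_le (h0 : ∀ e, 0 ≤ ω e) (hb : ∀ e, ω e ≤ b) (e : Sym2 Pt) :
    zeroBox ρ u v ω e ≤ b :=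
  (zeroBox_le_self h0 e).trans (hb e)

theorem measurable_zeroBox (ρ : ℕ) (u v : Pt) : Measurable (zeroBox ρ u v) := by
  classical
  refine measurable_pi_iff.2 fun e => ?_
  by_cases h : ZEdge ρ u v e
  · simp only [zeroBox_of_z h]; exact measurable_const
  · simp only [zeroBox_of_not h]; exact measurable_pi_apply e

theorem zeroBox_update_z {e : Sym2 Pt} (h : ZEdge ρ u v e) (t : ℝ) :
    zeroBox ρ u v (Function.update ω e t) = zeroBox ρ u v ω := by
  funext f
  by_cases hf : ZEdge ρ u v f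
  · rw [zeroBox_of_z hf, zeroBox_of_z hf]
  · rw [zeroBox_of_not hf, zeroBox_of_not hf, Function.update_of_ne fun hfe => hf (by rw [hfe]; exact h)]

theorem zeroBox_update {e : Sym2 Pt} (h : ¬ ZEdge ρ u v e) (t : ℝ) :
    zeroBox ρ u v (Function.update ω e t) = Function.update (zeroBox ρ u v ω) e t := by
  funext f
  rcases eq_or_ne f e with rfl | hf
  · rw [zeroBox_of_not h, Function.update_self, Function.update_self]
  · rw [Function.update_of_ne hf]
    unfold zeroBox
    split_ifs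
    · rfl
    · rw [Function.update_of_ne hf]

theorem cheap_mono {a : Pt} {L : ℕ} {c : ℝ} (hle : ∀ e, ω e ≤ x e) (h : x ∈ V4.Cheap a L c) :
    ω ∈ V4.Cheap a L c := by
  simp only [V4.Cheap, Set.mem_iUnion, Set.mem_ofPred_eq] at h ⊢
  obtain ⟨k, f, hnd, hsum⟩ := h
  exact ⟨k, f, hnd, (List.sum_le_sum fun e _ => hle e).trans hsum⟩

/-- No cheap long path starts in the box of `u`. -/
def LongDear (c : ℝ) (L ρ : ℕ) (u : Pt) (ω : Cfg) : Prop :=
  ∀ a ∈ square ρ u, ω ∉ V4.Cheap a L c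

theorem LongDear.mono {c : ℝ} {L : ℕ} (h : LongDear c L ρ u ω) (hle : ∀ e, ω e ≤ x e) :
    LongDear c L ρ u x :=
  fun a ha hx => h a ha (cheap_mono hle hx)

/-- A straight walk inside a square. -/
theorem exists_straight {a c o : Pt} (ha : a ∈ square ρ o) (hc : c ∈ square ρ o) :
    ∃ p : grid.Walk a c, p.length = V4.l1 a c ∧ p.length ≤ 4 * ρ ∧ ∀ z ∈ p.support, z ∈ square ρ o := by
  obtain ⟨p, hp, hbox⟩ := V4.exists_box_walk a c
  simp only [square, Finset.mem_product, Finset.mem_Icc] at ha hc ⊢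
  refine ⟨p, hp, ?_, fun z hz => ?_⟩
  · rw [hp, V4.l1]; omega
  · have := hbox z hz; omega

theorem wt_zero_eq_zero {o a c : Pt} (p : grid.Walk a c) (hp : ∀ z ∈ p.support, z ∈ square ρ o)
    (ho : o = u ∨ o = v) : V4.wt (zeroBox ρ u v ω) p = 0 := by
  refine List.sum_eq_zero fun r hr => ?_
  obtain ⟨e, he, rfl⟩ := List.mem_map.1 hr
  refine zeroBox_of_z ?_
  have : ∀ z ∈ e, z ∈ square ρ o := fun z hz => hp z (p.mem_support_of_mem_edges he hz)
  rcases ho with rfl | rfl
  exacts [Or.inl this, Or.inr this]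

theorem wt_zero_eq {a c : Pt} (p : grid.Walk a c) (hp : ∀ e ∈ p.edges, ¬ ZEdge ρ u v e) :
    V4.wt (zeroBox ρ u v ω) p = V4.wt ω p :=
  congrArg List.sum (List.map_congr_left fun e he => zeroBox_of_not (hp e he))

/-- The last visit of a set by a walk. -/
theorem exists_last_in {a c : Pt} (p : grid.Walk a c) (V : Set Pt) (h : ∃ z ∈ p.support, z ∈ V) :
    ∃ r, r ∈ V ∧ ∃ p₁ : grid.Walk a r, ∃ p₂ : grid.Walk r c, p = p₁.append p₂ ∧
      ∀ z ∈ p₂.support, z = r ∨ z ∉ V := by
  obtain ⟨r, hr, q₁, q₂, he, hq⟩ := V4.exists_first_mem p.reverse V (by simpa using h)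
  refine ⟨r, hr, q₂.reverse, q₁.reverse, ?_, fun z hz => hq z (by simpa using hz)⟩
  have := congrArg Walk.reverse he
  rwa [Walk.reverse_reverse, Walk.reverse_append] at this

/-- The part of a walk from the last visit of the first box to the first visit of the second. -/
theorem exists_middle (h0 : ∀ e, 0 ≤ x e) (p : grid.Walk u v) (hfar : 4 * ρ < V4.l1 u v) :
    ∃ (w w' : Pt) (mid : grid.Walk w w'), w ∈ square ρ u ∧ w' ∈ square ρ v ∧ mid.IsPath ∧
      (∀ e ∈ mid.edges, ¬ ZEdge ρ u v e) ∧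
      V4.wt (zeroBox ρ u v x) mid ≤ V4.wt (zeroBox ρ u v x) p := by
  have hu : u ∈ square ρ u := by simp [square]
  have hv : v ∈ square ρ v := by simp [square]
  have hdis : ∀ z, z ∈ square ρ u → z ∉ square ρ v := fun z hz hz' => by
    simp only [square, Finset.mem_product, Finset.mem_Icc] at hz hz'
    simp only [V4.l1] at hfar
    omega
  obtain ⟨w, hw, p₁, p₂, hp, hp₂⟩ := exists_last_in p {z | z ∈ square ρ u} ⟨u, p.start_mem_support, hu⟩
  obtain ⟨w', hw', q₁, q₂, hq, hq₁⟩ := V4.exists_first_mem p₂ {z | z ∈ square ρ v} ⟨v, p₂.end_mem_support, hv⟩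
  set mid := q₁.bypass
  have hsup : ∀ z ∈ mid.support, (z = w ∨ z ∉ square ρ u) ∧ (z = w' ∨ z ∉ square ρ v) := fun z hz => by
    have hz' := q₁.support_bypass_subset_support hz
    exact ⟨hp₂ z (hq ▸ (Walk.mem_support_append_iff _ _).2 (Or.inl hz')), hq₁ z hz'⟩
  have hnz : ∀ e ∈ mid.edges, ¬ ZEdge ρ u v e := fun e he hZ => by
    induction e using Sym2.ind with
    | _ a a' =>
      have hne := (mid.adj_of_mem_edges he).ne
      obtain ⟨a1, a2⟩ := hsup a (mid.fst_mem_support_of_mem_edges he)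
      obtain ⟨b1, b2⟩ := hsup a' (mid.snd_mem_support_of_mem_edges he)
      rcases hZ with h | h
      · exact hne ((a1.resolve_right (not_not.2 (h a (Sym2.mem_mk_left _ _)))).trans
          (b1.resolve_right (not_not.2 (h a' (Sym2.mem_mk_right _ _)))).symm)
      · exact hne ((a2.resolve_right (not_not.2 (h a (Sym2.mem_mk_left _ _)))).trans
          (b2.resolve_right (not_not.2 (h a' (Sym2.mem_mk_right _ _)))).symm)
  have hz0 := zeroBox_nonneg (ρ := ρ) (u := u) (v := v) h0
  refine ⟨w, w', mid, hw, hw', q₁.bypass_isPath, hnz, (V4.wt_bypass_le hz0 q₁).trans ?_⟩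
  rw [hp, hq, V4.wt_append, V4.wt_append]
  linarith [V4.wt_nonneg hz0 p₁, V4.wt_nonneg hz0 q₂]

/-- The normal form of a walk: free up to the last visit of the first box, a short path outside the
boxes, free from the first visit of the second. -/
theorem exists_normal {c : ℝ} {L : ℕ} (h0 : ∀ e, 0 ≤ x e) (hc : 0 < c)
    (hdear : LongDear c L ρ u x) (p : grid.Walk u v) (hwt : V4.wt (zeroBox ρ u v x) p < c * L)
    (hfar : 4 * ρ < V4.l1 u v) :
    ∃ (w w' : Pt) (mid : grid.Walk w w'), w ∈ square ρ u ∧ w' ∈ square ρ v ∧ mid.IsPath ∧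
      mid.length < L ∧ (∀ e ∈ mid.edges, ¬ ZEdge ρ u v e) ∧
      V4.wt (zeroBox ρ u v x) mid ≤ V4.wt (zeroBox ρ u v x) p := by
  obtain ⟨w, w', mid, hw, hw', hp, hnz, hle⟩ := exists_middle h0 p hfar
  refine ⟨w, w', mid, hw, hw', hp, ?_, hnz, hle⟩
  by_contra hL
  push Not at hL
  have h1 := V4.not_cheap (hdear w hw) mid hp hL
  rw [← wt_zero_eq (ρ := ρ) (u := u) (v := v) mid hnz] at h1
  have h2 : c * L ≤ c * mid.length := mul_le_mul_of_nonneg_left (Nat.cast_le.2 hL) hc.le
  linarith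

theorem cost_zero {M : ℕ} {a c : Pt} (h0 : ∀ e, 0 ≤ ω e) (hb : ∀ e, ω e ≤ b) (p : grid.Walk a c)
    (_hM : p.length ≤ M) : cost b p.edges (zeroBox ρ u v ω) = V4.wt (zeroBox ρ u v ω) p :=
  congrArg List.sum (List.map_congr_left fun e _ =>
    V4.clamp_of_mem (zeroBox_nonneg h0 e) (zeroBox_le h0 hb e))

/-- A walk of moderate weight bounds the short time, when long paths are dear. -/
theorem tshort_zero_le {M L : ℕ} {c : ℝ} (h : V4.l1 u v ≤ M) (hM : L + 8 * ρ ≤ M)
    (h0 : ∀ e, 0 ≤ x e) (hb : ∀ e, x e ≤ b) (hc : 0 < c) (hdear : LongDear c L ρ u x)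
    (hfar : 4 * ρ < V4.l1 u v) (p : grid.Walk u v) (hwt : V4.wt (zeroBox ρ u v x) p < c * L) :
    V4.tshort b h (zeroBox ρ u v x) ≤ V4.wt (zeroBox ρ u v x) p := by
  obtain ⟨w, w', mid, hw, hw', -, hlen, -, hle⟩ := exists_normal h0 hc hdear p hwt hfar
  obtain ⟨s, -, hs, hs'⟩ := exists_straight (ρ := ρ) (o := u) (a := u) (by simp [square]) hw
  obtain ⟨t, -, ht, ht'⟩ := exists_straight (ρ := ρ) (o := v) hw' (c := v) (by simp [square])
  set W := (s.append (mid.append t)).bypass
  have hWl : W.length ≤ M := by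
    refine ((s.append (mid.append t)).length_bypass_le_length).trans ?_
    rw [Walk.length_append, Walk.length_append]
    omega
  have hWmem : W.edges ∈ (V4.shortLists_finite M u v).toFinset :=
    (Set.Finite.mem_toFinset _).2 ⟨W, (s.append (mid.append t)).bypass_isPath, hWl, rfl⟩
  refine (tshort_le_cost h hWmem _).trans ?_
  rw [cost_zero h0 hb W hWl]
  refine (V4.wt_bypass_le (zeroBox_nonneg h0) _).trans ?_
  rw [V4.wt_append, V4.wt_append, wt_zero_eq_zero s hs' (Or.inl rfl), wt_zero_eq_zero t ht' (Or.inr rfl)]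
  linarith

/-- The short time is the passage time from box to box, when long paths are dear. -/
theorem tshort_zero_eq {M L : ℕ} {c : ℝ} (h : V4.l1 u v ≤ M) (hM : L + 8 * ρ ≤ M)
    (h0 : ∀ e, 0 ≤ x e) (hb : ∀ e, x e ≤ b) (hc : 0 < c) (hdear : LongDear c L ρ u x)
    (hfar : 4 * ρ < V4.l1 u v) (hX : Xb ρ u v x < c * L) :
    V4.tshort b h (zeroBox ρ u v x) = Xb ρ u v x := by
  refine le_antisymm (le_of_forall_pos_le_add fun η hη => ?_)
    (V4.tt_le_tshort h (zeroBox_nonneg h0) (zeroBox_le h0 hb))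
  obtain ⟨p, hp⟩ := exists_lt_of_ciInf_lt (show V4.tt (zeroBox ρ u v x) u v <
    Xb ρ u v x + min η (c * L - Xb ρ u v x) by
      change V4.tt (zeroBox ρ u v x) u v < V4.tt (zeroBox ρ u v x) u v + _
      linarith [lt_min hη (sub_pos.2 hX)])
  have h1 := tshort_zero_le h hM h0 hb hc hdear hfar p
    (by linarith [min_le_right η (c * L - Xb ρ u v x)])
  linarith [min_le_left η (c * L - Xb ρ u v x)]

/-- A shortest walk has few sites in a square. -/
theorem card_shortest_square {a c o : Pt} (p : grid.Walk a c) (hp : p.length = V4.l1 a c) (R : ℕ) :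
    (p.support.toFinset.filter fun z => z ∈ square R o).card ≤ 4 * R + 1 := by
  classical
  have hidx : ∀ z (hz : z ∈ p.support), V4.l1 a z = (p.takeUntil z hz).length := by
    intro z hz
    have h1 := V4.l1_le_length (p.takeUntil z hz)
    have h2 := V4.l1_le_length (p.dropUntil z hz)
    have h3 : (p.takeUntil z hz).length + (p.dropUntil z hz).length = p.length := by
      rw [← Walk.length_append, Walk.take_spec]
    have h4 := l1_triangle a z c
    omega
  refine (Finset.card_le_card_of_injOn (fun z => V4.l1 a z)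
    (t := Finset.Icc (V4.l1 a o - 2 * R) (V4.l1 a o + 2 * R)) (fun z hz => ?_) ?_).trans ?_
  · obtain ⟨-, hz⟩ := Finset.mem_filter.1 hz
    simp only [square, Finset.mem_product, Finset.mem_Icc] at hz
    simp only [Finset.mem_coe, Finset.mem_Icc, V4.l1]
    omega
  · intro z hz z' hz' heq
    have hz1 := List.mem_toFinset.1 (Finset.mem_filter.1 hz).1
    have hz2 := List.mem_toFinset.1 (Finset.mem_filter.1 hz').1
    simp only [hidx z hz1, hidx z' hz2] at heq
    rw [← p.getVert_length_takeUntil hz1, heq, p.getVert_length_takeUntil hz2]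
  · rw [Nat.card_Icc]; omega

end Vale.Agent.P158.Any
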