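import Mathlib
import Vale.Agent.P158.Any.VarCore
import Vale.Agent.P158.V4.NullGood
import Vale.Agent.P158.V4.Variance

/-!
P158, arbitrary laws (note 1453, U9, variance): heavy edges are negatively correlated with functions
antitone in them, so the tail of a grown core keeps its exponential bound under such a weight.
-/

namespace Vale.Agent.P158.Any

open MeasureTheory

variable (G : Measure ℝ) [IsProbabilityMeasure G] {b B : ℝ}

/-- The same, for an antitone function of one variable. -/
theorem integral_exceed_le {k : ℝ → ℝ} (hk : Antitone k) (hB : ∀ x, |k x| ≤ B) :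
    ∫ x, (Set.Ioi b).indicator k x ∂G ≤ G.real (Set.Ioi b) * ∫ x, k x ∂G := by
  have hi : Integrable k G := V4.integrable_bdd hk.measurable hB
  have h1 : ∫ x in Set.Ioi b, k x ∂G ≤ G.real (Set.Ioi b) * k b := by
    refine (setIntegral_mono_on hi.integrableOn (integrableOn_const (measure_ne_top _ _))
      measurableSet_Ioi fun x hx => hk (le_of_lt hx)).trans_eq ?_
    rw [setIntegral_const, smul_eq_mul]
  have h2 : G.real (Set.Ioi b)ᶜ * k b ≤ ∫ x in (Set.Ioi b)ᶜ, k x ∂G := by
    refine le_of_eq_of_le ?_ (setIntegral_mono_on (integrableOn_const (C := k b) (measure_ne_top _ _))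
      hi.integrableOn measurableSet_Ioi.compl fun x hx => hk (not_lt.1 hx))
    rw [setIntegral_const, smul_eq_mul]
  have h3 := integral_add_compl (μ := G) (measurableSet_Ioi (a := b)) hi
  have h4 := measureReal_compl (μ := G) (measurableSet_Ioi (a := b))
  rw [probReal_univ] at h4
  rw [h4] at h2
  rw [integral_indicator measurableSet_Ioi, ← h3, mul_add]
  have h5 : G.real (Set.Ioi b) ≤ 1 := measureReal_le_one
  have h6 := mul_le_mul_of_nonneg_left h2 (measureReal_nonneg (μ := G) (s := Set.Ioi b))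
  have h7 := mul_le_mul_of_nonneg_left h1 (sub_nonneg.2 h5)
  linarith

/-- One heavy edge under an antitone weight. -/
theorem integral_update_exceed_le {h : Cfg → ℝ} (hm : Measurable h) (hB : ∀ ω, |h ω| ≤ B)
    (e : Sym2 Pt) (hanti : ∀ ω t t', t ≤ t' → h (Function.update ω e t') ≤ h (Function.update ω e t)) :
    ∫ ω, {ω : Cfg | b < ω e}.indicator h ω ∂V4.law G ≤ G.real (Set.Ioi b) * ∫ ω, h ω ∂V4.law G := by
  have hmp := V4.measurePreserving_update G e
  have hB0 : 0 ≤ B := (abs_nonneg _).trans (hB fun _ => 0)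
  have hS : MeasurableSet {ω : Cfg | b < ω e} := measurableSet_lt measurable_const (measurable_pi_apply e)
  have hkm : Measurable ({ω : Cfg | b < ω e}.indicator h) := hm.indicator hS
  have hkB : ∀ ω, |{ω : Cfg | b < ω e}.indicator h ω| ≤ B := fun ω => by
    rw [Set.indicator_apply]; split_ifs
    exacts [hB ω, by simpa using hB0]
  have tr : ∀ (k : Cfg → ℝ), Measurable k → (∀ ω, |k ω| ≤ B) →
      ∫ ω, k ω ∂V4.law G = ∫ ω, ∫ t, k (Function.update ω e t) ∂G ∂V4.law G ∧
        Integrable (fun ω => ∫ t, k (Function.update ω e t) ∂G) (V4.law G) := fun k km kB => by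
    have hi : Integrable (fun p : ℝ × Cfg => k (Function.update p.2 e p.1)) (G.prod (V4.law G)) :=
      V4.integrable_bdd (km.comp hmp.measurable) fun p => kB _
    refine ⟨?_, hi.integral_prod_right⟩
    conv_lhs => rw [← hmp.map_eq]
    rw [integral_map hmp.measurable.aemeasurable km.aestronglyMeasurable]
    exact integral_prod_symm _ hi
  obtain ⟨e1, i1⟩ := tr _ hkm hkB
  obtain ⟨e2, i2⟩ := tr h hm hB
  rw [e1, e2, ← integral_const_mul]
  refine integral_mono i1 (i2.const_mul _) fun ω => ?_
  refine le_trans (le_of_eq (integral_congr_ae (Filter.Eventually.of_forall fun t => ?_)))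
    (integral_exceed_le G (k := fun t => h (Function.update ω e t)) (fun t t' htt => hanti ω t t' htt)
      fun t => hB _)
  simp only [Set.indicator_apply, Set.mem_ofPred_eq, Function.update_self, Set.mem_Ioi]

/-- All edges of a set heavy, under a weight antitone in each of them. -/
theorem integral_all_exceed_le (S : Finset (Sym2 Pt)) :
    ∀ g : Cfg → ℝ, Measurable g → (∀ ω, 0 ≤ g ω ∧ g ω ≤ B) →
      (∀ e ∈ S, ∀ ω t t', t ≤ t' → g (Function.update ω e t') ≤ g (Function.update ω e t)) →
      ∫ ω, {ω : Cfg | ∀ e ∈ S, b < ω e}.indicator g ω ∂V4.law G ≤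
        G.real (Set.Ioi b) ^ S.card * ∫ ω, g ω ∂V4.law G := by
  classical
  induction S using Finset.induction_on with
  | empty =>
    intro g _ _ _
    simp
  | @insert e S he ih =>
    intro g hm hg hanti
    set g' : Cfg → ℝ := {ω : Cfg | ∀ f ∈ S, b < ω f}.indicator g with hg'
    have hS : MeasurableSet {ω : Cfg | ∀ f ∈ S, b < ω f} := by
      simp only [Set.ofPred_forall]
      exact Finset.measurableSet_biInter S fun f _ => measurableSet_lt measurable_const (measurable_pi_apply f)
    have heq : {ω : Cfg | ∀ f ∈ insert e S, b < ω f}.indicator g = {ω : Cfg | b < ω e}.indicator g' := by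
      rw [hg', Set.indicator_indicator]
      congr 1
      ext ω
      simp [Finset.forall_mem_insert]
    have hg'B : ∀ ω, |g' ω| ≤ B := fun ω => by
      rw [hg', Set.indicator_apply]; split_ifs
      · exact (abs_of_nonneg (hg ω).1).trans_le (hg ω).2
      · simpa using (hg ω).1.trans (hg ω).2
    rw [heq]
    refine (integral_update_exceed_le G (hm.indicator hS) hg'B e fun ω t t' htt => ?_).trans ?_
    · have hiff : ∀ s, (∀ f ∈ S, b < Function.update ω e s f) ↔ ∀ f ∈ S, b < ω f := fun s =>
        forall₂_congr fun f hf => by rw [Function.update_of_ne (ne_of_mem_of_not_mem hf he)]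
      simp only [hg', Set.indicator_apply, Set.mem_ofPred_eq, hiff]
      split_ifs
      · exact hanti e (Finset.mem_insert_self _ _) ω t t' htt
      · exact le_rfl
    · rw [Finset.card_insert_of_notMem he, pow_succ', mul_assoc]
      exact mul_le_mul_of_nonneg_left (ih g hm hg fun f hf => hanti f (Finset.mem_insert_of_mem hf))
        measureReal_nonneg

/-- The edges of the sites within `M + 2` of the core. -/
def Around (K : Finset Pt) (M : ℕ) (e : Sym2 Pt) : Prop :=
  ∃ a ∈ e, ∃ k ∈ K, |a.1 - k.1| ≤ (M : ℤ) + 2 ∧ |a.2 - k.2| ≤ (M : ℤ) + 2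

/-- A grown set of more than `M` sites contains one of `M + 1`, close to the core. -/
theorem exists_small_grow {K U : Finset Pt} {M : ℕ} (hr : Rooted U (rim K)) (hM : M < U.card) :
    ∃ A : Finset Pt, A ⊆ U ∧ A.card = M + 1 ∧ Grown kings (rim K) A ∧ Rooted A (rim K) ∧
      ∀ a ∈ A, ∃ k ∈ K, |a.1 - k.1| ≤ (M : ℤ) + 2 ∧ |a.2 - k.2| ≤ (M : ℤ) + 2 := by
  have hC : ∀ a ∈ (↑U : Set Pt), Reach kings (↑(rim K) ∩ ↑U) ↑U a := fun a ha => by
    have := grown_of_rooted hr a ha
    rwa [Finset.coe_inter] at this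
  obtain ⟨A, hAU, hAc, hA⟩ := exists_rooted_card hC (Set.Subset.refl _) hM
  have hroot : Rooted A (rim K) := by
    intro a ha
    have h := hA a ha
    clear ha
    induction h with
    | root h => exact ⟨_, (Finset.mem_inter.1 h).1, (Finset.mem_inter.1 h).2, .refl⟩
    | @step x a hx hn hb ih =>
      obtain ⟨r, hr', hrA, hreach⟩ := ih
      refine ⟨r, hr', hrA, hreach.tail ⟨?_, hb, ?_⟩⟩
      · exact hx.mem (Finset.coe_subset.2 Finset.inter_subset_right)
      · simp only [kings, Finset.mem_image, List.mem_toFinset] at hn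
        obtain ⟨d, hd, rfl⟩ := hn
        simp only [List.mem_cons, List.not_mem_nil, or_false] at hd
        simp only [Star, abs_le, Prod.fst_add, Prod.snd_add]
        rcases hd with rfl | rfl | rfl | rfl | rfl | rfl | rfl | rfl <;> norm_num
  refine ⟨A, Finset.coe_subset.1 hAU, hAc, hA, hroot, fun a ha => ?_⟩
  obtain ⟨r, hr', hrA, hreach⟩ := hroot a ha
  obtain ⟨⟨k, hk, hs⟩, -⟩ := mem_rim.1 hr'
  refine ⟨k, hk, ?_⟩
  have h1 : Finset.Icc (min r.1 a.1) (max r.1 a.1) ⊆ A.image Prod.fst := fun x hx => by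
    rw [Finset.mem_Icc] at hx
    obtain ⟨z, hz, hzx⟩ := exists_fst hreach hrA x hx.1 hx.2
    exact Finset.mem_image.2 ⟨z, hz, hzx⟩
  have h2 : Finset.Icc (min r.2 a.2) (max r.2 a.2) ⊆ A.image Prod.snd := fun x hx => by
    rw [Finset.mem_Icc] at hx
    obtain ⟨z, hz, hzx⟩ := exists_snd hreach hrA x hx.1 hx.2
    exact Finset.mem_image.2 ⟨z, hz, hzx⟩
  have h1' := (Finset.card_le_card h1).trans Finset.card_image_le
  have h2' := (Finset.card_le_card h2).trans Finset.card_image_le
  rw [Int.card_Icc, hAc] at h1' h2'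
  obtain ⟨s1, s2⟩ := hs
  simp only [abs_le] at s1 s2 ⊢
  omega

/-- The growth depends only on the edges around the core. -/
theorem noGrow_congr {b : ℝ} {K : Finset Pt} {M : ℕ} {ω ω' : Cfg}
    (h : ∀ e ∈ grid.edgeSet, Around K M e → ω e = ω' e) (hn : NoGrow b ω K M) : NoGrow b ω' K M := by
  intro U hr hU
  by_contra hM
  obtain ⟨A, hAU, hAc, -, hroot, hnear⟩ := exists_small_grow hr (not_le.1 hM)
  have := hn A hroot fun a ha => ⟨(hU a (hAU ha)).1, by
    obtain ⟨w, hw, hlt⟩ := (hU a (hAU ha)).2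
    exact ⟨w, hw, by rwa [h _ ((SimpleGraph.mem_edgeSet grid).2 hw) ⟨a, Sym2.mem_mk_left _ _, hnear a ha⟩]⟩⟩
  omega

/-- The tail of a grown core, under a weight antitone in the edges around it. -/
theorem integral_noGrow_le (hb : rate G b ≤ 1) (K : Finset Pt) (M : ℕ) {g : Cfg → ℝ}
    (hm : Measurable g) (hg : ∀ ω, 0 ≤ g ω ∧ g ω ≤ B)
    (hanti : ∀ e, Around K M e → ∀ ω t t', t ≤ t' → g (Function.update ω e t') ≤ g (Function.update ω e t)) :
    ∫ ω, {ω : Cfg | ¬ NoGrow b ω K M}.indicator g ω ∂V4.law G ≤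
      2 ^ (rim K).card * rate G b ^ (M + 1) * ∫ ω, g ω ∂V4.law G := by
  obtain ⟨F, hFc, hF⟩ := exists_animals 8 card_kings_le (rim K) (M + 1)
  set F' := F.filter fun A => ∀ a ∈ A, ∃ k ∈ K, |a.1 - k.1| ≤ (M : ℤ) + 2 ∧ |a.2 - k.2| ≤ (M : ℤ) + 2
  set ρ := Real.sqrt (4 * G.real (Set.Ioi b))
  have hq : (0 : ℝ) ≤ G.real (Set.Ioi b) := measureReal_nonneg
  have hρ : 0 ≤ ρ := Real.sqrt_nonneg _
  have hρ2 : ρ ^ 2 = 4 * G.real (Set.Ioi b) := Real.sq_sqrt (by linarith)
  have hρ1 : ρ ≤ 1 := by
    have : 256 * ρ ≤ 1 := hb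
    linarith
  have hI0 : 0 ≤ ∫ ω, g ω ∂V4.law G := integral_nonneg fun ω => (hg ω).1
  -- the cylinders
  set Ev : (A : Finset Pt) → Set Cfg := fun A => {ω | ∀ a ∈ A, Bad b ω a}
  have hEm : ∀ A, MeasurableSet (Ev A) := fun A => by
    simp only [Ev, Set.ofPred_forall]
    exact Finset.measurableSet_biInter A fun z _ => by
      simp only [Bad, Set.ofPred_exists]
      exact MeasurableSet.iUnion fun w => (MeasurableSet.const _).inter
        (measurableSet_lt measurable_const (measurable_pi_apply _))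
  have hint : ∀ {X : Set Cfg}, MeasurableSet X → Integrable (X.indicator g) (V4.law G) := fun hX =>
    V4.integrable_bdd (hm.indicator hX) (B := B) fun ω => by
      rw [abs_of_nonneg (Set.indicator_nonneg (fun x _ => (hg x).1) ω)]
      exact (Set.indicator_le_self' (fun x _ => (hg x).1) ω).trans (hg ω).2
  have hone : ∀ A ∈ F', A.card = M + 1 →
      ∫ ω, (Ev A).indicator g ω ∂V4.law G ≤ ρ ^ (M + 1) * ∫ ω, g ω ∂V4.law G := by
    intro A hA hAc
    obtain ⟨p, hp⟩ : ∃ p : ℤ, A.card ≤ 2 * (A.filter fun z => (z.1 + z.2) % 2 = p).card := by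
      have hsplit := Finset.card_filter_add_card_filter_not (s := A)
        (fun z : Pt => (z.1 + z.2) % 2 = 0)
      have hnot : (A.filter fun z => ¬ (z.1 + z.2) % 2 = 0) = A.filter fun z => (z.1 + z.2) % 2 = 1 :=
        Finset.filter_congr fun z _ => by omega
      rw [hnot] at hsplit
      rcases le_total (A.filter fun z => (z.1 + z.2) % 2 = 0).card
        (A.filter fun z => (z.1 + z.2) % 2 = 1).card with h | h
      · exact ⟨1, by omega⟩
      · exact ⟨0, by omega⟩
    set B' := A.filter fun z => (z.1 + z.2) % 2 = p with hB'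
    set P := Fintype.piFinset fun _ : B' => (Finset.univ : Finset (Fin 4))
    set T : (B' → Fin 4) → Finset (Sym2 Pt) := fun f =>
      Finset.univ.image fun z : B' => s((z : Pt), (z : Pt) + dir (f z))
    have hTc : ∀ f, (T f).card = B'.card := fun f => by
      rw [Finset.card_image_of_injective _ fun z z' h => Subtype.ext
        (edge_inj ((Finset.mem_filter.1 z.2).2.trans (Finset.mem_filter.1 z'.2).2.symm) h)]
      simp
    have hpt : ∀ ω, (Ev A).indicator g ω ≤
        ∑ f ∈ P, {ω : Cfg | ∀ e ∈ T f, b < ω e}.indicator g ω := fun ω => by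
      have hnn : ∀ X : Set Cfg, 0 ≤ X.indicator g ω := fun X => Set.indicator_nonneg (fun _ _ => (hg _).1) _
      by_cases hω : ω ∈ Ev A
      · choose f hf using fun z : B' => bad_dir (hω z (Finset.mem_filter.1 z.2).1)
        refine le_trans (le_of_eq ?_) (Finset.single_le_sum (fun f _ => hnn _)
          (show f ∈ P from Fintype.mem_piFinset.2 fun z => Finset.mem_univ (f z)))
        rw [Set.indicator_of_mem hω, Set.indicator_of_mem]
        intro e he
        obtain ⟨z, -, rfl⟩ := Finset.mem_image.1 he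
        exact hf z
      · rw [Set.indicator_of_notMem hω]
        exact Finset.sum_nonneg fun f _ => hnn _
    have hTm : ∀ f, MeasurableSet {ω : Cfg | ∀ e ∈ T f, b < ω e} := fun f => by
      simp only [Set.ofPred_forall]
      exact Finset.measurableSet_biInter _ fun e _ => measurableSet_lt measurable_const (measurable_pi_apply e)
    calc ∫ ω, (Ev A).indicator g ω ∂V4.law G
        ≤ ∫ ω, ∑ f ∈ P, {ω : Cfg | ∀ e ∈ T f, b < ω e}.indicator g ω ∂V4.law G :=
          integral_mono (hint (hEm A)) (integrable_finsetSum _ fun f _ => hint (hTm f)) hpt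
      _ ≤ ∑ _f ∈ P, G.real (Set.Ioi b) ^ B'.card * ∫ ω, g ω ∂V4.law G := by
          rw [integral_finsetSum _ fun f _ => hint (hTm f)]
          refine Finset.sum_le_sum fun f _ => (integral_all_exceed_le G (T f) g hm hg ?_).trans_eq (by rw [hTc])
          intro e he
          obtain ⟨z, -, rfl⟩ := Finset.mem_image.1 he
          exact hanti _ ⟨z, Sym2.mem_mk_left _ _, (Finset.mem_filter.1 hA).2 z (Finset.mem_filter.1 z.2).1⟩
      _ = (4 * G.real (Set.Ioi b)) ^ B'.card * ∫ ω, g ω ∂V4.law G := by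
          rw [Finset.sum_const, Fintype.card_piFinset, nsmul_eq_mul]
          simp [mul_pow, mul_assoc]
      _ ≤ ρ ^ (M + 1) * ∫ ω, g ω ∂V4.law G := by
          refine mul_le_mul_of_nonneg_right ?_ hI0
          rw [← hρ2, ← pow_mul, ← hAc]
          exact pow_le_pow_of_le_one hρ hρ1 hp
  have hpt : ∀ ω, {ω : Cfg | ¬ NoGrow b ω K M}.indicator g ω ≤
      ∑ A ∈ F'.filter (fun A => A.card = M + 1), (Ev A).indicator g ω := fun ω => by
    have hnn : ∀ X : Set Cfg, 0 ≤ X.indicator g ω := fun X => Set.indicator_nonneg (fun _ _ => (hg _).1) _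
    by_cases hω : ω ∈ {ω : Cfg | ¬ NoGrow b ω K M}
    · simp only [Set.mem_ofPred_eq, NoGrow, not_forall, not_le] at hω
      obtain ⟨U, hr, hU, hM⟩ := hω
      obtain ⟨A, hAU, hAc, hA, -, hnear⟩ := exists_small_grow hr hM
      refine le_trans (le_of_eq ?_) (Finset.single_le_sum (fun A _ => hnn _)
        (Finset.mem_filter.2 ⟨Finset.mem_filter.2 ⟨hF A hAc hA, hnear⟩, hAc⟩))
      rw [Set.indicator_of_mem, Set.indicator_of_mem]
      · exact fun a ha => (hU a (hAU ha)).2
      · simp only [Set.mem_ofPred_eq, NoGrow, not_forall, not_le]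
        exact ⟨U, hr, hU, hM⟩
    · rw [Set.indicator_of_notMem hω]
      exact Finset.sum_nonneg fun A _ => hnn _
  calc ∫ ω, {ω : Cfg | ¬ NoGrow b ω K M}.indicator g ω ∂V4.law G
      ≤ ∫ ω, ∑ A ∈ F'.filter (fun A => A.card = M + 1), (Ev A).indicator g ω ∂V4.law G :=
        integral_mono (hint (measurableSet_noGrow b K M).compl)
          (integrable_finsetSum _ fun A _ => hint (hEm A)) hpt
    _ ≤ ∑ _A ∈ F'.filter (fun A => A.card = M + 1), ρ ^ (M + 1) * ∫ ω, g ω ∂V4.law G := by
        rw [integral_finsetSum _ fun A _ => hint (hEm A)]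
        exact Finset.sum_le_sum fun A hA => hone A (Finset.mem_filter.1 hA).1 (Finset.mem_filter.1 hA).2
    _ ≤ _ := by
        rw [Finset.sum_const, nsmul_eq_mul, ← mul_assoc]
        refine mul_le_mul_of_nonneg_right ?_ hI0
        have h1 : (((F'.filter fun A => A.card = M + 1).card : ℕ) : ℝ) ≤
            2 ^ (rim K).card * 2 ^ (8 * (M + 1)) := by
          exact_mod_cast ((Finset.card_filter_le _ _).trans (Finset.card_filter_le _ _)).trans hFc
        refine (mul_le_mul_of_nonneg_right h1 (pow_nonneg hρ _)).trans_eq ?_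
        rw [rate, mul_assoc, pow_mul, ← mul_pow, show (2 : ℝ) ^ 8 = 256 by norm_num]

/-- The probability that a core grows by more than `M`. -/
theorem prob_noGrow_le (hb : rate G b ≤ 1) (K : Finset Pt) (M : ℕ) :
    (V4.law G).real {ω | ¬ NoGrow b ω K M} ≤ 2 ^ (rim K).card * rate G b ^ (M + 1) := by
  have h := integral_noGrow_le G hb K M (g := fun _ => 1) (B := 1) measurable_const
    (fun _ => ⟨zero_le_one, le_rfl⟩) fun _ _ _ _ _ _ => le_rfl
  rw [integral_indicator (show MeasurableSet {ω : Cfg | ¬ NoGrow b ω K M} from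
    (measurableSet_noGrow b K M).compl), setIntegral_const] at h
  simpa using h

end Vale.Agent.P158.Any
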