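import Mathlib
import Vale.Agent.P158.Any.VarBox
import Vale.Agent.P158.Any.VarWeight

/-!
P158, arbitrary laws (note 1453, U9, variance): pivotal edges of the time from box to box, the
envelope of the increments through the detour around the cluster of an edge, and the number of pivotal
edges near a site.
-/

namespace Vale.Agent.P158.Any

open MeasureTheory SimpleGraph Vale.Agent.P158.Facet

variable {ρ M L : ℕ} {u v : Pt} {ω x : Cfg} {b b₀ c : ℝ} {e : Sym2 Pt} {h : V4.l1 u v ≤ M}

/-- The indicator that all least short walks use `e`, outside the boxes. -/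
noncomputable def pivot (b : ℝ) (h : V4.l1 u v ≤ M) (ρ : ℕ) (e : Sym2 Pt) (ω : Cfg) : ℝ :=
  {ω : Cfg | ¬ ZEdge ρ u v e ∧ Need b h e (zeroBox ρ u v ω)}.indicator (fun _ => 1) ω

/-- All least short walks use an edge close to `e`. -/
def Hit (b : ℝ) (h : V4.l1 u v ≤ M) (ρ : ℕ) (e : Sym2 Pt) (k : ℕ) (ω : Cfg) : Prop :=
  ∀ l ∈ (V4.shortLists_finite M u v).toFinset, (∀ f ∈ l, ¬ Around e.toFinset k f) →
    V4.tshort b h (zeroBox ρ u v ω) < cost b l (zeroBox ρ u v ω)

theorem measurableSet_pivot (e : Sym2 Pt) :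
    MeasurableSet {ω : Cfg | ¬ ZEdge ρ u v e ∧ Need b h e (zeroBox ρ u v ω)} :=
  (MeasurableSet.const _).inter (measurable_zeroBox ρ u v (measurableSet_need h e))

theorem measurable_pivot (e : Sym2 Pt) : Measurable (pivot b h ρ e) :=
  measurable_const.indicator (measurableSet_pivot e)

theorem measurableSet_hit (e : Sym2 Pt) (k : ℕ) : MeasurableSet {ω : Cfg | Hit b h ρ e k ω} := by
  simp only [Hit, Set.ofPred_forall]
  exact Finset.measurableSet_biInter _ fun l _ => MeasurableSet.iInter fun _ =>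
    measurableSet_lt ((V4.measurable_tshort b h).comp (measurable_zeroBox ρ u v))
      ((measurable_cost b l).comp (measurable_zeroBox ρ u v))

theorem pivot_mem (e : Sym2 Pt) (ω : Cfg) : 0 ≤ pivot b h ρ e ω ∧ pivot b h ρ e ω ≤ 1 :=
  ⟨Set.indicator_nonneg (fun _ _ => zero_le_one) _,
    Set.indicator_le_self' (fun _ _ => zero_le_one) _⟩

theorem pivot_le_hit (k : ℕ) :
    pivot b h ρ e ω ≤ {ω : Cfg | Hit b h ρ e k ω}.indicator (fun _ => 1) ω := by
  unfold pivot
  by_cases hp : ω ∈ {ω : Cfg | ¬ ZEdge ρ u v e ∧ Need b h e (zeroBox ρ u v ω)}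
  · rw [Set.indicator_of_mem hp, Set.indicator_of_mem]
    refine fun l hl hav => hp.2 l hl fun he => hav e he ?_
    obtain ⟨a, ha⟩ : ∃ a, a ∈ e := ⟨e.out.1, e.out_fst_mem⟩
    exact ⟨a, ha, a, Sym2.mem_toFinset.2 ha, by simp; positivity, by simp; positivity⟩
  · rw [Set.indicator_of_notMem hp]
    exact Set.indicator_nonneg (fun _ _ => zero_le_one) _

/-- Raising a weight does not increase the indicator of a hit near it, or of its pivot. -/
theorem hit_anti {f : Sym2 Pt} {k : ℕ} {t : ℝ} (hf : Around e.toFinset k f) (ht : ω f ≤ t)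
    (hh : Hit b h ρ e k (Function.update ω f t)) : Hit b h ρ e k ω := by
  by_cases hz : ZEdge ρ u v f
  · intro l hl hav
    simpa [zeroBox_update_z hz] using hh l hl hav
  · intro l hl hav
    have h1 := hh l hl hav
    rw [zeroBox_update hz] at h1
    have h2 := tshort_update_ge (b := b) h (ω := zeroBox ρ u v ω) (e := f) (t := t)
      (by rwa [zeroBox_of_not hz])
    refine (h2.trans_lt h1).trans_eq (congrArg List.sum (List.map_congr_left fun g hg => ?_))
    rw [Function.update_of_ne fun hgf => hav g hg (by rw [hgf]; exact hf)]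

theorem pivot_anti {t : ℝ} (ht : ω e ≤ t) :
    pivot b h ρ e (Function.update ω e t) ≤ pivot b h ρ e ω := by
  unfold pivot
  refine Set.indicator_apply_le' (fun hm => ?_) (fun _ => Set.indicator_nonneg (fun _ _ => zero_le_one) _)
  obtain ⟨hz, hn⟩ := hm
  rw [zeroBox_update hz] at hn
  rw [Set.indicator_of_mem]
  exact ⟨hz, need_anti h rfl (by rwa [zeroBox_of_not hz]) hn⟩

theorem tshort_box_mono {t : ℝ} (ht : ω e ≤ t) :
    V4.tshort b h (zeroBox ρ u v ω) ≤ V4.tshort b h (zeroBox ρ u v (Function.update ω e t)) := by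
  by_cases hz : ZEdge ρ u v e
  · rw [zeroBox_update_z hz]
  · rw [zeroBox_update hz]
    exact tshort_update_ge h (by rwa [zeroBox_of_not hz])

theorem tshort_box_incr {t : ℝ} (ht : ω e ≤ t) :
    V4.tshort b h (zeroBox ρ u v (Function.update ω e t)) - V4.tshort b h (zeroBox ρ u v ω) ≤
      pivot b h ρ e ω * (t - ω e) := by
  by_cases hz : ZEdge ρ u v e
  · rw [zeroBox_update_z hz, sub_self]
    exact mul_nonneg (pivot_mem e ω).1 (sub_nonneg.2 ht)
  · rw [zeroBox_update hz]
    refine (tshort_update_le h (by rwa [zeroBox_of_not hz])).trans (le_of_eq ?_)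
    rw [zeroBox_of_not hz]
    by_cases hn : Need b h e (zeroBox ρ u v ω)
    · rw [pivot, Set.indicator_of_mem (by exact hn), Set.indicator_of_mem (by exact ⟨hz, hn⟩)]
    · rw [pivot, Set.indicator_of_notMem (by exact hn),
        Set.indicator_of_notMem (fun hm => hn hm.2)]

/-- The growth from the ends of an edge does not depend on its weight. -/
theorem noGrow_update {K : Finset Pt} (hK : ∀ z ∈ e, z ∈ K) (t : ℝ) (k : ℕ) :
    NoGrow b₀ (Function.update ω e t) K k ↔ NoGrow b₀ ω K k := by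
  refine forall_congr' fun U => forall_congr' fun _ => ?_
  refine imp_congr (forall₂_congr fun z _ => and_congr_right fun hz => ?_) Iff.rfl
  refine exists_congr fun w => and_congr_right fun _ => ?_
  rw [Function.update_of_ne fun he => hz (hK z (by rw [← he]; exact Sym2.mem_mk_left _ _))]

theorem starConn_toFinset (he : e ∈ grid.edgeSet) : StarConn e.toFinset := by
  induction e using Sym2.ind with
  | _ a a' =>
    rw [Sym2.toFinset_mk_eq]
    exact starConn_pair (star_of_adj (SimpleGraph.mem_edgeSet grid |>.1 he))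

theorem card_rim_toFinset (e : Sym2 Pt) : (rim e.toFinset).card ≤ 18 := by
  induction e using Sym2.ind with
  | _ a a' => rw [Sym2.toFinset_mk_eq]; exact card_rim_pair a a'

/-- The detour around the cluster of an edge. -/
theorem incr_detour (hM : L + 8 * ρ ≤ M) (h0 : ∀ f, 0 ≤ x f) (hb : ∀ f, x f ≤ b) (hb₀ : 0 ≤ b₀)
    (hc : 0 < c) (hdear : LongDear c L ρ u x) (hfar : 4 * ρ < V4.l1 u v) {k : ℕ} (hk : k + 4 ≤ ρ)
    (he : e ∈ grid.edgeSet) (hng : NoGrow b₀ x e.toFinset k)
    (hX : V4.tshort b h (zeroBox ρ u v x) + b₀ * (18 + 9 * k : ℕ) < c * L) {t : ℝ} (ht : x e ≤ t)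
    (htb : t ≤ b) :
    V4.tshort b h (zeroBox ρ u v (Function.update x e t)) - V4.tshort b h (zeroBox ρ u v x) ≤
      b₀ * (18 + 9 * k : ℕ) := by
  have hpos : 0 ≤ b₀ * ((18 + 9 * k : ℕ) : ℝ) := by positivity
  by_cases hz : ZEdge ρ u v e
  · rw [zeroBox_update_z hz, sub_self]; exact hpos
  by_cases hn : Need b h e (zeroBox ρ u v x)
  swap
  · have := tshort_box_incr (b := b) (h := h) (ρ := ρ) ht
    rw [pivot, Set.indicator_of_notMem (fun hm => hn hm.2), zero_mul] at this
    exact this.trans hpos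
  obtain ⟨p, -, hpM, hl, hle⟩ := exists_least b h (zeroBox ρ u v x)
  rw [cost_zero h0 hb p hpM] at hle
  have hep : e ∈ p.edges := by_contra fun hne =>
    (hn _ hl hne).ne (by rw [cost_zero h0 hb p hpM, hle])
  obtain ⟨C, hC⟩ := exists_grown (starConn_toFinset he) hng
  -- the ends of the walk are outside, as the edge is outside the boxes
  have hout : ∀ o, o = u ∨ o = v → Out Set.univ C o := fun o ho => by
    by_contra hno
    refine hz ?_
    have hin : ∀ z ∈ e, z ∈ square ρ o := fun z hzm => by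
      obtain ⟨⟨k₁, hk₁, a1⟩, ⟨k₂, hk₂, a2⟩, ⟨k₃, hk₃, a3⟩, ⟨k₄, hk₄, a4⟩⟩ := hC.near_enclosed hno
      rw [Sym2.mem_toFinset] at hk₁ hk₂ hk₃ hk₄
      have close : ∀ q ∈ e, |q.1 - z.1| ≤ 1 ∧ |q.2 - z.2| ≤ 1 := fun q hq => by
        obtain ⟨z', rfl⟩ := Sym2.mem_iff_exists.1 hzm
        rcases Sym2.mem_iff.1 hq with rfl | rfl
        · simp
        · exact ⟨by rw [abs_sub_comm]; exact (star_of_adj (SimpleGraph.mem_edgeSet grid |>.1 he)).1,
            by rw [abs_sub_comm]; exact (star_of_adj (SimpleGraph.mem_edgeSet grid |>.1 he)).2⟩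
      have c1 := abs_le.1 (close k₁ hk₁).1
      have c2 := abs_le.1 (close k₂ hk₂).1
      have c3 := abs_le.1 (close k₃ hk₃).2
      have c4 := abs_le.1 (close k₄ hk₄).2
      simp only [square, Finset.mem_product, Finset.mem_Icc]
      omega
    rcases ho with rfl | rfl
    exacts [Or.inl hin, Or.inr hin]
  obtain ⟨a, ha⟩ : ∃ a, a ∈ e := ⟨e.out.1, e.out_fst_mem⟩
  have hap : a ∈ p.support := p.mem_support_of_mem_edges hep ha
  have haC : ¬ Out Set.univ C a := fun ho => ho.mem.2 (hC.sup (Sym2.mem_toFinset.2 ha))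
  obtain ⟨W, hW, hWw⟩ := hC.detour (hout u (Or.inl rfl)) (hout v (Or.inr rfl)) (p.takeUntil a hap)
    (p.dropUntil a hap) ⟨a, Walk.end_mem_support _, haC⟩ ⟨a, Walk.start_mem_support _, haC⟩
  have hwt := hWw (zeroBox ρ u v x) (zeroBox_nonneg h0) b₀ hb₀ fun f _ hf =>
    (zeroBox_le_self h0 f).trans hf
  rw [← V4.wt_append, Walk.take_spec, hle] at hwt
  have hWe : e ∉ W.edges := fun hm => (hW a (W.mem_support_of_mem_edges hm ha)).mem.2
    (hC.sup (Sym2.mem_toFinset.2 ha))
  have heq : V4.wt (zeroBox ρ u v (Function.update x e t)) W = V4.wt (zeroBox ρ u v x) W := by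
    rw [zeroBox_update hz]
    exact congrArg List.sum (List.map_congr_left fun f hf => by
      rw [Function.update_of_ne (ne_of_mem_of_not_mem hf hWe)])
  have hr : ((((rim e.toFinset).card + 9 * k : ℕ) : ℝ)) ≤ ((18 + 9 * k : ℕ) : ℝ) := by
    have := card_rim_toFinset e
    exact_mod_cast (by omega : (rim e.toFinset).card + 9 * k ≤ 18 + 9 * k)
  have hwt' : V4.wt (zeroBox ρ u v x) W ≤ V4.tshort b h (zeroBox ρ u v x) + b₀ * (18 + 9 * k : ℕ) :=
    hwt.trans (add_le_add le_rfl (mul_le_mul_of_nonneg_left hr hb₀))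
  have hup : ∀ f, x f ≤ Function.update x e t f := fun f => by
    rcases eq_or_ne f e with rfl | hf
    · rwa [Function.update_self]
    · rw [Function.update_of_ne hf]
  have h0' : ∀ f, 0 ≤ Function.update x e t f := fun f => (h0 f).trans (hup f)
  have hb' : ∀ f, Function.update x e t f ≤ b := fun f => by
    rcases eq_or_ne f e with rfl | hf
    · rwa [Function.update_self]
    · rw [Function.update_of_ne hf]; exact hb f
  have := tshort_zero_le h hM h0' hb' hc (hdear.mono hup) hfar W (by rw [heq]; linarith)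
  rw [heq] at this
  linarith

/-- Few edges are hit: they are near a least walk. -/
theorem card_hit_le (S : Finset (Sym2 Pt)) (k : ℕ) (hS : ∀ f ∈ S, f ∈ grid.edgeSet) (ω : Cfg) :
    ∑ f ∈ S, {ω : Cfg | Hit b h ρ f k ω}.indicator (fun _ => (1 : ℝ)) ω ≤
      4 * (2 * k + 5) ^ 2 * (M + 1) := by
  classical
  obtain ⟨p, hp, hpM, hl, hle⟩ := exists_least b h (zeroBox ρ u v ω)
  simp only [Set.indicator_apply, Finset.sum_boole]
  have hsub : (S.filter fun f => ω ∈ {ω : Cfg | Hit b h ρ f k ω}) ⊆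
      ((p.support.toFinset.biUnion fun z => square (k + 2) z) ×ˢ (Finset.univ : Finset (Fin 4))).image
        fun q => s(q.1, q.1 + V4.step q.2) := by
    intro f hf
    obtain ⟨hfS, hfH⟩ := Finset.mem_filter.1 hf
    have hex : ∃ g ∈ p.edges, Around f.toFinset k g := by
      by_contra hno
      push Not at hno
      exact ((hfH : Hit b h ρ f k ω) _ hl hno).ne hle.symm
    obtain ⟨g, hg, z, hzg, q, hq, d1, d2⟩ := hex
    rw [Sym2.mem_toFinset] at hq
    obtain ⟨q', rfl⟩ := Sym2.mem_iff_exists.1 hq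
    obtain ⟨i, rfl⟩ := V4.exists_step (SimpleGraph.mem_edgeSet grid |>.1 (hS _ hfS))
    refine Finset.mem_image.2 ⟨(q, i), Finset.mem_product.2 ⟨Finset.mem_biUnion.2 ⟨z,
      List.mem_toFinset.2 (p.mem_support_of_mem_edges hg hzg), ?_⟩, Finset.mem_univ _⟩, rfl⟩
    simp only [square, Finset.mem_product, Finset.mem_Icc]
    rw [abs_le] at d1 d2
    omega
  refine (Nat.cast_le.2 (Finset.card_le_card hsub)).trans ?_
  have h1 : (p.support.toFinset.biUnion fun z => square (k + 2) z).card ≤ (M + 1) * (2 * (k + 2) + 1) ^ 2 := by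
    refine (Finset.card_biUnion_le_card_mul _ _ _ fun z _ => (card_square _ z).le).trans ?_
    refine Nat.mul_le_mul_right _ ((List.toFinset_card_le _).trans ?_)
    rw [Walk.length_support]; omega
  refine (Nat.cast_le.2 (show _ ≤ (M + 1) * (2 * (k + 2) + 1) ^ 2 * 4 from Finset.card_image_le.trans (by
    rw [Finset.card_product, Finset.card_univ, Fintype.card_fin]
    exact Nat.mul_le_mul_right 4 h1))).trans (le_of_eq ?_)
  push_cast
  ring

/-- A normal least walk visits few sites of a square outside the boxes. -/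
theorem exists_near_sites (hM : L + 8 * ρ ≤ M) (h0 : ∀ f, 0 ≤ x f) (hb : ∀ f, x f ≤ b)
    (hb₀ : 0 ≤ b₀) (hc : 0 < c) (hdear : LongDear c L ρ u x) (hfar : 4 * ρ < V4.l1 u v) (o : Pt)
    {R m' L' : ℕ} (hR : 2 * R + m' + 2 ≤ ρ) (hng : NoGrow b₀ x (square R o) m')
    (hloc : LongDear c L' R o x) (hL' : b₀ * (8 * R + 8 + 9 * m' : ℕ) ≤ c * L')
    (hX : V4.tshort b h (zeroBox ρ u v x) < c * L) :
    (∀ z ∈ square R o, z ∈ square ρ u) ∨ (∀ z ∈ square R o, z ∈ square ρ v) ∨
      ∃ S : Finset Pt, S.card ≤ 8 * R + 3 + L' ∧ ∀ (e : Sym2 Pt) (k : ℕ), Hit b h ρ e k x →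
        (∀ a ∈ e, ∀ z, |a.1 - z.1| ≤ (k : ℤ) + 2 → |a.2 - z.2| ≤ (k : ℤ) + 2 → z ∈ square R o) →
        ∃ z ∈ S, ∃ a ∈ e, |a.1 - z.1| ≤ (k : ℤ) + 2 ∧ |a.2 - z.2| ≤ (k : ℤ) + 2 := by
  classical
  obtain ⟨C, hC⟩ := exists_grown (starConn_square R o) hng
  have hencl : ∀ o', ¬ Out Set.univ C o' → ∀ z ∈ square R o, z ∈ square ρ o' := fun o' hno z hz => by
    obtain ⟨⟨k₁, hk₁, a1⟩, ⟨k₂, hk₂, a2⟩, ⟨k₃, hk₃, a3⟩, ⟨k₄, hk₄, a4⟩⟩ := hC.near_enclosed hno
    simp only [square, Finset.mem_product, Finset.mem_Icc] at hz hk₁ hk₂ hk₃ hk₄ ⊢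
    omega
  by_cases hou : Out Set.univ C u
  swap
  · exact Or.inl (hencl u hou)
  by_cases hov : Out Set.univ C v
  swap
  · exact Or.inr (Or.inl (hencl v hov))
  refine Or.inr (Or.inr ?_)
  obtain ⟨p, -, hpM, hl, hle⟩ := exists_least b h (zeroBox ρ u v x)
  rw [cost_zero h0 hb p hpM] at hle
  obtain ⟨w, w', mid, hw, hw', hmp, hlen, hnz, hmle⟩ :=
    exists_normal h0 hc hdear p (hle ▸ hX) hfar
  obtain ⟨s, hsl, hs, hs'⟩ := exists_straight (ρ := ρ) (o := u) (a := u) (by simp [square]) hw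
  obtain ⟨t, htl, ht, ht'⟩ := exists_straight (ρ := ρ) (o := v) hw' (c := v) (by simp [square])
  set W₀ := s.append (mid.append t)
  set W := W₀.bypass
  have hz0 := zeroBox_nonneg (ρ := ρ) (u := u) (v := v) h0
  have hWl : W.length ≤ M := by
    refine W₀.length_bypass_le_length.trans ?_
    simp only [W₀, Walk.length_append]
    omega
  have hWmem : W.edges ∈ (V4.shortLists_finite M u v).toFinset :=
    (Set.Finite.mem_toFinset _).2 ⟨W, W₀.bypass_isPath, hWl, rfl⟩
  have hW₀ : V4.wt (zeroBox ρ u v x) W₀ ≤ V4.tshort b h (zeroBox ρ u v x) := by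
    simp only [W₀, V4.wt_append, wt_zero_eq_zero s hs' (Or.inl rfl), wt_zero_eq_zero t ht' (Or.inr rfl)]
    linarith
  have hWle : cost b W.edges (zeroBox ρ u v x) = V4.tshort b h (zeroBox ρ u v x) := by
    refine le_antisymm ?_ (tshort_le_cost h hWmem _)
    rw [cost_zero h0 hb W hWl]
    exact (V4.wt_bypass_le hz0 W₀).trans hW₀
  set S : Finset Pt := ((s.support.toFinset ∪ mid.support.toFinset) ∪ t.support.toFinset).filter
    fun z => z ∈ square R o
  have hmid : (mid.support.toFinset.filter fun z => z ∈ square R o).card ≤ L' + 1 := by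
    by_cases hmeet : ∃ z ∈ mid.support, z ∈ square R o
    swap
    · refine le_trans (le_of_eq (Finset.card_eq_zero.2 (Finset.filter_eq_empty_iff.2 ?_))) (Nat.zero_le _)
      exact fun z hz hzs => hmeet ⟨z, List.mem_toFinset.1 hz, hzs⟩
    obtain ⟨a₀, ha₀, q₁, q₂, hq, hq₁⟩ := V4.exists_first_mem mid {z | z ∈ square R o} hmeet
    obtain ⟨a₁, ha₁, r₁, r₂, hr, hr₂⟩ := exists_last_in q₂ {z | z ∈ square R o} ⟨a₀, q₂.start_mem_support, ha₀⟩
    have hsub : (mid.support.toFinset.filter fun z => z ∈ square R o) ⊆ r₁.support.toFinset := fun z hz => by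
      obtain ⟨hz, hzs⟩ := Finset.mem_filter.1 hz
      rw [List.mem_toFinset, hq, hr] at hz
      simp only [Walk.mem_support_append_iff] at hz
      rw [List.mem_toFinset]
      rcases hz with hz | hz | hz
      · exact ((hq₁ z hz).resolve_right (not_not.2 hzs)) ▸ r₁.start_mem_support
      · exact hz
      · exact ((hr₂ z hz).resolve_right (not_not.2 hzs)) ▸ r₁.end_mem_support
    have hin : ∀ a ∈ square R o, ¬ Out Set.univ C a := fun a ha ho => ho.mem.2 (hC.sup ha)
    obtain ⟨W', -, hW'⟩ := hC.detour hou hov (s.append q₁) (r₂.append t)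
      ⟨a₀, Walk.end_mem_support _, hin a₀ ha₀⟩ ⟨a₁, Walk.start_mem_support _, hin a₁ ha₁⟩
    have hw2 := hW' (zeroBox ρ u v x) hz0 b₀ hb₀ fun f _ hf => (zeroBox_le_self h0 f).trans hf
    have hmin : V4.tshort b h (zeroBox ρ u v x) ≤ V4.wt (zeroBox ρ u v x) W' := by
      by_cases hlt : V4.wt (zeroBox ρ u v x) W' < c * L
      · exact tshort_zero_le h hM h0 hb hc hdear hfar W' hlt
      · linarith
    have hsum : V4.wt (zeroBox ρ u v x) W₀ = V4.wt (zeroBox ρ u v x) (s.append q₁) +
        V4.wt (zeroBox ρ u v x) r₁ + V4.wt (zeroBox ρ u v x) (r₂.append t) := by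
      simp only [W₀, hq, hr, V4.wt_append]; ring
    have hrim : ((((rim (square R o)).card + 9 * m' : ℕ) : ℝ)) ≤ ((8 * R + 8 + 9 * m' : ℕ) : ℝ) := by
      have := card_rim_square R o
      exact_mod_cast (by omega : (rim (square R o)).card + 9 * m' ≤ 8 * R + 8 + 9 * m')
    have hr1 : V4.wt x r₁ ≤ c * L' := by
      rw [← wt_zero_eq (ρ := ρ) (u := u) (v := v) r₁ fun f hf => hnz f (by
        simp [hq, hr, Walk.edges_append, hf])]
      linarith [mul_le_mul_of_nonneg_left hrim hb₀]
    have hr1p : r₁.IsPath := by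
      have h1 : (q₁.append (r₁.append r₂)).IsPath := by rw [← hr, ← hq]; exact hmp
      exact h1.of_append_right.of_append_left
    have hr1l : r₁.length < L' + 1 := by
      by_contra hge
      push Not at hge
      have h1 := V4.not_cheap (hloc a₀ ha₀) r₁ hr1p (by omega)
      have h2 : c * (L' : ℝ) ≤ c * r₁.length :=
        mul_le_mul_of_nonneg_left (Nat.cast_le.2 (by omega)) hc.le
      linarith
    refine (Finset.card_le_card hsub).trans ((List.toFinset_card_le _).trans ?_)
    rw [Walk.length_support]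
    omega
  refine ⟨S, ?_, fun e k hh hball => ?_⟩
  · have := card_shortest_square (o := o) s hsl R
    simp only [S, Finset.filter_union]
    refine (Finset.card_union_le _ _).trans ((add_le_add (Finset.card_union_le _ _) le_rfl).trans
      ((add_le_add (add_le_add (le_of_eq_of_le (by congr) this) (le_of_eq_of_le (by congr) hmid))
        (le_of_eq_of_le (by congr) (card_shortest_square (o := o) t htl R))).trans ?_))
    omega
  · have hex : ∃ g ∈ W.edges, Around e.toFinset k g := by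
      by_contra hno
      push Not at hno
      exact (hh _ hWmem hno).ne hWle.symm
    obtain ⟨g, hg, z, hzg, q, hq, d1, d2⟩ := hex
    rw [Sym2.mem_toFinset] at hq
    have hz : z ∈ W₀.support := W₀.support_bypass_subset_support (W.mem_support_of_mem_edges hg hzg)
    rw [abs_sub_comm] at d1 d2
    refine ⟨z, Finset.mem_filter.2 ⟨?_, hball q hq z d1 d2⟩, q, hq, d1, d2⟩
    simp only [W₀, Walk.mem_support_append_iff] at hz
    simpa [or_assoc] using hz

end Vale.Agent.P158.Any
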