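import Mathlib
import Vale.Agent.P158.Any.VarPivot
import Vale.Agent.P158.Facet.VarShift

/-!
P158, arbitrary laws (note 1453, U9, variance): the envelope of the increments of the averaged time
from box to box, and what it is bounded by.
-/

namespace Vale.Agent.P158.Any

open MeasureTheory SimpleGraph Vale.Agent.P158.Facet

/-- The parameters of the approximation: two sites, the radius of the boxes, the lengths of walks, the
depth of the detours, the level of truncation, the level of good edges and the cost of long walks. -/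
structure Scale where
  u : Pt
  v : Pt
  ρ : ℕ
  L : ℕ
  M : ℕ
  k₀ : ℕ
  b : ℝ
  b₀ : ℝ
  c : ℝ
  dist : V4.l1 u v ≤ M
  room : L + 8 * ρ ≤ M
  far : 4 * ρ < V4.l1 u v
  depth : k₀ + 4 ≤ ρ
  one_le : 1 ≤ b₀
  le_b : b₀ ≤ b
  pos : 0 < c
  long : 4 * (b₀ * (18 + 9 * k₀ : ℕ)) ≤ c * L
  long1 : 1 ≤ c * L

namespace Scale

variable (S : Scale) {m : ℕ} {e : Sym2 Pt} {z z' : Cfg}

/-- The short time from box to box. -/
noncomputable def time (z : Cfg) : ℝ := V4.tshort S.b S.dist (zeroBox S.ρ S.u S.v z)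

/-- The pivotal indicator. -/
noncomputable def piv (e : Sym2 Pt) (z : Cfg) : ℝ := pivot S.b S.dist S.ρ e z

/-- Long walks are cheap or the time is large, the weight of `e` aside. -/
def EnvBad (e : Sym2 Pt) (z : Cfg) : Prop :=
  ¬ LongDear S.c S.L S.ρ S.u (Function.update z e 0) ∨ S.c * S.L / 2 ≤ S.time (Function.update z e 0)

/-- Long walks are cheap or the time is large. -/
def BigBad (z : Cfg) : Prop :=
  ¬ LongDear (2 * S.c) S.L S.ρ S.u (fun f => min (z f) 1) ∨ S.c * S.L / 2 ≤ S.time z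

/-- The indicator of a growth from `e` beyond `k`. -/
noncomputable def grow (e : Sym2 Pt) (k : ℕ) (z : Cfg) : ℝ :=
  {ω : Cfg | ¬ NoGrow S.b₀ ω e.toFinset k}.indicator (fun _ => 1) z

/-- The bound of an increment where all least walks use `e`. -/
noncomputable def penalty (e : Sym2 Pt) (z : Cfg) : ℝ :=
  18 * S.b₀ + 9 * S.b₀ * ∑ k ∈ Finset.range S.k₀, S.grow e k z +
    S.b * (S.grow e S.k₀ z + {ω : Cfg | S.EnvBad e ω}.indicator (fun _ => 1) z)

/-- The envelope of the increments. -/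
noncomputable def envl (e : Sym2 Pt) (z : Cfg) : ℝ := S.piv e z * S.penalty e z

/-- What the envelope and its square are bounded by, the exceptions aside. -/
noncomputable def maj (e : Sym2 Pt) (z : Cfg) : ℝ :=
  S.piv e z * (1 + ∑ k ∈ Finset.range S.k₀, (2 * k + 1 : ℝ) * S.grow e k z + S.b ^ 2 * S.grow e S.k₀ z)

theorem b_nonneg : 0 ≤ S.b := zero_le_one.trans (S.one_le.trans S.le_b)

theorem grow_mem (e : Sym2 Pt) (k : ℕ) (z : Cfg) : 0 ≤ S.grow e k z ∧ S.grow e k z ≤ 1 :=
  ⟨Set.indicator_nonneg (fun _ _ => zero_le_one) _, Set.indicator_le_self' (fun _ _ => zero_le_one) _⟩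

theorem piv_mem (e : Sym2 Pt) (z : Cfg) : 0 ≤ S.piv e z ∧ S.piv e z ≤ 1 := pivot_mem e z

theorem penalty_mem (e : Sym2 Pt) (z : Cfg) :
    0 ≤ S.penalty e z ∧ S.penalty e z ≤ 18 * S.b₀ + 9 * S.b₀ * S.k₀ + 2 * S.b := by
  have hs0 := Finset.sum_nonneg fun k (_ : k ∈ Finset.range S.k₀) => (S.grow_mem e k z).1
  have hs1 : ∑ k ∈ Finset.range S.k₀, S.grow e k z ≤ S.k₀ :=
    (Finset.sum_le_card_nsmul _ _ 1 fun k _ => (S.grow_mem e k z).2).trans_eq (by simp)
  obtain ⟨g0, g1⟩ := S.grow_mem e S.k₀ z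
  have i0 : 0 ≤ {ω : Cfg | S.EnvBad e ω}.indicator (fun _ => (1 : ℝ)) z :=
    Set.indicator_nonneg (fun _ _ => zero_le_one) _
  have i1 : {ω : Cfg | S.EnvBad e ω}.indicator (fun _ => (1 : ℝ)) z ≤ 1 :=
    Set.indicator_le_self' (fun _ _ => zero_le_one) _
  have := S.one_le
  have hb := S.b_nonneg
  refine ⟨by unfold penalty; positivity, ?_⟩
  unfold penalty
  have h1 := mul_le_mul_of_nonneg_left hs1 (show (0 : ℝ) ≤ 9 * S.b₀ by positivity)
  have h2 := mul_le_mul_of_nonneg_left
    (show S.grow e S.k₀ z + {ω : Cfg | S.EnvBad e ω}.indicator (fun _ => (1 : ℝ)) z ≤ 2 by linarith) hb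
  linarith

theorem envl_mem (e : Sym2 Pt) (z : Cfg) :
    0 ≤ S.envl e z ∧ S.envl e z ≤ 18 * S.b₀ + 9 * S.b₀ * S.k₀ + 2 * S.b :=
  ⟨mul_nonneg (S.piv_mem e z).1 (S.penalty_mem e z).1,
    (mul_le_of_le_one_left (S.penalty_mem e z).1 (S.piv_mem e z).2).trans (S.penalty_mem e z).2⟩

theorem measurable_time : Measurable S.time :=
  (V4.measurable_tshort _ _).comp (measurable_zeroBox _ _ _)

theorem measurable_grow (e : Sym2 Pt) (k : ℕ) : Measurable (S.grow e k) :=
  measurable_const.indicator (measurableSet_noGrow _ _ _).compl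

theorem measurableSet_longDear (c : ℝ) (L ρ : ℕ) (u : Pt) : MeasurableSet {z : Cfg | LongDear c L ρ u z} := by
  simp only [LongDear, Set.ofPred_forall]
  exact Finset.measurableSet_biInter _ fun a _ => (V4.measurableSet_cheap a L c).compl

theorem measurableSet_envBad (e : Sym2 Pt) : MeasurableSet {z : Cfg | S.EnvBad e z} := by
  classical
  have hm : Measurable fun z : Cfg => Function.update z e 0 := measurable_pi_iff.2 fun f => by
    rcases eq_or_ne f e with rfl | hf
    · simp
    · simp only [ne_eq, hf, not_false_eq_true, Function.update_of_ne]; exact measurable_pi_apply f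
  exact ((hm (measurableSet_longDear _ _ _ _)).compl).union
    (measurableSet_le measurable_const (S.measurable_time.comp hm))

theorem measurableSet_bigBad : MeasurableSet {z : Cfg | S.BigBad z} :=
  (((measurable_pi_iff.2 fun f => (measurable_pi_apply f).min measurable_const :
    Measurable fun z : Cfg => fun f => min (z f) (1 : ℝ)) (measurableSet_longDear _ _ _ _)).compl).union
      (measurableSet_le measurable_const S.measurable_time)

theorem measurable_envl (e : Sym2 Pt) : Measurable (S.envl e) :=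
  (measurable_pivot e).mul ((measurable_const.add
    ((Finset.measurable_sum _ fun k _ => S.measurable_grow e k).const_mul _)).add
      (((S.measurable_grow e S.k₀).add (measurable_const.indicator (S.measurableSet_envBad e))).const_mul _))

theorem measurable_maj (e : Sym2 Pt) : Measurable (S.maj e) :=
  (measurable_pivot e).mul ((measurable_const.add
    (Finset.measurable_sum _ fun k _ => (S.measurable_grow e k).const_mul _)).add
      ((S.measurable_grow e S.k₀).const_mul _))

theorem envl_anti {t : ℝ} (ht : z e ≤ t) : S.envl e (Function.update z e t) ≤ S.envl e z := by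
  have hg : ∀ k, S.grow e k (Function.update z e t) = S.grow e k z := fun k => by
    refine Set.indicator_const_eq_indicator_const ?_
    exact not_congr (noGrow_update (fun a ha => Sym2.mem_toFinset.2 ha) t k)
  have hB : {ω : Cfg | S.EnvBad e ω}.indicator (fun _ => (1 : ℝ)) (Function.update z e t) =
      {ω : Cfg | S.EnvBad e ω}.indicator (fun _ => (1 : ℝ)) z := by
    refine Set.indicator_const_eq_indicator_const ?_
    simp only [Set.mem_ofPred_eq, EnvBad, Function.update_idem]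
  have hp : S.penalty e (Function.update z e t) = S.penalty e z := by
    simp only [penalty, hg, hB]
  rw [envl, envl, hp]
  exact mul_le_mul_of_nonneg_right (pivot_anti ht) (S.penalty_mem e z).1

theorem time_mono {t : ℝ} (ht : z e ≤ t) : S.time z ≤ S.time (Function.update z e t) :=
  tshort_box_mono ht

theorem time_incr {t : ℝ} (ht : z e ≤ t) : S.time (Function.update z e t) - S.time z ≤ S.piv e z * (t - z e) :=
  tshort_box_incr ht

theorem time_envl (he : e ∈ grid.edgeSet) (h0 : ∀ f, 0 ≤ z f) (hb : ∀ f, z f ≤ S.b) {t : ℝ}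
    (ht : z e ≤ t) (htb : t ≤ S.b) : S.time (Function.update z e t) - S.time z ≤ S.envl e z := by
  classical
  by_cases hp : ¬ ZEdge S.ρ S.u S.v e ∧ Need S.b S.dist e (zeroBox S.ρ S.u S.v z)
  swap
  · have := S.time_incr ht
    rw [piv, pivot, Set.indicator_of_notMem (by exact hp), zero_mul] at this
    exact this.trans (S.envl_mem e z).1
  have hpiv : S.piv e z = 1 := Set.indicator_of_mem (s := {ω : Cfg | ¬ ZEdge S.ρ S.u S.v e ∧ Need S.b S.dist e (zeroBox S.ρ S.u S.v ω)}) hp (fun _ => (1 : ℝ))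
  rw [envl, hpiv, one_mul]
  have hincr : S.time (Function.update z e t) - S.time z ≤ S.b := by
    have := S.time_incr ht
    rw [hpiv, one_mul] at this
    linarith [h0 e]
  have hs0 := Finset.sum_nonneg fun k (_ : k ∈ Finset.range S.k₀) => (S.grow_mem e k z).1
  have h1 := S.one_le
  have hB := S.b_nonneg
  obtain ⟨g0, g1⟩ := S.grow_mem e S.k₀ z
  have i0 : 0 ≤ {ω : Cfg | S.EnvBad e ω}.indicator (fun _ => (1 : ℝ)) z :=
    Set.indicator_nonneg (fun _ _ => zero_le_one) _
  by_cases hbad : S.EnvBad e z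
  · refine hincr.trans ?_
    rw [penalty, Set.indicator_of_mem (show z ∈ {ω : Cfg | S.EnvBad e ω} from hbad)]
    linarith [mul_nonneg (show (0 : ℝ) ≤ 9 * S.b₀ by positivity) hs0, mul_nonneg hB g0]
  by_cases hk₀ : NoGrow S.b₀ z e.toFinset S.k₀
  swap
  · refine hincr.trans ?_
    rw [penalty, show S.grow e S.k₀ z = 1 from Set.indicator_of_mem (by exact hk₀) _]
    linarith [mul_nonneg (show (0 : ℝ) ≤ 9 * S.b₀ by positivity) hs0, mul_nonneg hB i0]
  -- the first depth without growth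
  have hex : ∃ k, NoGrow S.b₀ z e.toFinset k := ⟨_, hk₀⟩
  set k := Nat.find hex
  have hk : k ≤ S.k₀ := Nat.find_min' hex hk₀
  simp only [EnvBad, not_or, not_not, not_le] at hbad
  obtain ⟨hdear, htop⟩ := hbad
  set z₀ := Function.update z e 0
  set D := S.b₀ * ((18 + 9 * k : ℕ) : ℝ)
  have hD : D ≤ S.c * S.L / 4 := by
    have : ((18 + 9 * k : ℕ) : ℝ) ≤ ((18 + 9 * S.k₀ : ℕ) : ℝ) := by exact_mod_cast (by omega : _ ≤ _)
    have := mul_le_mul_of_nonneg_left this (zero_le_one.trans S.one_le)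
    linarith [S.long]
  have hD0 : 0 ≤ D := by positivity
  have hng : NoGrow S.b₀ z₀ e.toFinset k :=
    (noGrow_update (fun a ha => Sym2.mem_toFinset.2 ha) 0 k).2 (Nat.find_spec hex)
  have hz₀ : ∀ f, 0 ≤ z₀ f ∧ z₀ f ≤ z f := fun f => by
    rcases eq_or_ne f e with rfl | hf
    · simp [z₀, h0]
    · simp [z₀, Function.update_of_ne hf, h0]
  have hback : Function.update z₀ e (z e) = z := by simp [z₀]
  have s1 : S.time z - S.time z₀ ≤ D := by
    have := incr_detour (h := S.dist) (x := z₀) (e := e) S.room (fun f => (hz₀ f).1)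
      (fun f => (hz₀ f).2.trans (hb f)) (zero_le_one.trans S.one_le) S.pos hdear S.far
      (show k + 4 ≤ S.ρ by have := S.depth; omega) he hng (by change S.time z₀ + D < _; linarith)
      (show z₀ e ≤ z e from (hz₀ e).2) (hb e)
    rwa [hback] at this
  have hdear' : LongDear S.c S.L S.ρ S.u z := hdear.mono fun f => (hz₀ f).2
  have s2 : S.time (Function.update z e t) - S.time z ≤ D :=
    incr_detour (h := S.dist) S.room h0 hb (zero_le_one.trans S.one_le) S.pos hdear' S.far
      (show k + 4 ≤ S.ρ by have := S.depth; omega) he (Nat.find_spec hex)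
      (by change S.time z + D < _; linarith) ht htb
  refine s2.trans ?_
  have hsum : (k : ℝ) ≤ ∑ j ∈ Finset.range S.k₀, S.grow e j z := by
    calc (k : ℝ) = ∑ _j ∈ Finset.range k, (1 : ℝ) := by simp
      _ = ∑ j ∈ Finset.range k, S.grow e j z := Finset.sum_congr rfl fun j hj =>
          (Set.indicator_of_mem (show z ∈ {ω : Cfg | ¬ NoGrow S.b₀ ω e.toFinset j} from
            Nat.find_min hex (Finset.mem_range.1 hj)) (fun _ => (1 : ℝ))).symm
      _ ≤ _ := Finset.sum_le_sum_of_subset_of_nonneg (Finset.range_mono hk) fun j _ _ => (S.grow_mem e j z).1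
  have := mul_le_mul_of_nonneg_left hsum (show (0 : ℝ) ≤ 9 * S.b₀ by positivity)
  rw [penalty]
  simp only [D]
  push_cast
  linarith [mul_nonneg hB (add_nonneg g0 i0)]

/-- The exceptions of one edge are exceptions of all. -/
theorem bigBad_of_envBad (h0 : ∀ f, 0 ≤ z f) (h : S.EnvBad e z) : S.BigBad z := by
  classical
  unfold EnvBad at h
  unfold BigBad
  by_contra hno
  simp only [not_or, not_not, not_le] at hno
  obtain ⟨hdear, htop⟩ := hno
  set z₀ := Function.update z e 0
  have hz₀ : ∀ f, 0 ≤ z₀ f ∧ z₀ f ≤ z f := fun f => by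
    rcases eq_or_ne f e with rfl | hf
    · simp [z₀, h0]
    · simp [z₀, Function.update_of_ne hf, h0]
  rcases h with h | h
  · refine h fun a ha hc => hdear a ha ?_
    simp only [V4.Cheap, Set.mem_iUnion, Set.mem_ofPred_eq] at hc ⊢
    obtain ⟨k, f, hnd, hsum⟩ := hc
    refine ⟨k, f, hnd, ?_⟩
    refine (V4.sum_change (x := fun g => min (z₀ g) 1) (a := e) (b := 1) ?_ zero_le_one (fun g hg => by
      simp [z₀, Function.update_of_ne hg]) _ hnd).trans ?_
    · linarith [min_le_right (z e) 1, le_min (hz₀ e).1 zero_le_one]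
    · have h1 : (((V4.trail (List.ofFn f) a)).map fun g => min (z₀ g) 1).sum ≤
          ((V4.trail (List.ofFn f) a).map z₀).sum := List.sum_le_sum fun g _ => min_le_left _ _
      have h2 : S.c * S.L ≤ S.c * (S.L + k : ℕ) :=
        mul_le_mul_of_nonneg_left (by push_cast; linarith [(Nat.cast_nonneg k : (0 : ℝ) ≤ k)]) S.pos.le
      have := S.long1
      split_ifs <;> linarith
  · have h2 : S.time z₀ ≤ S.time z := by
      have := S.time_mono (z := z₀) (e := e) (hz₀ e).2
      simpa [z₀] using this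
    linarith

/-- The envelope and its square. -/
theorem envl_le (h0 : ∀ f, 0 ≤ z f) :
    S.envl e z ≤ 972 * S.b₀ ^ 2 * (S.maj e z + S.b ^ 2 * (S.piv e z * {ω : Cfg | S.BigBad ω}.indicator (fun _ => 1) z)) ∧
      S.envl e z ^ 2 ≤ 972 * S.b₀ ^ 2 * (S.maj e z + S.b ^ 2 * (S.piv e z * {ω : Cfg | S.BigBad ω}.indicator (fun _ => 1) z)) := by
  set J := {ω : Cfg | S.BigBad ω}.indicator (fun _ => (1 : ℝ)) z
  set I' := {ω : Cfg | S.EnvBad e ω}.indicator (fun _ => (1 : ℝ)) z with hI'
  have hJ : I' ≤ J := by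
    refine Set.indicator_apply_le' (fun hm => ?_) fun _ => Set.indicator_nonneg (fun _ _ => zero_le_one) _
    rw [show J = 1 from Set.indicator_of_mem (show z ∈ {ω : Cfg | S.BigBad ω} from S.bigBad_of_envBad h0 hm) _]
  have hi0 : 0 ≤ I' := Set.indicator_nonneg (fun _ _ => zero_le_one) _
  have hi1 : I' ≤ 1 := Set.indicator_le_self' (fun _ _ => zero_le_one) _
  obtain ⟨g0, g1⟩ := S.grow_mem e S.k₀ z
  have hs : (∑ k ∈ Finset.range S.k₀, S.grow e k z) ^ 2 ≤
      ∑ k ∈ Finset.range S.k₀, (2 * k + 1 : ℝ) * S.grow e k z := by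
    induction S.k₀ with
    | zero => simp
    | succ n ih =>
      rw [Finset.sum_range_succ, Finset.sum_range_succ]
      have h1 : ∑ k ∈ Finset.range n, S.grow e k z ≤ n :=
        (Finset.sum_le_card_nsmul _ _ 1 fun k _ => (S.grow_mem e k z).2).trans_eq (by simp)
      obtain ⟨a0, a1⟩ := S.grow_mem e n z
      nlinarith [mul_le_mul_of_nonneg_right h1 a0, mul_le_mul_of_nonneg_left a1 a0]
  have h1 := S.one_le
  have hB := S.b_nonneg
  have hs0 := Finset.sum_nonneg fun k (_ : k ∈ Finset.range S.k₀) => (S.grow_mem e k z).1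
  set s₁ := ∑ k ∈ Finset.range S.k₀, S.grow e k z
  set s₂ := ∑ k ∈ Finset.range S.k₀, (2 * k + 1 : ℝ) * S.grow e k z
  set g := S.grow e S.k₀ z
  have hpen : S.penalty e z ^ 2 ≤ 972 * S.b₀ ^ 2 * (1 + s₂ + S.b ^ 2 * g + S.b ^ 2 * J) := by
    change (18 * S.b₀ + 9 * S.b₀ * s₁ + S.b * (g + I')) ^ 2 ≤ _
    have hX : (g + I') ^ 2 ≤ 2 * (g + J) := by
      nlinarith [mul_le_mul_of_nonneg_left g1 g0, mul_le_mul_of_nonneg_left hi1 hi0]
    have hb2 : (1 : ℝ) ≤ S.b₀ ^ 2 := one_le_pow₀ h1
    have e1 : (S.b * (g + I')) ^ 2 ≤ S.b₀ ^ 2 * (S.b ^ 2 * (2 * (g + J))) := by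
      refine le_trans ?_ (le_mul_of_one_le_left (by have := hJ.trans' hi0; positivity) hb2)
      rw [mul_pow]
      exact mul_le_mul_of_nonneg_left hX (sq_nonneg _)
    have e2 : (9 * S.b₀ * s₁) ^ 2 ≤ S.b₀ ^ 2 * (81 * s₂) := by
      rw [show (9 * S.b₀ * s₁) ^ 2 = S.b₀ ^ 2 * (81 * s₁ ^ 2) by ring]
      exact mul_le_mul_of_nonneg_left (by linarith) (sq_nonneg _)
    have hS20 : 0 ≤ s₂ := (sq_nonneg _).trans hs
    have hsq : ∀ a c d : ℝ, (a + c + d) ^ 2 ≤ 3 * (a ^ 2 + c ^ 2 + d ^ 2) := fun a c d => by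
      nlinarith [sq_nonneg (a - c), sq_nonneg (a - d), sq_nonneg (c - d)]
    refine (hsq _ _ _).trans ?_
    have hJ0 : 0 ≤ J := hi0.trans hJ
    nlinarith [mul_nonneg (sq_nonneg S.b₀) hS20, mul_nonneg (sq_nonneg S.b₀) (mul_nonneg (sq_nonneg S.b) (add_nonneg g0 hJ0))]
  have hrhs : S.maj e z + S.b ^ 2 * (S.piv e z * J) = S.piv e z * (1 + s₂ + S.b ^ 2 * g + S.b ^ 2 * J) := by
    simp only [maj, s₂, g]; ring
  have hp1 : 1 ≤ S.penalty e z := by
    change 1 ≤ 18 * S.b₀ + 9 * S.b₀ * s₁ + S.b * (g + I')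
    have := mul_nonneg (mul_nonneg (show (0 : ℝ) ≤ 9 by norm_num) (zero_le_one.trans h1)) hs0
    linarith [mul_nonneg hB (add_nonneg g0 hi0)]
  have hp : S.piv e z * S.penalty e z ^ 2 ≤ 972 * S.b₀ ^ 2 * (S.maj e z + S.b ^ 2 * (S.piv e z * J)) := by
    rw [hrhs, mul_left_comm]
    exact mul_le_mul_of_nonneg_left hpen (S.piv_mem e z).1
  refine ⟨le_trans ?_ hp, le_trans ?_ hp⟩
  · rw [envl]
    exact mul_le_mul_of_nonneg_left (by nlinarith) (S.piv_mem e z).1
  · rw [envl, mul_pow]
    exact mul_le_mul_of_nonneg_right (by nlinarith [S.piv_mem e z]) (sq_nonneg _)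

end Scale

end Vale.Agent.P158.Any
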