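import Mathlib
import Vale.Agent.P158.Any.VarEnv

/-!
P158, arbitrary laws (note 1453, U9, variance): the expected envelope, summed over the edges, is of the
order of the length of the walks, and it is small for each edge after averaging over shifts.
-/

namespace Vale.Agent.P158.Any

open MeasureTheory SimpleGraph Vale.Agent.P158.Facet

theorem dear_of_min {c : ℝ} {L r : ℕ} {o : Pt} {z : Cfg} (hc : 0 ≤ c)
    (h : LongDear (2 * c) L r o fun f => min (z f) 1) : LongDear c L r o z := by
  refine fun a ha hz => h a ha ?_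
  have hm := cheap_mono (x := z) (ω := fun f => min (z f) 1) (fun f => min_le_left _ _) hz
  simp only [V4.Cheap, Set.mem_iUnion, Set.mem_ofPred_eq] at hm ⊢
  obtain ⟨k, f, hnd, hsum⟩ := hm
  exact ⟨k, f, hnd, hsum.trans (mul_le_mul_of_nonneg_right (by linarith) (Nat.cast_nonneg _))⟩

theorem measurable_capped : Measurable fun z : Cfg => fun f => min (z f) (1 : ℝ) :=
  measurable_pi_iff.2 fun f => (measurable_pi_apply f).min measurable_const

namespace Scale

variable (S : Scale) (H : Measure ℝ) [IsProbabilityMeasure H]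

/-- The probability of the exceptions. -/
noncomputable def pBad : ℝ := (V4.law H).real {z | S.BigBad z}

theorem integrable_of_mem {F : Cfg → ℝ} (hm : Measurable F) {B : ℝ} (h : ∀ z, 0 ≤ F z ∧ F z ≤ B) :
    Integrable F (V4.law H) :=
  V4.integrable_bdd hm (B := B) fun z => (abs_of_nonneg (h z).1).trans_le (h z).2

theorem integrable_piv (e : Sym2 Pt) : Integrable (S.piv e) (V4.law H) :=
  integrable_of_mem H (measurable_pivot e) (S.piv_mem e)

theorem maj_mem (e : Sym2 Pt) (z : Cfg) :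
    0 ≤ S.maj e z ∧ S.maj e z ≤ 1 + ∑ k ∈ Finset.range S.k₀, (2 * k + 1 : ℝ) + S.b ^ 2 := by
  have h0 : 0 ≤ 1 + ∑ k ∈ Finset.range S.k₀, (2 * k + 1 : ℝ) * S.grow e k z + S.b ^ 2 * S.grow e S.k₀ z := by
    have := Finset.sum_nonneg fun k (_ : k ∈ Finset.range S.k₀) =>
      mul_nonneg (show (0 : ℝ) ≤ 2 * k + 1 by positivity) (S.grow_mem e k z).1
    linarith [mul_nonneg (sq_nonneg S.b) (S.grow_mem e S.k₀ z).1]
  refine ⟨mul_nonneg (S.piv_mem e z).1 h0, (mul_le_of_le_one_left h0 (S.piv_mem e z).2).trans ?_⟩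
  gcongr with k
  · exact mul_le_of_le_one_right (by positivity) (S.grow_mem e k z).2
  · exact mul_le_of_le_one_right (sq_nonneg _) (S.grow_mem e S.k₀ z).2

theorem integrable_piv_grow (e : Sym2 Pt) (k : ℕ) :
    Integrable (fun z => S.piv e z * S.grow e k z) (V4.law H) :=
  integrable_of_mem H ((measurable_pivot e).mul (S.measurable_grow e k)) (B := 1) fun z =>
    ⟨mul_nonneg (S.piv_mem e z).1 (S.grow_mem e k z).1,
      mul_le_one₀ (S.piv_mem e z).2 (S.grow_mem e k z).1 (S.grow_mem e k z).2⟩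

/-- The expectation of the majorant, term by term. -/
theorem integral_maj (e : Sym2 Pt) :
    ∫ z, S.maj e z ∂V4.law H = ∫ z, S.piv e z ∂V4.law H +
      ∑ k ∈ Finset.range S.k₀, (2 * k + 1 : ℝ) * ∫ z, S.piv e z * S.grow e k z ∂V4.law H +
        S.b ^ 2 * ∫ z, S.piv e z * S.grow e S.k₀ z ∂V4.law H := by
  rw [show S.maj e = fun z => S.piv e z + ∑ k ∈ Finset.range S.k₀, (2 * k + 1 : ℝ) * (S.piv e z * S.grow e k z) +
      S.b ^ 2 * (S.piv e z * S.grow e S.k₀ z) from funext fun z => by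
    simp only [maj, mul_add, mul_one, Finset.mul_sum, mul_left_comm]]
  have hs := integrable_finsetSum (Finset.range S.k₀) fun k _ =>
    (S.integrable_piv_grow H e k).const_mul (2 * k + 1 : ℝ)
  rw [integral_add ((S.integrable_piv H e).fun_add hs) ((S.integrable_piv_grow H e S.k₀).const_mul _),
    integral_add (S.integrable_piv H e) hs, integral_finsetSum _ fun k _ =>
      (S.integrable_piv_grow H e k).const_mul (2 * k + 1 : ℝ)]
  simp only [integral_const_mul]

variable (hrate : rate H S.b₀ ≤ 1 / 64)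
include hrate

theorem grow_small (e : Sym2 Pt) (k : ℕ) :
    ∫ z, S.grow e k z ∂V4.law H ≤ 2 ^ 18 * (1 / 64) ^ (k + 1) := by
  unfold grow
  rw [integral_indicator (show MeasurableSet {ω : Cfg | ¬ NoGrow S.b₀ ω e.toFinset k} from
    (measurableSet_noGrow _ _ _).compl), setIntegral_const, smul_eq_mul, mul_one]
  refine (prob_noGrow_le H (hrate.trans (by norm_num)) _ k).trans ?_
  exact mul_le_mul (pow_le_pow_right₀ one_le_two (card_rim_toFinset e))
    (pow_le_pow_left₀ (rate_nonneg H _) hrate _) (pow_nonneg (rate_nonneg H _) _) (by positivity)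

theorem piv_grow_le (e : Sym2 Pt) (k : ℕ) :
    ∫ z, S.piv e z * S.grow e k z ∂V4.law H ≤
      2 ^ 18 * (1 / 64) ^ (k + 1) * ∫ z, {ω : Cfg | Hit S.b S.dist S.ρ e k ω}.indicator (fun _ => (1 : ℝ)) z ∂V4.law H := by
  set g : Cfg → ℝ := {ω : Cfg | Hit S.b S.dist S.ρ e k ω}.indicator fun _ => 1
  have hgm : Measurable g := measurable_const.indicator (measurableSet_hit e k)
  have hg : ∀ z, 0 ≤ g z ∧ g z ≤ 1 := fun z =>
    ⟨Set.indicator_nonneg (fun _ _ => zero_le_one) _, Set.indicator_le_self' (fun _ _ => zero_le_one) _⟩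
  have hms : MeasurableSet {ω : Cfg | ¬ NoGrow S.b₀ ω e.toFinset k} := (measurableSet_noGrow _ _ _).compl
  refine (integral_mono (S.integrable_piv_grow H e k)
    (integrable_of_mem H (hgm.indicator hms) (B := 1) fun z =>
      ⟨Set.indicator_nonneg (fun x _ => (hg x).1) _, (Set.indicator_le_self' (fun x _ => (hg x).1) _).trans (hg z).2⟩)
    fun z => ?_).trans
    ((integral_noGrow_le H (hrate.trans (by norm_num)) e.toFinset k (B := 1) hgm hg ?_).trans ?_)
  · dsimp only
    by_cases hz : z ∈ {ω : Cfg | ¬ NoGrow S.b₀ ω e.toFinset k}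
    · rw [grow, Set.indicator_of_mem hz, Set.indicator_of_mem hz, mul_one]
      exact pivot_le_hit k
    · rw [grow, Set.indicator_of_notMem hz, Set.indicator_of_notMem hz, mul_zero]
  · intro f hf z t t' htt
    refine Set.indicator_apply_le' (fun hm => ?_) fun _ => (hg _).1
    have : Hit S.b S.dist S.ρ e k (Function.update z f t) :=
      hit_anti hf (t := t') (by rwa [Function.update_self]) (by rw [Function.update_idem]; exact hm)
    rw [show g (Function.update z f t) = 1 from Set.indicator_of_mem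
      (show Function.update z f t ∈ {ω : Cfg | Hit S.b S.dist S.ρ e k ω} from this) (fun _ => (1 : ℝ))]
  · exact mul_le_mul_of_nonneg_right (mul_le_mul (pow_le_pow_right₀ one_le_two (card_rim_toFinset e))
      (pow_le_pow_left₀ (rate_nonneg H _) hrate _) (pow_nonneg (rate_nonneg H _) _) (by positivity))
      (integral_nonneg fun z => (hg z).1)

theorem sum_piv_grow_le (F : Finset (Sym2 Pt)) (hF : ∀ f ∈ F, f ∈ grid.edgeSet) (k : ℕ) :
    ∑ f ∈ F, ∫ z, S.piv f z * S.grow f k z ∂V4.law H ≤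
      2 ^ 18 * (1 / 64) ^ (k + 1) * (4 * (2 * k + 5) ^ 2 * (S.M + 1)) := by
  refine (Finset.sum_le_sum fun f _ => S.piv_grow_le H hrate f k).trans ?_
  rw [← Finset.mul_sum]
  refine mul_le_mul_of_nonneg_left ?_ (by positivity)
  have hi : ∀ f, Integrable (fun z => {ω : Cfg | Hit S.b S.dist S.ρ f k ω}.indicator (fun _ => (1 : ℝ)) z) (V4.law H) :=
    fun f => integrable_of_mem H (measurable_const.indicator (measurableSet_hit f k)) (B := 1) fun z =>
      ⟨Set.indicator_nonneg (fun _ _ => zero_le_one) _, Set.indicator_le_self' (fun _ _ => zero_le_one) _⟩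
  rw [← integral_finsetSum _ fun f _ => hi f]
  refine (integral_mono (integrable_finsetSum _ fun f _ => hi f) (integrable_const _)
    fun z => card_hit_le F k hF z).trans_eq ?_
  simp

omit hrate in
theorem poly_geom (k : ℕ) :
    (2 * k + 1 : ℝ) * (4 * (2 * k + 5) ^ 2) * (2 ^ 18 * (1 / 64) ^ (k + 1)) ≤ 409600 * (1 / 2) ^ k := by
  have hk : (0 : ℝ) ≤ k := Nat.cast_nonneg k
  have h1 : (2 * k + 1 : ℝ) ≤ 3 ^ k := by
    have := one_add_mul_le_pow (show (-2 : ℝ) ≤ 2 by norm_num) k
    norm_num at this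
    linarith
  have h2 : (2 * k + 5 : ℝ) ≤ 5 * 3 ^ k := by linarith
  calc (2 * k + 1 : ℝ) * (4 * (2 * k + 5) ^ 2) * (2 ^ 18 * (1 / 64) ^ (k + 1))
      ≤ 3 ^ k * (4 * (5 * 3 ^ k) ^ 2) * (2 ^ 18 * (1 / 64) ^ (k + 1)) := by gcongr
    _ = 409600 * ((3 : ℝ) ^ k * ((3 ^ 2) ^ k) * (1 / 64) ^ k) := by
        rw [mul_pow, pow_succ (1 / 64 : ℝ), pow_right_comm (3 : ℝ) 2 k]; ring
    _ ≤ 409600 * (1 / 2) ^ k := by
        rw [← mul_pow, ← mul_pow]
        exact mul_le_mul_of_nonneg_left (pow_le_pow_left₀ (by norm_num) (by norm_num) k) (by norm_num)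

/-- The majorant summed over all edges. -/
theorem sum_maj_le (F : Finset (Sym2 Pt)) (hF : ∀ f ∈ F, f ∈ grid.edgeSet) :
    ∑ f ∈ F, ∫ z, S.maj f z ∂V4.law H ≤ 1000000 * (1 + S.b ^ 2 * (1 / 2) ^ S.k₀) * (S.M + 1) := by
  have hp : ∑ f ∈ F, ∫ z, S.piv f z ∂V4.law H ≤ (S.M : ℝ) := by
    rw [← integral_finsetSum _ fun f _ => S.integrable_piv H f]
    refine (integral_mono (integrable_finsetSum _ fun f _ => S.integrable_piv H f) (integrable_const _)
      fun z => ?_).trans_eq (by simp : ∫ _z, (S.M : ℝ) ∂V4.law H = S.M)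
    classical
    obtain ⟨p, -, hpM, hl, hle⟩ := exists_least S.b S.dist (zeroBox S.ρ S.u S.v z)
    dsimp only
    simp only [piv, pivot, Set.indicator_apply, Finset.sum_boole]
    refine Nat.cast_le.2 ((Finset.card_le_card (t := p.edges.toFinset) fun f hf => ?_).trans
      ((List.toFinset_card_le _).trans ((Walk.length_edges p).trans_le hpM)))
    have hn := (Finset.mem_filter.1 hf).2.2
    exact List.mem_toFinset.2 (by_contra fun hne => (hn _ hl hne).ne hle.symm)
  have hterm : ∀ k : ℕ, (2 * k + 1 : ℝ) * ∑ f ∈ F, ∫ z, S.piv f z * S.grow f k z ∂V4.law H ≤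
      409600 * (1 / 2) ^ k * (S.M + 1) := fun k => by
    refine (mul_le_mul_of_nonneg_left (S.sum_piv_grow_le H hrate F hF k) (by positivity)).trans ?_
    refine le_trans (le_of_eq ?_) (mul_le_mul_of_nonneg_right (poly_geom k) (by positivity))
    ring
  simp only [S.integral_maj H, Finset.sum_add_distrib, ← Finset.mul_sum]
  rw [Finset.sum_comm]
  simp only [← Finset.mul_sum]
  have h1 := (Finset.sum_le_sum fun k (_ : k ∈ Finset.range S.k₀) => hterm k)
  rw [← Finset.sum_mul, ← Finset.mul_sum] at h1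
  have h2 := mul_le_mul_of_nonneg_right (mul_le_mul_of_nonneg_left (sum_geometric_two_le S.k₀)
    (by norm_num : (0 : ℝ) ≤ 409600)) (show (0 : ℝ) ≤ S.M + 1 by positivity)
  have h3 : S.b ^ 2 * ∑ f ∈ F, ∫ z, S.piv f z * S.grow f S.k₀ z ∂V4.law H ≤
      S.b ^ 2 * (409600 * (1 / 2) ^ S.k₀ * (S.M + 1)) := by
    refine mul_le_mul_of_nonneg_left ((le_mul_of_one_le_left (Finset.sum_nonneg fun f _ =>
      integral_nonneg fun z => mul_nonneg (S.piv_mem f z).1 (S.grow_mem f S.k₀ z).1) ?_).trans (hterm S.k₀)) (sq_nonneg _)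
    have : (0 : ℝ) ≤ S.k₀ := Nat.cast_nonneg _
    linarith
  have : 0 ≤ S.b ^ 2 * (1 / 2 : ℝ) ^ S.k₀ * (S.M + 1) := by positivity
  linarith

/-- The majorant of one edge: the first terms are pivotal probabilities, the others are small. -/
theorem maj_le (e : Sym2 Pt) (K : ℕ) :
    ∫ z, S.maj e z ∂V4.law H ≤ ((K : ℝ) ^ 2 + 1) * ∫ z, S.piv e z ∂V4.law H +
      2 ^ 18 * (2 * (1 / 2) ^ K + S.b ^ 2 * (1 / 2) ^ S.k₀) := by
  rw [S.integral_maj H]
  set P := ∫ z, S.piv e z ∂V4.law H
  have hP : 0 ≤ P := integral_nonneg fun z => (S.piv_mem e z).1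
  set a : ℕ → ℝ := fun k => ∫ z, S.piv e z * S.grow e k z ∂V4.law H
  have ha0 : ∀ k, 0 ≤ a k := fun k => integral_nonneg fun z => mul_nonneg (S.piv_mem e z).1 (S.grow_mem e k z).1
  have ha1 : ∀ k, a k ≤ P := fun k => integral_mono (S.integrable_piv_grow H e k) (S.integrable_piv H e)
    fun z => mul_le_of_le_one_right (S.piv_mem e z).1 (S.grow_mem e k z).2
  have ha2 : ∀ k, a k ≤ 2 ^ 18 * (1 / 64) ^ (k + 1) := fun k =>
    (integral_mono (S.integrable_piv_grow H e k) (integrable_of_mem H (S.measurable_grow e k) (B := 1)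
      (S.grow_mem e k)) fun z => mul_le_of_le_one_left (S.grow_mem e k z).1 (S.piv_mem e z).2).trans
        (S.grow_small H hrate e k)
  have ht : ∀ k : ℕ, (2 * k + 1 : ℝ) * a k ≤ 2 ^ 18 * (1 / 2) ^ k := fun k => by
    have h1 : (2 * k + 1 : ℝ) ≤ 3 ^ k := by
      have := one_add_mul_le_pow (show (-2 : ℝ) ≤ 2 by norm_num) k
      norm_num at this
      linarith
    calc (2 * k + 1 : ℝ) * a k ≤ 3 ^ k * (2 ^ 18 * (1 / 64) ^ (k + 1)) :=
          mul_le_mul h1 (ha2 k) (ha0 k) (by positivity)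
      _ = 2 ^ 18 * ((3 / 64) ^ k * (1 / 64)) := by rw [pow_succ, div_pow, div_pow, one_pow]; ring
      _ ≤ 2 ^ 18 * ((1 / 2) ^ k * 1) := mul_le_mul_of_nonneg_left
          (mul_le_mul (pow_le_pow_left₀ (by norm_num) (by norm_num) k) (by norm_num) (by norm_num) (by positivity))
          (by norm_num)
      _ = _ := by rw [mul_one]
  have hsum : ∑ k ∈ Finset.range S.k₀, (2 * k + 1 : ℝ) * a k ≤ (K : ℝ) ^ 2 * P + 2 ^ 18 * (2 * (1 / 2) ^ K) := by
    refine (Finset.sum_le_sum_of_subset_of_nonneg (Finset.range_mono (show S.k₀ ≤ K + S.k₀ by omega))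
      fun k _ _ => mul_nonneg (by positivity) (ha0 k)).trans ?_
    rw [Finset.sum_range_add]
    refine add_le_add ((Finset.sum_le_sum fun k _ => mul_le_mul_of_nonneg_left (ha1 k) (by positivity)).trans
      (le_of_eq ?_)) ((Finset.sum_le_sum fun k _ => ht (K + k)).trans ?_)
    · rw [← Finset.sum_mul]
      congr 1
      clear * -
      induction K with
      | zero => simp
      | succ n ih => rw [Finset.sum_range_succ, ih]; push_cast; ring
    · simp only [pow_add, ← mul_assoc, ← Finset.mul_sum]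
      have := mul_le_mul_of_nonneg_left (sum_geometric_two_le S.k₀) (show (0 : ℝ) ≤ 2 ^ 18 * (1 / 2) ^ K by positivity)
      linarith
  have h3 : a S.k₀ ≤ 2 ^ 18 * (1 / 2) ^ S.k₀ := by
    refine le_trans (le_mul_of_one_le_left (ha0 _) ?_) (ht S.k₀)
    have : (0 : ℝ) ≤ S.k₀ := Nat.cast_nonneg _
    linarith
  have h4 := mul_le_mul_of_nonneg_left h3 (sq_nonneg S.b)
  simp only [a] at hsum h4
  linarith

/-- After averaging over shifts an edge is rarely pivotal: near its translates the least walk visits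
few sites. -/
theorem sum_shift_piv (hH : ∀ᵐ t ∂H, 0 < t ∧ t ≤ S.b)
    (hcheap : ∀ a n, (V4.law H).real {z : Cfg | (fun f => min (z f) 1) ∈ V4.Cheap a n (2 * S.c)} ≤ 2 * (1 / 4) ^ n)
    {A : ℕ} (hA : 160 * S.b₀ ≤ S.c * A) {m : ℕ} (hm : 10 * m + 50 ≤ S.ρ) {e : Sym2 Pt} (he : e ∈ grid.edgeSet) :
    ∑ y ∈ shifts m, ∫ z, S.piv (Sym2.map (· + -y) e) z ∂V4.law H ≤
      100 * ((8 + A) * (m + 4) + 3) +
        (2 * (m : ℝ) + 1) ^ 2 * ((1 / 2) ^ m + 2 * (2 * (m : ℝ) + 9) ^ 2 * (1 / 4) ^ m + S.pBad H) := by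
  classical
  induction e using Sym2.ind with
  | _ o o' =>
  set R := m + 4 with hR
  set L' := A * R
  set E₁ := {z : Cfg | ¬ NoGrow S.b₀ z (square R o) (8 * R + 8)}
  set E₂ := {z : Cfg | ¬ LongDear (2 * S.c) L' R o fun f => min (z f) 1}
  set E₃ := {z : Cfg | S.BigBad z}
  have hE₁ : MeasurableSet E₁ := (measurableSet_noGrow _ _ _).compl
  have hE₂ : MeasurableSet E₂ := (measurable_capped (measurableSet_longDear _ _ _ _)).compl
  have hE₃ : MeasurableSet E₃ := S.measurableSet_bigBad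
  set N : ℝ := 100 * ((8 + A) * (m + 4) + 3)
  set N' : ℝ := (2 * (m : ℝ) + 1) ^ 2
  have hN : 0 ≤ N := by positivity
  have hN' : 0 ≤ N' := by positivity
  have hcard : ((shifts m).card : ℝ) = N' := by rw [card_shifts]; push_cast; rfl
  have key : ∀ᵐ z ∂V4.law H, ∑ y ∈ shifts m, S.piv (Sym2.map (· + -y) s(o, o')) z ≤
      N + N' * (E₁.indicator (fun _ => 1) z + E₂.indicator (fun _ => 1) z + E₃.indicator (fun _ => 1) z) := by
    filter_upwards [V4.law_all H (measurableSet_Ioc (a := (0 : ℝ)) (b := S.b)) (hH.mono fun t ht => ht)] with z hz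
    have i1 : (0 : ℝ) ≤ E₁.indicator (fun _ => 1) z := Set.indicator_nonneg (fun _ _ => zero_le_one) _
    have i2 : (0 : ℝ) ≤ E₂.indicator (fun _ => 1) z := Set.indicator_nonneg (fun _ _ => zero_le_one) _
    have i3 : (0 : ℝ) ≤ E₃.indicator (fun _ => 1) z := Set.indicator_nonneg (fun _ _ => zero_le_one) _
    by_cases hbad : z ∈ E₁ ∪ E₂ ∪ E₃
    · have h1 : (1 : ℝ) ≤ E₁.indicator (fun _ => 1) z + E₂.indicator (fun _ => 1) z + E₃.indicator (fun _ => 1) z := by
        rcases hbad with (h | h) | h <;> (rw [Set.indicator_of_mem h]; linarith)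
      refine (Finset.sum_le_card_nsmul _ _ 1 fun y _ => (S.piv_mem _ z).2).trans ?_
      rw [nsmul_eq_mul, mul_one, hcard]
      linarith [le_mul_of_one_le_right hN' h1]
    simp only [Set.mem_union, not_or, E₁, E₂, E₃, Set.mem_ofPred_eq, not_not] at hbad
    obtain ⟨⟨hng, hloc⟩, hB⟩ := hbad
    simp only [BigBad, not_or, not_not, not_le] at hB
    refine le_trans ?_ (le_add_of_nonneg_right (mul_nonneg hN' (by linarith)))
    have hnonneg : ∀ f, 0 ≤ z f := fun f => (hz f).1.le
    have hcl : 0 ≤ S.c * (S.L : ℝ) := zero_le_one.trans S.long1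
    have hL' : S.b₀ * ((8 * R + 8 + 9 * (8 * R + 8) : ℕ) : ℝ) ≤ S.c * L' := by
      have h1 : ((8 * R + 8 + 9 * (8 * R + 8) : ℕ) : ℝ) ≤ 160 * R := by
        exact_mod_cast (show 8 * R + 8 + 9 * (8 * R + 8) ≤ 160 * R by omega)
      refine (mul_le_mul_of_nonneg_left h1 (zero_le_one.trans S.one_le)).trans ?_
      have := mul_le_mul_of_nonneg_right hA (Nat.cast_nonneg R : (0 : ℝ) ≤ R)
      simp only [L']
      push_cast
      linarith
    have hcases := exists_near_sites (h := S.dist) S.room hnonneg (fun f => (hz f).2)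
      (zero_le_one.trans S.one_le) S.pos (dear_of_min S.pos.le hB.1) S.far o (R := R) (m' := 8 * R + 8)
      (L' := L') (by omega) hng (dear_of_min S.pos.le hloc) hL'
      (by change S.time z < _; linarith)
    have hadj : grid.Adj o o' := (SimpleGraph.mem_edgeSet grid).1 he
    have hst := star_of_adj hadj
    have hball : ∀ y ∈ shifts m, ∀ a ∈ Sym2.map (· + -y) s(o, o'), ∀ w : Pt,
        |a.1 - w.1| ≤ ((0 : ℕ) : ℤ) + 2 → |a.2 - w.2| ≤ ((0 : ℕ) : ℤ) + 2 → w ∈ square R o := by
      intro y hy a ha w h1 h2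
      simp only [shifts, Finset.mem_product, Finset.mem_Icc] at hy
      simp only [Sym2.map_mk, Sym2.mem_iff] at ha
      obtain ⟨s1, s2⟩ := hst
      simp only [abs_le] at s1 s2 h1 h2
      simp only [square, Finset.mem_product, Finset.mem_Icc]
      rcases ha with rfl | rfl <;>
        simp only [Prod.fst_add, Prod.snd_add, Prod.fst_neg, Prod.snd_neg] at h1 h2 <;> omega
    have hzero : (∀ w ∈ square R o, w ∈ square S.ρ S.u) ∨ (∀ w ∈ square R o, w ∈ square S.ρ S.v) →
        ∀ y ∈ shifts m, S.piv (Sym2.map (· + -y) s(o, o')) z = 0 := fun hor y hy => by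
      refine Set.indicator_of_notMem (s := {ω : Cfg | ¬ ZEdge S.ρ S.u S.v (Sym2.map (· + -y) s(o, o')) ∧
        Need S.b S.dist (Sym2.map (· + -y) s(o, o')) (zeroBox S.ρ S.u S.v ω)}) (fun hmem => hmem.1 ?_) (fun _ => (1 : ℝ))
      rcases hor with h | h
      · exact Or.inl fun a ha => h a (hball y hy a ha a (by simp) (by simp))
      · exact Or.inr fun a ha => h a (hball y hy a ha a (by simp) (by simp))
    rcases hcases with h | h | ⟨T, hT, hnear⟩
    · rw [Finset.sum_eq_zero (hzero (Or.inl h))]; exact hN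
    · rw [Finset.sum_eq_zero (hzero (Or.inr h))]; exact hN
    simp only [piv, pivot, Set.indicator_apply, Finset.sum_boole]
    refine (Nat.cast_le.2 ((Finset.card_le_card_of_injOn (fun y => (Sym2.map (· + -y) s(o, o') : Sym2 Pt))
      (t := ((T.biUnion fun w => square 2 w) ×ˢ (Finset.univ : Finset (Fin 4))).image
        fun q => s(q.1, q.1 + V4.step q.2)) ?_ ?_).trans (Finset.card_image_le.trans (?_ : _ ≤ (8 * R + 3 + L') * (2 * 2 + 1) ^ 2 * 4)))).trans ?_
    · intro y hy
      obtain ⟨hys, hp⟩ := Finset.mem_filter.1 hy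
      have hhit : Hit S.b S.dist S.ρ (Sym2.map (· + -y) s(o, o')) 0 z := by
        by_contra hno
        have h1 := pivot_le_hit (b := S.b) (h := S.dist) (ρ := S.ρ) (e := Sym2.map (· + -y) s(o, o')) (ω := z) 0
        rw [pivot, Set.indicator_of_mem hp, Set.indicator_of_notMem (by exact hno)] at h1
        norm_num at h1
      obtain ⟨w, hw, a, ha, d1, d2⟩ := hnear _ 0 hhit fun a ha w => hball y hys a ha w
      obtain ⟨a', ha'⟩ := Sym2.mem_iff_exists.1 ha
      have hedge : grid.Adj a a' := by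
        have : Sym2.map (· + -y) s(o, o') ∈ grid.edgeSet := (SimpleGraph.mem_edgeSet grid).2 ((V4.shift (-y)).map_rel hadj)
        rw [ha'] at this
        exact (SimpleGraph.mem_edgeSet grid).1 this
      obtain ⟨i, rfl⟩ := V4.exists_step hedge
      refine Finset.mem_image.2 ⟨(a, i), Finset.mem_product.2 ⟨Finset.mem_biUnion.2 ⟨w, hw, ?_⟩, Finset.mem_univ _⟩, ha'.symm⟩
      rw [abs_le] at d1 d2
      simp only [square, Finset.mem_product, Finset.mem_Icc]
      omega
    · intro y _ y' _ h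
      exact shift_injective (a := o) (c := o') (by simpa using h)
    · rw [Finset.card_product, Finset.card_univ, Fintype.card_fin]
      exact Nat.mul_le_mul_right 4 ((Finset.card_biUnion_le_card_mul _ _ _ fun w _ => (card_square 2 w).le).trans
        (Nat.mul_le_mul_right _ hT))
    · simp only [N, R, L']
      push_cast
      linarith
  have hint : ∀ {E : Set Cfg}, MeasurableSet E → Integrable (fun z => E.indicator (fun _ => (1 : ℝ)) z) (V4.law H) :=
    fun hE => (integrable_const 1).indicator hE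
  have hI : ∀ y, Integrable (S.piv (Sym2.map (· + -y) s(o, o'))) (V4.law H) := fun y => S.integrable_piv H _
  rw [← integral_finsetSum _ fun y _ => hI y]
  refine (integral_mono_ae (integrable_finsetSum _ fun y _ => hI y)
    ((integrable_const N).fun_add ((((hint hE₁).fun_add (hint hE₂)).fun_add (hint hE₃)).const_mul N')) key).trans ?_
  rw [integral_add (integrable_const N) ((((hint hE₁).fun_add (hint hE₂)).fun_add (hint hE₃)).const_mul N'),
    integral_const_mul N', integral_add ((hint hE₁).fun_add (hint hE₂)) (hint hE₃), integral_add (hint hE₁) (hint hE₂),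
    integral_indicator hE₁, integral_indicator hE₂, integral_indicator hE₃]
  simp only [integral_const, measureReal_restrict_apply_univ, probReal_univ, smul_eq_mul, mul_one, one_mul]
  refine add_le_add le_rfl (mul_le_mul_of_nonneg_left (add_le_add (add_le_add ?_ ?_) le_rfl) hN')
  · refine (prob_noGrow_le H (hrate.trans (by norm_num)) _ _).trans ?_
    calc 2 ^ (rim (square R o)).card * rate H S.b₀ ^ (8 * R + 8 + 1)
        ≤ 2 ^ (8 * R + 8) * ((1 : ℝ) / 64) ^ (8 * R + 8) := by
          refine mul_le_mul (pow_le_pow_right₀ one_le_two (card_rim_square R o)) ?_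
            (pow_nonneg (rate_nonneg H _) _) (by positivity)
          exact (pow_le_pow_left₀ (rate_nonneg H _) hrate _).trans
            (pow_le_pow_of_le_one (by norm_num) (by norm_num) (Nat.le_succ _))
      _ ≤ ((1 : ℝ) / 2) ^ (8 * R + 8) := by rw [← mul_pow]; exact pow_le_pow_left₀ (by norm_num) (by norm_num) _
      _ ≤ (1 / 2) ^ m := pow_le_pow_of_le_one (by norm_num) (by norm_num) (by omega)
  · have hsub : E₂ ⊆ ⋃ a ∈ square R o, {z : Cfg | (fun f => min (z f) 1) ∈ V4.Cheap a L' (2 * S.c)} := by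
      intro z hz
      simp only [E₂, LongDear, Set.mem_ofPred_eq, not_forall, not_not] at hz
      obtain ⟨a, ha, h⟩ := hz
      exact Set.mem_biUnion ha h
    refine (measureReal_mono hsub (measure_ne_top _ _)).trans ((measureReal_biUnion_finset_le _ _).trans ?_)
    refine (Finset.sum_le_card_nsmul _ _ _ fun a _ => hcheap a L').trans ?_
    rw [nsmul_eq_mul, card_square]
    have hA1 : 1 ≤ A := by
      rcases Nat.eq_zero_or_pos A with rfl | h
      · simp at hA; linarith [S.one_le]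
      · exact h
    have h4 : ((1 : ℝ) / 4) ^ L' ≤ (1 / 4) ^ m :=
      pow_le_pow_of_le_one (by norm_num) (by norm_num) (le_trans (by omega) (Nat.le_mul_of_pos_left R hA1))
    simp only [R]
    push_cast
    nlinarith [sq_nonneg (2 * (m : ℝ) + 9)]

end Scale

end Vale.Agent.P158.Any
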