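import Mathlib
import Vale.Agent.P158.Any.VarInfl
import Vale.Agent.P158.Facet.Split

/-!
P158, arbitrary laws (note 1453, U9, variance): the averaged time from box to box on finitely many
coordinates, and its variance under a monotone transform of uniform marks.
-/

namespace Vale.Agent.P158.Any

open MeasureTheory SimpleGraph Vale.Agent.P158.Facet

namespace Scale

variable (S : Scale) {m : ℕ} {e : Sym2 Pt} {z z' ω : Cfg}

/-- The averaged time from box to box. -/
noncomputable def favg (m : ℕ) (z : Cfg) : ℝ :=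
  (∑ y ∈ shifts m, S.time (V4.moveCfg y z)) / (shifts m).card

/-- The averaged pivotal indicator. -/
noncomputable def pavg (m : ℕ) (e : Sym2 Pt) (z : Cfg) : ℝ :=
  (∑ y ∈ shifts m, S.piv (Sym2.map (· + -y) e) (V4.moveCfg y z)) / (shifts m).card

/-- The averaged envelope. -/
noncomputable def eavg (m : ℕ) (e : Sym2 Pt) (z : Cfg) : ℝ :=
  (∑ y ∈ shifts m, S.envl (Sym2.map (· + -y) e) (V4.moveCfg y z)) / (shifts m).card

/-- The bound of an envelope, with the exceptions. -/
noncomputable def load (e : Sym2 Pt) (z : Cfg) : ℝ :=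
  S.maj e z + S.b ^ 2 * (S.piv e z * {ω : Cfg | S.BigBad ω}.indicator (fun _ => 1) z)

theorem avg_mem {g : Pt → ℝ} {B : ℝ} (m : ℕ) (h : ∀ y, 0 ≤ g y ∧ g y ≤ B) :
    0 ≤ (∑ y ∈ shifts m, g y) / (shifts m).card ∧ (∑ y ∈ shifts m, g y) / (shifts m).card ≤ B := by
  refine ⟨div_nonneg (Finset.sum_nonneg fun y _ => (h y).1) (card_shifts_pos m).le, ?_⟩
  rw [div_le_iff₀ (card_shifts_pos m), mul_comm B, ← nsmul_eq_mul]
  exact Finset.sum_le_card_nsmul _ _ _ fun y _ => (h y).2

theorem time_mem (z : Cfg) : 0 ≤ S.time z ∧ S.time z ≤ S.M * S.b :=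
  V4.tshort_bounds S.b_nonneg S.dist _

theorem favg_mem (m : ℕ) (z : Cfg) : 0 ≤ S.favg m z ∧ S.favg m z ≤ S.M * S.b :=
  avg_mem m fun _ => S.time_mem _

theorem pavg_mem (m : ℕ) (e : Sym2 Pt) (z : Cfg) : 0 ≤ S.pavg m e z ∧ S.pavg m e z ≤ 1 :=
  avg_mem m fun _ => S.piv_mem _ _

theorem eavg_mem (m : ℕ) (e : Sym2 Pt) (z : Cfg) :
    0 ≤ S.eavg m e z ∧ S.eavg m e z ≤ 18 * S.b₀ + 9 * S.b₀ * S.k₀ + 2 * S.b :=
  avg_mem m fun _ => S.envl_mem _ _

theorem measurable_favg (m : ℕ) : Measurable (S.favg m) :=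
  (Finset.measurable_sum _ fun y _ => S.measurable_time.comp (V4.measurable_moveCfg y)).div_const _

theorem measurable_pavg (m : ℕ) (e : Sym2 Pt) : Measurable (S.pavg m e) :=
  (Finset.measurable_sum _ fun y _ => (measurable_pivot _).comp (V4.measurable_moveCfg y)).div_const _

theorem measurable_eavg (m : ℕ) (e : Sym2 Pt) : Measurable (S.eavg m e) :=
  (Finset.measurable_sum _ fun y _ => (S.measurable_envl _).comp (V4.measurable_moveCfg y)).div_const _

theorem favg_mono {t : ℝ} (ht : z e ≤ t) : S.favg m z ≤ S.favg m (Function.update z e t) := by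
  refine div_le_div_of_nonneg_right (Finset.sum_le_sum fun y _ => ?_) (card_shifts_pos m).le
  rw [moveCfg_update]
  exact S.time_mono ((moveCfg_at y z e).trans_le ht)

theorem favg_incr {t : ℝ} (ht : z e ≤ t) :
    S.favg m (Function.update z e t) - S.favg m z ≤ S.pavg m e z * (t - z e) := by
  simp only [favg, pavg]
  rw [← sub_div, div_mul_eq_mul_div, ← Finset.sum_sub_distrib, Finset.sum_mul]
  refine div_le_div_of_nonneg_right (Finset.sum_le_sum fun y _ => ?_) (card_shifts_pos m).le
  have := S.time_incr ((moveCfg_at y z e).trans_le ht)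
  rw [← moveCfg_update, moveCfg_at] at this
  exact this

theorem edge_shift (he : e ∈ grid.edgeSet) (y : Pt) : Sym2.map (· + -y) e ∈ grid.edgeSet := by
  induction e using Sym2.ind with
  | _ a c => exact (SimpleGraph.mem_edgeSet grid).2 ((V4.shift (-y)).map_rel ((SimpleGraph.mem_edgeSet grid).1 he))

theorem favg_envl (he : e ∈ grid.edgeSet) (h0 : ∀ f, 0 ≤ z f) (hb : ∀ f, z f ≤ S.b) {t : ℝ}
    (ht : z e ≤ t) (htb : t ≤ S.b) : S.favg m (Function.update z e t) - S.favg m z ≤ S.eavg m e z := by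
  simp only [favg, eavg]
  rw [← sub_div, ← Finset.sum_sub_distrib]
  refine div_le_div_of_nonneg_right (Finset.sum_le_sum fun y _ => ?_) (card_shifts_pos m).le
  rw [moveCfg_update]
  exact S.time_envl (edge_shift he y) (fun _ => h0 _) (fun _ => hb _) ((moveCfg_at y z e).trans_le ht) htb

theorem eavg_anti {t : ℝ} (ht : z e ≤ t) : S.eavg m e (Function.update z e t) ≤ S.eavg m e z := by
  refine div_le_div_of_nonneg_right (Finset.sum_le_sum fun y _ => ?_) (card_shifts_pos m).le
  rw [moveCfg_update]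
  exact S.envl_anti ((moveCfg_at y z e).trans_le ht)

theorem sum_piv_le (F : Finset (Sym2 Pt)) (z : Cfg) : ∑ f ∈ F, S.piv f z ≤ S.M := by
  classical
  obtain ⟨p, -, hpM, hl, hle⟩ := exists_least S.b S.dist (zeroBox S.ρ S.u S.v z)
  simp only [piv, pivot, Set.indicator_apply, Finset.sum_boole]
  refine Nat.cast_le.2 ((Finset.card_le_card (t := p.edges.toFinset) fun f hf => ?_).trans
    ((List.toFinset_card_le _).trans ((Walk.length_edges p).trans_le hpM)))
  have hn := (Finset.mem_filter.1 hf).2.2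
  exact List.mem_toFinset.2 (by_contra fun hne => (hn _ hl hne).ne hle.symm)

theorem sum_pavg_le (F : Finset (Sym2 Pt)) (z : Cfg) : ∑ f ∈ F, S.pavg m f z ≤ S.M := by
  classical
  simp only [pavg, ← Finset.sum_div]
  rw [Finset.sum_comm, div_le_iff₀ (card_shifts_pos m), mul_comm (S.M : ℝ), ← nsmul_eq_mul]
  refine Finset.sum_le_card_nsmul _ _ _ fun y _ => ?_
  refine le_trans (le_of_eq ?_) (S.sum_piv_le (F.image fun f => Sym2.map (· + -y) f) (V4.moveCfg y z))
  rw [Finset.sum_image (Sym2.map.injective (add_left_injective _)).injOn]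

/-- A larger configuration with the same weights near the sites has no larger envelope. -/
theorem envl_congr (h0 : ∀ f, 0 ≤ z f) (hle : ∀ f, z f ≤ z' f)
    (heq : ∀ f ∈ grid.edgeSet, (∀ a ∈ f, a ∈ square (S.M + S.k₀ + 4) S.u) → z' f = z f) (e : Sym2 Pt) :
    S.time z' = S.time z ∧ S.envl e z' ≤ 972 * S.b₀ ^ 2 * S.load e z ∧
      S.envl e z' ^ 2 ≤ 972 * S.b₀ ^ 2 * S.load e z := by
  classical
  have hbig : ∀ a, a ∈ square S.M S.u → a ∈ square (S.M + S.k₀ + 4) S.u := fun a ha => by
    simp only [square, Finset.mem_product, Finset.mem_Icc] at ha ⊢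
    omega
  have hshort : ∀ l ∈ (V4.shortLists_finite S.M S.u S.v).toFinset, ∀ f ∈ l,
      zeroBox S.ρ S.u S.v z' f = zeroBox S.ρ S.u S.v z f := by
    intro l hl f hf
    obtain ⟨p, -, hpM, rfl⟩ := (Set.Finite.mem_toFinset _).1 hl
    by_cases hz : ZEdge S.ρ S.u S.v f
    · rw [zeroBox_of_z hz, zeroBox_of_z hz]
    · rw [zeroBox_of_not hz, zeroBox_of_not hz]
      exact heq f (p.edges_subset_edgeSet hf) fun a ha =>
        hbig a (support_subset_square p hpM a (p.mem_support_of_mem_edges hf ha))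
  obtain ⟨hneed, htime⟩ := need_congr (b := S.b) S.dist e hshort
  have htime' : S.time z' = S.time z := htime
  refine ⟨htime', ?_⟩
  have h0' : ∀ f, 0 ≤ z' f := fun f => (h0 f).trans (hle f)
  have hpiv : S.piv e z' = S.piv e z :=
    Set.indicator_const_eq_indicator_const (and_congr_right fun _ => hneed)
  have hload : S.load e z' ≤ S.load e z := by
    by_cases hp : ¬ ZEdge S.ρ S.u S.v e ∧ Need S.b S.dist e (zeroBox S.ρ S.u S.v z)
    swap
    · have hp0 : S.piv e z = 0 :=
        Set.indicator_of_notMem (s := {ω : Cfg | ¬ ZEdge S.ρ S.u S.v e ∧ Need S.b S.dist e (zeroBox S.ρ S.u S.v ω)})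
          hp (fun _ => (1 : ℝ))
      simp [load, maj, hpiv, hp0]
    obtain ⟨p, -, hpM, hl, hlew⟩ := exists_least S.b S.dist (zeroBox S.ρ S.u S.v z)
    have hep : e ∈ p.edges := by_contra fun hne => (hp.2 _ hl hne).ne hlew.symm
    have hgrow : ∀ k ≤ S.k₀, S.grow e k z' = S.grow e k z := fun k hk => by
      have hag : ∀ f ∈ grid.edgeSet, Around e.toFinset k f → z' f = z f := fun f hf haro => by
        refine heq f hf fun a ha => ?_
        obtain ⟨a', ha', q, hq, d1, d2⟩ := haro
        have hqM := support_subset_square p hpM q (p.mem_support_of_mem_edges hep (Sym2.mem_toFinset.1 hq))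
        obtain ⟨a'', rfl⟩ := Sym2.mem_iff_exists.1 ha'
        obtain ⟨s1, s2⟩ := star_of_adj ((SimpleGraph.mem_edgeSet grid).1 hf)
        simp only [abs_le] at d1 d2 s1 s2
        simp only [square, Finset.mem_product, Finset.mem_Icc] at hqM ⊢
        rcases Sym2.mem_iff.1 ha with rfl | rfl <;> omega
      exact Set.indicator_const_eq_indicator_const
        (not_congr ⟨noGrow_congr hag, noGrow_congr fun f hf haro => (hag f hf haro).symm⟩)
    have hJ : {ω : Cfg | S.BigBad ω}.indicator (fun _ => (1 : ℝ)) z' ≤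
        {ω : Cfg | S.BigBad ω}.indicator (fun _ => (1 : ℝ)) z := by
      refine Set.indicator_apply_le' (fun hm => ?_) fun _ => Set.indicator_nonneg (fun _ _ => zero_le_one) _
      rw [Set.indicator_of_mem (show z ∈ {ω : Cfg | S.BigBad ω} from ?_)]
      rcases hm with hm | hm
      · exact Or.inl fun hd => hm (hd.mono fun f => min_le_min_right 1 (hle f))
      · exact Or.inr (htime' ▸ hm)
    simp only [load, maj, hpiv, hgrow S.k₀ le_rfl]
    rw [Finset.sum_congr rfl fun k hk => by rw [hgrow k (Finset.mem_range.1 hk).le]]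
    exact add_le_add le_rfl (mul_le_mul_of_nonneg_left (mul_le_mul_of_nonneg_left hJ (S.piv_mem e z).1) (sq_nonneg _))
  have hC : (0 : ℝ) ≤ 972 * S.b₀ ^ 2 := by positivity
  exact ⟨(S.envl_le h0').1.trans (mul_le_mul_of_nonneg_left hload hC),
    (S.envl_le h0').2.trans (mul_le_mul_of_nonneg_left hload hC)⟩

variable (H : Measure ℝ) [IsProbabilityMeasure H]

theorem load_mem (e : Sym2 Pt) (z : Cfg) :
    0 ≤ S.load e z ∧ S.load e z ≤ 1 + ∑ k ∈ Finset.range S.k₀, (2 * k + 1 : ℝ) + S.b ^ 2 + S.b ^ 2 := by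
  have h1 := S.maj_mem e z
  have h2 := S.piv_mem e z
  have i0 : 0 ≤ {ω : Cfg | S.BigBad ω}.indicator (fun _ => (1 : ℝ)) z :=
    Set.indicator_nonneg (fun _ _ => zero_le_one) _
  have i1 : {ω : Cfg | S.BigBad ω}.indicator (fun _ => (1 : ℝ)) z ≤ 1 :=
    Set.indicator_le_self' (fun _ _ => zero_le_one) _
  exact ⟨add_nonneg h1.1 (mul_nonneg (sq_nonneg _) (mul_nonneg h2.1 i0)),
    add_le_add h1.2 (mul_le_of_le_one_right (sq_nonneg _) (mul_le_one₀ h2.2 i0 i1))⟩

theorem measurable_load (e : Sym2 Pt) : Measurable (S.load e) :=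
  (S.measurable_maj e).add (((measurable_pivot e).mul
    (measurable_const.indicator S.measurableSet_bigBad)).const_mul _)

theorem integrable_load (e : Sym2 Pt) : Integrable (S.load e) (V4.law H) :=
  integrable_of_mem H (S.measurable_load e) (S.load_mem e)

theorem integrable_maj (e : Sym2 Pt) : Integrable (S.maj e) (V4.law H) :=
  integrable_of_mem H (S.measurable_maj e) (S.maj_mem e)

theorem integral_load_le (e : Sym2 Pt) :
    ∫ z, S.load e z ∂V4.law H ≤ ∫ z, S.maj e z ∂V4.law H + S.b ^ 2 * S.pBad H := by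
  have hJ : Integrable (fun z => {ω : Cfg | S.BigBad ω}.indicator (fun _ => (1 : ℝ)) z) (V4.law H) :=
    (integrable_const 1).indicator S.measurableSet_bigBad
  refine (integral_mono (S.integrable_load H e) ((S.integrable_maj H e).fun_add (hJ.const_mul _)) fun z =>
    add_le_add le_rfl (mul_le_mul_of_nonneg_left (mul_le_of_le_one_left
      (Set.indicator_nonneg (fun _ _ => zero_le_one) _) (S.piv_mem e z).2) (sq_nonneg _))).trans_eq ?_
  rw [integral_add (S.integrable_maj H e) (hJ.const_mul _), integral_const_mul,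
    integral_indicator S.measurableSet_bigBad, setIntegral_const, smul_eq_mul, mul_one]
  rfl

theorem sum_load_le (hrate : rate H S.b₀ ≤ 1 / 64) (F : Finset (Sym2 Pt)) (hF : ∀ f ∈ F, f ∈ grid.edgeSet) :
    ∑ f ∈ F, ∫ z, S.load f z ∂V4.law H ≤
      1000000 * (1 + S.b ^ 2 * (1 / 2) ^ S.k₀) * (S.M + 1) + S.b ^ 2 * S.pBad H * S.M := by
  have hJm := S.measurableSet_bigBad
  have hJ : Integrable (fun z => {ω : Cfg | S.BigBad ω}.indicator (fun _ => (1 : ℝ)) z) (V4.law H) :=
    (integrable_const 1).indicator hJm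
  rw [← integral_finsetSum _ fun f _ => S.integrable_load H f]
  refine (integral_mono (integrable_finsetSum _ fun f _ => S.integrable_load H f)
    ((integrable_finsetSum F fun f _ => S.integrable_maj H f).fun_add (hJ.const_mul (S.b ^ 2 * S.M)))
    fun z => ?_).trans ?_
  · dsimp only
    simp only [load, Finset.sum_add_distrib, ← Finset.mul_sum, ← Finset.sum_mul]
    refine add_le_add le_rfl ?_
    rw [mul_assoc]
    exact mul_le_mul_of_nonneg_left (mul_le_mul_of_nonneg_right (S.sum_piv_le F z)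
      (Set.indicator_nonneg (fun _ _ => zero_le_one) _)) (sq_nonneg _)
  · rw [integral_add (integrable_finsetSum _ fun f _ => S.integrable_maj H f) (hJ.const_mul _),
      integral_finsetSum _ fun f _ => S.integrable_maj H f, integral_const_mul,
      integral_indicator hJm, setIntegral_const, smul_eq_mul, mul_one]
    refine add_le_add (S.sum_maj_le H hrate F hF) (le_of_eq ?_)
    rw [pBad]
    ring

/-- The averaged time has variance of the order of `ε` times the length of the walks. -/
theorem exists_var_favg {α W : ℝ → ℝ} (hα : ∀ η > 0, 0 < α η) {ε : ℝ} (hε : 0 < ε) :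
    ∃ δ > 0, ∀ (S : Scale) (H : Measure ℝ) [IsProbabilityMeasure H] (w : ℝ → ℝ), Monotone w →
      (∀ u, 0 ≤ w u ∧ w u ≤ S.b) → V4.unif.map w = H → (∀ η > 0, w (α η) ≤ w 0 + η) →
      (∀ τ ∈ Set.Ioo (0 : ℝ) 1, w (1 - τ) - w 0 ≤ W τ) → (∀ᵐ t ∂H, 0 < t ∧ t ≤ S.b) →
      rate H S.b₀ ≤ 1 / 64 → ∀ m : ℕ,
      (∀ e ∈ grid.edgeSet, 972 * S.b₀ ^ 2 *
        ((∑ y ∈ shifts m, ∫ z, S.load (Sym2.map (· + -y) e) z ∂V4.law H) / (shifts m).card) ≤ δ) →
      ∫ ω, S.favg m ω ^ 2 ∂V4.law H - (∫ ω, S.favg m ω ∂V4.law H) ^ 2 ≤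
        ε * ((S.M : ℝ) + 2 * (972 * S.b₀ ^ 2 *
          (1000000 * (1 + S.b ^ 2 * (1 / 2) ^ S.k₀) * (S.M + 1) + S.b ^ 2 * S.pBad H * S.M))) := by
  classical
  obtain ⟨δ, hδ, hsmall⟩ := var_small_env (α := α) (W := W) hα hε
  refine ⟨δ, hδ, fun S H _ w hw hwb hmap hwα hwW hH hrate m hinfl => ?_⟩
  set R₂ := S.M + S.k₀ + m + 8
  set E := (square R₂ S.u ×ˢ (Finset.univ : Finset (Fin 4))).image fun q => s(q.1, q.1 + V4.step q.2)
  have hEedge : ∀ f ∈ E, f ∈ grid.edgeSet := fun f hf => by
    obtain ⟨q, -, rfl⟩ := Finset.mem_image.1 hf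
    refine (SimpleGraph.mem_edgeSet grid).2 ?_
    exact V4.adj_step _ _
  set emb : Fin E.card → Sym2 Pt := fun i => (E.equivFin.symm i : Sym2 Pt) with hemb
  have einj : Function.Injective emb := Subtype.coe_injective.comp (Equiv.injective _)
  have hemE : ∀ i, emb i ∈ grid.edgeSet := fun i => hEedge _ (E.equivFin.symm i).2
  have hex : ∀ f ∈ E, ∃ i, emb i = f := fun f hf => ⟨E.equivFin ⟨f, hf⟩, by simp [hemb]⟩
  set ext : (Fin E.card → ℝ) → Cfg :=
    fun x => Function.extend emb (fun i => V4.clamp S.b (x i)) fun _ => S.b with hext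
  have hati : ∀ x i, ext x (emb i) = V4.clamp S.b (x i) := fun x i => by simp [hext, einj.extend_apply]
  have houter : ∀ x f, (¬ ∃ i, emb i = f) → ext x f = S.b := fun x f hf => by
    simp [hext, Function.extend_apply' _ _ _ hf]
  have hmem : ∀ x f, 0 ≤ ext x f ∧ ext x f ≤ S.b := fun x f => by
    by_cases hf : ∃ i, emb i = f
    · obtain ⟨i, rfl⟩ := hf
      rw [hati]
      exact V4.clamp_mem S.b_nonneg _
    · rw [houter x f hf]
      exact ⟨S.b_nonneg, le_rfl⟩
  have hmext : Measurable ext := measurable_pi_iff.2 fun f => by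
    by_cases hf : ∃ i, emb i = f
    · obtain ⟨i, rfl⟩ := hf
      simp only [hati]
      unfold V4.clamp
      fun_prop
    · simp only [houter _ f hf]
      exact measurable_const
  have hupd : ∀ x i t, ext (Function.update x i t) = Function.update (ext x) (emb i) (V4.clamp S.b t) := by
    intro x i t
    funext f
    rcases eq_or_ne f (emb i) with rfl | hf
    · simp [hati]
    · rw [Function.update_of_ne hf]
      by_cases hj : ∃ j, emb j = f
      · obtain ⟨j, rfl⟩ := hj
        rw [hati, hati, Function.update_of_ne fun hji => hf (by rw [hji])]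
      · rw [houter _ f hj, houter _ f hj]
  set f : (Fin E.card → ℝ) → ℝ := fun x => S.favg m (ext x) with hf
  set P : Fin E.card → (Fin E.card → ℝ) → ℝ := fun i x => S.pavg m (emb i) (ext x) with hP
  set A : Fin E.card → (Fin E.card → ℝ) → ℝ := fun i x => S.eavg m (emb i) (ext x) with hA
  have hcle : ∀ {a c : ℝ}, a ≤ c → V4.clamp S.b c - V4.clamp S.b a ≤ c - a := fun h => by
    linarith [clamp_sub_le (b := S.b) h]
  have henv : Env w f P A (S.M : ℝ) (18 * S.b₀ + 9 * S.b₀ * S.k₀ + 2 * S.b) :=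
    { meas := (S.measurable_favg m).comp hmext
      measP := fun i => (S.measurable_pavg m _).comp hmext
      measA := fun i => (S.measurable_eavg m _).comp hmext
      mem := fun i x => S.pavg_mem m _ _
      memA := fun i x => S.eavg_mem m _ _
      sum_le := fun x => by
        refine le_of_eq_of_le ?_ (S.sum_pavg_le (m := m) (Finset.univ.image emb) (ext x))
        rw [Finset.sum_image einj.injOn]
      mono := fun x i t ht => by
        simp only [hf, hupd]
        exact S.favg_mono ((hati x i).trans_le (clamp_mono ht))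
      incr := fun x i t ht => by
        simp only [hf, hP, hupd]
        refine (S.favg_incr ((hati x i).trans_le (clamp_mono ht))).trans ?_
        rw [hati]
        exact mul_le_mul_of_nonneg_left (hcle ht) (S.pavg_mem m _ _).1
      env := fun x i u _ hle => by
        simp only [hf, hA, hupd]
        exact S.favg_envl (hemE i) (fun g => (hmem x g).1) (fun g => (hmem x g).2)
          ((hati x i).trans_le (clamp_mono hle)) (V4.clamp_mem S.b_nonneg _).2
      anti := fun x i t ht => by
        simp only [hA, hupd]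
        exact S.eavg_anti ((hati x i).trans_le (clamp_mono ht)) }
  -- back to the law
  have htr : ∀ {g : (Fin E.card → ℝ) → ℝ}, Measurable g →
      ∫ U, g (fun j => w (U j)) ∂Measure.pi (fun _ : Fin E.card => V4.unif) =
        ∫ ω, g (ω ∘ emb) ∂V4.law H := by
    intro g hg
    have h1 : (Measure.pi fun _ : Fin E.card => V4.unif).map (fun U j => w (U j)) =
        Measure.pi fun _ : Fin E.card => H := by
      have : SigmaFinite (V4.unif.map w) := by rw [hmap]; infer_instance
      refine (Measure.pi_map_pi (μ := fun _ : Fin E.card => V4.unif) (f := fun _ => w)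
        fun _ => hw.measurable.aemeasurable).trans ?_
      simp only [hmap]
    have h2 : (V4.law H).map (fun ω => ω ∘ emb) = Measure.pi (fun _ : Fin E.card => H) := by
      rw [V4.law, map_comp_injective H emb einj, Measure.infinitePi_eq_pi]
    have hmC : Measurable fun ω : Cfg => ω ∘ emb :=
      measurable_pi_iff.2 fun j => measurable_pi_apply (emb j)
    have hmU : Measurable fun (U : Fin E.card → ℝ) (j : Fin E.card) => w (U j) :=
      measurable_pi_iff.2 fun j => hw.measurable.comp (measurable_pi_apply j)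
    rw [← integral_map hmU.aemeasurable hg.aestronglyMeasurable,
      h1, ← h2, integral_map hmC.aemeasurable hg.aestronglyMeasurable]
  have hgood : ∀ᵐ ω ∂V4.law H, ∀ g, 0 ≤ ω g ∧ ω g ≤ S.b :=
    (V4.law_all H (measurableSet_Ioc (a := (0 : ℝ)) (b := S.b)) (hH.mono fun t ht => ht)).mono
      fun ω h g => ⟨(h g).1.le, (h g).2⟩
  have hcong : ∀ ω : Cfg, (∀ g, 0 ≤ ω g ∧ ω g ≤ S.b) → ∀ y ∈ shifts m, ∀ e,
      S.time (V4.moveCfg y (ext (ω ∘ emb))) = S.time (V4.moveCfg y ω) ∧
        S.envl e (V4.moveCfg y (ext (ω ∘ emb))) ≤ 972 * S.b₀ ^ 2 * S.load e (V4.moveCfg y ω) ∧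
        S.envl e (V4.moveCfg y (ext (ω ∘ emb))) ^ 2 ≤ 972 * S.b₀ ^ 2 * S.load e (V4.moveCfg y ω) := by
    intro ω hω y hy e
    refine S.envl_congr (fun g => (hω _).1) (fun g => ?_) (fun g hg hsq => ?_) e
    · simp only [V4.moveCfg, Function.comp_apply]
      by_cases hj : ∃ j, emb j = Sym2.map (· + y) g
      · obtain ⟨j, hj⟩ := hj
        rw [← hj, hati, Function.comp_apply, V4.clamp_of_mem (hω _).1 (hω _).2]
      · rw [houter _ _ hj]
        exact (hω _).2
    · simp only [V4.moveCfg, Function.comp_apply]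
      obtain ⟨i, hi⟩ := hex (Sym2.map (· + y) g) (by
        induction g using Sym2.ind with
        | _ a a' =>
          obtain ⟨k, rfl⟩ := V4.exists_step ((SimpleGraph.mem_edgeSet grid).1 hg)
          refine Finset.mem_image.2 ⟨(a + y, k), Finset.mem_product.2 ⟨?_, Finset.mem_univ _⟩, ?_⟩
          · have := hsq a (Sym2.mem_mk_left _ _)
            simp only [shifts, Finset.mem_product, Finset.mem_Icc] at hy
            simp only [square, Finset.mem_product, Finset.mem_Icc, R₂, Prod.fst_add, Prod.snd_add] at this ⊢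
            omega
          · simp [add_right_comm])
      rw [← hi, hati, Function.comp_apply, V4.clamp_of_mem (hω _).1 (hω _).2]
  have hshift : ∀ (y : Pt) {F : Cfg → ℝ}, Measurable F →
      ∫ ω, F (V4.moveCfg y ω) ∂V4.law H = ∫ ω, F ω ∂V4.law H := fun y F hF => by
    conv_rhs => rw [← V4.map_moveCfg H y]
    rw [integral_map (V4.measurable_moveCfg y).aemeasurable hF.aestronglyMeasurable]
  have hN := card_shifts_pos m
  set C₀ : ℝ := 972 * S.b₀ ^ 2
  set Q : Fin E.card → Cfg → ℝ := fun i ω => C₀ *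
    ((∑ y ∈ shifts m, S.load (Sym2.map (· + -y) (emb i)) (V4.moveCfg y ω)) / (shifts m).card)
  have hLy : ∀ (y : Pt) (g : Sym2 Pt), Integrable (fun ω => S.load g (V4.moveCfg y ω)) (V4.law H) := fun y g =>
    integrable_of_mem H ((S.measurable_load g).comp (V4.measurable_moveCfg y)) fun ω => S.load_mem _ _
  have hQi : ∀ i, Integrable (Q i) (V4.law H) := fun i =>
    ((integrable_finsetSum _ fun y _ => hLy y _).div_const _).const_mul _
  have hQ : ∀ i, ∫ ω, Q i ω ∂V4.law H =
      C₀ * ((∑ y ∈ shifts m, ∫ z, S.load (Sym2.map (· + -y) (emb i)) z ∂V4.law H) / (shifts m).card) := by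
    intro i
    simp only [Q]
    rw [integral_const_mul, integral_div, integral_finsetSum _ fun y _ => hLy y _]
    simp only [hshift _ (S.measurable_load _)]
  have hle1 : ∀ i, ∀ᵐ ω ∂V4.law H, A i (ω ∘ emb) ≤ Q i ω ∧ A i (ω ∘ emb) ^ 2 ≤ Q i ω := by
    intro i
    filter_upwards [hgood] with ω hω
    simp only [hA, eavg, Q, div_pow, mul_div_assoc', Finset.mul_sum]
    refine ⟨div_le_div_of_nonneg_right (Finset.sum_le_sum fun y hy => (hcong ω hω y hy _).2.1) hN.le, ?_⟩
    rw [div_le_div_iff₀ (by positivity) hN]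
    refine (mul_le_mul_of_nonneg_right (sq_sum_le_card_mul_sum_sq.trans (mul_le_mul_of_nonneg_left
      (Finset.sum_le_sum fun y hy => (hcong ω hω y hy _).2.2) hN.le)) hN.le).trans_eq ?_
    ring
  have hint : ∀ i, ∫ U, A i (fun j => w (U j)) ∂Measure.pi (fun _ : Fin E.card => V4.unif) ≤ ∫ ω, Q i ω ∂V4.law H ∧
      ∫ U, A i (fun j => w (U j)) ^ 2 ∂Measure.pi (fun _ : Fin E.card => V4.unif) ≤ ∫ ω, Q i ω ∂V4.law H := by
    intro i
    rw [htr (henv.measA i), htr (g := fun x => A i x ^ 2) ((henv.measA i).pow_const 2)]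
    exact ⟨integral_mono_of_nonneg (Filter.Eventually.of_forall fun ω => (henv.memA i _).1) (hQi i)
        ((hle1 i).mono fun ω h => h.1),
      integral_mono_of_nonneg (Filter.Eventually.of_forall fun ω => sq_nonneg _) (hQi i)
        ((hle1 i).mono fun ω h => h.2)⟩
  have hsumQ : ∑ i, ∫ ω, Q i ω ∂V4.law H ≤
      C₀ * (1000000 * (1 + S.b ^ 2 * (1 / 2) ^ S.k₀) * (S.M + 1) + S.b ^ 2 * S.pBad H * S.M) := by
    simp only [hQ, ← Finset.mul_sum, ← Finset.sum_div]
    refine mul_le_mul_of_nonneg_left ?_ (by positivity)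
    rw [Finset.sum_comm, div_le_iff₀ hN, mul_comm _ ((shifts m).card : ℝ), ← nsmul_eq_mul]
    refine Finset.sum_le_card_nsmul _ _ _ fun y _ => ?_
    refine le_trans (le_of_eq ?_) (S.sum_load_le H hrate (Finset.univ.image fun i => Sym2.map (· + -y) (emb i))
      fun g hg => ?_)
    · rw [Finset.sum_image fun a _ a' _ h => einj (Sym2.map.injective (add_left_injective _) h)]
    · obtain ⟨i, -, rfl⟩ := Finset.mem_image.1 hg
      exact edge_shift (hemE i) y
  have hfB : ∀ ω, |S.favg m ω| ≤ S.M * S.b := fun ω =>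
    (abs_of_nonneg (S.favg_mem m ω).1).trans_le (S.favg_mem m ω).2
  have hfeq : ∀ᵐ ω ∂V4.law H, f (ω ∘ emb) = S.favg m ω := hgood.mono fun ω hω => by
    simp only [hf, favg]
    exact congrArg (fun t : ℝ => t / ((shifts m).card : ℝ))
      (Finset.sum_congr rfl fun y hy => (hcong ω hω y hy s(S.u, S.u)).1)
  have key := hsmall w hw hwα hwW E.card f P A (S.M : ℝ) (S.M * S.b) _
    _ _ henv (fun U => hfB _) ((Finset.sum_le_sum fun i _ => (hint i).1).trans hsumQ)
    ((Finset.sum_le_sum fun i _ => (hint i).2).trans hsumQ)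
    fun i => (hint i).1.trans ((hQ i).trans_le (hinfl _ (hemE i)))
  rw [htr (g := fun x => f x ^ 2) (henv.meas.pow_const 2), htr henv.meas,
    integral_congr_ae hfeq, integral_congr_ae (hfeq.mono fun ω h => by simp only [h] :
      (fun ω => f (ω ∘ emb) ^ 2) =ᵐ[V4.law H] fun ω => S.favg m ω ^ 2)] at key
  exact key.trans_eq (by ring)

end Scale

end Vale.Agent.P158.Any
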