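import Vale.Agent.P158.Any.Tame
import Vale.Agent.P158.V4.Shape
import Vale.Agent.P158.V4.Norm

/-!
P158, arbitrary laws (note 1452, U4): bounded images of a law, and the time constant as their supremum.
-/

namespace Vale.Agent.P158.Any

open MeasureTheory Filter Topology

/-- An injective, bounded minorant of the identity, equal to it up to `b`. -/
noncomputable def fb (b t : ℝ) : ℝ := if t ≤ b then t else b + (t - b) / (1 + (t - b))

theorem fb_of_le {b t : ℝ} (h : t ≤ b) : fb b t = t := if_pos h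

theorem fb_of_gt {b t : ℝ} (h : b < t) : fb b t = b + (t - b) / (1 + (t - b)) := if_neg (not_le.2 h)

theorem fb_bounds {b t : ℝ} (h : b < t) : b < fb b t ∧ fb b t < b + 1 ∧ fb b t ≤ t := by
  rw [fb_of_gt h]
  have h1 : 0 < t - b := sub_pos.2 h
  refine ⟨lt_add_of_pos_right _ (by positivity), ?_, ?_⟩
  · have : (t - b) / (1 + (t - b)) < 1 := (div_lt_one (by linarith)).2 (by linarith)
    linarith
  · have : (t - b) / (1 + (t - b)) ≤ t - b := (div_le_self h1.le (by linarith))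
    linarith

theorem fb_le_self (b t : ℝ) : fb b t ≤ t := by
  rcases le_or_gt t b with h | h
  · exact (fb_of_le h).le
  · exact (fb_bounds h).2.2

theorem fb_le (b t : ℝ) : fb b t ≤ b + 1 := by
  rcases le_or_gt t b with h | h
  · rw [fb_of_le h]; linarith
  · exact (fb_bounds h).2.1.le

theorem fb_pos {b t : ℝ} (hb : 0 ≤ b) (ht : 0 < t) : 0 < fb b t := by
  rcases le_or_gt t b with h | h
  · rwa [fb_of_le h]
  · exact hb.trans_lt (fb_bounds h).1

theorem fb_le_of_low {b t : ℝ} (h : fb b t ≤ b) : t ≤ b :=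
  le_of_not_gt fun hlt => (fb_bounds hlt).1.not_ge h

theorem fb_strictMono (b : ℝ) : StrictMono (fb b) := by
  intro s t hst
  rcases le_or_gt t b with ht | ht
  · rwa [fb_of_le ht, fb_of_le (hst.le.trans ht)]
  rcases le_or_gt s b with hs | hs
  · rw [fb_of_le hs]
    exact hs.trans_lt (fb_bounds ht).1
  rw [fb_of_gt hs, fb_of_gt ht]
  have h1 : 0 < 1 + (s - b) := by linarith
  have h2 : 0 < 1 + (t - b) := by linarith
  have : (s - b) / (1 + (s - b)) < (t - b) / (1 + (t - b)) := by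
    rw [div_lt_div_iff₀ h1 h2]
    nlinarith
  linarith

theorem fb_mono_level {b c : ℝ} (h : b ≤ c) (t : ℝ) : fb b t ≤ fb c t := by
  rcases le_or_gt t c with hc | hc
  · exact (fb_le_self b t).trans (fb_of_le hc).ge
  have hb : b < t := h.trans_lt hc
  rw [fb_of_gt hb, fb_of_gt hc]
  have h1 : 0 < 1 + (t - b) := by linarith
  have h2 : 0 < 1 + (t - c) := by linarith
  have : (t - b) / (1 + (t - b)) - (t - c) / (1 + (t - c)) ≤ c - b := by
    rw [div_sub_div _ _ h1.ne' h2.ne', div_le_iff₀ (mul_pos h1 h2)]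
    nlinarith [mul_nonneg (sub_nonneg.2 h)
      (show 0 ≤ (1 + (t - b)) * (1 + (t - c)) - 1 by nlinarith)]
  linarith

theorem min_one_le_fb {b t : ℝ} (hb : 1 ≤ b) : min t 1 ≤ fb b t := by
  rcases le_or_gt t b with h | h
  · rw [fb_of_le h]; exact min_le_left _ _
  · exact (min_le_right _ _).trans (hb.trans (fb_bounds h).1.le)

theorem measurable_fb (b : ℝ) : Measurable (fb b) := (fb_strictMono b).monotone.measurable

/-- The truncated configuration. -/
noncomputable def trunc (b : ℝ) (ω : Cfg) : Cfg := fun e => fb b (ω e)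

theorem measurable_trunc (b : ℝ) : Measurable (trunc b) :=
  measurable_pi_iff.2 fun e => (measurable_fb b).comp (measurable_pi_apply e)

theorem trunc_le (b : ℝ) (ω : Cfg) (e : Sym2 Pt) : trunc b ω e ≤ ω e := fb_le_self b _

variable (G : Measure ℝ)

/-- The image of the law under `fb`. -/
noncomputable def lawB (b : ℝ) : Measure ℝ := G.map (fb b)

instance [IsProbabilityMeasure G] (b : ℝ) : IsProbabilityMeasure (lawB G b) :=
  Measure.isProbabilityMeasure_map (measurable_fb b).aemeasurable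

theorem lawB_atom (hatom : ∀ x, G {x} = 0) (b x : ℝ) : lawB G b {x} = 0 := by
  rw [lawB, Measure.map_apply (measurable_fb b) (measurableSet_singleton x)]
  have hsub : (fb b ⁻¹' {x}).Subsingleton := fun s hs t ht =>
    (fb_strictMono b).injective (hs.trans ht.symm)
  rcases hsub.eq_empty_or_singleton with h | ⟨y, h⟩ <;> simp [h, hatom]

theorem lawB_range (hG : ∀ᵐ t ∂G, 0 < t) {b : ℝ} (hb : 0 ≤ b) :
    ∀ᵐ t ∂lawB G b, 0 < t ∧ t ≤ b + 1 := by
  have hm : MeasurableSet {t : ℝ | 0 < t ∧ t ≤ b + 1} := measurableSet_Ioi.inter measurableSet_Iic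
  rw [lawB, ae_map_iff (measurable_fb b).aemeasurable hm]
  exact hG.mono fun t ht => ⟨fb_pos hb ht, fb_le b t⟩

variable [IsProbabilityMeasure G]

theorem map_trunc (b : ℝ) : (V4.law G).map (trunc b) = V4.law (lawB G b) := by
  refine Measure.eq_infinitePi _ fun s t ht => ?_
  rw [Measure.map_apply (measurable_trunc b) (MeasurableSet.pi s.countable_toSet fun i _ => ht i)]
  have : trunc b ⁻¹' Set.pi (s : Set (Sym2 Pt)) t = Set.pi (s : Set (Sym2 Pt)) fun i => fb b ⁻¹' t i := by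
    ext ω; simp [trunc]
  rw [this, V4.law, Measure.infinitePi_pi _ fun i _ => measurable_fb b (ht i)]
  exact Finset.prod_congr rfl fun i _ => (Measure.map_apply (measurable_fb b) (ht i)).symm

/-- The time constant of an arbitrary law. -/
noncomputable def muA (z : ℝ × ℝ) : ℝ := ⨆ n : ℕ, V4.mu (lawB G n) z

theorem mu_lawB_mono (hG : ∀ᵐ t ∂G, 0 < t) {m n : ℕ} (h : m ≤ n) (z : ℝ × ℝ) :
    V4.mu (lawB G m) z ≤ V4.mu (lawB G n) z := by
  have hm := lawB_range G hG (b := m) (Nat.cast_nonneg m)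
  have hn := lawB_range G hG (b := n) (Nat.cast_nonneg n)
  refine le_of_tendsto_of_tendsto' (V4.exists_mu_lim _ hm z) (V4.exists_mu_lim _ hn z) fun k =>
    div_le_div_of_nonneg_right ?_ (Nat.cast_nonneg k)
  have him := V4.tt_integrable _ hm (0, 0) (V4.fl ((k : ℝ) * z.1, (k : ℝ) * z.2))
  have hin := V4.tt_integrable _ hn (0, 0) (V4.fl ((k : ℝ) * z.1, (k : ℝ) * z.2))
  unfold V4.mean
  rw [← map_trunc G m] at him ⊢
  rw [← map_trunc G n] at hin ⊢
  rw [integral_map (measurable_trunc _).aemeasurable him.aestronglyMeasurable,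
    integral_map (measurable_trunc _).aemeasurable hin.aestronglyMeasurable]
  refine integral_mono_ae ((integrable_map_measure him.aestronglyMeasurable
    (measurable_trunc _).aemeasurable).1 him) ((integrable_map_measure hin.aestronglyMeasurable
    (measurable_trunc _).aemeasurable).1 hin) ?_
  filter_upwards [V4.law_all G measurableSet_Ioi hG] with ω hω
  refine V4.le_tt fun p => (V4.tt_le (fun e => ?_) p).trans ?_
  · exact (fb_pos (Nat.cast_nonneg m) (hω e)).le
  · exact List.sum_le_sum fun e _ => fb_mono_level (Nat.cast_le.2 h) _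

section Norm

variable {G} (hG : ∀ᵐ t ∂G, 0 < t) (hbdd : BddAbove (Set.range fun n : ℕ => V4.mu (lawB G n) (1, 0)))
include hG hbdd

theorem bddAbove_mu (z : ℝ × ℝ) : BddAbove (Set.range fun n : ℕ => V4.mu (lawB G n) z) := by
  obtain ⟨M, hM⟩ := hbdd
  refine ⟨M * (|z.1| + |z.2|), ?_⟩
  rintro _ ⟨n, rfl⟩
  exact ((V4.isLatticeNorm_mu _ (lawB_range G hG (Nat.cast_nonneg n))).le_l1 z).trans
    (mul_le_mul_of_nonneg_right (hM ⟨n, rfl⟩) (by positivity))

theorem le_muA (n : ℕ) (z : ℝ × ℝ) : V4.mu (lawB G n) z ≤ muA G z :=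
  le_ciSup (bddAbove_mu hG hbdd z) n

theorem isLatticeNorm_muA : V4.IsLatticeNorm (muA G) := by
  have hn := fun n : ℕ => V4.isLatticeNorm_mu (lawB G n) (lawB_range G hG (Nat.cast_nonneg n))
  refine ⟨fun a ha z => ?_, fun z w => ciSup_le fun n => ((hn n).tri z w).trans
    (add_le_add (le_muA hG hbdd n z) (le_muA hG hbdd n w)), fun x y => ?_, fun x y => ?_, ?_⟩
  · unfold muA
    rw [Real.mul_iSup_of_nonneg ha]
    exact congrArg _ (funext fun n => (hn n).homog a ha z)
  · exact congrArg iSup (funext fun n => (hn n).flip x y)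
  · exact congrArg iSup (funext fun n => (hn n).swap x y)
  · obtain ⟨c, hc, h⟩ := (hn 0).pos
    exact ⟨c, hc, fun x y => (h x y).trans (le_muA hG hbdd 0 (x, y))⟩

/-- The bounded time constants converge uniformly on bounded sets. -/
theorem exists_level {ε : ℝ} (hε : 0 < ε) :
    ∃ n₀ : ℕ, ∀ n, n₀ ≤ n → ∀ z : ℝ × ℝ, muA G z ≤ V4.mu (lawB G n) z + ε * (|z.1| + |z.2|) := by
  have hN := isLatticeNorm_muA hG hbdd
  have hn := fun n : ℕ => V4.isLatticeNorm_mu (lawB G n) (lawB_range G hG (Nat.cast_nonneg n))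
  set m := muA G (1, 0)
  have hm : 0 < m := hN.axis_pos
  obtain ⟨K, hK⟩ := exists_nat_gt (8 * m / ε)
  have hK0 : (0 : ℝ) < K := lt_of_le_of_lt (by positivity) hK
  set pts : Finset (ℤ × ℤ) := Finset.Icc (-(K : ℤ)) K ×ˢ Finset.Icc (-(K : ℤ)) K
  have hconv : ∀ i : ℤ × ℤ, ∀ᶠ n : ℕ in atTop,
      muA G ((i.1 : ℝ) / K, (i.2 : ℝ) / K) - ε / 4 ≤ V4.mu (lawB G n) ((i.1 : ℝ) / K, (i.2 : ℝ) / K) := by
    intro i
    set g : ℝ × ℝ := ((i.1 : ℝ) / K, (i.2 : ℝ) / K)
    obtain ⟨n₁, hn₁⟩ := exists_lt_of_lt_ciSup (f := fun n : ℕ => V4.mu (lawB G n) g)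
      (show muA G g - ε / 4 < ⨆ n : ℕ, V4.mu (lawB G n) g by
        have : muA G g = ⨆ n : ℕ, V4.mu (lawB G n) g := rfl
        linarith)
    refine eventually_atTop.2 ⟨n₁, fun n h => ?_⟩
    have h' := mu_lawB_mono G hG h g
    linarith
  obtain ⟨n₀, hn₀⟩ := eventually_atTop.1 ((Finset.eventually_all pts).2 fun i _ => hconv i)
  refine ⟨n₀, fun n hn' z => ?_⟩
  set s := |z.1| + |z.2| with hs
  have hs0 : 0 ≤ s := by positivity
  rcases hs0.eq_or_lt with h | h
  · have hz : z = (0, 0) := by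
      have := abs_nonneg z.1; have := abs_nonneg z.2
      exact Prod.ext (abs_eq_zero.1 (by linarith)) (abs_eq_zero.1 (by linarith))
    rw [hz, hN.zero, (hn n).zero, ← h]
    simp
  -- round the direction to the grid
  have key : ∀ x : ℝ, |x| ≤ s → ∃ i ∈ Finset.Icc (-(K : ℤ)) K, |x / s - (i : ℝ) / K| ≤ 1 / K := by
    intro x hx
    have h1 : |x / s * K| ≤ K := by
      rw [abs_mul, abs_div, abs_of_pos h, abs_of_pos hK0]
      exact mul_le_of_le_one_left hK0.le ((div_le_one h).2 hx)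
    refine ⟨⌊x / s * K⌋, Finset.mem_Icc.2 ⟨?_, ?_⟩, ?_⟩
    · refine Int.le_floor.2 ?_
      push_cast
      linarith [(abs_le.1 h1).1]
    · exact Int.cast_le.1 ((Int.floor_le _).trans ((abs_le.1 h1).2.trans (by simp)))
    · rw [show x / s - (⌊x / s * K⌋ : ℝ) / K = (x / s * K - ⌊x / s * K⌋) / K by field_simp,
        abs_div, abs_of_pos hK0, Int.self_sub_floor, Int.abs_fract]
      exact div_le_div_of_nonneg_right (Int.fract_lt_one _).le hK0.le
  obtain ⟨i, hi, hix⟩ := key z.1 (le_add_of_nonneg_right (abs_nonneg _))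
  obtain ⟨j, hj, hjy⟩ := key z.2 (le_add_of_nonneg_left (abs_nonneg _))
  have hg := hn₀ n hn' (i, j) (Finset.mem_product.2 ⟨hi, hj⟩)
  set w : ℝ × ℝ := (z.1 / s, z.2 / s)
  set g : ℝ × ℝ := ((i : ℝ) / K, (j : ℝ) / K)
  have hb : |w.1 - g.1| + |w.2 - g.2| ≤ 2 / K := by
    rw [show (2 : ℝ) / K = 1 / K + 1 / K by ring]
    exact add_le_add hix hjy
  have hmK : m * (2 / K) ≤ ε / 4 := by
    rw [mul_div_assoc', div_le_iff₀ hK0]
    rw [div_lt_iff₀ hε] at hK
    linarith
  have e1 := hN.sub_le w g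
  have e2 := (hn n).sub_le g w
  rw [abs_sub_comm g.1, abs_sub_comm g.2] at e2
  have e3 : m * (|w.1 - g.1| + |w.2 - g.2|) ≤ ε / 4 :=
    (mul_le_mul_of_nonneg_left hb hm.le).trans hmK
  have e4 : V4.mu (lawB G n) (1, 0) * (|w.1 - g.1| + |w.2 - g.2|) ≤ ε / 4 :=
    (mul_le_mul_of_nonneg_right (le_muA hG hbdd n (1, 0)) (by positivity)).trans e3
  have hz : z = (s * w.1, s * w.2) := by ext <;> simp [w, mul_div_cancel₀ _ h.ne']
  rw [hz, hN.scale _ _ _ hs0, (hn n).scale _ _ _ hs0]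
  calc s * muA G w ≤ s * (V4.mu (lawB G n) w + ε) := mul_le_mul_of_nonneg_left (by linarith) hs0
    _ = _ := by ring

end Norm

end Vale.Agent.P158.Any
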