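import Mathlib
import Vale.Agent.P158.Any.VarBox
import Vale.Agent.P158.Any.FacetCtx
import Vale.Agent.P158.Any.Law

/-!
P158, arbitrary laws (note 1453, U9, variance): the time between first hubs is the truncated time
from box to box up to the size of the boxes.
-/

namespace Vale.Agent.P158.Any

open MeasureTheory SimpleGraph

/-- Rays are fine and segments carry small animals near the two sites. -/
structure Routes (b₀ : ℝ) (N D : ℕ) (u v : Pt) (ω : Cfg) : Prop where
  ray : ∀ z ∈ square D u ∪ square D v, RayOK b₀ ω z N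
  seg : ∀ p ∈ square (D + N + 1) u ∪ square (D + N + 1) v, ∀ q ∈ square (D + N + 1) u ∪ square (D + N + 1) v,
    NoAnimals b₀ ω (segRoots p q) (2 * V4.l1 p q + N)

variable {b₀ B : ℝ} {N D ρ : ℕ} {u v : Pt} {ω : Cfg}

/-- Hubs of the two neighbourhoods are joined by moderate walks. -/
theorem Routes.exists_seg (hR : Routes b₀ N D u v ω) (hb : 0 ≤ b₀) (h0 : ∀ e, 0 ≤ ω e) {p q : Pt}
    (hp : p ∈ square (D + N + 1) u ∪ square (D + N + 1) v)
    (hq : q ∈ square (D + N + 1) u ∪ square (D + N + 1) v) (hph : Hub b₀ ω Set.univ p)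
    (hqh : Hub b₀ ω Set.univ q) :
    ∃ w : grid.Walk p q, V4.wt ω w ≤ b₀ * (19 * V4.l1 p q + 9 * N) := by
  obtain ⟨w, -, hw⟩ := (hR.seg p hp q hq).seg_bound reg_univ hb h0 hph hqh
    (V4.exists_box_walk p q).choose (fun _ _ => trivial)
  refine ⟨w, hw.trans ?_⟩
  rw [(V4.exists_box_walk p q).choose_spec.1]
  push_cast
  linarith

/-- The first hubs of the two sites. -/
theorem Routes.hubs (hR : Routes b₀ N D u v ω) {o : Pt} (ho : o = u ∨ o = v) :
    Hub b₀ ω Set.univ (firstHub b₀ ω Set.univ o) ∧ firstHub b₀ ω Set.univ o ∈ square (N + 1) o ∧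
      firstHub b₀ ω Set.univ o ∈ square (D + N + 1) u ∪ square (D + N + 1) v := by
  have hoD : o ∈ square D u ∪ square D v := by
    rcases ho with rfl | rfl <;> simp [square]
  obtain ⟨hk, hh⟩ := firstK_le_of_rayOK (S := Set.univ) reg_univ trivial (hR.ray o hoD)
  have hsq : ∀ r : ℕ, N + 1 ≤ r → firstHub b₀ ω Set.univ o ∈ square r o := fun r hr => by
    simp only [firstHub, square, Finset.mem_product, Finset.mem_Icc]
    omega
  refine ⟨hh, hsq _ le_rfl, Finset.mem_union.2 ?_⟩
  rcases ho with rfl | rfl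
  · exact Or.inl (hsq _ (by omega))
  · exact Or.inr (hsq _ (by omega))

/-- The time between the first hubs is moderate. -/
theorem Routes.hubTime_le (hR : Routes b₀ N D u v ω) (hb : 0 ≤ b₀) (h0 : ∀ e, 0 ≤ ω e) :
    hubTime b₀ u v ω ≤ b₀ * (19 * V4.l1 u v + 47 * N + 38) := by
  obtain ⟨hu, hu', hu''⟩ := hR.hubs (o := u) (Or.inl rfl)
  obtain ⟨hv, hv', hv''⟩ := hR.hubs (o := v) (Or.inr rfl)
  obtain ⟨w, hw⟩ := hR.exists_seg hb h0 hu'' hv'' hu hv
  refine ((V4.tt_le h0 w).trans hw).trans (mul_le_mul_of_nonneg_left ?_ hb)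
  have hl : V4.l1 (firstHub b₀ ω Set.univ u) (firstHub b₀ ω Set.univ v) ≤ V4.l1 u v + 2 * N + 2 := by
    simp only [square, Finset.mem_product, Finset.mem_Icc, firstHub] at hu' hv'
    simp only [V4.l1, firstHub]
    omega
  have := (Nat.cast_le (α := ℝ)).2 hl
  push_cast at this
  linarith

theorem zero_trunc_le (hB : 0 ≤ B) (h0 : ∀ e, 0 < ω e) (u v : Pt) (e : Sym2 Pt) :
    zeroBox ρ u v (trunc B ω) e ≤ ω e :=
  (zeroBox_le_self (fun f => (fb_pos hB (h0 f)).le) e).trans (trunc_le B ω e)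

/-- The truncated time from box to box is at most the time between the first hubs. -/
theorem Routes.box_le (hR : Routes b₀ N D u v ω) (hB : 0 ≤ B) (h0 : ∀ e, 0 < ω e) {y : Pt} {m : ℕ}
    (hy : y ∈ square m (0, 0)) (hρ : m + N + 1 ≤ ρ) :
    Xb ρ (u + y) (v + y) (trunc B ω) ≤ hubTime b₀ u v ω := by
  obtain ⟨-, hu', -⟩ := hR.hubs (o := u) (Or.inl rfl)
  obtain ⟨-, hv', -⟩ := hR.hubs (o := v) (Or.inr rfl)
  have hin : ∀ o z : Pt, z ∈ square (N + 1) o → z ∈ square ρ (o + y) := fun o z hz => by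
    simp only [square, Finset.mem_product, Finset.mem_Icc, Prod.fst_add, Prod.snd_add] at hy hz ⊢
    omega
  obtain ⟨s, -, -, hs⟩ := exists_straight (ρ := ρ) (o := u + y) (a := u + y) (by simp [square]) (hin u _ hu')
  obtain ⟨t, -, -, ht⟩ := exists_straight (ρ := ρ) (o := v + y) (hin v _ hv') (c := v + y) (by simp [square])
  refine V4.le_tt fun w => ?_
  refine (V4.tt_le (zeroBox_nonneg fun f => (fb_pos hB (h0 f)).le) (s.append (w.append t))).trans ?_
  rw [V4.wt_append, V4.wt_append, wt_zero_eq_zero s hs (Or.inl rfl), wt_zero_eq_zero t ht (Or.inr rfl),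
    zero_add, add_zero]
  exact List.sum_le_sum fun e _ => zero_trunc_le hB h0 _ _ e

/-- Conversely, the time between the first hubs exceeds the time from box to box by little, while
the latter is below the level of truncation. -/
theorem Routes.le_box (hR : Routes b₀ N D u v ω) (hb : 0 ≤ b₀) (hB : 0 ≤ B) (h0 : ∀ e, 0 < ω e) {y : Pt}
    {m : ℕ} (hy : y ∈ square m (0, 0)) (hρ : m + N + 1 ≤ ρ) (hD : ρ + m ≤ D)
    (hfar : 6 * D + 4 * N + 6 < V4.l1 u v) (hlow : Xb ρ (u + y) (v + y) (trunc B ω) < B) :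
    hubTime b₀ u v ω ≤ Xb ρ (u + y) (v + y) (trunc B ω) + b₀ * (2 * (76 * (D + N + 1) + 9 * N)) := by
  have h0' : ∀ e, 0 ≤ trunc B ω e := fun e => (fb_pos hB (h0 e)).le
  have h00 : ∀ e, 0 ≤ ω e := fun e => (h0 e).le
  set K := b₀ * (2 * (76 * ((D : ℝ) + N + 1) + 9 * N))
  have key : ∀ p : grid.Walk (u + y) (v + y), V4.wt (zeroBox ρ (u + y) (v + y) (trunc B ω)) p < B →
      hubTime b₀ u v ω ≤ V4.wt (zeroBox ρ (u + y) (v + y) (trunc B ω)) p + K := by
    intro p hp
    obtain ⟨w, w', mid, hw, hw', hmp, hnz, hle⟩ := exists_middle (ρ := ρ) h0' p (by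
      simp only [V4.l1, Prod.fst_add, Prod.snd_add] at hfar ⊢
      omega)
    have hw1 : w ∈ square D u := by
      simp only [square, Finset.mem_product, Finset.mem_Icc, Prod.fst_add, Prod.snd_add] at hw hy ⊢
      omega
    have hw2 : w' ∈ square D v := by
      simp only [square, Finset.mem_product, Finset.mem_Icc, Prod.fst_add, Prod.snd_add] at hw' hy ⊢
      omega
    have hT : ∀ z, z ∈ square D u ∪ square D v → Tame b₀ ω Set.univ z N := fun z hz =>
      (hR.ray z hz).tame reg_univ trivial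
    have hnear : ∀ a o : Pt, a ∈ square D o → ∀ d, Near (N + 1) a d → d ∈ square (D + N + 1) o :=
      fun a o ha d hd => by
      simp only [square, Finset.mem_product, Finset.mem_Icc] at ha ⊢
      simp only [Near, abs_le] at hd
      omega
    have hsep : ∀ a c : Pt, a ∈ square (D + N + 1) u → c ∈ square (D + N + 1) v → ¬ Near N a c ∧ ¬ Near N c a :=
      fun a c ha hc => by
      simp only [square, Finset.mem_product, Finset.mem_Icc] at ha hc
      simp only [V4.l1] at hfar
      simp only [Near, abs_le]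
      omega
    obtain ⟨d, hd, hdm, hdn, -⟩ := gate reg_univ trivial (hT w (Finset.mem_union_left _ hw1)) mid
      (fun _ _ => trivial) (hsep w w' (hnear w u hw1 w (by simp [Near]; positivity))
        (hnear w' v hw2 w' (by simp [Near]; positivity))).1
    have hd1 := hnear w u hw1 d hdn
    set r := (mid.dropUntil d hdm).reverse
    obtain ⟨d', hd', hdr, hdn', -⟩ := gate reg_univ trivial (hT w' (Finset.mem_union_right _ hw2)) r
      (fun _ _ => trivial) (hsep d w' hd1 (hnear w' v hw2 w' (by simp [Near]; positivity))).2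
    have hd2 := hnear w' v hw2 d' hdn'
    set mm := (r.dropUntil d' hdr).reverse
    obtain ⟨hu, hu', hu''⟩ := hR.hubs (o := u) (Or.inl rfl)
    obtain ⟨hv, hv', hv''⟩ := hR.hubs (o := v) (Or.inr rfl)
    obtain ⟨a, ha⟩ := hR.exists_seg hb h00 hu'' (Finset.mem_union_left _ hd1) hu hd
    obtain ⟨c, hc⟩ := hR.exists_seg hb h00 (Finset.mem_union_right _ hd2) hv'' hd' hv
    have hsub : ∀ e ∈ mm.edges, e ∈ mid.edges := fun e he => by
      have h1 : e ∈ (r.dropUntil d' hdr).edges := by simpa [mm] using he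
      have h2 := r.edges_dropUntil_subset_edges hdr h1
      exact mid.edges_dropUntil_subset_edges hdm (by simpa [r] using h2)
    have hmm : V4.wt (zeroBox ρ (u + y) (v + y) (trunc B ω)) mm ≤
        V4.wt (zeroBox ρ (u + y) (v + y) (trunc B ω)) mid := by
      have hz := zeroBox_nonneg (ρ := ρ) (u := u + y) (v := v + y) h0'
      have e1 := V4.wt_append (ω := zeroBox ρ (u + y) (v + y) (trunc B ω)) (mid.takeUntil d hdm) (mid.dropUntil d hdm)
      have e2 := V4.wt_append (ω := zeroBox ρ (u + y) (v + y) (trunc B ω)) (r.takeUntil d' hdr) (r.dropUntil d' hdr)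
      rw [Walk.take_spec] at e1 e2
      have n1 := V4.wt_nonneg hz (mid.takeUntil d hdm)
      have n2 := V4.wt_nonneg hz (r.takeUntil d' hdr)
      simp only [mm, r, V4.wt_reverse] at e2 n2 ⊢
      linarith
    have hmeq : V4.wt ω mm = V4.wt (zeroBox ρ (u + y) (v + y) (trunc B ω)) mm := by
      refine congrArg List.sum (List.map_congr_left fun e he => ?_)
      have hez := hnz e (hsub e he)
      rw [zeroBox_of_not hez]
      have hle' : trunc B ω e ≤ V4.wt (zeroBox ρ (u + y) (v + y) (trunc B ω)) mm := by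
        rw [← zeroBox_of_not (ω := trunc B ω) hez]
        refine List.single_le_sum (fun z hz => ?_) _ (List.mem_map_of_mem he)
        obtain ⟨f, -, rfl⟩ := List.mem_map.1 hz
        exact zeroBox_nonneg h0' f
      exact (fb_of_le (fb_le_of_low (show fb B (ω e) ≤ B by change trunc B ω e ≤ B; linarith))).symm
    have h1 := V4.tt_le h00 (a.append (mm.append c))
    rw [V4.wt_append, V4.wt_append, hmeq] at h1
    have hla : V4.l1 (firstHub b₀ ω Set.univ u) d ≤ 4 * (D + N + 1) := by
      simp only [square, Finset.mem_product, Finset.mem_Icc, firstHub] at hu' hd1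
      simp only [V4.l1, firstHub]
      omega
    have hlc : V4.l1 d' (firstHub b₀ ω Set.univ v) ≤ 4 * (D + N + 1) := by
      simp only [square, Finset.mem_product, Finset.mem_Icc, firstHub] at hv' hd2
      simp only [V4.l1, firstHub]
      omega
    have q1 := mul_le_mul_of_nonneg_left ((Nat.cast_le (α := ℝ)).2 hla) hb
    have q2 := mul_le_mul_of_nonneg_left ((Nat.cast_le (α := ℝ)).2 hlc) hb
    push_cast at q1 q2
    change hubTime b₀ u v ω ≤ _ at h1
    simp only [K]
    linarith
  refine le_of_forall_pos_le_add fun η hη => ?_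
  set X := Xb ρ (u + y) (v + y) (trunc B ω) with hX
  have hmin : 0 < min η (B - X) := lt_min hη (sub_pos.2 hlow)
  obtain ⟨p, hp⟩ := exists_lt_of_ciInf_lt
    (show V4.tt (zeroBox ρ (u + y) (v + y) (trunc B ω)) (u + y) (v + y) < X + min η (B - X) by
      change X < X + _; linarith)
  have := key p (by linarith [min_le_right η (B - X)])
  linarith [min_le_left η (B - X)]

variable (G : Measure ℝ) [IsProbabilityMeasure G]

/-- The routes exist but with probability exponentially small in the scale. -/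
theorem prob_not_routes_le (hb : rate G b₀ ≤ 1 / 2) (N D : ℕ) (u v : Pt) :
    (V4.law G).real {ω | ¬ Routes b₀ N D u v ω} ≤
      (80 * ((D : ℝ) + N + 2) ^ 3 + 100 * ((D : ℝ) + N + 2) ^ 4) * (1 / 2) ^ N := by
  classical
  set S := square D u ∪ square D v
  set T := square (D + N + 1) u ∪ square (D + N + 1) v
  set F := {ω : Cfg | ∃ p ∈ T, ∃ q ∈ T, ¬ NoAnimals b₀ ω (segRoots p q) (2 * V4.l1 p q + N)}
  have hsub : {ω : Cfg | ¬ Routes b₀ N D u v ω} ⊆
      (⋃ z ∈ S, {ω : Cfg | ¬ RayOK b₀ ω z N}) ∪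
        ⋃ x ∈ T ×ˢ T, {ω : Cfg | ¬ NoAnimals b₀ ω (segRoots x.1 x.2) (2 * V4.l1 x.1 x.2 + N)} := by
    intro ω hω
    by_contra hno
    simp only [Set.mem_union, Set.mem_iUnion, not_or, not_exists, Set.mem_ofPred_eq, not_not] at hno
    exact hω ⟨fun z hz => hno.1 z hz, fun p hp q hq => hno.2 (p, q) (Finset.mem_product.2 ⟨hp, hq⟩)⟩
  have q0 := rate_nonneg G b₀
  have hS : (S.card : ℝ) ≤ 8 * ((D : ℝ) + N + 2) ^ 2 := by
    refine (Nat.cast_le.2 (Finset.card_union_le _ _)).trans ?_
    rw [card_square, card_square]; push_cast; nlinarith [Nat.cast_nonneg (α := ℝ) D, Nat.cast_nonneg (α := ℝ) N]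
  have hT : (T.card : ℝ) ≤ 8 * ((D : ℝ) + N + 2) ^ 2 := by
    refine (Nat.cast_le.2 (Finset.card_union_le _ _)).trans ?_
    rw [card_square, card_square]; push_cast; nlinarith [Nat.cast_nonneg (α := ℝ) D, Nat.cast_nonneg (α := ℝ) N]
  refine (measureReal_mono hsub (measure_ne_top _ _)).trans ((measureReal_union_le _ _).trans ?_)
  refine (add_le_add ((measureReal_biUnion_finset_le _ _).trans (Finset.sum_le_sum fun z _ =>
    (prob_not_rayOK_le G hb z N).trans (mul_le_mul_of_nonneg_left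
      ((pow_le_pow_left₀ q0 hb _).trans (pow_le_pow_of_le_one (by norm_num) (by norm_num) N.le_succ))
      (by positivity))))
    ((measureReal_biUnion_finset_le _ _).trans (Finset.sum_le_sum fun x _ =>
      (?_ : _ ≤ (1 / 2 : ℝ) ^ N)))).trans ?_
  · refine (prob_not_noAnimals_le G hb _ _).trans ?_
    refine (mul_le_mul (pow_le_pow_right₀ one_le_two (card_segRoots_le x.1 x.2))
      (pow_le_pow_left₀ q0 hb _) (pow_nonneg q0 _) (by positivity)).trans ?_
    rw [show 2 * V4.l1 x.1 x.2 + N + 1 = (V4.l1 x.1 x.2 + 1) + (V4.l1 x.1 x.2 + N) by omega,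
      pow_add (1 / 2 : ℝ), ← mul_assoc, ← mul_pow, show (2 : ℝ) * (1 / 2) = 1 by norm_num, one_pow, one_mul]
    exact pow_le_pow_of_le_one (by norm_num) (by norm_num) (Nat.le_add_left _ _)
  · simp only [Finset.sum_const, nsmul_eq_mul, Finset.card_product, Nat.cast_mul]
    set A := (D : ℝ) + N + 2 with hA
    have hA2 : 2 ≤ A := by linarith [Nat.cast_nonneg (α := ℝ) D, Nat.cast_nonneg (α := ℝ) N]
    have hp : (0 : ℝ) ≤ (1 / 2) ^ N := by positivity
    have h4 : 4 * ((N : ℝ) + 2) ≤ 4 * A := by linarith [Nat.cast_nonneg (α := ℝ) D]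
    refine (add_le_add (mul_le_mul hS (mul_le_mul_of_nonneg_right h4 hp) (by positivity) (by positivity))
      (mul_le_mul_of_nonneg_right (mul_le_mul hT hT (Nat.cast_nonneg _) (by positivity)) hp)).trans ?_
    nlinarith [mul_nonneg (pow_nonneg (zero_le_two.trans hA2) 3) hp, mul_nonneg (pow_nonneg (zero_le_two.trans hA2) 4) hp]

end Vale.Agent.P158.Any
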