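import Mathlib
import Vale.Agent.P158.Any.VarRoute

/-!
P158, arbitrary laws (note 1453, U9, variance): second moments of the time between first hubs, from the
routes at growing scales.
-/

namespace Vale.Agent.P158.Any

open MeasureTheory Filter Topology

variable (G : Measure ℝ) [IsProbabilityMeasure G] {b₀ : ℝ}

theorem prob_routes_zero (hb : rate G b₀ ≤ 1 / 2) (k : ℕ) (u v : Pt) :
    (V4.law G).real {ω | ¬ Routes b₀ k 0 u v ω} ≤ 180 * ((k : ℝ) + 2) ^ 4 * (1 / 2) ^ k := by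
  refine (prob_not_routes_le G hb k 0 u v).trans (mul_le_mul_of_nonneg_right ?_ (by positivity))
  have h2 : (1 : ℝ) ≤ (k : ℝ) + 2 := by linarith [(Nat.cast_nonneg k : (0 : ℝ) ≤ k)]
  have := pow_le_pow_right₀ h2 (show 3 ≤ 4 by norm_num)
  simp only [Nat.cast_zero, zero_add]
  linarith

/-- The square of the time between first hubs over an event: the value at a scale, and a small tail. -/
theorem exists_sq_bound (hG : ∀ᵐ t ∂G, 0 < t) (hb₀ : 0 ≤ b₀) (hb : rate G b₀ ≤ 1 / 2) :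
    ∃ K : ℝ, 0 ≤ K ∧ ∀ (u v : Pt) (k₀ : ℕ) (E : Set Cfg), MeasurableSet E →
      Integrable (fun ω => hubTime b₀ u v ω ^ 2) (V4.law G) ∧
      ∫ ω, E.indicator (fun ω => hubTime b₀ u v ω ^ 2) ω ∂V4.law G ≤
        (b₀ * (19 * V4.l1 u v + 47 * k₀ + 38)) ^ 2 * (V4.law G).real E +
          K * ((V4.l1 u v : ℝ) + 1) ^ 2 * ((k₀ : ℝ) + 1) ^ 6 * (1 / 2) ^ k₀ := by
  set s₆ := ∑' j : ℕ, ((j : ℝ) + 2) ^ 6 * (1 / 2 : ℝ) ^ j
  have hsum6 : Summable fun j : ℕ => ((j : ℝ) + 2) ^ 6 * (1 / 2 : ℝ) ^ j := by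
    have h := ((summable_pow_mul_geometric_of_norm_lt_one 6
      (show ‖(1 / 2 : ℝ)‖ < 1 by norm_num)).comp_injective (add_left_injective 2)).mul_right 4
    refine h.congr fun j => ?_
    simp only [Function.comp_apply, Nat.cast_add, Nat.cast_ofNat, pow_add]
    ring
  refine ⟨85 ^ 2 * b₀ ^ 2 * 180 * s₆, mul_nonneg (by positivity) (tsum_nonneg fun j => by positivity),
    fun u v k₀ E hE => ?_⟩
  set l : ℝ := (V4.l1 u v : ℝ)
  have hl : 0 ≤ l := Nat.cast_nonneg _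
  set g : ℕ → ℝ := fun k => (b₀ * (19 * l + 47 * k + 38)) ^ 2
  set T : ℕ → ℝ := fun j => 85 ^ 2 * b₀ ^ 2 * 180 * (l + 1) ^ 2 * ((k₀ : ℝ) + 1) ^ 6 * (1 / 2) ^ k₀ *
    (((j : ℝ) + 2) ^ 6 * (1 / 2) ^ j)
  have hterm : ∀ j, g (k₀ + j + 1) * (180 * (((k₀ + j : ℕ) : ℝ) + 2) ^ 4 * (1 / 2) ^ (k₀ + j)) ≤ T j := by
    intro j
    have hi : ((k₀ + j : ℕ) : ℝ) + 2 ≤ ((k₀ : ℝ) + 1) * ((j : ℝ) + 2) := by
      push_cast
      nlinarith [(Nat.cast_nonneg k₀ : (0 : ℝ) ≤ k₀), (Nat.cast_nonneg j : (0 : ℝ) ≤ j)]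
    have h1 : 19 * l + 47 * ((k₀ + j + 1 : ℕ) : ℝ) + 38 ≤ 85 * (l + 1) * (((k₀ + j : ℕ) : ℝ) + 2) := by
      push_cast
      nlinarith [(Nat.cast_nonneg k₀ : (0 : ℝ) ≤ k₀), (Nat.cast_nonneg j : (0 : ℝ) ≤ j)]
    calc g (k₀ + j + 1) * (180 * (((k₀ + j : ℕ) : ℝ) + 2) ^ 4 * (1 / 2) ^ (k₀ + j))
        ≤ (b₀ * (85 * (l + 1) * (((k₀ + j : ℕ) : ℝ) + 2))) ^ 2 *
            (180 * (((k₀ + j : ℕ) : ℝ) + 2) ^ 4 * (1 / 2) ^ (k₀ + j)) := by
          refine mul_le_mul_of_nonneg_right (pow_le_pow_left₀ ?_ (mul_le_mul_of_nonneg_left h1 hb₀) 2) (by positivity)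
          exact mul_nonneg hb₀ (by positivity)
      _ = 85 ^ 2 * b₀ ^ 2 * 180 * (l + 1) ^ 2 * (1 / 2) ^ k₀ * (((k₀ + j : ℕ) : ℝ) + 2) ^ 6 * (1 / 2) ^ j := by
          rw [pow_add (1 / 2 : ℝ)]; ring
      _ ≤ 85 ^ 2 * b₀ ^ 2 * 180 * (l + 1) ^ 2 * (1 / 2) ^ k₀ * (((k₀ : ℝ) + 1) * ((j : ℝ) + 2)) ^ 6 * (1 / 2) ^ j := by
          gcongr
      _ = T j := by simp only [T]; rw [mul_pow]; ring
  have hTs : Summable T := hsum6.mul_left _
  have hT0 : ∀ j, 0 ≤ T j := fun j => by positivity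
  -- the bound for the integrals of nonnegative functions
  have key : ∀ F : Set Cfg, MeasurableSet F →
      ∫⁻ ω, ENNReal.ofReal (F.indicator (fun ω => hubTime b₀ u v ω ^ 2) ω) ∂V4.law G ≤
        ENNReal.ofReal (g k₀ * (V4.law G).real F + ∑' j, T j) := by
    intro F hF
    set Eb : ℕ → Set Cfg := fun j => toMeasurable (V4.law G) {ω | ¬ Routes b₀ (k₀ + j) 0 u v ω}
    have hnull : ∀ᵐ ω ∂V4.law G, ∃ j, Routes b₀ (k₀ + j) 0 u v ω := by
      rw [ae_iff, ← measureReal_eq_zero_iff]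
      refine le_antisymm (ge_of_tendsto ((hsum6.mul_left (180 * ((k₀ : ℝ) + 1) ^ 6)).tendsto_atTop_zero)
        (Eventually.of_forall fun j => ?_)) measureReal_nonneg
      refine le_trans ?_ (le_trans (b := 180 * (((k₀ + j : ℕ) : ℝ) + 2) ^ 4 * (1 / 2) ^ (k₀ + j)) le_rfl ?_)
      · refine le_trans ?_ (prob_routes_zero G hb (k₀ + j) u v)
        refine measureReal_mono (fun ω hω => ?_) (measure_ne_top _ _)
        simp only [Set.mem_ofPred_eq, Set.mem_compl_iff, not_exists] at hω ⊢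
        exact hω j
      have h1 : (((k₀ + j : ℕ) : ℝ) + 2) ^ 4 ≤ (((k₀ : ℝ) + 1) * ((j : ℝ) + 2)) ^ 6 := by
        refine (pow_le_pow_right₀ (by linarith [(Nat.cast_nonneg (k₀ + j) : (0 : ℝ) ≤ (k₀ + j : ℕ))])
          (show 4 ≤ 6 by norm_num)).trans (pow_le_pow_left₀ (by positivity) ?_ 6)
        push_cast
        nlinarith [(Nat.cast_nonneg k₀ : (0 : ℝ) ≤ k₀), (Nat.cast_nonneg j : (0 : ℝ) ≤ j)]
      have h2 : ((1 : ℝ) / 2) ^ (k₀ + j) ≤ (1 / 2) ^ j :=
        pow_le_pow_of_le_one (by norm_num) (by norm_num) (Nat.le_add_left j k₀)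
      refine (mul_le_mul (mul_le_mul_of_nonneg_left h1 (by norm_num)) h2 (by positivity) (by positivity)).trans_eq ?_
      rw [mul_pow]
      ring
    have hpt : ∀ᵐ ω ∂V4.law G, ENNReal.ofReal (F.indicator (fun ω => hubTime b₀ u v ω ^ 2) ω) ≤
        ENNReal.ofReal (g k₀) * F.indicator (fun _ => 1) ω +
          ∑' j, ENNReal.ofReal (g (k₀ + j + 1)) * (Eb j).indicator (fun _ => 1) ω := by
      filter_upwards [ae_nonneg hG, hnull] with ω h0 hex
      by_cases hωF : ω ∈ F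
      swap
      · simp [hωF]
      rw [Set.indicator_of_mem hωF, Set.indicator_of_mem hωF, mul_one]
      classical
      have hsq : hubTime b₀ u v ω ^ 2 ≤ g (k₀ + Nat.find hex) :=
        pow_le_pow_left₀ (hubTime_nonneg h0 u v) ((Nat.find_spec hex).hubTime_le hb₀ h0) 2
      rcases hj : Nat.find hex with - | j
      · rw [hj, Nat.add_zero] at hsq
        exact (ENNReal.ofReal_le_ofReal hsq).trans le_self_add
      · rw [hj] at hsq
        refine le_add_left (le_trans ?_ (ENNReal.le_tsum j))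
        rw [Set.indicator_of_mem (show ω ∈ Eb j from subset_toMeasurable _ _ (Nat.find_min hex (by omega))), mul_one]
        exact ENNReal.ofReal_le_ofReal hsq
    refine (lintegral_mono_ae hpt).trans ?_
    rw [lintegral_add_left ((measurable_const.indicator hF).const_mul _),
      lintegral_tsum fun j => ((measurable_const.indicator (measurableSet_toMeasurable _ _)).const_mul _).aemeasurable,
      ENNReal.ofReal_add (mul_nonneg (sq_nonneg _) measureReal_nonneg) (tsum_nonneg hT0),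
      ENNReal.ofReal_tsum_of_nonneg hT0 hTs]
    refine add_le_add (le_of_eq ?_) (ENNReal.tsum_le_tsum fun j => ?_)
    · rw [lintegral_const_mul _ (measurable_const.indicator hF), lintegral_indicator hF, setLIntegral_const,
        one_mul, ENNReal.ofReal_mul (sq_nonneg _), ofReal_measureReal]
    · have hEj : MeasurableSet (Eb j) := measurableSet_toMeasurable _ _
      rw [lintegral_const_mul _ (measurable_const.indicator hEj), lintegral_indicator hEj, setLIntegral_const,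
        one_mul, measure_toMeasurable, ← ofReal_measureReal, ← ENNReal.ofReal_mul (sq_nonneg _)]
      exact ENNReal.ofReal_le_ofReal ((mul_le_mul_of_nonneg_left (prob_routes_zero G hb _ u v) (sq_nonneg _)).trans
        (hterm j))
  have hm : Measurable fun ω => hubTime b₀ u v ω ^ 2 := (measurable_hubTime b₀ u v).pow_const 2
  refine ⟨⟨hm.aestronglyMeasurable, ?_⟩, ?_⟩
  · rw [hasFiniteIntegral_iff_ofReal (Eventually.of_forall fun ω => sq_nonneg _)]
    have := key Set.univ MeasurableSet.univ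
    simp only [Set.indicator_univ] at this
    exact this.trans_lt ENNReal.ofReal_lt_top
  · rw [integral_eq_lintegral_of_nonneg_ae (Eventually.of_forall fun ω => Set.indicator_nonneg (fun _ _ => sq_nonneg _) ω)
      (hm.indicator hE).aestronglyMeasurable]
    refine ENNReal.toReal_le_of_le_ofReal ?_ ((key E hE).trans_eq (congrArg ENNReal.ofReal ?_))
    · have : 0 ≤ s₆ := tsum_nonneg fun j => by positivity
      positivity
    · simp only [T, g]
      rw [tsum_mul_left]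
      ring

/-- The time between first hubs has a second moment. -/
theorem memLp_hubTime (hG : ∀ᵐ t ∂G, 0 < t) (hb₀ : 0 ≤ b₀) (hb : rate G b₀ ≤ 1 / 2) (u v : Pt) :
    MemLp (hubTime b₀ u v) 2 (V4.law G) := by
  obtain ⟨K, -, h⟩ := exists_sq_bound G hG hb₀ hb
  exact (memLp_two_iff_integrable_sq (measurable_hubTime b₀ u v).aestronglyMeasurable).2
    (h u v 0 Set.univ MeasurableSet.univ).1

end Vale.Agent.P158.Any
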