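import Mathlib
import Vale.Agent.P158.Any.VarLaw
import Vale.Agent.P158.Any.VarMoment
import Vale.Agent.P158.V4.MainLanes

/-!
P158, arbitrary laws (note 1453, U9, variance): outside an event of small probability the averaged time
from box to box is close to the time between first hubs; the transform of uniform marks behind a
truncated law.
-/

namespace Vale.Agent.P158.Any

open MeasureTheory Filter Topology Vale.Agent.P158.Facet

variable {G : Measure ℝ} [IsProbabilityMeasure G]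

omit [IsProbabilityMeasure G] in
theorem min_fb {B : ℝ} (hB : 1 ≤ B) (t : ℝ) : min (fb B t) 1 = min t 1 := by
  rcases le_or_gt t B with h | h
  · rw [fb_of_le h]
  · rw [min_eq_right (hB.trans (fb_bounds h).1.le), min_eq_right (hB.trans h.le)]

theorem map_capped : (V4.law G).map (fun z : Cfg => fun f => min (z f) (1 : ℝ)) =
    V4.law (G.map fun t => min t 1) := by
  have hm : Measurable fun t : ℝ => min t 1 := measurable_id.min measurable_const
  have : IsProbabilityMeasure (G.map fun t => min t 1) := Measure.isProbabilityMeasure_map hm.aemeasurable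
  refine Measure.eq_infinitePi _ fun s t ht => ?_
  rw [Measure.map_apply measurable_capped (MeasurableSet.pi s.countable_toSet fun i _ => ht i)]
  have : (fun z : Cfg => fun f => min (z f) (1 : ℝ)) ⁻¹' Set.pi (s : Set (Sym2 Pt)) t =
      Set.pi (s : Set (Sym2 Pt)) fun i => (fun r : ℝ => min r 1) ⁻¹' t i := by
    ext ω; simp
  rw [this, V4.law, Measure.infinitePi_pi _ fun i _ => hm (ht i)]
  exact Finset.prod_congr rfl fun i _ => (Measure.map_apply hm (ht i)).symm

/-- Long paths are dear in capped weights, for all truncations at once. -/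
theorem exists_capped_rate (hG : ∀ᵐ t ∂G, 0 < t) :
    ∃ c > 0, (∀ (a : Pt) (n : ℕ),
      (V4.law G).real {z : Cfg | (fun f => min (z f) 1) ∈ V4.Cheap a n c} ≤ 2 * (1 / 4) ^ n) ∧
      ∀ (B : ℝ), 1 ≤ B → ∀ (a : Pt) (n : ℕ),
        (V4.law (lawB G B)).real {z : Cfg | (fun f => min (z f) 1) ∈ V4.Cheap a n c} ≤ 2 * (1 / 4) ^ n := by
  have hm : Measurable fun t : ℝ => min t 1 := measurable_id.min measurable_const
  have : IsProbabilityMeasure (G.map fun t => min t 1) := Measure.isProbabilityMeasure_map hm.aemeasurable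
  obtain ⟨c, hc, hrate⟩ := V4.exists_cheap_rate (G.map fun t => min t 1)
    ((ae_map_iff hm.aemeasurable measurableSet_Ioi).2 (hG.mono fun t ht => lt_min ht one_pos))
  have h1 : ∀ (a : Pt) (n : ℕ),
      (V4.law G).real {z : Cfg | (fun f => min (z f) 1) ∈ V4.Cheap a n c} ≤ 2 * (1 / 4) ^ n := fun a n => by
    have := ENNReal.toReal_le_of_le_ofReal (by positivity) (hrate a n)
    rwa [← map_capped (G := G), Measure.map_apply measurable_capped (V4.measurableSet_cheap a n c)] at this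
  refine ⟨c, hc, h1, fun B hB a n => ?_⟩
  rw [← map_trunc G B, map_measureReal_apply (measurable_trunc B)
    (show MeasurableSet {z : Cfg | (fun f => min (z f) 1) ∈ V4.Cheap a n c} from
      measurable_capped (V4.measurableSet_cheap a n c))]
  refine le_of_eq_of_le ?_ (h1 a n)
  simp only [Set.preimage_ofPred_eq, trunc, min_fb hB]

omit [IsProbabilityMeasure G] in
theorem rate_lawB {b₀ B : ℝ} (h : b₀ ≤ B) : rate (lawB G B) b₀ = rate G b₀ := by
  have : (lawB G B).real (Set.Ioi b₀) = G.real (Set.Ioi b₀) := by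
    rw [lawB, map_measureReal_apply (measurable_fb B) measurableSet_Ioi]
    refine congrArg _ (Set.ext fun t => ?_)
    simp only [Set.mem_preimage, Set.mem_Ioi]
    constructor
    · exact fun ht => ht.trans_le (fb_le_self B t)
    · intro ht
      rcases le_or_gt t B with h' | h'
      · rwa [fb_of_le h']
      · exact h.trans_lt (fb_bounds h').1
  rw [rate, rate, this]

theorem zero_move (ρ : ℕ) (u v y : Pt) (z : Cfg) :
    zeroBox ρ u v (V4.moveCfg y z) = V4.moveCfg y (zeroBox ρ (u + y) (v + y) z) := by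
  classical
  have hiff : ∀ f, ZEdge ρ (u + y) (v + y) (Sym2.map (· + y) f) ↔ ZEdge ρ u v f := fun f => by
    induction f using Sym2.ind with
    | _ a a' =>
      simp only [ZEdge, Sym2.map_mk, Sym2.mem_iff, forall_eq_or_imp, forall_eq, square, Finset.mem_product,
        Finset.mem_Icc, Prod.fst_add, Prod.snd_add]
      omega
  funext f
  show zeroBox ρ u v (V4.moveCfg y z) f = zeroBox ρ (u + y) (v + y) z (Sym2.map (· + y) f)
  by_cases hz : ZEdge ρ u v f
  · rw [zeroBox_of_z hz, zeroBox_of_z ((hiff f).2 hz)]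
  · rw [zeroBox_of_not hz, zeroBox_of_not fun h => hz ((hiff f).1 h)]
    rfl

theorem xb_move (ρ : ℕ) (u v y : Pt) (z : Cfg) :
    Xb ρ u v (V4.moveCfg y z) = Xb ρ (u + y) (v + y) z := by
  rw [Xb, Xb, zero_move, V4.tt_move_any]

variable (S : Scale) {B : ℝ} {N D m : ℕ} {ω : Cfg}

/-- Long walks are dear from the box of the first site in every translate of the weights. -/
def Dear (c : ℝ) (L ρ : ℕ) (u : Pt) (Y : Finset Pt) (ω : Cfg) : Prop :=
  ∀ y ∈ Y, LongDear c L ρ u fun f => min (V4.moveCfg y ω f) 1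

theorem prob_not_dear {c : ℝ}
    (h1 : ∀ (a : Pt) (n : ℕ), (V4.law G).real {z : Cfg | (fun f => min (z f) 1) ∈ V4.Cheap a n c} ≤ 2 * (1 / 4) ^ n)
    (L ρ : ℕ) (u : Pt) (Y : Finset Pt) :
    (V4.law G).real {ω | ¬ Dear c L ρ u Y ω} ≤
      Y.card * ((2 * (ρ : ℝ) + 1) ^ 2 * (2 * (1 / 4) ^ L)) := by
  have hsub : {ω | ¬ Dear c L ρ u Y ω} ⊆ ⋃ y ∈ Y, ⋃ a ∈ square ρ u,
      V4.moveCfg y ⁻¹' {z : Cfg | (fun f => min (z f) 1) ∈ V4.Cheap a L c} := by
    intro ω hω
    simp only [Dear, LongDear, Set.mem_ofPred_eq, not_forall, not_not] at hω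
    obtain ⟨y, hy, a, ha, h⟩ := hω
    exact Set.mem_biUnion hy (Set.mem_biUnion ha h)
  refine (measureReal_mono hsub (measure_ne_top _ _)).trans ((measureReal_biUnion_finset_le _ _).trans ?_)
  refine (Finset.sum_le_card_nsmul _ _ _ fun y _ => (measureReal_biUnion_finset_le _ _).trans
    (Finset.sum_le_card_nsmul _ _ _ fun a _ => le_of_eq_of_le ?_ (h1 a L))).trans_eq ?_
  · rw [← map_measureReal_apply (V4.measurable_moveCfg y)
      (show MeasurableSet {z : Cfg | (fun f => min (z f) 1) ∈ V4.Cheap a L c} from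
        measurable_capped (V4.measurableSet_cheap a L c)), V4.map_moveCfg]
  · simp only [nsmul_eq_mul, card_square]
    push_cast
    ring

/-- On the good event the averaged time from box to box is close to the time between first hubs. -/
theorem favg_close {β : ℝ} (hb₀ : 0 ≤ β) (hR : Routes β N D S.u S.v ω) (hB : 1 ≤ B) (hb : B + 1 ≤ S.b) (h0 : ∀ e, 0 < ω e)
    (hρ : m + N + 1 ≤ S.ρ) (hD : S.ρ + m ≤ D) (hfar : 6 * D + 4 * N + 6 < V4.l1 S.u S.v)
    (hdear : Dear (2 * S.c) S.L S.ρ S.u (shifts m) ω)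
    (hlow : β * (19 * V4.l1 S.u S.v + 47 * N + 38) < min B (S.c * S.L / 2)) :
    ¬ S.BigBad (trunc B ω) ∧
      |hubTime β S.u S.v ω - S.favg m (trunc B ω)| ≤ β * (2 * (76 * ((D : ℝ) + N + 1) + 9 * N)) := by
  have hB0 : 0 ≤ B := zero_le_one.trans hB
  have hX := (hR.hubTime_le hb₀ fun e => (h0 e).le).trans_lt hlow
  rw [lt_min_iff] at hX
  obtain ⟨hXB, hXL⟩ := hX
  have hcap : ∀ y, (fun f => min (V4.moveCfg y (trunc B ω) f) (1 : ℝ)) = fun f => min (V4.moveCfg y ω f) 1 := fun y =>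
    funext fun f => min_fb hB _
  have hkey : ∀ y ∈ shifts m, S.time (V4.moveCfg y (trunc B ω)) ≤ hubTime β S.u S.v ω ∧
      hubTime β S.u S.v ω ≤ S.time (V4.moveCfg y (trunc B ω)) + β * (2 * (76 * ((D : ℝ) + N + 1) + 9 * N)) := by
    intro y hy
    have hys : y ∈ square m (0, 0) := by
      simpa [shifts, square] using hy
    have h1 := hR.box_le hB0 h0 hys hρ
    have hd : LongDear S.c S.L S.ρ S.u (V4.moveCfg y (trunc B ω)) :=
      dear_of_min S.pos.le (by rw [hcap]; exact hdear y hy)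
    have hx : Xb S.ρ S.u S.v (V4.moveCfg y (trunc B ω)) < S.c * S.L := by
      rw [xb_move]
      linarith [mul_pos S.pos (show (0 : ℝ) < S.L by
        rcases Nat.eq_zero_or_pos S.L with h | h
        · have := S.long1; rw [h] at this; norm_num at this
        · exact_mod_cast h)]
    have he : S.time (V4.moveCfg y (trunc B ω)) = Xb S.ρ (S.u + y) (S.v + y) (trunc B ω) := by
      rw [← xb_move]
      exact tshort_zero_eq S.dist S.room (fun f => (fb_pos hB0 (h0 _)).le)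
        (fun f => (fb_le B _).trans hb) S.pos hd S.far hx
    rw [he]
    exact ⟨h1, hR.le_box hb₀ hB0 h0 hys hρ hD hfar (h1.trans_lt hXB)⟩
  refine ⟨?_, ?_⟩
  · simp only [Scale.BigBad, not_or, not_not, not_le]
    have h00 : (0, 0) ∈ shifts m := by simp [shifts]
    have hm0 := V4.moveCfg_zero (trunc B ω)
    refine ⟨?_, ?_⟩
    · have := hdear _ h00
      rwa [← hcap, hm0] at this
    · have := (hkey _ h00).1
      rw [hm0] at this
      linarith
  · rw [Scale.favg]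
    have hN := card_shifts_pos m
    rw [abs_le]
    constructor
    · have h1 : (∑ y ∈ shifts m, S.time (V4.moveCfg y (trunc B ω))) / (shifts m).card ≤ hubTime β S.u S.v ω := by
        rw [div_le_iff₀ hN, mul_comm _ ((shifts m).card : ℝ), ← nsmul_eq_mul]
        exact Finset.sum_le_card_nsmul _ _ _ fun y hy => (hkey y hy).1
      have : 0 ≤ β * (2 * (76 * ((D : ℝ) + N + 1) + 9 * N)) := by positivity
      linarith
    · rw [sub_le_iff_le_add', ← sub_le_iff_le_add, le_div_iff₀ hN, mul_comm _ ((shifts m).card : ℝ),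
        ← nsmul_eq_mul]
      exact Finset.card_nsmul_le_sum _ _ _ fun y hy => by linarith [(hkey y hy).2]

/-- The infimum of the quantiles. -/
noncomputable def qInf (G : Measure ℝ) : ℝ := sInf (V4.qf G '' Set.Ioo 0 1)

/-- The monotone transform of a uniform mark behind the truncated law. -/
noncomputable def wB (G : Measure ℝ) (B t : ℝ) : ℝ :=
  if 1 ≤ t then B + 1 else if 0 < t then fb B (V4.qf G t) else fb B (qInf G)

theorem qInf_spec (hG : ∀ᵐ t ∂G, 0 < t) : 0 ≤ qInf G ∧ ∀ t ∈ Set.Ioo (0 : ℝ) 1, qInf G ≤ V4.qf G t := by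
  have hbdd : BddBelow (V4.qf G '' Set.Ioo 0 1) := ⟨0, by
    rintro _ ⟨t, ht, rfl⟩
    exact (V4.qf_pos hG ht).le⟩
  refine ⟨le_csInf ⟨_, Set.mem_image_of_mem _ (show (1 / 2 : ℝ) ∈ Set.Ioo (0 : ℝ) 1 by norm_num)⟩ ?_,
    fun t ht => csInf_le hbdd (Set.mem_image_of_mem _ ht)⟩
  rintro _ ⟨t, ht, rfl⟩
  exact (V4.qf_pos hG ht).le

omit [IsProbabilityMeasure G] in
theorem wB_eq {B t : ℝ} (ht : t ∈ Set.Ioo (0 : ℝ) 1) : wB G B t = fb B (V4.qf G t) := by
  rw [wB, if_neg (not_le.2 ht.2), if_pos ht.1]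

theorem qf_mono {p p' : ℝ} (hp : p ∈ Set.Ioo (0 : ℝ) 1) (hp' : p' ∈ Set.Ioo (0 : ℝ) 1) (h : p ≤ p') :
    V4.qf G p ≤ V4.qf G p' :=
  (V4.qf_le_iff hp _).2 (h.trans ((V4.qf_le_iff hp' _).1 le_rfl))

theorem wB_mem (hG : ∀ᵐ t ∂G, 0 < t) {B : ℝ} (hB : 0 ≤ B) (t : ℝ) : 0 ≤ wB G B t ∧ wB G B t ≤ B + 1 := by
  have hpos : ∀ {r : ℝ}, 0 ≤ r → 0 ≤ fb B r := fun hr => by
    rcases hr.eq_or_lt with h | h
    · rw [← h, fb_of_le hB]
    · exact (fb_pos hB h).le
  unfold wB
  split_ifs with h1 h2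
  · exact ⟨by linarith, le_rfl⟩
  · exact ⟨hpos (V4.qf_pos hG ⟨h2, not_le.1 h1⟩).le, fb_le _ _⟩
  · exact ⟨hpos (qInf_spec hG).1, fb_le _ _⟩

theorem wB_mono (hG : ∀ᵐ t ∂G, 0 < t) {B : ℝ} (hB : 0 ≤ B) : Monotone (wB G B) := by
  intro p p' h
  by_cases h1 : 1 ≤ p'
  · exact (wB_mem hG hB p).2.trans_eq (by rw [wB, if_pos h1])
  have hp1 : ¬ 1 ≤ p := fun h' => h1 (h'.trans h)
  by_cases h0 : 0 < p
  · have hp : p ∈ Set.Ioo (0 : ℝ) 1 := ⟨h0, not_le.1 hp1⟩
    have hp' : p' ∈ Set.Ioo (0 : ℝ) 1 := ⟨h0.trans_le h, not_le.1 h1⟩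
    rw [wB_eq hp, wB_eq hp']
    exact (fb_strictMono B).monotone (qf_mono hp hp' h)
  · rw [wB, if_neg hp1, if_neg h0]
    by_cases h0' : 0 < p'
    · rw [wB_eq ⟨h0', not_le.1 h1⟩]
      exact (fb_strictMono B).monotone ((qInf_spec hG).2 _ ⟨h0', not_le.1 h1⟩)
    · rw [wB, if_neg h1, if_neg h0']

theorem map_wB (B : ℝ) : V4.unif.map (wB G B) = lawB G B := by
  rw [Measure.map_congr (g := fb B ∘ V4.qf G) (V4.ae_unif.mono fun t ht => wB_eq ht),
    ← Measure.map_map (measurable_fb B) V4.measurable_qf, show V4.unif.map (V4.qf G) = G from V4.map_qf]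
  rfl

/-- The modulus of the transform at zero does not depend on the level. -/
theorem exists_modulus (hG : ∀ᵐ t ∂G, 0 < t) :
    ∃ α : ℝ → ℝ, (∀ η > 0, 0 < α η) ∧ ∀ B : ℝ, 0 ≤ B → V4.qf G (1 / 2) ≤ B →
      ∀ η > 0, wB G B (α η) ≤ wB G B 0 + η := by
  have hex : ∀ η : ℝ, ∃ a : ℝ, 0 < a ∧ a ≤ 1 / 2 ∧ (0 < η → V4.qf G a ≤ qInf G + η) := fun η => by
    by_cases hη : 0 < η
    · obtain ⟨_, ⟨a, ha, rfl⟩, hlt⟩ := exists_lt_of_csInf_lt
        (Set.Nonempty.image (V4.qf G) ⟨1 / 2, show (1 / 2 : ℝ) ∈ Set.Ioo (0 : ℝ) 1 by norm_num⟩)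
        (lt_add_of_pos_right (qInf G) hη)
      refine ⟨min a (1 / 2), lt_min ha.1 one_half_pos, min_le_right _ _, fun _ => ?_⟩
      exact (qf_mono ⟨lt_min ha.1 one_half_pos, (min_le_right _ _).trans_lt (by norm_num)⟩ ha
        (min_le_left _ _)).trans hlt.le
    · exact ⟨1 / 2, one_half_pos, le_rfl, fun h => absurd h hη⟩
  choose α hα hα2 hαq using hex
  refine ⟨α, fun η _ => hα η, fun B _ hq η hη => ?_⟩
  have hmem : α η ∈ Set.Ioo (0 : ℝ) 1 := ⟨hα η, (hα2 η).trans_lt (by norm_num)⟩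
  have h1 : V4.qf G (α η) ≤ B := (qf_mono hmem (by norm_num) (hα2 η)).trans hq
  rw [wB_eq hmem, wB, if_neg (by norm_num), if_neg (lt_irrefl _), fb_of_le h1,
    fb_of_le (((qInf_spec hG).2 _ hmem).trans h1)]
  exact hαq η hη

theorem wB_above (hG : ∀ᵐ t ∂G, 0 < t) {B : ℝ} (hB : 0 ≤ B) {τ : ℝ} (hτ : τ ∈ Set.Ioo (0 : ℝ) 1) :
    wB G B (1 - τ) - wB G B 0 ≤ V4.qf G (1 - τ) := by
  have h : 1 - τ ∈ Set.Ioo (0 : ℝ) 1 := ⟨by linarith [hτ.2], by linarith [hτ.1]⟩
  have := (wB_mem hG hB 0).1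
  rw [wB_eq h]
  linarith [fb_le_self B (V4.qf G (1 - τ))]

end Vale.Agent.P158.Any
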