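import Mathlib
import Vale.Agent.P158.Any.VarGood
import Vale.Agent.P158.Any.FacetMean

/-!
P158, arbitrary laws (note 1453, U9, variance): short distances, the exceptional event, the sizes at the
chosen scale and the splitting of the variance.
-/

namespace Vale.Agent.P158.Any

open MeasureTheory Filter Topology Vale.Agent.P158.Facet

theorem rate_anti {G : Measure ℝ} [IsProbabilityMeasure G] {b b' : ℝ} (h : b ≤ b') : rate G b' ≤ rate G b := by
  unfold rate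
  gcongr
  exact measure_ne_top _ _

/-- The size of the boxes and the scale of the routes. -/
theorem scale_facts (n : ℕ) :
    4 * (Nat.sqrt (Nat.sqrt n) / 4) ≤ Nat.sqrt (Nat.sqrt n) ∧
      Nat.sqrt (Nat.sqrt n) ≤ 4 * (Nat.sqrt (Nat.sqrt n) / 4) + 3 ∧ Nat.sqrt (Nat.sqrt n) ≤ n ∧
      (n : ℝ) + 1 ≤ 256 * (((Nat.sqrt (Nat.sqrt n) / 4 : ℕ) : ℝ) + 1) ^ 4 ∧
      (Nat.sqrt (Nat.sqrt n) : ℝ) ^ 2 ≤ √(n : ℝ) := by
  set r := Nat.sqrt n
  set ρ := Nat.sqrt r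
  refine ⟨by omega, by omega, (Nat.sqrt_le_self r).trans (Nat.sqrt_le_self n), ?_, ?_⟩
  · have h1 : n + 1 ≤ (r + 1) ^ 2 := Nat.lt_succ_sqrt' n
    have h2 : r + 1 ≤ (ρ + 1) ^ 2 := Nat.lt_succ_sqrt' r
    have h3 : n + 1 ≤ 256 * (ρ / 4 + 1) ^ 4 := calc
      n + 1 ≤ ((ρ + 1) ^ 2) ^ 2 := h1.trans (Nat.pow_le_pow_left h2 2)
      _ = (ρ + 1) ^ 4 := by rw [← pow_mul]
      _ ≤ (4 * (ρ / 4 + 1)) ^ 4 := Nat.pow_le_pow_left (by omega) 4
      _ = 256 * (ρ / 4 + 1) ^ 4 := by rw [mul_pow]; norm_num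
    exact_mod_cast h3
  · calc (ρ : ℝ) ^ 2 ≤ r := by exact_mod_cast Nat.sqrt_le' r
      _ ≤ √(n : ℝ) := Real.nat_sqrt_le_real_sqrt

theorem tendsto_scale : Tendsto (fun n : ℕ => Nat.sqrt (Nat.sqrt n) / 4) atTop atTop := by
  refine tendsto_atTop.2 fun K => ?_
  filter_upwards [eventually_ge_atTop ((4 * K) * (4 * K) * ((4 * K) * (4 * K)))] with n hn
  have h1 : 4 * K * (4 * K) ≤ Nat.sqrt n := Nat.le_sqrt.2 hn
  have h2 : 4 * K ≤ Nat.sqrt (Nat.sqrt n) := Nat.le_sqrt.2 h1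
  omega

theorem tendsto_poly_scale : Tendsto (fun n : ℕ => (((Nat.sqrt (Nat.sqrt n) / 4 : ℕ) : ℝ) + 1) ^ 30 *
    (1 / 2 : ℝ) ^ (Nat.sqrt (Nat.sqrt n) / 4)) atTop (𝓝 0) := by
  refine Tendsto.comp (g := fun s : ℕ => ((s : ℝ) + 1) ^ 30 * (1 / 2 : ℝ) ^ s) ?_ tendsto_scale
  have h := ((tendsto_pow_const_mul_const_pow_of_abs_lt_one 30
    (show |(1 / 2 : ℝ)| < 1 by norm_num [abs_of_pos])).comp (tendsto_add_atTop_nat 1)).mul_const 2
  rw [zero_mul] at h
  refine h.congr fun s => ?_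
  simp only [Function.comp_apply, Nat.cast_add, Nat.cast_one, pow_succ]
  ring

/-- The share of the translates that can be pivotal. -/
noncomputable def shiftShare (A m : ℕ) : ℝ :=
  100 * ((8 + A) * ((m : ℝ) + 4) + 3) / (2 * (m : ℝ) + 1) ^ 2 +
    ((1 / 2) ^ m + 2 * (2 * (m : ℝ) + 9) ^ 2 * (1 / 4) ^ m)

theorem tendsto_shiftShare (A : ℕ) : Tendsto (shiftShare A) atTop (𝓝 0) := by
  have h1 := tendsto_const_div_atTop_nhds_zero_nat (100 * (4 * (8 + (A : ℝ)) + 3))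
  have h2 := tendsto_pow_atTop_nhds_zero_of_lt_one (show (0 : ℝ) ≤ 1 / 2 by norm_num) (by norm_num)
  have h3 := ((tendsto_pow_const_mul_const_pow_of_abs_lt_one 2
    (show |(1 / 4 : ℝ)| < 1 by norm_num [abs_of_pos])).const_mul 242)
  have h := h1.add (h2.add h3)
  simp only [mul_zero, add_zero] at h
  refine squeeze_zero' (Eventually.of_forall fun m => by unfold shiftShare; positivity) ?_ h
  filter_upwards [eventually_ge_atTop 1] with m hm
  have hm' : (1 : ℝ) ≤ m := by exact_mod_cast hm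
  have hA0 : (0 : ℝ) ≤ A := Nat.cast_nonneg A
  refine add_le_add ?_ (add_le_add le_rfl ?_)
  · rw [div_le_div_iff₀ (by positivity) (by linarith)]
    have h5 : (8 + (A : ℝ)) * ((m : ℝ) + 4) + 3 ≤ (4 * (8 + (A : ℝ)) + 3) * (2 * m + 1) := by nlinarith
    have h6 : (m : ℝ) ≤ 2 * m + 1 := by linarith
    nlinarith [mul_le_mul h5 h6 (by positivity) (by positivity)]
  · rw [← mul_assoc]
    refine mul_le_mul_of_nonneg_right ?_ (by positivity)
    nlinarith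

variable {G : Measure ℝ} [IsProbabilityMeasure G] {b₀ : ℝ}

/-- The constant of the exceptional event. -/
noncomputable def badConst (m : ℕ) : ℝ := 180 * ((m : ℝ) + 5) ^ 4 + 162 * (2 * (m : ℝ) + 1) ^ 2

theorem badConst_nonneg (m : ℕ) : 0 ≤ badConst m := by unfold badConst; positivity

/-- The probability of the exceptional event at the scale `s`. -/
theorem prob_bad_le (hG : ∀ᵐ t ∂G, 0 < t) (hb2 : rate G b₀ ≤ 1 / 2) {c₀ : ℝ}
    (hcG : ∀ (a : Pt) (n : ℕ), (V4.law G).real {z : Cfg | (fun f => min (z f) 1) ∈ V4.Cheap a n c₀} ≤ 2 * (1 / 4) ^ n)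
    {ρ s m L : ℕ} (hρ : ρ ≤ 4 * s + 3) (hL : s ≤ L) (hs : 1 ≤ s) (u v : Pt) :
    (V4.law G).real (toMeasurable (V4.law G)
      {ω | ¬ Routes b₀ s (ρ + m) u v ω ∨ ¬ Dear c₀ L ρ u (shifts m) ω ∨ ¬ ∀ e, 0 < ω e}) ≤
      badConst m * (((s : ℝ) + 1) ^ 4 * (1 / 2) ^ s) := by
  simp only [measureReal_def, measure_toMeasurable]
  rw [← measureReal_def, show {ω : Cfg | ¬ Routes b₀ s (ρ + m) u v ω ∨ ¬ Dear c₀ L ρ u (shifts m) ω ∨ ¬ ∀ e, 0 < ω e} =
    {ω : Cfg | ¬ Routes b₀ s (ρ + m) u v ω} ∪ ({ω : Cfg | ¬ Dear c₀ L ρ u (shifts m) ω} ∪ {ω : Cfg | ¬ ∀ e, 0 < ω e}) from rfl]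
  refine (measureReal_union_le _ _).trans ((add_le_add le_rfl (measureReal_union_le _ _)).trans ?_)
  have hnull : (V4.law G).real {ω : Cfg | ¬ ∀ e, 0 < ω e} = 0 := by
    rw [measureReal_eq_zero_iff, ← ae_iff]
    exact V4.law_all G measurableSet_Ioi hG
  rw [hnull, add_zero, badConst, add_mul]
  refine add_le_add ((prob_not_routes_le G hb2 _ _ _ _).trans ?_) ((prob_not_dear hcG _ _ _ _).trans ?_)
  · set T := ((ρ + m : ℕ) : ℝ) + s + 2
    have h1 : T ≤ ((m : ℝ) + 5) * ((s : ℝ) + 1) := by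
      have : ρ + m + s + 2 ≤ (m + 5) * (s + 1) := by
        rw [Nat.mul_add, Nat.add_mul]
        have := Nat.zero_le (m * s)
        omega
      simp only [T]
      exact_mod_cast this
    have hT1 : 1 ≤ T := by
      have : (0 : ℝ) ≤ ((ρ + m : ℕ) : ℝ) := Nat.cast_nonneg _
      simp only [T]
      linarith [(Nat.cast_nonneg s : (0 : ℝ) ≤ s)]
    have h2 := pow_le_pow_right₀ hT1 (show 3 ≤ 4 by norm_num)
    have h3 := pow_le_pow_left₀ (zero_le_one.trans hT1) h1 4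
    rw [mul_pow] at h3
    rw [← mul_assoc]
    exact mul_le_mul_of_nonneg_right (by linarith) (by positivity)
  · rw [card_shifts]
    have h1 : (2 * (ρ : ℝ) + 1) ≤ 9 * ((s : ℝ) + 1) := by exact_mod_cast (show 2 * ρ + 1 ≤ 9 * (s + 1) by omega)
    have h2 : ((1 : ℝ) / 4) ^ L ≤ (1 / 2) ^ s :=
      (pow_le_pow_left₀ (by norm_num) (by norm_num) L).trans (pow_le_pow_of_le_one (by norm_num) (by norm_num) hL)
    have h3 : ((s : ℝ) + 1) ^ 2 ≤ ((s : ℝ) + 1) ^ 4 :=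
      pow_le_pow_right₀ (le_add_of_nonneg_left (Nat.cast_nonneg s)) (by norm_num)
    calc (((2 * m + 1) ^ 2 : ℕ) : ℝ) * ((2 * (ρ : ℝ) + 1) ^ 2 * (2 * (1 / 4) ^ L))
        ≤ (2 * (m : ℝ) + 1) ^ 2 * ((9 * ((s : ℝ) + 1)) ^ 2 * (2 * (1 / 2) ^ s)) := by
          push_cast
          gcongr
      _ = 162 * (2 * (m : ℝ) + 1) ^ 2 * (((s : ℝ) + 1) ^ 2 * (1 / 2) ^ s) := by ring
      _ ≤ _ := by gcongr

variable (hG : ∀ᵐ t ∂G, 0 < t) (hb0 : 0 ≤ b₀) (hb : rate G b₀ ≤ 1 / 64)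
include hG hb0 hb

theorem centre_le (u v : Pt) (a : ℝ) :
    ∫ ω, (hubTime b₀ u v ω - hubMean G b₀ (v - u)) ^ 2 ∂V4.law G ≤
      ∫ ω, (hubTime b₀ u v ω - a) ^ 2 ∂V4.law G := by
  set μ := hubMean G b₀ (v - u)
  set X := hubTime b₀ u v
  have hXL2 : MemLp X 2 (V4.law G) := memLp_hubTime G hG hb0 (hb.trans (by norm_num)) u v
  have hXi : Integrable X (V4.law G) := hXL2.integrable one_le_two
  have hdev : Integrable (fun ω => (X ω - μ) ^ 2) (V4.law G) := (hXL2.sub (memLp_const μ)).integrable_sq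
  have hmean : ∫ ω, X ω ∂V4.law G = μ := integral_hubTime hG hb0 hb u v
  rw [show (fun ω => (X ω - a) ^ 2) = fun ω => (X ω - μ) ^ 2 + (2 * (μ - a) * X ω + ((μ - a) ^ 2 - 2 * (μ - a) * μ))
      from funext fun ω => by ring,
    integral_add hdev ((hXi.const_mul _).fun_add (integrable_const _)),
    integral_add (hXi.const_mul _) (integrable_const _), integral_const_mul, hmean, integral_const,
    probReal_univ, one_smul]
  nlinarith [sq_nonneg (μ - a)]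

/-- Short distances. -/
theorem short_le {Ks : ℝ} (hKs : 0 ≤ Ks)
    (hsq : ∀ (u v : Pt) (k₀ : ℕ) (E : Set Cfg), MeasurableSet E →
      Integrable (fun ω => hubTime b₀ u v ω ^ 2) (V4.law G) ∧
      ∫ ω, E.indicator (fun ω => hubTime b₀ u v ω ^ 2) ω ∂V4.law G ≤
        (b₀ * (19 * V4.l1 u v + 47 * k₀ + 38)) ^ 2 * (V4.law G).real E +
          Ks * ((V4.l1 u v : ℝ) + 1) ^ 2 * ((k₀ : ℝ) + 1) ^ 6 * (1 / 2) ^ k₀)
    {n ρ : ℕ} (hρ1 : 1 ≤ ρ) (hρ2 : (ρ : ℝ) ^ 2 ≤ √(n : ℝ)) {u v : Pt} (hl : V4.l1 u v ≤ 13 * (ρ + 1)) :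
    ∫ ω, (hubTime b₀ u v ω - hubMean G b₀ (v - u)) ^ 2 ∂V4.law G ≤
      4 * ((304 * b₀) ^ 2 + 196 * Ks) * √(n : ℝ) := by
  refine (centre_le hG hb0 hb u v 0).trans ?_
  simp only [sub_zero]
  have h1 := (hsq u v 0 Set.univ MeasurableSet.univ).2
  simp only [Set.indicator_univ, probReal_univ, mul_one, Nat.cast_zero, mul_zero, zero_add, add_zero,
    one_pow, pow_zero] at h1
  refine h1.trans ?_
  have h2 : (V4.l1 u v : ℝ) ≤ 13 * ((ρ : ℝ) + 1) := by exact_mod_cast hl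
  have h3 : (1 : ℝ) ≤ ρ := by exact_mod_cast hρ1
  have h4 : b₀ * (19 * (V4.l1 u v : ℝ) + 38) ≤ 304 * b₀ * ((ρ : ℝ) + 1) := by nlinarith
  have h5 := pow_le_pow_left₀ (by positivity) h4 2
  have h6 : ((V4.l1 u v : ℝ) + 1) ^ 2 ≤ (14 * ((ρ : ℝ) + 1)) ^ 2 := pow_le_pow_left₀ (by positivity) (by linarith) 2
  have h7 : ((ρ : ℝ) + 1) ^ 2 ≤ 4 * √(n : ℝ) := by nlinarith
  have h8 := mul_le_mul_of_nonneg_left h7 (show (0 : ℝ) ≤ (304 * b₀) ^ 2 + 196 * Ks by positivity)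
  have h9 := mul_le_mul_of_nonneg_left h6 hKs
  linarith

/-- The variance through an approximation that is close off an exceptional event. -/
theorem split_le (u v : Pt) {F : Cfg → ℝ} (hFm : Measurable F) {Mb d : ℝ} (hF : ∀ ω, 0 ≤ F ω ∧ F ω ≤ Mb)
    {bad : Set Cfg} (hbad : MeasurableSet bad) (hd : ∀ ω, ω ∉ bad → |hubTime b₀ u v ω - F ω| ≤ d) :
    ∫ ω, (hubTime b₀ u v ω - hubMean G b₀ (v - u)) ^ 2 ∂V4.law G ≤
      2 * d ^ 2 + 4 * (∫ ω, bad.indicator (fun ω => hubTime b₀ u v ω ^ 2) ω ∂V4.law G +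
        (V4.law G).real bad * Mb ^ 2) +
        2 * (∫ ω, F ω ^ 2 ∂V4.law G - (∫ ω, F ω ∂V4.law G) ^ 2) := by
  set a := ∫ ω, F ω ∂V4.law G
  set X := hubTime b₀ u v
  have hXL2 : MemLp X 2 (V4.law G) := memLp_hubTime G hG hb0 (hb.trans (by norm_num)) u v
  have hFi : Integrable F (V4.law G) := Scale.integrable_of_mem G hFm hF
  have hF2 : Integrable (fun ω => F ω ^ 2) (V4.law G) :=
    Scale.integrable_of_mem G (hFm.pow_const 2) fun ω => ⟨sq_nonneg _, pow_le_pow_left₀ (hF ω).1 (hF ω).2 2⟩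
  have hFd : Integrable (fun ω => (F ω - a) ^ 2) (V4.law G) := by
    rw [show (fun ω => (F ω - a) ^ 2) = fun ω => F ω ^ 2 - 2 * a * F ω + a ^ 2 from funext fun ω => by ring]
    exact (hF2.sub' (hFi.const_mul _)).fun_add (integrable_const _)
  have hFv : ∫ ω, (F ω - a) ^ 2 ∂V4.law G = ∫ ω, F ω ^ 2 ∂V4.law G - a ^ 2 := by
    rw [show (fun ω => (F ω - a) ^ 2) = fun ω => F ω ^ 2 - 2 * a * F ω + a ^ 2 from funext fun ω => by ring,
      integral_add (hF2.sub' (hFi.const_mul _)) (integrable_const _), integral_sub hF2 (hFi.const_mul _),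
      integral_const_mul, integral_const, probReal_univ, one_smul]
    ring
  have hI : Integrable (fun ω => bad.indicator (fun ω => X ω ^ 2) ω) (V4.law G) :=
    hXL2.integrable_sq.indicator hbad
  have hI' : Integrable (fun ω => bad.indicator (fun _ => Mb ^ 2) ω) (V4.law G) :=
    (integrable_const _).indicator hbad
  have hJ := (((integrable_const (d ^ 2)).fun_add (hI.const_mul 2)).fun_add (hI'.const_mul 2)).const_mul 2
  have hpt : ∀ ω, (X ω - a) ^ 2 ≤ 2 * (d ^ 2 + 2 * bad.indicator (fun ω => X ω ^ 2) ω +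
      2 * bad.indicator (fun _ => Mb ^ 2) ω) + 2 * (F ω - a) ^ 2 := by
    intro ω
    have hs : (X ω - a) ^ 2 ≤ 2 * (X ω - F ω) ^ 2 + 2 * (F ω - a) ^ 2 := by
      nlinarith [sq_nonneg (X ω - F ω - (F ω - a))]
    refine hs.trans (add_le_add (mul_le_mul_of_nonneg_left ?_ zero_le_two) le_rfl)
    by_cases hω : ω ∈ bad
    · rw [Set.indicator_of_mem hω, Set.indicator_of_mem hω]
      have := pow_le_pow_left₀ (hF ω).1 (hF ω).2 2
      nlinarith [sq_nonneg (X ω + F ω), sq_nonneg d]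
    · rw [Set.indicator_of_notMem hω, Set.indicator_of_notMem hω, mul_zero, add_zero, add_zero, ← sq_abs]
      exact pow_le_pow_left₀ (abs_nonneg _) (hd ω hω) 2
  refine (centre_le hG hb0 hb u v a).trans
    ((integral_mono ((hXL2.sub (memLp_const a)).integrable_sq) (hJ.fun_add (hFd.const_mul 2)) hpt).trans ?_)
  rw [integral_add hJ (hFd.const_mul 2), integral_const_mul,
    integral_add ((integrable_const _).fun_add (hI.const_mul 2)) (hI'.const_mul 2),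
    integral_add (integrable_const _) (hI.const_mul 2), integral_const, probReal_univ, one_smul,
    integral_const_mul, integral_const_mul, integral_const_mul, integral_indicator hbad (f := fun _ => Mb ^ 2),
    setIntegral_const, smul_eq_mul, hFv]
  linarith

end Vale.Agent.P158.Any
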