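import Mathlib
import Vale.Agent.P158.Any.VarTools

/-!
P158, arbitrary laws (note 1453, U9, variance): the averaged envelope of one edge and the arithmetic of
the sizes.
-/

namespace Vale.Agent.P158.Any

open MeasureTheory Vale.Agent.P158.Facet

/-- The averaged envelope of one edge. -/
theorem load_avg_le (S : Scale) (H : Measure ℝ) [IsProbabilityMeasure H] (hrate : rate H S.b₀ ≤ 1 / 64)
    (hH : ∀ᵐ t ∂H, 0 < t ∧ t ≤ S.b)
    (hcheap : ∀ a n, (V4.law H).real {z : Cfg | (fun f => min (z f) 1) ∈ V4.Cheap a n (2 * S.c)} ≤ 2 * (1 / 4) ^ n)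
    {A m : ℕ} (hA : 160 * S.b₀ ≤ S.c * A) (hm : 10 * m + 50 ≤ S.ρ) (K : ℕ) {C δ p β q₁ q₂ : ℝ} (hC : 0 ≤ C)
    (hp : S.pBad H ≤ p) (hK : C * (2 ^ 18 * (2 * (1 / 2) ^ K)) ≤ δ / 4)
    (hS : C * (((K : ℝ) ^ 2 + 1) * shiftShare A m) ≤ δ / 4)
    (h1 : S.b ^ 2 * p ≤ q₁) (h2 : S.b ^ 2 * (1 / 2 : ℝ) ^ S.k₀ ≤ q₂) (hβ : C * β ≤ δ / 2)
    (hq : ((K : ℝ) ^ 2 + 2) * q₁ + 2 ^ 18 * q₂ ≤ β) {e : Sym2 Pt} (he : e ∈ grid.edgeSet) :
    C * ((∑ y ∈ shifts m, ∫ z, S.load (Sym2.map (· + -y) e) z ∂V4.law H) / (shifts m).card) ≤ δ := by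
  have hNs := card_shifts_pos m
  have hpiv := S.sum_shift_piv H hrate hH hcheap hA hm he
  have hcard : ((shifts m).card : ℝ) = (2 * (m : ℝ) + 1) ^ 2 := by rw [card_shifts]; push_cast; rfl
  have hpiv' : (∑ y ∈ shifts m, ∫ z, S.piv (Sym2.map (· + -y) e) z ∂V4.law H) / (shifts m).card ≤
      shiftShare A m + S.pBad H := by
    rw [div_le_iff₀ hNs, hcard]
    refine hpiv.trans (le_of_eq ?_)
    simp only [shiftShare, add_mul, div_mul_cancel₀ _ (show (2 * (m : ℝ) + 1) ^ 2 ≠ 0 by positivity)]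
    ring
  have hstep : (∑ y ∈ shifts m, ∫ z, S.load (Sym2.map (· + -y) e) z ∂V4.law H) / (shifts m).card ≤
      ((K : ℝ) ^ 2 + 1) * ((∑ y ∈ shifts m, ∫ z, S.piv (Sym2.map (· + -y) e) z ∂V4.law H) / (shifts m).card) +
        (2 ^ 18 * (2 * (1 / 2) ^ K + S.b ^ 2 * (1 / 2) ^ S.k₀) + S.b ^ 2 * S.pBad H) := by
    rw [mul_div_assoc', ← sub_le_iff_le_add', ← sub_div, div_le_iff₀ hNs, sub_le_iff_le_add', Finset.mul_sum,
      mul_comm _ ((shifts m).card : ℝ), ← nsmul_eq_mul, ← Finset.sum_const, ← Finset.sum_add_distrib]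
    refine Finset.sum_le_sum fun y _ => ?_
    have := S.integral_load_le H (Sym2.map (· + -y) e)
    have := S.maj_le H hrate (Sym2.map (· + -y) e) K
    linarith
  refine (mul_le_mul_of_nonneg_left (hstep.trans (add_le_add (mul_le_mul_of_nonneg_left hpiv' (by positivity))
    le_rfl)) hC).trans ?_
  have hb1 : 1 ≤ S.b ^ 2 := one_le_pow₀ (S.one_le.trans S.le_b)
  have hp0 : 0 ≤ S.pBad H := measureReal_nonneg
  have hbp : S.b ^ 2 * S.pBad H ≤ q₁ := (mul_le_mul_of_nonneg_left hp (sq_nonneg _)).trans h1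
  have hpp : S.pBad H ≤ q₁ := (le_mul_of_one_le_left hp0 hb1).trans hbp
  have e1 := mul_le_mul_of_nonneg_left hpp (show (0 : ℝ) ≤ (K : ℝ) ^ 2 + 1 by positivity)
  have e2 := mul_le_mul_of_nonneg_left h2 (show (0 : ℝ) ≤ 2 ^ 18 by positivity)
  have e3 := mul_le_mul_of_nonneg_left (show ((K : ℝ) ^ 2 + 1) * S.pBad H + (2 ^ 18 * (S.b ^ 2 * (1 / 2) ^ S.k₀) +
    S.b ^ 2 * S.pBad H) ≤ β by linarith) hC
  linarith

/-- The bound of the variance of the averaged time is linear. -/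
theorem var_bound_le {ε A M n C P k : ℝ} (hε : 0 ≤ ε) (hA : 0 ≤ A) (hC : 0 ≤ C) (hM : 0 ≤ M)
    (hMn : M + 1 ≤ (A + 9) * n) (hk : k ≤ 1) (hP : P ≤ 1) :
    ε / (8 * ((A + 9) * (1 + 2 * (C * 2000001)))) * (M + 2 * (C * (1000000 * (1 + k) * (M + 1) + P * M))) ≤
      ε * n / 8 := by
  have h3 : 1000000 * (1 + k) * (M + 1) + P * M ≤ 2000001 * (M + 1) := by
    have := mul_le_mul_of_nonneg_right hk (show (0 : ℝ) ≤ M + 1 by linarith)
    have := mul_le_mul_of_nonneg_right hP hM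
    linarith
  have h4 : M + 2 * (C * (1000000 * (1 + k) * (M + 1) + P * M)) ≤ (1 + 2 * (C * 2000001)) * (M + 1) := by
    have := mul_le_mul_of_nonneg_left h3 hC
    linarith
  refine (mul_le_mul_of_nonneg_left (h4.trans (mul_le_mul_of_nonneg_left hMn (by positivity))) (by positivity)).trans_eq ?_
  field_simp

/-- The constant of the exceptional part of the variance. -/
noncomputable def tailConst (A b₀ Ks Cp : ℝ) : ℝ :=
  ((A + 8) * 16777216) ^ 2 * Cp + 11000 * b₀ ^ 2 * 65536 * Cp + Ks * 65536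

/-- The exceptional part of the variance. -/
theorem tail_le {A b₀ Ks Cp n s l p Mb I : ℝ} (hA : 0 ≤ A) (hb0 : 0 ≤ b₀) (hKs : 0 ≤ Ks) (hCp : 0 ≤ Cp)
    (hn : 0 ≤ n) (hs : 0 ≤ s) (hl : 0 ≤ l) (hln : l ≤ n) (hsn : s ≤ n) (hns : n + 1 ≤ 256 * (s + 1) ^ 4)
    {r : ℝ} (hr : 0 ≤ r) (hp0 : 0 ≤ p) (hp : p ≤ Cp * ((s + 1) ^ 4 * r)) (hMb0 : 0 ≤ Mb)
    (hMb : Mb ≤ (A + 8) * (n + 1) * (65536 * (s + 1) ^ 8))
    (hI : I ≤ (b₀ * (19 * l + 47 * s + 38)) ^ 2 * p + Ks * (l + 1) ^ 2 * (s + 1) ^ 6 * r) :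
    I + p * Mb ^ 2 ≤ tailConst A b₀ Ks Cp * ((s + 1) ^ 30 * r) := by
  have hpw : ∀ k ≤ 30, (s + 1) ^ k * r ≤ (s + 1) ^ 30 * r := fun k hk =>
    mul_le_mul_of_nonneg_right (pow_le_pow_right₀ (by linarith) hk) hr
  have hn2 : (n + 1) ^ 2 ≤ 65536 * (s + 1) ^ 8 := by
    refine (pow_le_pow_left₀ (by positivity) hns 2).trans_eq ?_
    ring
  have h2 : (b₀ * (19 * l + 47 * s + 38)) ^ 2 * p ≤ 11000 * b₀ ^ 2 * 65536 * Cp * ((s + 1) ^ 30 * r) := by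
    have hg : (b₀ * (19 * l + 47 * s + 38)) ^ 2 ≤ 11000 * b₀ ^ 2 * (65536 * (s + 1) ^ 8) := by
      calc (b₀ * (19 * l + 47 * s + 38)) ^ 2 ≤ (b₀ * (104 * (n + 1))) ^ 2 :=
            pow_le_pow_left₀ (by positivity) (mul_le_mul_of_nonneg_left (by linarith) hb0) 2
        _ = 10816 * b₀ ^ 2 * (n + 1) ^ 2 := by ring
        _ ≤ _ := mul_le_mul (by nlinarith [sq_nonneg b₀]) hn2 (by positivity) (by positivity)
    refine (mul_le_mul hg hp hp0 (by positivity)).trans ?_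
    refine le_trans (le_of_eq ?_) (mul_le_mul_of_nonneg_left (hpw 12 (by norm_num)) (by positivity))
    ring
  have h3 : Ks * (l + 1) ^ 2 * (s + 1) ^ 6 * r ≤ Ks * 65536 * ((s + 1) ^ 30 * r) := by
    have h4 := (pow_le_pow_left₀ (by positivity) (show l + 1 ≤ n + 1 by linarith) 2).trans hn2
    calc Ks * (l + 1) ^ 2 * (s + 1) ^ 6 * r ≤ Ks * (65536 * (s + 1) ^ 8) * (s + 1) ^ 6 * r := by gcongr
      _ = Ks * 65536 * ((s + 1) ^ 14 * r) := by ring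
      _ ≤ _ := mul_le_mul_of_nonneg_left (hpw 14 (by norm_num)) (by positivity)
  have h5 : p * Mb ^ 2 ≤ ((A + 8) * 16777216) ^ 2 * Cp * ((s + 1) ^ 30 * r) := by
    have hMb' : Mb ≤ (A + 8) * 16777216 * (s + 1) ^ 12 := by
      refine (hMb.trans (mul_le_mul_of_nonneg_right (mul_le_mul_of_nonneg_left hns (by positivity))
        (by positivity))).trans_eq ?_
      ring
    rw [mul_comm p]
    refine (mul_le_mul (pow_le_pow_left₀ hMb0 hMb' 2) hp hp0 (by positivity)).trans ?_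
    refine le_trans (le_of_eq ?_) (mul_le_mul_of_nonneg_left (hpw 28 (by norm_num)) (by positivity))
    ring
  simp only [tailConst]
  linarith

/-- The truncation and the box at the chosen scale. -/
theorem level_le {n s r p Cp : ℝ} (hn : 0 ≤ n) (hs : 0 ≤ s) (hr : 0 ≤ r) (hns : n + 1 ≤ 256 * (s + 1) ^ 4)
    (hp0 : 0 ≤ p) (hCp : 0 ≤ Cp) (hp : p ≤ Cp * ((s + 1) ^ 4 * r)) :
    n ^ 2 + 1 ≤ 65536 * (s + 1) ^ 8 ∧ (n ^ 2 + 1) ^ 2 * p ≤ 2 ^ 32 * Cp * ((s + 1) ^ 30 * r) ∧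
      (n ^ 2 + 1) ^ 2 * r ≤ 2 ^ 32 * ((s + 1) ^ 30 * r) := by
  have h1 : n ^ 2 + 1 ≤ 65536 * (s + 1) ^ 8 := by
    refine le_trans ?_ ((pow_le_pow_left₀ (by positivity) hns 2).trans_eq (by ring))
    nlinarith
  have h2 : (n ^ 2 + 1) ^ 2 ≤ 2 ^ 32 * (s + 1) ^ 16 :=
    (pow_le_pow_left₀ (by positivity) h1 2).trans_eq (by ring)
  have hpw : ∀ k ≤ 30, (s + 1) ^ k * r ≤ (s + 1) ^ 30 * r := fun k hk =>
    mul_le_mul_of_nonneg_right (pow_le_pow_right₀ (by linarith) hk) hr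
  refine ⟨h1, (mul_le_mul h2 hp hp0 (by positivity)).trans ?_, (mul_le_mul_of_nonneg_right h2 hr).trans ?_⟩
  · refine le_trans (le_of_eq ?_) (mul_le_mul_of_nonneg_left (hpw 20 (by norm_num)) (by positivity))
    ring
  · rw [mul_assoc]
    exact mul_le_mul_of_nonneg_left (hpw 16 (by norm_num)) (by positivity)

/-- The parts of the variance together. -/
theorem parts_le {V T W Ce q ε n b₀ ρ r c : ℝ} (hε : 0 < ε) (hn : 1 ≤ n)
    (hρ : ρ ^ 2 ≤ r) (hr : 0 ≤ r) (hc : 0 ≤ c) (hsqrt : (c + 2000000 * b₀ ^ 2) * r ≤ ε * n)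
    (hV : V ≤ 2 * (b₀ * (474 * ρ)) ^ 2 + 4 * T + 2 * W) (hT : T ≤ Ce * q)
    (hq : q * (32 * (Ce + 1)) ≤ ε) (hq0 : 0 ≤ q) (hW : W ≤ ε * n / 8) : V ≤ ε * n := by
  have h1 : ε ≤ ε * n := le_mul_of_one_le_right hε.le hn
  have h2 : (b₀ * (474 * ρ)) ^ 2 ≤ 250000 * b₀ ^ 2 * r := by
    calc (b₀ * (474 * ρ)) ^ 2 = 224676 * b₀ ^ 2 * ρ ^ 2 := by ring
      _ ≤ 250000 * b₀ ^ 2 * r := by gcongr; norm_num
  have h3 : 0 ≤ c * r := mul_nonneg hc hr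
  linarith

/-- The largest value of the averaged time. -/
theorem time_level_le {A n ρ : ℕ} (hρ : ρ ≤ n) {b L : ℝ} (hb : 0 ≤ b) (hbL : b ≤ L) :
    ((A * n + 8 * ρ : ℕ) : ℝ) * b ≤ ((A : ℝ) + 8) * ((n : ℝ) + 1) * L := by
  refine mul_le_mul ?_ hbL hb (by positivity)
  have : (ρ : ℝ) ≤ n := Nat.cast_le.2 hρ
  push_cast
  nlinarith [(Nat.cast_nonneg A : (0 : ℝ) ≤ A)]

/-- The number of sites of the walks. -/
theorem length_le {A n ρ : ℕ} (hρ : ρ ≤ n) (hn : 1 ≤ (n : ℝ)) :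
    ((A * n + 8 * ρ : ℕ) : ℝ) + 1 ≤ ((A : ℝ) + 9) * n := by
  have : (ρ : ℝ) ≤ n := Nat.cast_le.2 hρ
  push_cast
  linarith

end Vale.Agent.P158.Any
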