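import Mathlib
import Vale.Agent.P158.Any.VarSize

/-!
P158 facets for every law, the variance (note 1453, U9): the variance of the time between first hubs is
of smaller order than the distance.
-/

namespace Vale.Agent.P158.Any

open MeasureTheory Filter Topology Vale.Agent.P158.Facet

variable (G : Measure ℝ) [IsProbabilityMeasure G] {b₀ : ℝ}

/-- The approximation at one large distance. -/
theorem var_long (hG : ∀ᵐ t ∂G, 0 < t) (hb0 : 0 ≤ b₀) (hb : rate G b₀ ≤ 1 / 64) {c₀ : ℝ} (hc₀ : 0 < c₀)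
    (hcG : ∀ (a : Pt) (n : ℕ), (V4.law G).real {z : Cfg | (fun f => min (z f) 1) ∈ V4.Cheap a n c₀} ≤ 2 * (1 / 4) ^ n)
    {b₁ : ℝ} (hb1 : 1 ≤ b₁) (hb01 : b₀ ≤ b₁) {A : ℕ} (hA : 1 ≤ A) (hcA : 1000 * b₁ ≤ c₀ / 2 * A)
    {n ρ m : ℕ} (hm : 3 * m + 20 ≤ ρ / 4) (hρn : ρ ≤ n) (hnb : 105 * b₁ ≤ n)
    {u v : Pt} (huv : V4.l1 u v ≤ n) (hfar : 13 * (ρ + 1) < V4.l1 u v) :
    ∃ (S : Scale) (bad : Set Cfg), MeasurableSet bad ∧ S.u = u ∧ S.v = v ∧ S.ρ = ρ ∧ S.b₀ = b₁ ∧ S.c = c₀ / 2 ∧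
      S.k₀ = ρ - 4 ∧ S.b = (n : ℝ) ^ 2 + 1 ∧ S.M = A * n + 8 * ρ ∧
      (V4.law G).real bad ≤ badConst m * ((((ρ / 4 : ℕ) : ℝ) + 1) ^ 4 * (1 / 2) ^ (ρ / 4)) ∧
      ∀ ω, ω ∉ bad → ¬ S.BigBad (trunc ((n : ℝ) ^ 2) ω) ∧
        |hubTime b₀ u v ω - S.favg m (trunc ((n : ℝ) ^ 2) ω)| ≤ b₀ * (474 * ρ) := by
  have hn1 : (1 : ℝ) ≤ n := by linarith
  have hn0 : (0 : ℝ) ≤ n := Nat.cast_nonneg n
  set B : ℝ := (n : ℝ) ^ 2
  have hB1 : 1 ≤ B := one_le_pow₀ hn1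
  have hnB : (n : ℝ) ≤ B := le_self_pow₀ hn1 two_ne_zero
  have hcn : 1000 * b₁ * n ≤ c₀ / 2 * ((A * n : ℕ) : ℝ) := by
    push_cast
    nlinarith [mul_le_mul_of_nonneg_right hcA hn0]
  have hlong : (4 : ℝ) * (b₁ * ((18 + 9 * (ρ - 4) : ℕ) : ℝ)) ≤ c₀ / 2 * ((A * n : ℕ) : ℝ) := by
    have h1 : ((18 + 9 * (ρ - 4) : ℕ) : ℝ) ≤ 27 * n := by exact_mod_cast (show 18 + 9 * (ρ - 4) ≤ 27 * n by omega)
    have h2 := mul_le_mul_of_nonneg_left h1 (zero_le_one.trans hb1)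
    nlinarith
  set S : Scale :=
    { u := u, v := v, ρ := ρ, L := A * n, M := A * n + 8 * ρ, k₀ := ρ - 4, b := B + 1, b₀ := b₁, c := c₀ / 2
      dist := huv.trans ((Nat.le_mul_of_pos_left n hA).trans (Nat.le_add_right _ _))
      room := le_rfl
      far := by omega
      depth := by omega
      one_le := hb1
      le_b := by linarith
      pos := half_pos hc₀
      long := hlong
      long1 := by nlinarith }
  refine ⟨S, toMeasurable (V4.law G) {ω | ¬ Routes b₀ (ρ / 4) (ρ + m) u v ω ∨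
      ¬ Dear c₀ (A * n) ρ u (shifts m) ω ∨ ¬ ∀ e, 0 < ω e}, measurableSet_toMeasurable _ _, rfl, rfl, rfl, rfl,
    rfl, rfl, rfl, rfl, ?_, fun ω hω => ?_⟩
  · exact prob_bad_le hG (hb.trans (by norm_num)) hcG (by omega)
      (le_trans (by omega) (Nat.le_mul_of_pos_left n hA)) (by omega) u v
  have hω' := fun h => hω (subset_toMeasurable _ _ h)
  simp only [Set.mem_ofPred_eq, not_or, not_not, imp_false] at hω'
  obtain ⟨hR, hD, hpos⟩ := hω'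
  have hlow : b₀ * (19 * (V4.l1 u v : ℝ) + 47 * ((ρ / 4 : ℕ) : ℝ) + 38) <
      min B (c₀ / 2 * ((A * n : ℕ) : ℝ) / 2) := by
    have h1 : ((ρ / 4 : ℕ) : ℝ) ≤ n := by exact_mod_cast (show ρ / 4 ≤ n by omega)
    have hl : (V4.l1 u v : ℝ) ≤ n := Nat.cast_le.2 huv
    have h3 : b₀ * (19 * (V4.l1 u v : ℝ) + 47 * ((ρ / 4 : ℕ) : ℝ) + 38) ≤ b₁ * (104 * n) :=
      mul_le_mul hb01 (by linarith) (by positivity) (by linarith)
    refine h3.trans_lt (lt_min ?_ ?_)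
    · simp only [B]
      nlinarith
    · nlinarith
  obtain ⟨h1, h2⟩ := favg_close (m := m) S hb0 hR hB1 le_rfl hpos (show m + ρ / 4 + 1 ≤ ρ by omega) le_rfl
    (show 6 * (ρ + m) + 4 * (ρ / 4) + 6 < V4.l1 u v by omega)
    (by rw [show (2 : ℝ) * S.c = c₀ by show 2 * (c₀ / 2) = c₀; ring]; exact hD) hlow
  refine ⟨h1, h2.trans (mul_le_mul_of_nonneg_left ?_ hb0)⟩
  exact_mod_cast (show 2 * (76 * (ρ + m + ρ / 4 + 1) + 9 * (ρ / 4)) ≤ 474 * ρ by omega)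

/-- The variance of the times between hubs is of smaller order than the distance, for every law. -/
theorem smallVarH (hG : ∀ᵐ t ∂G, 0 < t) (hb0 : 0 ≤ b₀) (hb : rate G b₀ ≤ 1 / 64) : SmallVarH G b₀ := by
  intro ε hε
  obtain ⟨c₀, hc₀, hcG, hcB⟩ := exists_capped_rate hG
  obtain ⟨Ks, hKs, hsq⟩ := exists_sq_bound G hG hb0 (hb.trans (by norm_num))
  set b₁ := max b₀ 1
  have hb1 : 1 ≤ b₁ := le_max_right _ _
  obtain ⟨A, hA⟩ := exists_nat_ge (1000 * b₁ / (c₀ / 2) + 1)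
  have hA1 : (1 : ℝ) ≤ A := le_trans (le_add_of_nonneg_left (by positivity)) hA
  have hcA : 1000 * b₁ ≤ c₀ / 2 * A := by
    have h : 1000 * b₁ / (c₀ / 2) ≤ A := by linarith
    rwa [div_le_iff₀ (half_pos hc₀), mul_comm (A : ℝ)] at h
  obtain ⟨α, hα, hαB⟩ := exists_modulus hG
  set C₀ := 972 * b₁ ^ 2 with hC₀def
  have hC₀ : 0 ≤ C₀ := by positivity
  obtain ⟨δ, hδ, hvar⟩ := Scale.exists_var_favg (α := α) (W := fun τ => V4.qf G (1 - τ)) hα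
    (show 0 < ε / (8 * (((A : ℝ) + 9) * (1 + 2 * (C₀ * 2000001)))) by positivity)
  obtain ⟨K, hK⟩ : ∃ K : ℕ, C₀ * (2 ^ 18 * (2 * (1 / 2 : ℝ) ^ K)) ≤ δ / 4 := by
    have h := (((tendsto_pow_atTop_nhds_zero_of_lt_one (show (0 : ℝ) ≤ 1 / 2 by norm_num)
      (by norm_num)).const_mul 2).const_mul ((2 : ℝ) ^ 18)).const_mul C₀
    simp only [mul_zero] at h
    exact (h.eventually (eventually_le_nhds (show (0 : ℝ) < δ / 4 by positivity))).exists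
  obtain ⟨m, hm⟩ : ∃ m : ℕ, C₀ * (((K : ℝ) ^ 2 + 1) * shiftShare A m) ≤ δ / 4 := by
    have h := ((tendsto_shiftShare A).const_mul ((K : ℝ) ^ 2 + 1)).const_mul C₀
    simp only [mul_zero] at h
    exact (h.eventually (eventually_le_nhds (show (0 : ℝ) < δ / 4 by positivity))).exists
  set Cp := badConst m
  have hCp : 0 ≤ Cp := badConst_nonneg m
  set Cq : ℝ := C₀ * ((K : ℝ) ^ 2 + 2 + 2 ^ 18) * (2 ^ 32 * (Cp + 1))
  set Ce : ℝ := tailConst A b₀ Ks Cp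
  set Cs : ℝ := 4 * ((304 * b₀) ^ 2 + 196 * Ks) + 2000000 * b₀ ^ 2
  have hCq : 0 ≤ Cq := by positivity
  have hCe : 0 ≤ Ce := by simp only [Ce, tailConst]; positivity
  have hτ : 0 < min (min (δ / 2 / (Cq + 1)) (1 / (2 ^ 32 * (Cp + 1)))) (ε / (32 * (Ce + 1))) :=
    lt_min (lt_min (by positivity) (by positivity)) (by positivity)
  obtain ⟨N₀, hN₀⟩ := eventually_atTop.1 (((tendsto_scale.eventually_ge_atTop (3 * m + 20)).and
    (tendsto_poly_scale.eventually (eventually_le_nhds hτ))).and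
    ((tendsto_natCast_atTop_atTop (R := ℝ)).eventually_ge_atTop
      (max (max (105 * b₁) (V4.qf G (1 / 2))) ((Cs / ε) ^ 2))))
  refine ⟨N₀, fun n hn u v huv => ?_⟩
  obtain ⟨⟨hsm, hqn⟩, hbig⟩ := hN₀ n hn
  simp only [max_le_iff] at hbig
  obtain ⟨⟨hbn, hqf⟩, hsqn⟩ := hbig
  simp only [le_min_iff] at hqn
  obtain ⟨⟨hqδ, hq1⟩, hqe⟩ := hqn
  obtain ⟨hs4, hρs, hρn, hns, hρ2⟩ := scale_facts n
  set ρ := Nat.sqrt (Nat.sqrt n)
  set q := (((ρ / 4 : ℕ) : ℝ) + 1) ^ 30 * (1 / 2 : ℝ) ^ (ρ / 4)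
  have hn1 : (1 : ℝ) ≤ n := by linarith
  have hsqrt : Cs * √(n : ℝ) ≤ ε * n := by
    have h1 : Cs / ε ≤ √(n : ℝ) := Real.le_sqrt_of_sq_le hsqn
    rw [div_le_iff₀ hε] at h1
    nlinarith [Real.mul_self_sqrt (Nat.cast_nonneg n : (0 : ℝ) ≤ n), Real.sqrt_nonneg (n : ℝ)]
  have hroot : 0 ≤ √(n : ℝ) := Real.sqrt_nonneg _
  by_cases hfar : V4.l1 u v ≤ 13 * (ρ + 1)
  · refine (short_le hG hb0 hb hKs hsq (show 1 ≤ ρ by omega) hρ2 hfar).trans (le_trans ?_ hsqrt)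
    exact mul_le_mul_of_nonneg_right (le_add_of_nonneg_right (by positivity)) hroot
  push Not at hfar
  obtain ⟨S, bad, hbm, hSu, hSv, hSρ, hSb₀, hSc, hSk, hSb, hSM, hp, hgood⟩ :=
    var_long G hG hb0 hb hc₀ hcG hb1 (le_max_left _ _) (show 1 ≤ A by exact_mod_cast hA1) hcA hsm hρn hbn huv hfar
  set B : ℝ := (n : ℝ) ^ 2
  have hB1 : 1 ≤ B := one_le_pow₀ hn1
  have hnB : (n : ℝ) ≤ B := le_self_pow₀ hn1 two_ne_zero
  have hB0 : 0 ≤ B := zero_le_one.trans hB1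
  set p := (V4.law G).real bad
  have hp0 : 0 ≤ p := measureReal_nonneg
  obtain ⟨hlev, hlp, hlr⟩ := level_le (Nat.cast_nonneg n) (Nat.cast_nonneg _)
    (show (0 : ℝ) ≤ (1 / 2) ^ (ρ / 4) by positivity) hns hp0 hCp hp
  rw [← hSb] at hlp hlr hlev
  have hk : S.b ^ 2 * (1 / 2 : ℝ) ^ S.k₀ ≤ 2 ^ 32 * q :=
    le_trans (mul_le_mul_of_nonneg_left (pow_le_pow_of_le_one (by norm_num) (by norm_num)
      (show ρ / 4 ≤ S.k₀ by omega)) (sq_nonneg _)) hlr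
  have hpB : S.pBad (lawB G B) ≤ p := by
    rw [Scale.pBad, ← map_trunc G B, map_measureReal_apply (measurable_trunc B) S.measurableSet_bigBad]
    exact measureReal_mono (fun ω hω => by_contra fun h => (hgood ω h).1 hω) (measure_ne_top _ _)
  have hrH : rate (lawB G B) S.b₀ ≤ 1 / 64 := by
    rw [hSb₀, rate_lawB (by linarith)]
    exact (rate_anti (le_max_left _ _)).trans hb
  have hH : ∀ᵐ t ∂lawB G B, 0 < t ∧ t ≤ S.b := by rw [hSb]; exact lawB_range G hG hB0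
  have hq0 : 0 ≤ q := by positivity
  rw [le_div_iff₀ (by positivity)] at hqδ hq1 hqe
  have hinfl : ∀ e ∈ grid.edgeSet, 972 * S.b₀ ^ 2 *
      ((∑ y ∈ shifts m, ∫ z, S.load (Sym2.map (· + -y) e) z ∂V4.law (lawB G B)) / (shifts m).card) ≤ δ := by
    intro e he
    rw [hSb₀, ← hC₀def]
    refine load_avg_le S (lawB G B) hrH hH (fun a k => ?_) (A := A) (by rw [hSb₀, hSc]; linarith)
      (show 10 * m + 50 ≤ S.ρ by omega) K hC₀ hpB hK hm hlp hk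
      (β := ((K : ℝ) ^ 2 + 2 + 2 ^ 18) * (2 ^ 32 * (Cp + 1)) * q) ?_ ?_ he
    · rw [hSc, show (2 : ℝ) * (c₀ / 2) = c₀ by ring]
      exact hcB B hB1 a k
    · have h : Cq * q ≤ δ / 2 := by linarith
      simp only [Cq] at h
      linarith
    · have : 0 ≤ ((K : ℝ) ^ 2 + 2) * (2 ^ 32 * q) + 2 ^ 18 * (2 ^ 32 * (Cp * q)) := by positivity
      linarith
  have hv := hvar S (lawB G B) (wB G B) (wB_mono hG hB0) (by rw [hSb]; exact wB_mem hG hB0) (map_wB B)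
    (hαB B hB0 (hqf.trans hnB)) (fun τ hτ => wB_above hG hB0 hτ) hH hrH m hinfl
  have hv' := hv.trans (show _ ≤ ε * n / 8 by
    rw [hSb₀, ← hC₀def]
    refine var_bound_le hε.le (Nat.cast_nonneg A) hC₀ (Nat.cast_nonneg _) ?_ ?_ ?_
    · rw [hSM]
      exact length_le hρn hn1
    · refine hk.trans ?_
      linarith [mul_nonneg hCp hq0]
    · refine ((mul_le_mul_of_nonneg_left hpB (sq_nonneg _)).trans hlp).trans ?_
      linarith)
  have hm2 : Measurable fun z : Cfg => S.favg m z ^ 2 := (S.measurable_favg m).pow_const 2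
  rw [← map_trunc G B, integral_map (measurable_trunc B).aemeasurable hm2.aestronglyMeasurable,
    integral_map (measurable_trunc B).aemeasurable (S.measurable_favg m).aestronglyMeasurable] at hv'
  have hsplit := split_le hG hb0 hb u v (F := fun ω => S.favg m (trunc B ω))
    ((S.measurable_favg m).comp (measurable_trunc B)) (fun ω => S.favg_mem m _) hbm fun ω hω => (hgood ω hω).2
  have hI := (hsq u v (ρ / 4) bad hbm).2
  have htail := tail_le (A := (A : ℝ)) (Mb := (S.M : ℝ) * S.b) (Nat.cast_nonneg A) hb0 hKs hCp (Nat.cast_nonneg n)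
    (Nat.cast_nonneg _) (Nat.cast_nonneg _) (Nat.cast_le.2 huv) (Nat.cast_le.2 ((Nat.div_le_self ρ 4).trans hρn))
    hns (pow_nonneg one_half_pos.le _) hp0 hp (mul_nonneg (Nat.cast_nonneg _) S.b_nonneg)
    (by rw [hSM]; exact time_level_le hρn S.b_nonneg hlev) hI
  exact parts_le hε hn1 hρ2 hroot
    (by positivity : (0 : ℝ) ≤ 4 * ((304 * b₀) ^ 2 + 196 * Ks)) hsqrt hsplit htail hqe hq0 hv'

end Vale.Agent.P158.Any
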