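import Mathlib
import Vale.Agent.P158.Any.FacetMain
import Vale.Agent.P158.Any.FacetMean
import Vale.Agent.P158.Any.FacetCalm
import Vale.Agent.P158.Any.FacetNorm
import Vale.Agent.P158.Any.FacetVar

/-!
P158 facets for every law: for an atomless law without mass at zero or below, the limit shape has no facet
between two corners.
-/

namespace Vale.Agent.P158.Any

open MeasureTheory Filter Topology

variable {G : Measure ℝ} [IsProbabilityMeasure G] {μ : ℝ × ℝ → ℝ} {b C₀ : ℝ}

/-- The shape and the variance give what the argument against facets uses. -/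
theorem exists_ctx (hG : ∀ᵐ t ∂G, 0 < t) (hb0 : 0 ≤ b) (hb : rate G b ≤ 1 / 64) (hμ : V4.IsLatticeNorm μ)
    (hshape : ∀ ε > 0, ∀ u : Pt, Tendsto (fun r : ℕ => V4.law G {ω | ¬ HShape μ b C₀ ε r ω u}) atTop (𝓝 0))
    (hsq : ∀ u v : Pt, MemLp (hubTime b u v) 2 (V4.law G)) (hvar : SmallVarH G b) :
    ∃ B c : ℝ, Ctx G μ b B c := by
  obtain ⟨B₁, hB₁, hstep⟩ := exists_hubMean_step hG hb0 hb
  obtain ⟨c, hc, hcalm⟩ := exists_calm G hG hb0 (hb.trans (by norm_num))
  set B := max B₁ (160 * b + 2)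
  refine ⟨B, c, ?_⟩
  exact
    { B_nonneg := hB₁.trans (le_max_left _ _)
      c_pos := hc
      pos := hG
      norm := hμ
      sq := hsq
      mean_eq := integral_hubTime hG hb0 hb
      step := fun y z => (hstep y z).trans
        (mul_le_mul_of_nonneg_right (le_max_left _ _) (Nat.cast_nonneg _))
      le_mean := le_hubMean hG hb0 hb hμ (fun ε hε => hshape ε hε (0, 0)) hsq hvar
      tends := tendsto_hubMean hG hb0 hb hμ (fun ε hε => hshape ε hε (0, 0)) hsq hvar
      var := hvar
      calm := hcalm B (le_max_right _ _)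
      junk := fun η hη ε hε => tendsto_junk G hη hε }

/-- No facet between corners, given the variance. -/
theorem noFacet_of_var (hG : ∀ᵐ t ∂G, 0 < t) (hatom : ∀ x, G {x} = 0) (hb0 : 0 ≤ b) (hb : rate G b ≤ 1 / 64)
    (hμ : V4.IsLatticeNorm μ)
    (hshape : ∀ ε > 0, ∀ u : Pt, Tendsto (fun r : ℕ => V4.law G {ω | ¬ HShape μ b C₀ ε r ω u}) atTop (𝓝 0))
    (hsq : ∀ u v : Pt, MemLp (hubTime b u v) 2 (V4.law G)) (hvar : SmallVarH G b) : V4.NoFacet μ := by
  obtain ⟨B, c, hX⟩ := exists_ctx hG hb0 hb hμ hshape hsq hvar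
  exact noFacet_of_no_pair hμ (hX.no_pair hatom)

/-- For every atomless law of positive weights the limit shape has no facet between corners. -/
theorem noFacet_muA (hG : ∀ᵐ t ∂G, 0 < t) (hatom : ∀ x, G {x} = 0) : V4.NoFacet (muA G) := by
  obtain ⟨b₀, C₀, hb₀, -, hr, hμ, hshape⟩ := exists_shape G hG
  exact noFacet_of_var hG hatom hb₀ hr hμ hshape
    (memLp_hubTime G hG hb₀ (hr.trans (by norm_num))) (smallVarH G hG hb₀ hr)

end Vale.Agent.P158.Any
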