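import Mathlib
import Vale.Agent.P158.Any.FirstHub
import Vale.Agent.P158.V4.StripShape

/-!
P158, arbitrary laws (note 1452, U5): averaged increments between first hubs towards hubs on a far line.
The strip times are capped at a multiple of the height, and the increments are clamped at the time
between the two hubs in a low strip; both bounds hold eventually, so the increments still bound those
of the half-plane Busemann functions of cone rays.
-/

namespace Vale.Agent.P158.Any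

open MeasureTheory Filter Topology V4

/-- The first hub of the upper half-plane at a site. -/
noncomputable def upHub (b : ℝ) (ω : Cfg) (u : Pt) : Pt := firstHub b ω (upper u.2) u

/-- The first hub of the lower half-plane below the line through a site. -/
noncomputable def downHub (b : ℝ) (ω : Cfg) (z : Pt) : Pt := firstHub b ω (lower z.2) z

theorem upHub_snd {b : ℝ} {ω : Cfg} {u : Pt} : (upHub b ω u).2 = u.2 := rfl

theorem downHub_snd {b : ℝ} {ω : Cfg} {u : Pt} : (downHub b ω u).2 = u.2 := rfl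

theorem upHub_shift {b : ℝ} {ω : Cfg} (u a : Pt) :
    upHub b (ω ∘ eShift a) u + a = upHub b ω (u + a) := by
  have h := firstHub_shift (b := b) (ω := ω) a (upper (u + a).2) u
  rwa [show (u + a).2 = u.2 + a.2 from rfl, preimage_upper] at h

theorem downHub_shift {b : ℝ} {ω : Cfg} (u a : Pt) :
    downHub b (ω ∘ eShift a) u + a = downHub b ω (u + a) := by
  have h := firstHub_shift (b := b) (ω := ω) a (lower (u + a).2) u
  rwa [show (u + a).2 = u.2 + a.2 from rfl, preimage_lower] at h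

variable (b : ℝ)

/-- The capped strip time from the first hub at `x` to the first hub at `z` on the far line. -/
noncomputable def capT (K : ℝ) (h : ℤ) (L : ℕ) (ω : Cfg) (x z : ℤ) : ℝ :=
  min (ttIn (strip h (h + L)) ω (upHub b ω (x, h)) (downHub b ω (z, h + L))) (K * L)

/-- The averaged decrease of the capped time over a step to the right from `u`. -/
noncomputable def incH (k2 k3 K : ℝ) (L : ℕ) (ω : Cfg) (u : Pt) : ℝ :=
  (∑ i ∈ Finset.range (winN k2 k3 L),
    (capT b K u.2 L ω u.1 (u.1 + winL k2 L + i + 1) -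
      capT b K u.2 L ω (u.1 + 1) (u.1 + winL k2 L + i + 1))) / winN k2 k3 L

/-- The strip time between the first hubs at `u` and to its right. -/
noncomputable def nextT (M : ℕ) (ω : Cfg) (u : Pt) : ℝ :=
  ttIn (strip u.2 (u.2 + (4 * M + 9 : ℕ))) ω (upHub b ω (u.1, u.2)) (upHub b ω (u.1 + 1, u.2))

/-- The first scale at which that strip time is small. -/
noncomputable def nextZ (c0 : ℝ) (ω : Cfg) (u : Pt) : ℕ :=
  sInf {M : ℕ | nextT b M ω u ≤ c0 * (M + 1)}

/-- The bound on the increments at `u`. -/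
noncomputable def bnd (c0 : ℝ) (ω : Cfg) (u : Pt) : ℝ := |c0| * (nextZ b c0 ω u + 1)

/-- The clamped increment. -/
noncomputable def cincH (k2 k3 K c0 : ℝ) (L : ℕ) (ω : Cfg) (u : Pt) : ℝ :=
  max (-bnd b c0 ω u) (min (bnd b c0 ω u) (incH b k2 k3 K L ω u))

/-- The lower limit of the clamped increments. -/
noncomputable def lowH (k2 k3 K c0 : ℝ) (ω : Cfg) (u : Pt) : ℝ :=
  ⨆ k : ℕ, ⨅ j : ℕ, cincH b k2 k3 K c0 (k + j) ω u

variable {b} {k2 k3 K c0 : ℝ} {ω : Cfg}

theorem bnd_nonneg (ω : Cfg) (u : Pt) : 0 ≤ bnd b c0 ω u := by unfold bnd; positivity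

theorem abs_cincH_le (L : ℕ) (ω : Cfg) (u : Pt) :
    |cincH b k2 k3 K c0 L ω u| ≤ bnd b c0 ω u :=
  abs_le.2 ⟨le_max_left _ _,
    max_le (by linarith [bnd_nonneg (b := b) (c0 := c0) ω u]) (min_le_left _ _)⟩

theorem bddBelow_cincH (L : ℕ) (ω : Cfg) (u : Pt) :
    BddBelow (Set.range fun j : ℕ => cincH b k2 k3 K c0 (L + j) ω u) :=
  ⟨-bnd b c0 ω u, by rintro _ ⟨j, rfl⟩; exact le_max_left _ _⟩

theorem abs_inf_cincH_le (k : ℕ) (ω : Cfg) (u : Pt) :
    |⨅ j : ℕ, cincH b k2 k3 K c0 (k + j) ω u| ≤ bnd b c0 ω u :=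
  abs_le.2 ⟨le_ciInf fun j => neg_le_of_abs_le (abs_cincH_le _ ω u),
    (ciInf_le (bddBelow_cincH k ω u) 0).trans (le_of_abs_le (abs_cincH_le _ ω u))⟩

theorem bddAbove_inf_cincH (ω : Cfg) (u : Pt) :
    BddAbove (Set.range fun k : ℕ => ⨅ j : ℕ, cincH b k2 k3 K c0 (k + j) ω u) := by
  refine ⟨bnd b c0 ω u, ?_⟩
  rintro _ ⟨k, rfl⟩
  exact le_of_abs_le (abs_inf_cincH_le k ω u)

theorem abs_lowH_le (ω : Cfg) (u : Pt) : |lowH b k2 k3 K c0 ω u| ≤ bnd b c0 ω u :=
  abs_le.2 ⟨(neg_le_of_abs_le (abs_inf_cincH_le 0 ω u)).trans (le_ciSup (bddAbove_inf_cincH ω u) 0),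
    ciSup_le fun k => le_of_abs_le (abs_inf_cincH_le k ω u)⟩

theorem capT_shift (h : ℤ) (L : ℕ) (ω : Cfg) (x z : ℤ) (a : Pt) :
    capT b K h L (ω ∘ eShift a) x z = capT b K (h + a.2) L ω (x + a.1) (z + a.1) := by
  unfold capT
  rw [ttIn_strip_shift, upHub_shift, downHub_shift,
    show h + (L : ℤ) + a.2 = h + a.2 + L by ring,
    show ((x, h) : Pt) + a = (x + a.1, h + a.2) from rfl,
    show ((z, h + (L : ℤ)) : Pt) + a = (z + a.1, h + a.2 + L) from
      Prod.ext rfl (by show h + (L : ℤ) + a.2 = _; ring)]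

theorem incH_shift (L : ℕ) (ω : Cfg) (u a : Pt) :
    incH b k2 k3 K L (ω ∘ eShift a) u = incH b k2 k3 K L ω (u + a) := by
  unfold incH
  simp only [capT_shift, Prod.fst_add, Prod.snd_add]
  congr 1
  refine Finset.sum_congr rfl fun i _ => ?_
  rw [show u.1 + winL k2 L + (i : ℤ) + 1 + a.1 = u.1 + a.1 + winL k2 L + i + 1 by ring,
    show u.1 + 1 + a.1 = u.1 + a.1 + 1 by ring]

theorem nextT_shift (M : ℕ) (ω : Cfg) (u a : Pt) :
    nextT b M (ω ∘ eShift a) u = nextT b M ω (u + a) := by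
  unfold nextT
  rw [ttIn_strip_shift, upHub_shift, upHub_shift,
    show u.2 + ((4 * M + 9 : ℕ) : ℤ) + a.2 = u.2 + a.2 + ((4 * M + 9 : ℕ) : ℤ) by ring,
    show ((u.1 + 1, u.2) : Pt) + a = ((u + a).1 + 1, (u + a).2) from
      Prod.ext (by show u.1 + 1 + a.1 = u.1 + a.1 + 1; ring) rfl]
  rfl

theorem bnd_shift (ω : Cfg) (u a : Pt) : bnd b c0 (ω ∘ eShift a) u = bnd b c0 ω (u + a) := by
  simp only [bnd, nextZ, nextT_shift]

theorem lowH_shift (ω : Cfg) (u a : Pt) :
    lowH b k2 k3 K c0 (ω ∘ eShift a) u = lowH b k2 k3 K c0 ω (u + a) := by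
  simp only [lowH, cincH, incH_shift, bnd_shift]

theorem measurable_ttIn_upHub_downHub (S : Set Pt) (u z : Pt) :
    Measurable fun ω : Cfg => ttIn S ω (upHub b ω u) (downHub b ω z) :=
  measurable_at_firstHub (F := fun p ω => ttIn S ω p (downHub b ω z))
    (fun p => measurable_at_firstHub (F := fun q ω => ttIn S ω p q)
      (fun q => measurable_ttIn S p q) b _ _) b _ _

theorem measurable_capT (h : ℤ) (L : ℕ) (x z : ℤ) : Measurable fun ω : Cfg => capT b K h L ω x z :=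
  (measurable_ttIn_upHub_downHub _ _ _).min measurable_const

theorem measurable_incH (L : ℕ) (u : Pt) : Measurable fun ω : Cfg => incH b k2 k3 K L ω u :=
  (Finset.measurable_sum _ fun _ _ => (measurable_capT _ _ _ _).sub (measurable_capT _ _ _ _)).div_const _

theorem measurable_nextT (M : ℕ) (u : Pt) : Measurable fun ω : Cfg => nextT b M ω u :=
  measurable_at_firstHub (F := fun p ω => ttIn _ ω p (upHub b ω (u.1 + 1, u.2)))
    (fun p => measurable_at_firstHub (F := fun q ω => ttIn _ ω p q)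
      (fun q => measurable_ttIn _ p q) b _ _) b _ _

theorem measurable_nextZ (c0 : ℝ) (u : Pt) : Measurable fun ω : Cfg => nextZ b c0 ω u := by
  classical
  have hs : ∀ M : ℕ, MeasurableSet {ω : Cfg | nextT b M ω u ≤ c0 * (M + 1)} :=
    fun M => measurableSet_le (measurable_nextT M u) measurable_const
  refine measurable_to_countable' fun k => ?_
  have e : (fun ω : Cfg => nextZ b c0 ω u) ⁻¹' {k} =
      (({ω : Cfg | nextT b k ω u ≤ c0 * (k + 1)} ∩
        ⋂ j ∈ Finset.range k, {ω : Cfg | nextT b j ω u ≤ c0 * (j + 1)}ᶜ) ∪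
        ({_ω : Cfg | k = 0} ∩ ⋂ j : ℕ, {ω : Cfg | nextT b j ω u ≤ c0 * (j + 1)}ᶜ)) := by
    ext ω
    simp only [Set.mem_preimage, Set.mem_singleton_iff, Set.mem_union, Set.mem_inter_iff,
      Set.mem_iInter, Set.mem_compl_iff, Set.mem_ofPred_eq, Finset.mem_range, nextZ]
    by_cases hne : ∃ j : ℕ, nextT b j ω u ≤ c0 * (j + 1)
    · constructor
      · rintro rfl
        exact Or.inl ⟨Nat.sInf_mem (s := {M : ℕ | nextT b M ω u ≤ c0 * (M + 1)}) hne,
          fun j hj => Nat.notMem_of_lt_sInf (s := {M : ℕ | nextT b M ω u ≤ c0 * (M + 1)}) hj⟩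
      · rintro (⟨h1, h2⟩ | ⟨-, h2⟩)
        · exact le_antisymm (Nat.sInf_le h1) (le_of_not_gt fun hlt =>
            h2 _ hlt (Nat.sInf_mem (s := {M : ℕ | nextT b M ω u ≤ c0 * (M + 1)}) hne))
        · exact absurd hne (not_exists.2 h2)
    · push Not at hne
      rw [show {j : ℕ | nextT b j ω u ≤ c0 * (j + 1)} = ∅ from
        Set.eq_empty_of_forall_notMem fun j => (hne j).not_ge, Nat.sInf_empty]
      exact ⟨fun h => Or.inr ⟨h.symm, fun j => (hne j).not_ge⟩,
        fun h => (h.elim (fun h' => absurd h'.1 (hne k).not_ge) fun h' => h'.1.symm)⟩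
  rw [e]
  exact ((hs k).inter (Finset.measurableSet_biInter _ fun j _ => (hs j).compl)).union
    ((MeasurableSet.const _).inter (MeasurableSet.iInter fun j => (hs j).compl))

theorem measurable_bnd (c0 : ℝ) (u : Pt) : Measurable fun ω : Cfg => bnd b c0 ω u :=
  ((measurable_from_top (f := fun n : ℕ => (n : ℝ))).comp (measurable_nextZ c0 u)).add_const 1
    |>.const_mul _

theorem measurable_cincH (L : ℕ) (u : Pt) : Measurable fun ω : Cfg => cincH b k2 k3 K c0 L ω u :=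
  (measurable_bnd c0 u).neg.max ((measurable_bnd c0 u).min (measurable_incH L u))

theorem measurable_lowH (u : Pt) : Measurable fun ω : Cfg => lowH b k2 k3 K c0 ω u :=
  Measurable.iSup fun _ => Measurable.iInf fun _ => measurable_cincH _ u

theorem capT_bounds (h0 : ∀ e, 0 ≤ ω e) (hK : 0 ≤ K) (h : ℤ) (L : ℕ) (x z : ℤ) :
    0 ≤ capT b K h L ω x z ∧ capT b K h L ω x z ≤ K * L :=
  ⟨le_min (ttIn_nonneg h0 _ _ _) (by positivity), min_le_right _ _⟩

theorem abs_incH_le (h0 : ∀ e, 0 ≤ ω e) (hK : 0 ≤ K) (L : ℕ) (u : Pt) :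
    |incH b k2 k3 K L ω u| ≤ K * L := by
  unfold incH
  rw [abs_div, Nat.abs_cast]
  rcases Nat.eq_zero_or_pos (winN k2 k3 L) with h | h
  · rw [h]; simp; positivity
  rw [div_le_iff₀ (by exact_mod_cast h)]
  refine (Finset.abs_sum_le_sum_abs _ _).trans
    ((Finset.sum_le_card_nsmul _ _ (K * L) fun i _ => ?_).trans_eq (by simp [mul_comm]))
  have h1 := capT_bounds (b := b) h0 hK u.2 L u.1 (u.1 + winL k2 L + i + 1)
  have h2 := capT_bounds (b := b) h0 hK u.2 L (u.1 + 1) (u.1 + winL k2 L + i + 1)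
  exact abs_sub_le_iff.2 ⟨by linarith, by linarith⟩

theorem nextT_le {u : Pt} (hne : ∃ M : ℕ, nextT b M ω u ≤ c0 * (M + 1)) :
    nextT b (nextZ b c0 ω u) ω u ≤ bnd b c0 ω u :=
  (Nat.sInf_mem (s := {M : ℕ | nextT b M ω u ≤ c0 * (M + 1)}) hne).trans
    (mul_le_mul_of_nonneg_right (le_abs_self c0) (by positivity))

/-- In a strip high enough the clamp does nothing. -/
theorem cincH_eq (h0 : ∀ e, 0 ≤ ω e) {u : Pt} (hne : ∃ M : ℕ, nextT b M ω u ≤ c0 * (M + 1)) {L : ℕ}
    (hL : 4 * nextZ b c0 ω u + 9 ≤ L) : cincH b k2 k3 K c0 L ω u = incH b k2 k3 K L ω u := by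
  have hB := bnd_nonneg (b := b) (c0 := c0) ω u
  suffices h : |incH b k2 k3 K L ω u| ≤ bnd b c0 ω u by
    rw [cincH, min_eq_right (le_of_abs_le h), max_eq_right (neg_le_of_abs_le h)]
  unfold incH
  rw [abs_div, Nat.abs_cast]
  rcases Nat.eq_zero_or_pos (winN k2 k3 L) with h | h
  · rw [h]; simpa using hB
  rw [div_le_iff₀ (by exact_mod_cast h)]
  refine (Finset.abs_sum_le_sum_abs _ _).trans
    ((Finset.sum_le_card_nsmul _ _ (bnd b c0 ω u) fun i _ => ?_).trans_eq (by simp [mul_comm]))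
  set S := strip u.2 (u.2 + L)
  set S' := strip u.2 (u.2 + (4 * nextZ b c0 ω u + 9 : ℕ))
  set x := upHub b ω (u.1, u.2)
  set y := upHub b ω (u.1 + 1, u.2)
  set t := downHub b ω (u.1 + winL k2 L + i + 1, u.2 + L)
  have hxs : x ∈ S := by rw [mem_strip]; simp [x, upHub_snd]
  have hys : y ∈ S := by rw [mem_strip]; simp [y, upHub_snd]
  have hts : t ∈ S := by rw [mem_strip]; simp [t, downHub_snd]
  have hsub : ∀ p q : Pt, p ∈ S' → q ∈ S' → ttIn S ω p q ≤ ttIn S' ω p q := fun p q hp hq =>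
    le_ttS (linked_strip _ _) hp hq fun w hw => ttS_le h0 w fun v hv => by
      obtain ⟨h1, h2⟩ := hw v hv
      exact ⟨h1, by push_cast at h2 ⊢; omega⟩
  have hx' : x ∈ S' := ⟨le_rfl, le_add_of_nonneg_right (Int.natCast_nonneg _)⟩
  have hy' : y ∈ S' := ⟨le_rfl, le_add_of_nonneg_right (Int.natCast_nonneg _)⟩
  have h3 : ttIn S' ω x y ≤ bnd b c0 ω u := nextT_le hne
  have h4 : ttIn S' ω y x ≤ bnd b c0 ω u := by
    refine le_trans ?_ h3
    refine le_ttS (linked_strip _ _) hx' hy' fun w hw => (ttS_le h0 w.reverse fun v hv => ?_).trans_eq ?_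
    · exact hw v (by simpa using hv)
    · exact wt_reverse w
  have t1 := ttS_triangle h0 (linked_strip _ _) hxs hys hts (ω := ω)
  have t2 := ttS_triangle h0 (linked_strip _ _) hys hxs hts (ω := ω)
  have s1 := hsub x y hx' hy'
  have s2 := hsub y x hy' hx'
  refine (abs_min_sub_min_le_max _ _ _ _).trans (max_le ?_ (by simpa using hB))
  simp only [ttIn_eq] at *
  exact abs_sub_le_iff.2 ⟨by linarith, by linarith⟩

variable {κ : ℝ} {r : Ray}

/-- What the increments at `u` need. -/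
structure IncOK (b k2 k3 K c0 : ℝ) (ω : Cfg) (u : Pt) : Prop where
  hub : ∃ k : ℕ, Hub b ω (upper u.2) (u.1 + 1 + k, u.2)
  next_ne : ∃ M : ℕ, nextT b M ω u ≤ c0 * (M + 1)
  cap : ∀ᶠ L : ℕ in atTop, ∀ i, i < winN k2 k3 L → ttIn (strip u.2 (u.2 + L)) ω (upHub b ω (u.1, u.2))
    (downHub b ω (u.1 + winL k2 L + i + 1, u.2 + L)) ≤ K * L

/-- The increments bound those of the half-plane Busemann function between first hubs. -/
theorem inc_bound (h0 : ∀ e, 0 ≤ ω e) (hr : IsTail ω r) (hrise : Rises r) (hcone : ConeRay κ r)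
    (hκ0 : 0 ≤ κ) (hκ : κ < k2) (h23 : k2 < k3) {u : Pt} (hu : IncOK b k2 k3 K c0 ω u) :
    busIn (upper u.2) ω r (upHub b ω (u.1, u.2)) - busIn (upper u.2) ω r (upHub b ω (u.1 + 1, u.2)) ≤
      lowH b k2 k3 K c0 ω u := by
  obtain ⟨ux, h⟩ := u
  obtain ⟨hub, hnext, hcap⟩ := hu
  dsimp only at hub hcap ⊢
  set S := upper h
  set H := busIn S ω r
  set x := upHub b ω (ux, h) with hxdef
  set y := upHub b ω (ux + 1, h) with hydef
  refine le_of_forall_pos_le_add fun η hη => ?_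
  suffices hev : ∀ᶠ L : ℕ in atTop, H x - H y - η ≤ cincH b k2 k3 K c0 L ω (ux, h) by
    obtain ⟨L0, hL0⟩ := eventually_atTop.1 hev
    rw [← sub_le_iff_le_add]
    exact (le_ciInf fun j => hL0 _ (by omega)).trans (le_ciSup (bddAbove_inf_cincH ω _) L0)
  have hev := hrise.eventually_upper h
  have hlink : Linked S := linked_upper' h
  have hx : x ∈ S := le_refl h
  have hy : y ∈ S := le_refl h
  have hxy : x.1 ≤ y.1 := firstHub_mono (show ux ≤ ux + 1 by omega) rfl hub
  have hDX : H x - H y ≤ bnd b c0 ω (ux, h) := by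
    have h1 := hr.busIn_le_add h0 hlink hev hx hy
    set S' := strip h (h + ((4 * nextZ b c0 ω (ux, h) + 9 : ℕ) : ℤ))
    have hx' : x ∈ S' := ⟨le_rfl, le_add_of_nonneg_right (Int.natCast_nonneg _)⟩
    have hy' : y ∈ S' := ⟨le_rfl, le_add_of_nonneg_right (Int.natCast_nonneg _)⟩
    have h2 : ttIn S ω x y ≤ ttIn S' ω x y :=
      le_ttS (linked_strip _ _) hx' hy' fun w hw => ttS_le h0 w fun v hv => (hw v hv).1
    have h3 : ttIn S' ω x y ≤ bnd b c0 ω (ux, h) := nextT_le hnext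
    linarith
  obtain ⟨M1, hM1⟩ := hr.busIn_le h0 hlink hev
  obtain ⟨M2, hM2⟩ := exists_seg_walk hr
  obtain ⟨M3, hM3⟩ := eventually_atTop.1 hev
  obtain ⟨M4, hM4⟩ := eventually_atTop.1 hcone
  set N0 := max (max M1 M2) (max M3 M4)
  obtain ⟨m, hm0, hm⟩ : ∃ m, N0 ≤ m ∧ ttIn S ω y (r.pt m) - r.acc m < H y + η := by
    obtain ⟨m, h1, h2⟩ := ((eventually_ge_atTop N0).and
      ((hr.tendsto_busIn h0 hlink hev hy).eventually_lt_const
        (show H y < H y + η by linarith))).exists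
    exact ⟨m, h1, h2⟩
  obtain ⟨q0, hq0, hq0w⟩ := exists_walk_lt hlink hy (hM3 m (by omega))
    (show ttIn S ω y (r.pt m) < H y + η + r.acc m by linarith)
  obtain ⟨D, hD⟩ : ∃ D : ℤ, (∀ z ∈ q0.support, z.2 ≤ D) ∧ ∀ k, N0 ≤ k → k ≤ m → (r.pt k).2 ≤ D := by
    obtain ⟨D, hD⟩ := ((q0.support.toFinset ∪ (Finset.Icc N0 m).image r.pt).image Prod.snd).bddAbove
    exact ⟨D, fun z hz => hD (Finset.mem_image_of_mem _
      (Finset.mem_union_left _ (List.mem_toFinset.2 hz))), fun k hk hk' => hD (Finset.mem_image_of_mem _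
      (Finset.mem_union_right _ (Finset.mem_image_of_mem _ (Finset.mem_Icc.2 ⟨hk, hk'⟩))))⟩
  have hgap : 0 < k2 - κ := sub_pos.2 hκ
  have hwin : 0 < k3 - k2 := sub_pos.2 h23
  obtain ⟨L0, hL0⟩ := exists_nat_ge (max (((D - h + 1 : ℤ) : ℝ))
    (max ((κ * |(h : ℝ)| + |(ux : ℝ)|) / (k2 - κ)) (1 / (k3 - k2))))
  filter_upwards [eventually_ge_atTop L0, hcap] with L hL hcapL
  have hL' : (L0 : ℝ) ≤ L := by exact_mod_cast hL
  simp only [max_le_iff] at hL0
  have g1 : D + 1 ≤ h + (L : ℤ) := by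
    have : ((D - h + 1 : ℤ) : ℝ) ≤ ((L : ℤ) : ℝ) := by push_cast at hL0 ⊢; linarith [hL0.1]
    have := Int.cast_le.1 this
    omega
  have g2 := (div_le_iff₀ hgap).1 (hL0.2.1.trans hL')
  have g3 := (div_le_iff₀ hwin).1 (hL0.2.2.trans hL')
  -- the first visit of the far line after `N0`
  set s : ℕ → Pt := fun k => r.pt (N0 + k)
  have hs : ∀ k, grid.Adj (s k) (s (k + 1)) := fun k => hr.adj (N0 + k)
  have hs0 : (s 0).2 ≤ h + L := by
    have := hD.2 N0 le_rfl hm0
    simp only [s, Nat.add_zero]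
    omega
  obtain ⟨n, hn⟩ := exists_firstVisit hs hs0 (by
    obtain ⟨K, hK⟩ := eventually_atTop.1 (tendsto_atTop.1 hrise (h + L))
    exact ⟨K, hK _ (by omega)⟩)
  have hnm : m ≤ N0 + n := by
    by_contra hlt
    have := hD.2 (N0 + n) (by omega) (by omega)
    have := hn.1
    simp only [s] at this
    omega
  obtain ⟨z, H'⟩ : ∃ z : ℤ, r.pt (N0 + n) = (z, h + L) := ⟨(r.pt (N0 + n)).1, Prod.ext rfl hn.1⟩
  have hzc : |(z : ℝ)| ≤ κ * |((h + L : ℤ) : ℝ)| := by
    have := hM4 (N0 + n) (by omega)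
    rwa [H'] at this
  have hstrip : ∀ k, N0 ≤ k → k ≤ N0 + n → r.pt k ∈ strip h (h + L) := by
    intro k hk hk'
    obtain ⟨i, rfl⟩ := Nat.exists_eq_add_of_le hk
    exact ⟨hM3 _ (by omega), hn.below hs hs0 i (by omega)⟩
  -- the strip time from the right hub is almost the half-plane Busemann function
  have upY : ttIn (strip h (h + L)) ω y (z, h + L) - r.acc (N0 + n) ≤ H y + η := by
    obtain ⟨-, w, hw, hws, -⟩ := hM2 m (N0 + n) (by omega) hnm
    have h1 : ttS ω (strip h (h + L)) y (z, h + L) ≤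
        wt ω ((q0.append w).copy rfl H') := ttS_le h0 _ fun v hv => by
      rw [SimpleGraph.Walk.support_copy] at hv
      rcases (SimpleGraph.Walk.mem_support_append_iff _ _).1 hv with hv | hv
      · have := hD.1 v hv
        exact ⟨hq0 v hv, by omega⟩
      · obtain ⟨k, hk, hk', rfl⟩ := hws v hv
        exact hstrip k (by omega) hk'
    have h2 : wt ω ((q0.append w).copy rfl H') = wt ω q0 + wt ω w := by
      simp [wt]
    simp only [ttIn_eq]
    linarith
  -- the strip time from the left hub dominates it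
  have lowX : H x ≤ ttIn (strip h (h + L)) ω x (z, h + L) - r.acc (N0 + n) := by
    have h1 := hM1 x hx (N0 + n) (by omega)
    rw [H'] at h1
    refine h1.trans (sub_le_sub_right ?_ _)
    exact le_ttS (linked_strip _ _) ⟨le_rfl, le_add_of_nonneg_right (Int.natCast_nonneg _)⟩
      ⟨le_add_of_nonneg_right (Int.natCast_nonneg _), le_rfl⟩
      fun p hp => ttS_le h0 p fun v hv => (hp v hv).1
  have hN : 0 < winN k2 k3 L := by
    have : ⌈k2 * (L : ℝ)⌉ < ⌈k3 * (L : ℝ)⌉ := by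
      rw [Int.lt_iff_add_one_le, ← Int.ceil_add_one]
      exact Int.ceil_le_ceil (by linarith)
    simp only [winN]
    omega
  refine le_trans (le_min (show H x - H y - η ≤ bnd b c0 ω (ux, h) by linarith) ?_) (le_max_right _ _)
  rw [incH, le_div_iff₀ (by exact_mod_cast hN)]
  refine le_trans (le_of_eq ?_) (Finset.card_nsmul_le_sum _ _ (H x - H y - η) fun i hi => ?_)
  · simp [mul_comm]
  set t := downHub b ω (ux + winL k2 L + i + 1, h + L) with ht
  have hzt : z ≤ t.1 := by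
    refine le_trans ?_ le_firstHub_fst
    have h1 : (winL k2 L : ℝ) ≥ k2 * L := Int.le_ceil _
    have h2 : |((h + L : ℤ) : ℝ)| ≤ |(h : ℝ)| + L := by
      push_cast
      exact (abs_add_le _ _).trans (by simp)
    have h3 := mul_le_mul_of_nonneg_left h2 hκ0
    have : (z : ℝ) ≤ ((ux + winL k2 L + i + 1 : ℤ) : ℝ) := by
      push_cast
      linarith [le_abs_self (z : ℝ), neg_abs_le (ux : ℝ), (Nat.cast_nonneg i : (0 : ℝ) ≤ i)]
    exact Int.cast_le.1 this
  have hex := strip_exchange h0 (h := h) (H := h + L) (x := x.1) (y := y.1) (by omega) hxy hzt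
  have et : ((t.1, h + (L : ℤ)) : Pt) = t := Prod.ext rfl rfl
  have ex : ((x.1, h) : Pt) = x := Prod.ext rfl rfl
  have ey : ((y.1, h) : Pt) = y := Prod.ext rfl rfl
  rw [et, ex, ey] at hex
  have hc := hcapL i (Finset.mem_range.1 hi)
  show H x - H y - η ≤ min (ttIn (strip h (h + L)) ω x t) (K * L) - min (ttIn (strip h (h + L)) ω y t) (K * L)
  rw [min_eq_left hc]
  have := min_le_left (ttIn (strip h (h + L)) ω y t) (K * L)
  linarith

/-- The forward bound at `u` beyond the distance `j0`. -/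
def FwdH (b k2 k3 K c0 m1 : ℝ) (j0 : ℕ) (ω : Cfg) (u : Pt) : Prop :=
  (∀ i : ℕ, IncOK b k2 k3 K c0 ω (u.1 + i, u.2)) ∧
    ∀ j : ℕ, j0 ≤ j → ∑ i ∈ Finset.range j, lowH b k2 k3 K c0 ω (u.1 + i, u.2) ≤ m1 * j

theorem fwd_bound (h0 : ∀ e, 0 ≤ ω e) (hr : IsTail ω r) (hrise : Rises r) (hcone : ConeRay κ r)
    (hκ0 : 0 ≤ κ) (hκ : κ < k2) (h23 : k2 < k3) {m1 : ℝ} {j0 : ℕ} {u : Pt}
    (hF : FwdH b k2 k3 K c0 m1 j0 ω u) {j : ℕ} (hj : j0 ≤ j) :
    busIn (upper u.2) ω r (upHub b ω u) - busIn (upper u.2) ω r (upHub b ω (u.1 + j, u.2)) ≤ m1 * j := by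
  have htel := Finset.sum_range_sub'
    (fun i : ℕ => busIn (upper u.2) ω r (upHub b ω (u.1 + i, u.2))) j
  simp only [Nat.cast_zero, add_zero, Nat.cast_succ, ← add_assoc] at htel
  rw [← htel]
  exact (Finset.sum_le_sum (g := fun i : ℕ => lowH b k2 k3 K c0 ω (u.1 + i, u.2)) fun i _ =>
    inc_bound h0 hr hrise hcone hκ0 hκ h23 (hF.1 i)).trans (hF.2 j hj)

end Vale.Agent.P158.Any
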