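import Vale.Agent.P158.Any.Shape

/-!
P158, arbitrary laws (note 1452, U6): the shape along all bigeodesics.
-/

namespace Vale.Agent.P158.Any

open MeasureTheory Filter Topology

/-- A smaller error is a stronger property. -/
theorem HShape.weaken {μ : ℝ × ℝ → ℝ} {b₀ C₀ ε ε' r : ℝ} {ω : Cfg} {u : Pt}
    (h : HShape μ b₀ C₀ ε r ω u) (hC : 0 ≤ C₀) (hr : 0 ≤ r) (hε : ε ≤ ε') :
    HShape μ b₀ C₀ ε' r ω u := by
  have hle : ∀ R, r ≤ R → ε * R ≤ ε' * R := fun R hR =>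
    mul_le_mul_of_nonneg_right hε (hr.trans hR)
  refine ⟨fun R hR p q hp hq => ?_, fun R hR p q hp hq hh hh' => ?_,
    fun R hR S hS p q hp hq hh hh' => ?_,
    fun R hR p hp => (h.tame R hR p hp).mono (Nat.floor_le_floor (hle R hR)), fun S hS R hR => ?_⟩
  · linarith [h.lo R hR p q hp hq, hle R hR]
  · linarith [h.hi R hR p q hp hq hh hh', hle R hR]
  · linarith [h.seg R hR S hS p q hp hq hh hh', mul_le_mul_of_nonneg_left (hle R hR) hC]
  · obtain ⟨d, hd, h1, h2⟩ := h.self S hS R hR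
    exact ⟨d, hd, h1.trans (hle R hR), h2.trans (hle R hR)⟩

variable (G : Measure ℝ) [IsProbabilityMeasure G]

/-- Almost surely the shape holds along every bigeodesic. -/
theorem ae_laneShape (hG : ∀ᵐ t ∂G, 0 < t) :
    ∀ᵐ ω ∂V4.law G, ∀ v, V4.IsLane ω v → V4.LaneShape (muA G) ω v := by
  obtain ⟨b₀, C₀, -, hC, -, hμ, hsh⟩ := exists_shape G hG
  have hev : ∀ (k : ℕ) (u : Pt),
      ∀ᵐ ω ∂V4.law G, ∃ r : ℕ, HShape (muA G) b₀ C₀ (1 / ((k : ℝ) + 1)) r ω u := by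
    intro k u
    rw [ae_iff]
    simp only [not_exists]
    exact le_antisymm (ge_of_tendsto' (hsh (1 / ((k : ℝ) + 1)) (by positivity) u) fun r =>
      measure_mono fun ω hω => hω r) zero_le
  filter_upwards [V4.law_all G measurableSet_Ioi hG, ae_all_iff.2 fun k => ae_all_iff.2 (hev k)]
    with ω h0 hω v hv
  refine laneShape_of_hshape (b₀ := b₀) (C₀ := C₀) hμ (fun e => (h0 e : 0 < ω e).le) hv fun ε hε => ?_
  obtain ⟨k, hk⟩ := exists_nat_one_div_lt hε
  obtain ⟨r, hr⟩ := hω k (v 0)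
  exact ⟨r, hr.weaken hC r.cast_nonneg hk.le⟩

end Vale.Agent.P158.Any
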