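import Mathlib
import Vale.Agent.P158.Any.Increment

/-!
P158, arbitrary laws (note 1452, U5): the strip time between the first hubs at neighbouring sites is
rarely large, so the clamp of the increments is integrable.
-/

namespace Vale.Agent.P158.Any

open MeasureTheory Filter Topology V4

/-- The sites of a horizontal segment from `u`. -/
def hSeg (u : Pt) (n : ℕ) : Finset Pt := (Finset.range n).image fun i : ℕ => (u.1 + (i : ℤ), u.2)

variable {b : ℝ} {ω : Cfg}

theorem nextT_small (hb : 0 ≤ b) (h0 : ∀ e, 0 ≤ ω e) {u : Pt} {M : ℕ} (h1 : RayOK b ω u M)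
    (h2 : RayOK b ω (u.1 + 1, u.2) M) (hA : NoAnimals b ω (hSeg u (M + 3)) (4 * M + 8)) :
    nextT b M ω u ≤ 75 * b * (M + 1) := by
  obtain ⟨k1, hub1⟩ := firstK_le_of_rayOK (S := upper u.2) (reg_upper u.2) (p := u) (show u.2 ≤ u.2 from le_rfl) h1
  obtain ⟨k2, hub2⟩ := firstK_le_of_rayOK (S := upper u.2) (reg_upper u.2) (p := ((u.1 + 1, u.2) : Pt))
    (show u.2 ≤ u.2 from le_rfl) h2
  set x := upHub b ω (u.1, u.2) with hx
  set y := upHub b ω (u.1 + 1, u.2) with hy
  have ex1 : u.1 ≤ x.1 ∧ x.1 ≤ u.1 + (M + 1) :=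
    ⟨le_firstHub_fst, by
      show u.1 + (firstK b ω (upper u.2) u : ℤ) ≤ _
      omega⟩
  have ey1 : u.1 + 1 ≤ y.1 ∧ y.1 ≤ u.1 + 1 + (M + 1) :=
    ⟨le_firstHub_fst, by
      show u.1 + 1 + (firstK b ω (upper u.2) (u.1 + 1, u.2) : ℤ) ≤ _
      omega⟩
  obtain ⟨p, hlen, hp⟩ := exists_box_walk x y
  have hlevel : ∀ z ∈ p.support, z.2 = u.2 ∧ u.1 ≤ z.1 ∧ z.1 ≤ u.1 + (M + 2) := fun z hz => by
    have := hp z hz
    rw [upHub_snd, upHub_snd] at this
    dsimp only at this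
    omega
  have hsub : p.support.toFinset ⊆ hSeg u (M + 3) := fun z hz => by
    obtain ⟨e1, e2, e3⟩ := hlevel z (List.mem_toFinset.1 hz)
    obtain ⟨i, hi⟩ := Int.le.dest e2
    exact Finset.mem_image.2 ⟨i, Finset.mem_range.2 (by omega), Prod.ext hi e1.symm⟩
  have hA' : NoAnimals b ω p.support.toFinset (4 * M + 8) :=
    fun U hU hbad => hA U (hU.mono hsub) hbad
  obtain ⟨q, hq, hqw⟩ := hA'.seg_bound (reg_upper u.2) hb h0 hub1 hub2 p
    fun z hz => show u.2 ≤ z.2 from (hlevel z hz).1.ge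
  have hqs : ∀ z ∈ q.support, z ∈ strip u.2 (u.2 + (4 * M + 9 : ℕ)) := fun z hz => by
    obtain ⟨hzS, hz'⟩ := hq z hz
    refine ⟨hzS, ?_⟩
    rcases hz' with h | ⟨r, hr, -, h⟩
    · have := (hlevel z h).1
      omega
    · have := (hlevel r hr).1
      rw [abs_le] at h
      push_cast at h ⊢
      omega
  refine (ttS_le h0 q hqs).trans (hqw.trans ?_)
  have hl : p.length ≤ M + 2 := by
    rw [hlen]
    simp only [l1]
    rw [hx, hy, upHub_snd, upHub_snd]
    simp only [← hx, ← hy]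
    omega
  have hl' := (Nat.cast_le (α := ℝ)).2 hl
  push_cast at hl' ⊢
  have hM : (0 : ℝ) ≤ M := Nat.cast_nonneg M
  refine le_trans (mul_le_mul_of_nonneg_left (b := (p.length : ℝ) + 9 * (4 * M + 8))
    (c := 75 * ((M : ℝ) + 1)) ?_ hb) (le_of_eq (by ring))
  linarith

variable (G : Measure ℝ) [IsProbabilityMeasure G]

theorem prob_nextT_le (hb : 0 ≤ b) (hrate : rate G b ≤ 1 / 2)
    (h0 : ∀ᵐ ω ∂V4.law G, ∀ e, 0 ≤ ω e) (u : Pt) (M : ℕ) :
    (V4.law G).real {ω | 75 * b * (M + 1) < nextT b M ω u} ≤ 9 * ((M : ℝ) + 2) * (1 / 2) ^ M := by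
  set A := {ω : Cfg | ¬ RayOK b ω u M}
  set B := {ω : Cfg | ¬ RayOK b ω (u.1 + 1, u.2) M}
  set C := {ω : Cfg | ¬ NoAnimals b ω (hSeg u (M + 3)) (4 * M + 8)}
  have hle : (V4.law G).real {ω | 75 * b * (M + 1) < nextT b M ω u} ≤ (V4.law G).real (A ∪ B ∪ C) := by
    refine ENNReal.toReal_mono (measure_ne_top _ _) (measure_mono_ae ?_)
    filter_upwards [h0] with ω hω hlt
    have hlt' : 75 * b * (M + 1) < nextT b M ω u := hlt
    by_contra hno
    have hno' : (RayOK b ω u M ∧ RayOK b ω (u.1 + 1, u.2) M) ∧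
        NoAnimals b ω (hSeg u (M + 3)) (4 * M + 8) := by
      by_contra h
      apply hno
      show (¬ RayOK b ω u M ∨ ¬ RayOK b ω (u.1 + 1, u.2) M) ∨ ¬ NoAnimals b ω (hSeg u (M + 3)) (4 * M + 8)
      tauto
    exact hlt'.not_ge (nextT_small hb hω hno'.1.1 hno'.1.2 hno'.2)
  refine hle.trans ((measureReal_union_le _ _).trans ((add_le_add (measureReal_union_le _ _) le_rfl).trans ?_))
  have q0 := rate_nonneg G b
  have hp : rate G b ^ (M + 1) ≤ (1 / 2) ^ M :=
    (pow_le_pow_left₀ q0 hrate _).trans (pow_le_pow_of_le_one (by norm_num) (by norm_num) (Nat.le_succ M))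
  have hA := (prob_not_rayOK_le G hrate u M).trans (mul_le_mul_of_nonneg_left hp (by positivity))
  have hB := (prob_not_rayOK_le G hrate (u.1 + 1, u.2) M).trans (mul_le_mul_of_nonneg_left hp (by positivity))
  have hC : (V4.law G).real C ≤ ((M : ℝ) + 2) * (1 / 2) ^ M := by
    refine (prob_not_noAnimals_le G hrate _ _).trans ?_
    refine (mul_le_mul (pow_le_pow_right₀ one_le_two ((Finset.card_image_le.trans_eq
      (Finset.card_range _)) : (hSeg u (M + 3)).card ≤ M + 3))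
      (pow_le_pow_left₀ q0 hrate _) (pow_nonneg q0 _) (by positivity)).trans ?_
    rw [show 4 * M + 8 + 1 = (M + 3) + (3 * M + 6) by omega, pow_add (1 / 2 : ℝ), ← mul_assoc,
      ← mul_pow, show (2 : ℝ) * (1 / 2) = 1 by norm_num, one_pow, one_mul]
    refine (pow_le_pow_of_le_one (by norm_num) (by norm_num) (show M ≤ 3 * M + 6 by omega)).trans ?_
    exact le_mul_of_one_le_left (by positivity) (by linarith [Nat.cast_nonneg (α := ℝ) M])
  linarith

/-- Almost surely the strip time between neighbouring first hubs is small at some scale. -/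
theorem ae_next_ne (hb : 0 ≤ b) (hrate : rate G b ≤ 1 / 2)
    (h0 : ∀ᵐ ω ∂V4.law G, ∀ e, 0 ≤ ω e) :
    ∀ᵐ ω ∂V4.law G, ∀ u : Pt, ∃ M : ℕ, nextT b M ω u ≤ 75 * b * (M + 1) := by
  refine ae_all_iff.2 fun u => ?_
  rw [ae_iff, ← measureReal_eq_zero_iff]
  have hlim : Tendsto (fun M : ℕ => 9 * ((M : ℝ) + 2) * (1 / 2 : ℝ) ^ M) atTop (𝓝 0) := by
    have h1 := tendsto_self_mul_const_pow_of_lt_one (r := (1 / 2 : ℝ)) (by norm_num) (by norm_num)
    have h2 := tendsto_pow_atTop_nhds_zero_of_lt_one (show (0 : ℝ) ≤ 1 / 2 by norm_num) (by norm_num)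
    have h3 := (h1.add (h2.const_mul 2)).const_mul 9
    simp only [add_zero, mul_zero] at h3
    exact h3.congr fun M => by ring
  refine le_antisymm (ge_of_tendsto hlim (Eventually.of_forall fun M => ?_)) measureReal_nonneg
  exact (measureReal_mono (s₁ := {ω : Cfg | ¬ ∃ M : ℕ, nextT b M ω u ≤ 75 * b * (M + 1)})
    (fun ω (hω : ¬ ∃ M : ℕ, nextT b M ω u ≤ 75 * b * (M + 1)) =>
      show 75 * b * (M + 1) < nextT b M ω u from not_le.1 fun h => hω ⟨M, h⟩)
    (measure_ne_top _ _)).trans (prob_nextT_le G hb hrate h0 u M)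

/-- The first small scale is integrable. -/
theorem integrable_nextZ (hb : 0 ≤ b) (hrate : rate G b ≤ 1 / 2)
    (h0 : ∀ᵐ ω ∂V4.law G, ∀ e, 0 ≤ ω e) (u : Pt) :
    Integrable (fun ω => (nextZ b (75 * b) ω u : ℝ)) (V4.law G) := by
  classical
  have hm := measurable_nextZ (b := b) (75 * b) u
  refine ⟨(measurable_from_top.comp hm).aestronglyMeasurable, ?_⟩
  rw [hasFiniteIntegral_iff_ofReal (Eventually.of_forall fun ω => Nat.cast_nonneg _)]
  have e : ∀ ω : Cfg, ENNReal.ofReal (nextZ b (75 * b) ω u : ℝ) =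
      ∑' M : ℕ, {x : Cfg | M < nextZ b (75 * b) x u}.indicator (fun _ => (1 : ENNReal)) ω := by
    intro ω
    have hsum : ∑' M : ℕ, {x : Cfg | M < nextZ b (75 * b) x u}.indicator (fun _ => (1 : ENNReal)) ω =
        ∑ M ∈ Finset.range (nextZ b (75 * b) ω u),
          {x : Cfg | M < nextZ b (75 * b) x u}.indicator (fun _ => (1 : ENNReal)) ω :=
      tsum_eq_sum fun M hM => Set.indicator_of_notMem
        (s := {x : Cfg | M < nextZ b (75 * b) x u}) (fun h => hM (Finset.mem_range.2 h)) _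
    rw [hsum, Finset.sum_congr rfl fun M hM => Set.indicator_of_mem
        (show ω ∈ {x : Cfg | M < nextZ b (75 * b) x u} from Finset.mem_range.1 hM) _]
    simp
  have hms : ∀ M : ℕ, MeasurableSet {x : Cfg | M < nextZ b (75 * b) x u} := fun M =>
    hm measurableSet_Ioi
  simp only [e]
  rw [lintegral_tsum fun M => (measurable_const.indicator (hms M)).aemeasurable]
  have hle : ∀ M : ℕ, ∫⁻ ω, {x : Cfg | M < nextZ b (75 * b) x u}.indicator (fun _ => (1 : ENNReal)) ω ∂V4.law G ≤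
      ENNReal.ofReal (9 * ((M : ℝ) + 2) * (1 / 2) ^ M) := fun M => by
    rw [lintegral_indicator_const (hms M), one_mul, ← ofReal_measureReal]
    refine ENNReal.ofReal_le_ofReal ((measureReal_mono (s₂ := {ω | 75 * b * (M + 1) < nextT b M ω u})
      (fun ω hω => ?_) (measure_ne_top _ _)).trans
      (prob_nextT_le G hb hrate h0 u M))
    exact (lt_of_not_ge (Nat.notMem_of_lt_sInf (s := {M : ℕ | nextT b M ω u ≤ 75 * b * (M + 1)}) hω) :
      75 * b * (M + 1) < nextT b M ω u)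
  refine lt_of_le_of_lt (ENNReal.tsum_le_tsum hle) ?_
  rw [← ENNReal.ofReal_tsum_of_nonneg (fun M => by positivity)]
  · exact ENNReal.ofReal_lt_top
  have h1 : Summable fun M : ℕ => (M : ℝ) * (1 / 2) ^ M :=
    (hasSum_coe_mul_geometric_of_norm_lt_one (r := (1 / 2 : ℝ)) (by norm_num)).summable
  exact ((h1.add ((summable_geometric_of_lt_one (by norm_num) (by norm_num :
    (1 / 2 : ℝ) < 1)).mul_left 2)).mul_left 9).congr fun M => by ring

theorem integrable_bnd (hb : 0 ≤ b) (hrate : rate G b ≤ 1 / 2)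
    (h0 : ∀ᵐ ω ∂V4.law G, ∀ e, 0 ≤ ω e) (u : Pt) :
    Integrable (fun ω => bnd b (75 * b) ω u) (V4.law G) :=
  ((integrable_nextZ G hb hrate h0 u).add (integrable_const 1)).const_mul _

end Vale.Agent.P158.Any
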