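import Mathlib
import Vale.Agent.P158.Any.ShapeDefs
import Vale.Agent.P158.Any.Increment

/-!
P158, arbitrary laws (note 1452, U5): under the shape property the strip times between first hubs are
close to the norm. Hubs of the two half-planes reach hubs of the plane near a level inside the strip by
walks too cheap to leave it, and a walk between those stays inside as a detour costs too much.
-/

namespace Vale.Agent.P158.Any

open MeasureTheory Filter Topology V4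

variable {μ : ℝ × ℝ → ℝ} {b₀ C₀ ε r R c : ℝ} {ω : Cfg} {u : Pt}

theorem HShape.firstHub_spec (h : HShape μ b₀ C₀ ε r ω u) (hR : r ≤ R) {S : Set Pt} (hS : Reg S)
    {p : Pt} (hp : p ∈ S) (hpR : (l1 u p : ℝ) ≤ R) :
    Hub b₀ ω S (firstHub b₀ ω S p) ∧ l1 p (firstHub b₀ ω S p) ≤ ⌊ε * R⌋₊ + 1 ∧
      firstK b₀ ω S p ≤ ⌊ε * R⌋₊ + 1 := by
  obtain ⟨h1, h2⟩ := firstK_le_of_rayOK hS hp (h.tame R hR p hpR)
  exact ⟨h2, by rw [l1_firstHub]; exact h1, h1⟩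

/-- A hub of a region and another one off its square are joined cheaply to a hub of the plane near
the first. -/
theorem HShape.bridge (h : HShape μ b₀ C₀ ε r ω u) (h0 : ∀ e, 0 ≤ ω e) (hR : r ≤ R) {S : Set Pt}
    (hS : Reg S) (hlink : Linked S) {p q : Pt} (hp : (l1 u p : ℝ) ≤ R) (hq : (l1 u q : ℝ) ≤ R)
    (hph : Hub b₀ ω S p) (hqh : Hub b₀ ω S q) (hfar : ¬ Near ⌊ε * R⌋₊ p q) :
    ∃ d, Hub b₀ ω Set.univ d ∧ l1 p d ≤ 2 * ⌊ε * R⌋₊ + 2 ∧ ∃ w : grid.Walk q d,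
      (∀ z ∈ w.support, z ∈ S) ∧ wt ω w ≤ C₀ * (l1 q p + ε * R) + 1 := by
  obtain ⟨w, hw, hwt⟩ := exists_walk_lt hlink hqh.1 hph.1
    (lt_of_le_of_lt (h.seg R hR S hS q p hq hp hqh hph) (lt_add_one _))
  obtain ⟨d, hd, hdw, hdist, -⟩ := h.gate hR reg_univ (Set.mem_univ p) hp w.reverse
    (fun z _ => Set.mem_univ z) hfar
  have hdw' : d ∈ w.support := by simpa using hdw
  obtain ⟨w1, w2, rfl⟩ := SimpleGraph.Walk.mem_support_iff_exists_append.1 hdw'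
  refine ⟨d, hd, hdist, w1, fun z hz => hw z ((SimpleGraph.Walk.mem_support_append_iff _ _).2
    (Or.inl hz)), ?_⟩
  rw [wt_append] at hwt
  have := wt_nonneg h0 w2
  linarith

/-- A cheap walk stays near its start. -/
theorem HShape.confine (h : HShape μ b₀ C₀ ε r ω u) (h0 : ∀ e, 0 ≤ ω e)
    (hc : ∀ x y, c * (|x| + |y|) ≤ μ (x, y)) (hεc : ε ≤ c / 2) (hR : r ≤ R)
    {p q : Pt} (hp : (l1 u p : ℝ) ≤ R) (w : grid.Walk p q) {z : Pt} (hz : z ∈ w.support) :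
    c / 2 * (l1 p z : ℝ) ≤ wt ω w + ε * R := by
  obtain ⟨w1, w2, rfl⟩ := SimpleGraph.Walk.mem_support_iff_exists_append.1 hz
  have hl := (Nat.cast_le (α := ℝ)).2 (l1_triangle u p z)
  push_cast at hl
  have hz0 : (0 : ℝ) ≤ l1 p z := Nat.cast_nonneg _
  have hlo := h.lo (R + l1 p z) (by linarith) p z (by linarith) (by linarith)
  have hcz : c * (l1 p z : ℝ) ≤ μ (toR (z - p)) := by
    refine le_trans (le_of_eq ?_) (hc _ _)
    simp [l1, Nat.cast_natAbs, abs_sub_comm]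
  have h1 := tt_le h0 w1
  have h2 := wt_nonneg h0 w2
  have h3 := mul_le_mul_of_nonneg_right hεc hz0
  rw [wt_append]
  linarith

/-- The parameters under which the strip of height `L` behaves. -/
structure StripData (μ : ℝ × ℝ → ℝ) (C₀ ε r R c a κ' : ℝ) (L M : ℕ) : Prop where
  norm : IsLatticeNorm μ
  hε : 0 ≤ ε
  hC : 0 ≤ C₀
  hεc : ε ≤ c / 4
  hc : ∀ x y, c * (|x| + |y|) ≤ μ (x, y)
  hsup : ∀ s ρ, |s| ≤ κ' → Supports μ (s, 1) ρ → |ρ.1| ≤ a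
  ha : a < μ (1, 0)
  hκ : 0 ≤ κ'
  hrR : r ≤ R
  hR0 : 0 ≤ R
  small : 3 * (ε * R + 1) ≤ M
  low : 4 * M + 4 ≤ L
  conf : 2 * C₀ * M + 1 + M < c / 2 * ((L : ℝ) - M)
  gap : 3 * (ε * R) + 1 < 2 * (μ (1, 0) - a) * (M / 3)

variable {a κ' : ℝ} {L M : ℕ}

theorem StripData.floor_le (d : StripData μ C₀ ε r R c a κ' L M) :
    3 * ((⌊ε * R⌋₊ : ℤ) + 1) ≤ M := by
  have h := Nat.floor_le (mul_nonneg d.hε d.hR0)
  have : 3 * ((⌊ε * R⌋₊ : ℝ) + 1) ≤ M := by linarith [d.small]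
  exact_mod_cast this

/-- The near end: from the first hub at the origin to a hub of the plane, inside the strip. -/
theorem up_end (d : StripData μ C₀ ε r R c a κ' L M) (h0 : ∀ e, 0 ≤ ω e)
    (hsh : HShape μ b₀ C₀ ε r ω (0, 0)) (hR : (L : ℝ) + 8 * M ≤ R) :
    ∃ A, Hub b₀ ω Set.univ A ∧ (|A.1| ≤ M ∧ (M : ℤ) ≤ 3 * A.2 ∧ A.2 ≤ 2 * M) ∧
      ∃ w : grid.Walk (upHub b₀ ω (0, 0)) A,
        (∀ z ∈ w.support, z ∈ strip 0 (L : ℤ)) ∧ wt ω w ≤ 2 * C₀ * M + 1 := by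
  have hM3 := d.floor_le
  have hL0 : (0 : ℝ) ≤ L := Nat.cast_nonneg L
  have hM0 : (0 : ℝ) ≤ M := Nat.cast_nonneg M
  have hεR : 0 ≤ ε * R := mul_nonneg d.hε (by linarith)
  have hN1 : (⌊ε * R⌋₊ : ℝ) ≤ ε * R := Nat.floor_le hεR
  have hin : ∀ z : Pt, z.1.natAbs + z.2.natAbs ≤ L + 6 * M → (l1 (0, 0) z : ℝ) ≤ R := by
    intro z hz
    have h : l1 (0, 0) z ≤ L + 6 * M := by simp only [l1]; omega
    have := (Nat.cast_le (α := ℝ)).2 h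
    push_cast at this
    linarith
  set U0 := upHub b₀ ω (0, 0) with hU0
  set U1 := firstHub b₀ ω (upper 0) (0, (M : ℤ)) with hU1
  obtain ⟨hU0h, -, hU0k⟩ := hsh.firstHub_spec (S := upper 0) d.hrR (reg_upper 0) (p := ((0, 0) : Pt))
    (show (0 : ℤ) ≤ 0 from le_rfl) (hin _ (by simp))
  obtain ⟨hU1h, -, hU1k⟩ := hsh.firstHub_spec (S := upper 0) d.hrR (reg_upper 0)
    (p := ((0, (M : ℤ)) : Pt)) (show (0 : ℤ) ≤ M by omega) (hin _ (by dsimp only; omega))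
  have eU0 : U0.1 = (firstK b₀ ω (upper 0) (0, 0) : ℤ) ∧ U0.2 = 0 :=
    ⟨by simp [U0, upHub, firstHub], rfl⟩
  have eU1 : U1.1 = (firstK b₀ ω (upper 0) (0, (M : ℤ)) : ℤ) ∧ U1.2 = M :=
    ⟨by simp [U1, firstHub], rfl⟩
  have bU0 : (l1 (0, 0) U0 : ℝ) ≤ R := hin _ (by omega)
  have bU1 : (l1 (0, 0) U1 : ℝ) ≤ R := hin _ (by omega)
  obtain ⟨A, hA, hAd, w1, hw1, hw1t⟩ := hsh.bridge (S := upper 0) h0 d.hrR (reg_upper 0)
    (linked_upper' 0) bU1 bU0 hU1h hU0h (by simp only [Near, abs_le]; omega)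
  have hu01 : (l1 U0 U1 : ℝ) + ε * R ≤ 2 * M := by
    have : l1 U0 U1 ≤ M + (⌊ε * R⌋₊ + 1) := by simp only [l1]; omega
    have := (Nat.cast_le (α := ℝ)).2 this
    push_cast at this
    linarith [d.small]
  have ht1 : wt ω w1 ≤ 2 * C₀ * M + 1 := by
    have := mul_le_mul_of_nonneg_left hu01 d.hC
    linarith
  simp only [l1] at hAd
  refine ⟨A, hA, by rw [abs_le]; omega, w1, fun z hz => ⟨hw1 z hz, ?_⟩, ht1⟩
  by_contra hlt
  have h1 : (L : ℝ) ≤ (l1 U0 z : ℝ) := by exact_mod_cast (show L ≤ l1 U0 z by simp only [l1]; omega)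
  have hc0 : 0 ≤ c / 2 := by linarith [d.hε, d.hεc]
  have h2 := hsh.confine h0 d.hc (by linarith [d.hε, d.hεc]) d.hrR bU0 w1 hz
  have h3 := mul_le_mul_of_nonneg_left h1 hc0
  have h4 : 0 ≤ c / 2 * (M : ℝ) := by positivity
  linarith [d.conf, d.small]

/-- The far end: from the first hub at a point of the far line to a hub of the plane, inside the
strip. -/
theorem down_end (d : StripData μ C₀ ε r R c a κ' L M) (h0 : ∀ e, 0 ≤ ω e)
    (hsh : HShape μ b₀ C₀ ε r ω (0, 0)) {Q : ℤ} (hR : |(Q : ℝ)| + L + 8 * M ≤ R) :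
    ∃ B, Hub b₀ ω Set.univ B ∧
      (|B.1 - Q| ≤ M ∧ (M : ℤ) ≤ 3 * (L - B.2) ∧ (L : ℤ) - B.2 ≤ 2 * M) ∧
      ∃ w : grid.Walk (downHub b₀ ω (Q, (L : ℤ))) B,
        (∀ z ∈ w.support, z ∈ strip 0 (L : ℤ)) ∧ wt ω w ≤ 2 * C₀ * M + 1 := by
  have hM3 := d.floor_le
  have hlow := d.low
  have hL0 : (0 : ℝ) ≤ L := Nat.cast_nonneg L
  have hM0 : (0 : ℝ) ≤ M := Nat.cast_nonneg M
  have hεR : 0 ≤ ε * R := mul_nonneg d.hε (by linarith [abs_nonneg (Q : ℝ)])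
  have hN1 : (⌊ε * R⌋₊ : ℝ) ≤ ε * R := Nat.floor_le hεR
  have hin : ∀ z : Pt, z.1.natAbs + z.2.natAbs ≤ Q.natAbs + L + 6 * M →
      (l1 (0, 0) z : ℝ) ≤ R := by
    intro z hz
    have h : l1 (0, 0) z ≤ Q.natAbs + L + 6 * M := by simp only [l1]; omega
    have := (Nat.cast_le (α := ℝ)).2 h
    push_cast [Nat.cast_natAbs] at this
    linarith
  set D0 := downHub b₀ ω (Q, (L : ℤ)) with hD0
  set D1 := firstHub b₀ ω (lower (L : ℤ)) (Q, (L : ℤ) - M) with hD1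
  obtain ⟨hD0h, -, hD0k⟩ := hsh.firstHub_spec (S := lower (L : ℤ)) d.hrR (reg_lower (L : ℤ))
    (p := ((Q, (L : ℤ)) : Pt)) (show (L : ℤ) ≤ L from le_rfl) (hin _ (by dsimp only; omega))
  obtain ⟨hD1h, -, hD1k⟩ := hsh.firstHub_spec (S := lower (L : ℤ)) d.hrR (reg_lower (L : ℤ))
    (p := ((Q, (L : ℤ) - M) : Pt)) (show (L : ℤ) - M ≤ L by omega) (hin _ (by dsimp only; omega))
  have eD0 : D0.1 = Q + (firstK b₀ ω (lower (L : ℤ)) (Q, (L : ℤ)) : ℤ) ∧ D0.2 = L := ⟨rfl, rfl⟩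
  have eD1 : D1.1 = Q + (firstK b₀ ω (lower (L : ℤ)) (Q, (L : ℤ) - M) : ℤ) ∧ D1.2 = (L : ℤ) - M :=
    ⟨rfl, rfl⟩
  have bD0 : (l1 (0, 0) D0 : ℝ) ≤ R := hin _ (by omega)
  have bD1 : (l1 (0, 0) D1 : ℝ) ≤ R := hin _ (by omega)
  obtain ⟨B, hB, hBd, w2, hw2, hw2t⟩ := hsh.bridge (S := lower (L : ℤ)) h0 d.hrR (reg_lower (L : ℤ))
    (linked_lower (L : ℤ)) bD1 bD0 hD1h hD0h (by simp only [Near, abs_le]; omega)
  have hd01 : (l1 D0 D1 : ℝ) + ε * R ≤ 2 * M := by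
    have : l1 D0 D1 ≤ M + (⌊ε * R⌋₊ + 1) := by simp only [l1]; omega
    have := (Nat.cast_le (α := ℝ)).2 this
    push_cast at this
    linarith [d.small]
  have ht2 : wt ω w2 ≤ 2 * C₀ * M + 1 := by
    have := mul_le_mul_of_nonneg_left hd01 d.hC
    linarith
  simp only [l1] at hBd
  refine ⟨B, hB, by rw [abs_le]; omega, w2, fun z hz => ⟨?_, hw2 z hz⟩, ht2⟩
  by_contra hlt
  have h1 : (L : ℝ) ≤ (l1 D0 z : ℝ) := by exact_mod_cast (show L ≤ l1 D0 z by simp only [l1]; omega)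
  have hc0 : 0 ≤ c / 2 := by linarith [d.hε, d.hεc]
  have h2 := hsh.confine h0 d.hc (by linarith [d.hε, d.hεc]) d.hrR bD0 w2 hz
  have h3 := mul_le_mul_of_nonneg_left h1 hc0
  have h4 : 0 ≤ c / 2 * (M : ℝ) := by positivity
  linarith [d.conf, d.small]

/-- The middle: between hubs of the plane near the two levels inside the strip. -/
theorem middle (d : StripData μ C₀ ε r R c a κ' L M) (h0 : ∀ e, 0 ≤ ω e)
    (hsh : HShape μ b₀ C₀ ε r ω (0, 0)) {Q : ℤ} (hQR : |(Q : ℝ)| + L + 8 * M ≤ R)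
    (hslope : |(Q : ℝ)| + 4 * M ≤ κ' * ((L : ℝ) - 4 * M))
    (hball : μ (1, 0) * (|(Q : ℝ)| + L + 8 * M) + 3 * c * M + M + 1 ≤ c / 2 * R)
    {A B : Pt} (hA : Hub b₀ ω Set.univ A) (hB : Hub b₀ ω Set.univ B)
    (hA1 : |A.1| ≤ M ∧ (M : ℤ) ≤ 3 * A.2 ∧ A.2 ≤ 2 * M)
    (hB1 : |B.1 - Q| ≤ M ∧ (M : ℤ) ≤ 3 * (L - B.2) ∧ (L : ℤ) - B.2 ≤ 2 * M) :
    ∃ p : grid.Walk A B, (∀ z ∈ p.support, z ∈ strip 0 (L : ℤ)) ∧
      wt ω p ≤ μ ((Q : ℝ), (L : ℝ)) + 6 * μ (1, 0) * M + ε * R + 1 := by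
  obtain ⟨hμ, hε, -, hεc, hc, hsup, ha, hκ, hrR, hR0, hsmall, hlow, -, hgap⟩ := d
  have hm0 : 0 < μ (1, 0) := hμ.axis_pos
  have hM0 : (0 : ℝ) ≤ M := Nat.cast_nonneg M
  have hQ0 := abs_nonneg (Q : ℝ)
  have hεR : 0 ≤ ε * R := mul_nonneg hε hR0
  have hl : ∀ z : Pt, (l1 (0, 0) z : ℝ) = |(z.1 : ℝ)| + |(z.2 : ℝ)| := l1_origin
  obtain ⟨hAx, hAy, hAy'⟩ : |(A.1 : ℝ)| ≤ M ∧ (M : ℝ) ≤ 3 * A.2 ∧ (A.2 : ℝ) ≤ 2 * M :=
    ⟨by exact_mod_cast hA1.1, by exact_mod_cast hA1.2.1, by exact_mod_cast hA1.2.2⟩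
  obtain ⟨hBx, hBy, hBy'⟩ :
      |(B.1 : ℝ) - Q| ≤ M ∧ (M : ℝ) ≤ 3 * ((L : ℝ) - B.2) ∧ (L : ℝ) - B.2 ≤ 2 * M :=
    ⟨by exact_mod_cast hB1.1, by exact_mod_cast hB1.2.1, by exact_mod_cast hB1.2.2⟩
  have hLr : (4 : ℝ) * M + 4 ≤ L := by exact_mod_cast hlow
  have hH : (0 : ℝ) < (B.2 : ℝ) - A.2 := by linarith
  have bA : (l1 (0, 0) A : ℝ) ≤ R := by
    rw [hl, abs_of_nonneg (show (0 : ℝ) ≤ A.2 by linarith)]
    linarith
  have bB : (l1 (0, 0) B : ℝ) ≤ R := by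
    rw [hl, abs_of_nonneg (show (0 : ℝ) ≤ B.2 by linarith)]
    have := abs_sub_abs_le_abs_sub (B.1 : ℝ) Q
    linarith
  have hX : |(B.1 : ℝ) - A.1| ≤ |(Q : ℝ)| + 2 * M := by
    have e1 := abs_sub (B.1 : ℝ) A.1
    have e2 := abs_sub_abs_le_abs_sub (B.1 : ℝ) Q
    linarith
  have hslope' : |(B.1 : ℝ) - A.1| ≤ κ' * ((B.2 : ℝ) - A.2) :=
    (hX.trans (show |(Q : ℝ)| + 2 * M ≤ κ' * ((L : ℝ) - 4 * M) by linarith)).trans
      (mul_le_mul_of_nonneg_left (by linarith) hκ)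
  obtain ⟨ρ, hρ⟩ := hμ.exists_supports ((B.1 : ℝ) - A.1, (B.2 : ℝ) - A.2)
  have hρ2 := supports_snd_ge hμ hsup ha.le hH hslope' hρ
  have hAB := hsh.hi R hrR A B bA bB hA hB
  have eAB : toR (B - A) = ((B.1 : ℝ) - A.1, (B.2 : ℝ) - A.2) := by simp [toR]
  rw [eAB] at hAB
  have htop : μ ((B.1 : ℝ) - A.1, (B.2 : ℝ) - A.2) ≤ μ (1, 0) * (|(Q : ℝ)| + L + 8 * M) := by
    refine (hμ.le_l1 _).trans (mul_le_mul_of_nonneg_left ?_ hm0.le)
    simp only [abs_of_pos hH]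
    linarith
  obtain ⟨p, hp⟩ := exists_lt_of_ciInf_lt (show tt ω A B < tt ω A B + 1 by linarith)
  refine ⟨p, fun z hz => ?_, ?_⟩
  · by_contra hout
    obtain ⟨p1, p2, rfl⟩ := SimpleGraph.Walk.mem_support_iff_exists_append.1 hz
    rw [wt_append] at hp
    have h1 := tt_le h0 p1
    have h2 := tt_le h0 p2
    by_cases hzR : (l1 (0, 0) z : ℝ) ≤ R
    · have hAz := hsh.lo R hrR A z bA hzR
      have hzB := hsh.lo R hrR z B hzR bB
      have e1 : toR (z - A) = ((z.1 : ℝ) - A.1, ((z.2 : ℝ) - A.2 + M / 3) - M / 3) := by simp [toR]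
      have e2 : toR (B - z) = ((B.1 : ℝ) - A.1 - ((z.1 : ℝ) - A.1),
          (B.2 : ℝ) - A.2 + M / 3 - ((z.2 : ℝ) - A.2 + M / 3)) := by
        simp [toR]
      have hout' : (z.2 : ℝ) - A.2 + M / 3 ≤ 0 ∨
          (B.2 : ℝ) - A.2 + 2 * (M / 3) ≤ (z.2 : ℝ) - A.2 + M / 3 := by
        rw [mem_strip] at hout
        rcases (by omega : z.2 ≤ 0 ∨ (L : ℤ) ≤ z.2) with h | h
        · exact Or.inl (by linarith [(Int.cast_nonpos (R := ℝ)).2 h])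
        · have h' : (L : ℝ) ≤ z.2 := by exact_mod_cast h
          exact Or.inr (by linarith)
      have hkey := detour_gap hμ hρ hρ2 (by linarith) (by positivity) hout'
        (x := (z.1 : ℝ) - A.1)
      rw [e1] at hAz
      rw [e2] at hzB
      linarith
    · have hRR : R < (l1 (0, 0) z : ℝ) := not_le.1 hzR
      have hAz := hsh.lo _ (hrR.trans hRR.le) A z (bA.trans hRR.le) le_rfl
      have hl' : (l1 (0, 0) z : ℝ) - 3 * M ≤ |((z - A).1 : ℝ)| + |((z - A).2 : ℝ)| := by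
        rw [hl]
        simp only [Prod.fst_sub, Prod.snd_sub, Int.cast_sub]
        have a1 := abs_sub_abs_le_abs_sub (z.1 : ℝ) (A.1 : ℝ)
        have a2 := abs_sub_abs_le_abs_sub (z.2 : ℝ) (A.2 : ℝ)
        rw [abs_of_nonneg (show (0 : ℝ) ≤ A.2 by linarith)] at a2
        linarith
      have hc0 : 0 ≤ c := by linarith
      have hmu : c * ((l1 (0, 0) z : ℝ) - 3 * M) ≤ μ (toR (z - A)) :=
        (mul_le_mul_of_nonneg_left hl' hc0).trans (hc _ _)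
      have h3 := mul_le_mul_of_nonneg_left hRR.le (show 0 ≤ c / 2 by linarith)
      have h4 := mul_le_mul_of_nonneg_right hεc (Nat.cast_nonneg (α := ℝ) (l1 (0, 0) z))
      have h6 : 0 ≤ c / 4 * (l1 (0, 0) z : ℝ) := by positivity
      linarith [tt_nonneg (u := z) (v := B) h0]
  · have h4 := hμ.sub_le ((B.1 : ℝ) - A.1, (B.2 : ℝ) - A.2) ((Q : ℝ), (L : ℝ))
    have h5 : |(B.1 : ℝ) - A.1 - Q| + |(B.2 : ℝ) - A.2 - L| ≤ 6 * M := by
      have e1 := abs_sub ((B.1 : ℝ) - Q) A.1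
      have e2 : |(B.2 : ℝ) - A.2 - L| ≤ 4 * M := abs_le.2 ⟨by linarith, by linarith⟩
      rw [show (B.1 : ℝ) - A.1 - Q = (B.1 : ℝ) - Q - A.1 by ring]
      linarith
    have h6 := mul_le_mul_of_nonneg_left h5 hm0.le
    dsimp only at h4
    linarith

/-- The strip time from the first hub at the origin to the first hub at a point of the far line. -/
theorem strip_le (d : StripData μ C₀ ε r R c a κ' L M) (h0 : ∀ e, 0 ≤ ω e)
    (hsh : HShape μ b₀ C₀ ε r ω (0, 0)) {Q : ℤ} (hQR : |(Q : ℝ)| + L + 8 * M ≤ R)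
    (hslope : |(Q : ℝ)| + 4 * M ≤ κ' * ((L : ℝ) - 4 * M))
    (hball : μ (1, 0) * (|(Q : ℝ)| + L + 8 * M) + 3 * c * M + M + 1 ≤ c / 2 * R) :
    ttIn (strip 0 L) ω (upHub b₀ ω (0, 0)) (downHub b₀ ω (Q, (L : ℤ))) ≤
      μ ((Q : ℝ), (L : ℝ)) + (4 * C₀ + 6 * μ (1, 0) + 5) * M := by
  obtain ⟨A, hA, hA1, w1, hs1, ht1⟩ := up_end d h0 hsh (by linarith [abs_nonneg (Q : ℝ)])
  obtain ⟨B, hB, hB1, w2, hs2, ht2⟩ := down_end d h0 hsh hQR
  obtain ⟨p, hp, hpt⟩ := middle d h0 hsh hQR hslope hball hA hB hA1 hB1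
  refine (ttS_le h0 ((w1.append p).append w2.reverse) fun z hz => ?_).trans ?_
  · simp only [SimpleGraph.Walk.mem_support_append_iff, SimpleGraph.Walk.support_reverse,
      List.mem_reverse] at hz
    rcases hz with (hz | hz) | hz
    exacts [hs1 z hz, hp z hz, hs2 z hz]
  · rw [wt_append, wt_append, wt_reverse]
    have := d.small
    have := mul_nonneg d.hε d.hR0
    linarith

/-- The strip time to the first hub of a point of the far line is at least the norm, up to an error. -/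
theorem strip_ge (d : StripData μ C₀ ε r R c a κ' L M) (h0 : ∀ e, 0 ≤ ω e)
    (hsh : HShape μ b₀ C₀ ε r ω (0, 0)) {P : ℤ} (hPR : |(P : ℝ)| + L + 8 * M ≤ R) :
    μ ((P : ℝ), (L : ℝ)) - (μ (1, 0) + 1) * M ≤
      ttIn (strip 0 L) ω (upHub b₀ ω (0, 0)) (downHub b₀ ω (P, (L : ℤ))) := by
  obtain ⟨hμ, hε, hC, hεc, hc, hsup, ha, hκ, hrR, hR0, hsmall, hlow, hconf, hgap⟩ := d
  have hM0 : (0 : ℝ) ≤ M := Nat.cast_nonneg M
  have hεR : 0 ≤ ε * R := mul_nonneg hε hR0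
  set N := ⌊ε * R⌋₊ with hN
  have hN1 : (N : ℝ) ≤ ε * R := Nat.floor_le hεR
  set U0 := upHub b₀ ω (0, 0) with hU0
  set D0 := downHub b₀ ω (P, (L : ℤ)) with hD0
  obtain ⟨-, -, hU0k⟩ := hsh.firstHub_spec (S := upper 0) hrR (reg_upper 0) (p := ((0, 0) : Pt))
    (show (0 : ℤ) ≤ 0 from le_rfl) (by simp [l1]; exact hR0)
  obtain ⟨-, -, hD0k⟩ := hsh.firstHub_spec (S := lower (L : ℤ)) hrR (reg_lower (L : ℤ)) (p := ((P, (L : ℤ)) : Pt))
    (show (L : ℤ) ≤ L from le_rfl) (by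
      rw [l1_origin]
      simp only [Int.cast_natCast, Nat.abs_cast]
      linarith)
  set k := firstK b₀ ω (upper 0) ((0, 0) : Pt)
  set j := firstK b₀ ω (lower (L : ℤ)) ((P, (L : ℤ)) : Pt)
  have eU : U0 = ((k : ℤ), 0) := Prod.ext (by simp [U0, upHub, firstHub, k]) rfl
  have eD : D0 = (P + (j : ℤ), (L : ℤ)) := rfl
  have hk : (k : ℝ) ≤ N + 1 := by exact_mod_cast hU0k
  have hj : (j : ℝ) ≤ N + 1 := by exact_mod_cast hD0k
  have bU : (l1 (0, 0) U0 : ℝ) ≤ R := by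
    rw [eU, l1_origin]
    simp only [Int.cast_natCast, Nat.abs_cast, Int.cast_zero, abs_zero, add_zero]
    linarith [abs_nonneg (P : ℝ)]
  have bD : (l1 (0, 0) D0 : ℝ) ≤ R := by
    rw [eD, l1_origin]
    simp only [Int.cast_add, Int.cast_natCast, Nat.abs_cast]
    have := abs_add_le (P : ℝ) (j : ℝ)
    rw [Nat.abs_cast] at this
    linarith
  have hlo := hsh.lo R hrR U0 D0 bU bD
  rw [show toR (D0 - U0) = ((P : ℝ) + j - k, (L : ℝ)) by rw [eU, eD]; simp [toR]] at hlo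
  have hO : U0 ∈ strip 0 (L : ℤ) := by rw [mem_strip, eU]; simp
  have hT : D0 ∈ strip 0 (L : ℤ) := by rw [mem_strip, eD]; simp
  have h1 := tt_le_ttS h0 (linked_strip _ _) hO hT (ω := ω)
  have h2 := hμ.sub_le ((P : ℝ), (L : ℝ)) ((P : ℝ) + j - k, (L : ℝ))
  simp only [sub_self, abs_zero, add_zero] at h2
  have h3 : |(P : ℝ) - ((P : ℝ) + j - k)| ≤ M := abs_le.2 ⟨by linarith, by linarith⟩
  have h4 := mul_le_mul_of_nonneg_left h3 hμ.axis_pos.le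
  simp only [ttIn_eq] at *
  linarith

end Vale.Agent.P158.Any
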