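import Mathlib
import Vale.Agent.P158.Any.StripShape
import Vale.Agent.P158.Any.NextTail

/-!
P158, arbitrary laws (note 1452, U5): the averaged increments between first hubs have mean at most the
horizontal slope of the supporting functionals, and the caps on the strip times are eventually inactive.
-/

namespace Vale.Agent.P158.Any

open MeasureTheory Filter Topology V4

variable {μ : ℝ × ℝ → ℝ} {b₀ C₀ c a κ' k2 k3 : ℝ}

/-- The error factor of the strip times. -/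
def stripErr (μ : ℝ × ℝ → ℝ) (C₀ : ℝ) : ℝ := 4 * C₀ + 6 * μ (1, 0) + 5

/-- The cap on the strip times per unit of height. -/
def capK (μ : ℝ × ℝ → ℝ) (C₀ k3 : ℝ) : ℝ := μ (1, 0) * (k3 + 3) + stripErr μ C₀ + 1

/-- Parameters under which the strips of all large heights behave, with error at most `w` per unit. -/
theorem exists_scales (hμ : IsLatticeNorm μ) (hC : 0 ≤ C₀) (hc0 : 0 < c)
    (hc : ∀ x y, c * (|x| + |y|) ≤ μ (x, y))
    (hsup : ∀ s ρ, |s| ≤ κ' → Supports μ (s, 1) ρ → |ρ.1| ≤ a) (ha : a < μ (1, 0))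
    (hk3 : 0 ≤ k3) (h3 : k3 < κ') {w : ℝ} (hw : 0 < w) :
    ∃ C ε : ℝ, ∃ N : ℕ, 0 < C ∧ 0 < ε ∧ ∀ L : ℕ, N ≤ L → ∀ r : ℝ, r ≤ C * L →
      ∃ M : ℕ, StripData μ C₀ ε r (C * L) c a κ' L M ∧ (M : ℝ) ≤ L ∧
        2 * stripErr μ C₀ * M ≤ w * L ∧
        ∀ Q : ℤ, |(Q : ℝ)| ≤ k3 * L + 2 →
          |(Q : ℝ)| + L + 8 * M ≤ C * L ∧ |(Q : ℝ)| + 4 * M ≤ κ' * ((L : ℝ) - 4 * M) ∧
          μ (1, 0) * (|(Q : ℝ)| + L + 8 * M) + 3 * c * M + M + 1 ≤ c / 2 * (C * L) := by
  set m := μ (1, 0)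
  have hm : 0 < m := hμ.axis_pos
  set E := stripErr μ C₀ with hE
  have hE0 : 0 < E := by rw [hE, stripErr]; linarith
  have hκ : 0 < κ' := by linarith
  have hma : 0 < m - a := sub_pos.2 ha
  set q := k3 + 12
  set C := max q (2 * (m * q + 3 * c + 3) / c) with hCdef
  have hC1 : q ≤ C := le_max_left _ _
  have hq : 0 < q := by simp only [q]; linarith
  have hCpos : 0 < C := hq.trans_le hC1
  have hC2 : 2 * (m * q + 3 * c + 3) ≤ C * c := (div_le_iff₀ hc0).1 (le_max_right _ _)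
  set δ := min (min (1 / 8 : ℝ) ((κ' - k3) / (8 * (κ' + 1))))
    (min (c / (8 * (2 * C₀ + 1 + c))) (w / (4 * E))) with hδdef
  have hk' : 0 < κ' - k3 := sub_pos.2 h3
  have hδ : 0 < δ := lt_min (lt_min (by norm_num) (by positivity)) (lt_min (by positivity) (by positivity))
  set ε := min (c / 4) (min (δ / (6 * C)) ((m - a) * δ / (12 * C))) with hεdef
  have hε : 0 < ε := lt_min (by positivity) (lt_min (by positivity) (by positivity))
  have d1 : δ ≤ 1 / 8 := (min_le_left _ _).trans (min_le_left _ _)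
  have d2 : δ * (8 * (κ' + 1)) ≤ κ' - k3 :=
    (le_div_iff₀ (by positivity)).1 ((min_le_left _ _).trans (min_le_right _ _))
  have d3 : δ * (8 * (2 * C₀ + 1 + c)) ≤ c :=
    (le_div_iff₀ (by positivity)).1 ((min_le_right _ _).trans (min_le_left _ _))
  have d4 : δ * (4 * E) ≤ w :=
    (le_div_iff₀ (by positivity)).1 ((min_le_right _ _).trans (min_le_right _ _))
  have e1 : ε * (6 * C) ≤ δ :=
    (le_div_iff₀ (by positivity)).1 ((min_le_right _ _).trans (min_le_left _ _))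
  have e2 : ε * (12 * C) ≤ (m - a) * δ :=
    (le_div_iff₀ (by positivity)).1 ((min_le_right _ _).trans (min_le_right _ _))
  obtain ⟨N, hN⟩ := exists_nat_ge (max (max (8 / δ) (16 * (2 * κ' + 3) / (κ' - k3)))
    (max (max (8 * (2 * C₀ + 2 + c) / c) (8 * E / w)) (max (3 / ((m - a) * δ)) 100)))
  refine ⟨C, ε, N, hCpos, hε, fun L hL r hr => ?_⟩
  have hNL : (N : ℝ) ≤ L := by exact_mod_cast hL
  simp only [max_le_iff] at hN
  obtain ⟨⟨t1, t2⟩, ⟨t3, t4⟩, t5, t6⟩ := hN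
  have g1 := (div_le_iff₀ hδ).1 (t1.trans hNL)
  have g2 := (div_le_iff₀ hk').1 (t2.trans hNL)
  have g3 := (div_le_iff₀ hc0).1 (t3.trans hNL)
  have g4 := (div_le_iff₀ hw).1 (t4.trans hNL)
  have g5 := (div_le_iff₀ (mul_pos hma hδ)).1 (t5.trans hNL)
  have g6 := t6.trans hNL
  have hL0 : (0 : ℝ) ≤ L := Nat.cast_nonneg L
  refine ⟨⌊δ * L⌋₊ + 1, ?_⟩
  set M := ⌊δ * L⌋₊ + 1 with hMdef
  have hM1 : δ * L ≤ (M : ℝ) := by
    rw [hMdef]; push_cast; exact (Nat.lt_floor_add_one _).le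
  have hM2 : (M : ℝ) ≤ δ * L + 1 := by
    rw [hMdef]; push_cast; linarith [Nat.floor_le (show 0 ≤ δ * (L : ℝ) by positivity)]
  have hdL : δ * L ≤ 1 / 8 * L := mul_le_mul_of_nonneg_right d1 hL0
  have hML : (M : ℝ) ≤ L := by linarith
  have hM0 : (0 : ℝ) ≤ M := Nat.cast_nonneg M
  have f1 := mul_le_mul_of_nonneg_right e1 hL0
  have f2 := mul_le_mul_of_nonneg_right e2 hL0
  have f3 := mul_le_mul_of_nonneg_right d3 hL0
  have f4 := mul_le_mul_of_nonneg_right d4 hL0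
  have f5 := mul_le_mul_of_nonneg_right d2 hL0
  refine ⟨⟨hμ, hε.le, hC, min_le_left _ _, hc, hsup, ha, hκ.le, hr, by positivity, ?_, ?_, ?_, ?_⟩,
    hML, ?_, fun Q hQ => ⟨?_, ?_, ?_⟩⟩
  · linarith
  · have : (4 * M + 4 : ℝ) ≤ L := by linarith
    exact_mod_cast this
  · have x1 : (2 * C₀ + 1 + c) * M ≤ (2 * C₀ + 1 + c) * (δ * L + 1) :=
      mul_le_mul_of_nonneg_left hM2 (by positivity)
    have x2 : 0 ≤ c * (M : ℝ) := by positivity
    linarith
  · have x1 := mul_le_mul_of_nonneg_left hM1 hma.le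
    linarith
  · have x1 := mul_le_mul_of_nonneg_left hM2 (show 0 ≤ 2 * E by positivity)
    linarith
  · have x1 : q * L ≤ C * L := mul_le_mul_of_nonneg_right hC1 hL0
    simp only [q] at x1
    linarith
  · have x1 := mul_le_mul_of_nonneg_left hM2 (show 0 ≤ 4 * κ' + 4 by positivity)
    linarith
  · have x0 : |(Q : ℝ)| + L + 8 * M ≤ q * L := by simp only [q]; linarith
    have x1 := mul_le_mul_of_nonneg_left x0 hm.le
    have x2 := mul_le_mul_of_nonneg_right hC2 hL0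
    have x3 := mul_le_mul_of_nonneg_left hML hc0.le
    linarith

theorem norm_le_cap (hμ : IsLatticeNorm μ) {L M : ℕ} (hML : (M : ℝ) ≤ L) (hC : 0 ≤ C₀) {Q : ℤ}
    (hQ : |(Q : ℝ)| ≤ k3 * L + 2) (hL : 2 ≤ L) :
    μ ((Q : ℝ), (L : ℝ)) + stripErr μ C₀ * M ≤ capK μ C₀ k3 * L := by
  have hm := hμ.axis_pos
  have h1 := hμ.le_l1 ((Q : ℝ), (L : ℝ))
  simp only [Nat.abs_cast] at h1
  have hE : 0 ≤ stripErr μ C₀ := by rw [stripErr]; linarith
  have h2 := mul_le_mul_of_nonneg_left hML hE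
  have hL' : (2 : ℝ) ≤ L := by exact_mod_cast hL
  have h3 : μ (1, 0) * (|(Q : ℝ)| + L) ≤ μ (1, 0) * ((k3 + 3) * L) :=
    mul_le_mul_of_nonneg_left (by linarith) hm.le
  unfold capK
  linarith

theorem target_bound (h2 : 0 ≤ k2) (h23 : k2 < k3) (L i : ℕ) (hi : i ≤ winN k2 k3 L) :
    |((winL k2 L + i : ℤ) : ℝ)| ≤ k3 * L + 2 ∧ 0 ≤ winL k2 L + (i : ℤ) := by
  have hP : 0 ≤ winL k2 L := Int.ceil_nonneg (by positivity)
  have hle : ⌈k2 * L⌉ ≤ ⌈k3 * L⌉ := Int.ceil_le_ceil (mul_le_mul_of_nonneg_right h23.le L.cast_nonneg)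
  have h : winL k2 L + i ≤ ⌈k3 * L⌉ := by
    simp only [winN, winL] at *
    omega
  refine ⟨?_, by omega⟩
  rw [abs_of_nonneg (by exact_mod_cast (show (0 : ℤ) ≤ winL k2 L + i by omega))]
  have := (Int.cast_le (R := ℝ)).2 h
  linarith [Int.ceil_lt_add_one (k3 * L)]

variable (G : Measure ℝ) [IsProbabilityMeasure G]

/-- Almost surely the caps are eventually inactive at every site. -/
theorem ae_cap (h0 : ∀ᵐ ω ∂V4.law G, ∀ e, 0 ≤ ω e) (hμ : IsLatticeNorm μ) (hC : 0 ≤ C₀)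
    (hshape : ∀ ε > 0, ∀ u : Pt,
      Tendsto (fun r : ℕ => V4.law G {ω | ¬ HShape μ b₀ C₀ ε r ω u}) atTop (𝓝 0))
    (hsup : ∀ s ρ, |s| ≤ κ' → Supports μ (s, 1) ρ → |ρ.1| ≤ a) (ha : a < μ (1, 0))
    (h2 : 0 ≤ k2) (h23 : k2 < k3) (h3 : k3 < κ') :
    ∀ᵐ ω ∂V4.law G, ∀ u : Pt, ∀ᶠ L : ℕ in atTop, ∀ i, i < winN k2 k3 L →
      ttIn (strip u.2 (u.2 + L)) ω (upHub b₀ ω (u.1, u.2))
        (downHub b₀ ω (u.1 + winL k2 L + i + 1, u.2 + L)) ≤ capK μ C₀ k3 * L := by
  obtain ⟨c, hc0, hc⟩ := hμ.pos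
  obtain ⟨C, ε, N, hCpos, hε, hsc⟩ := exists_scales hμ hC hc0 hc hsup ha (by linarith) h3 one_pos
  have h00 : ∀ᵐ ω ∂V4.law G, ∀ᶠ L : ℕ in atTop, ∀ i, i < winN k2 k3 L →
      ttIn (strip 0 L) ω (upHub b₀ ω (0, 0)) (downHub b₀ ω (winL k2 L + i + 1, (L : ℤ))) ≤
        capK μ C₀ k3 * L := by
    have hr : ∀ᵐ ω ∂V4.law G, ∃ r : ℕ, HShape μ b₀ C₀ ε r ω (0, 0) := by
      rw [ae_iff]
      refine le_antisymm (ge_of_tendsto (hshape ε hε (0, 0)) (Eventually.of_forall fun r =>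
        measure_mono fun ω (hω : ¬ ∃ r : ℕ, HShape μ b₀ C₀ ε r ω (0, 0)) => fun h => hω ⟨r, h⟩)) zero_le
    filter_upwards [hr, h0] with ω ⟨r, hr⟩ hω
    obtain ⟨N', hN'⟩ := exists_nat_ge ((r : ℝ) / C)
    filter_upwards [eventually_ge_atTop N, eventually_ge_atTop N', eventually_ge_atTop 2] with L hL hL' hL2 i hi
    have hrL : (r : ℝ) ≤ C * L := by
      have := (div_le_iff₀ hCpos).1 (hN'.trans (Nat.cast_le.2 hL'))
      linarith
    obtain ⟨M, d, hML, -, hQ⟩ := hsc L hL r hrL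
    obtain ⟨hb, -⟩ := target_bound h2 h23 L (i + 1) hi
    rw [show winL k2 L + (i : ℤ) + 1 = winL k2 L + ((i + 1 : ℕ) : ℤ) by push_cast; ring]
    obtain ⟨q1, q2, q3⟩ := hQ _ hb
    exact (strip_le d hω hr q1 q2 q3).trans (norm_le_cap hμ hML hC hb hL2)
  refine ae_all_iff.2 fun u => ?_
  filter_upwards [(shift_preserving G u).quasiMeasurePreserving.ae h00] with ω hω
  refine hω.mono fun L hL i hi => le_of_eq_of_le ?_ (hL i hi)
  rw [ttIn_strip_shift, upHub_shift, downHub_shift]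
  rw [show (0 : ℤ) + u.2 = u.2 by ring, show (L : ℤ) + u.2 = u.2 + L by ring,
    show ((0, 0) : Pt) + u = (u.1, u.2) by simp,
    show ((winL k2 L + (i : ℤ) + 1, (L : ℤ)) : Pt) + u = (u.1 + winL k2 L + i + 1, u.2 + L) from
      Prod.ext (by simp; ring) (by simp; ring)]

theorem capT_integrable (h0 : ∀ᵐ ω ∂V4.law G, ∀ e, 0 ≤ ω e) {K : ℝ} (hK : 0 ≤ K) (L : ℕ) (x z : ℤ) :
    Integrable (fun ω => capT b₀ K 0 L ω x z) (V4.law G) := by
  refine Integrable.of_bound (measurable_capT _ _ _ _).aestronglyMeasurable (K * L) ?_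
  filter_upwards [h0] with ω hω
  obtain ⟨h1, h2⟩ := capT_bounds (b := b₀) hω hK 0 L x z
  rwa [Real.norm_eq_abs, abs_of_nonneg h1]

/-- The mean of the averaged increments telescopes. -/
theorem integral_incH (h0 : ∀ᵐ ω ∂V4.law G, ∀ e, 0 ≤ ω e) {K : ℝ} (hK : 0 ≤ K) (L : ℕ) :
    ∫ ω, incH b₀ k2 k3 K L ω (0, 0) ∂V4.law G =
      (∫ ω, (capT b₀ K 0 L ω 0 (winL k2 L + winN k2 k3 L) - capT b₀ K 0 L ω 0 (winL k2 L)) ∂V4.law G) /
        winN k2 k3 L := by
  set f : ℤ → ℝ := fun a => ∫ ω, capT b₀ K 0 L ω 0 a ∂V4.law G with hf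
  have key : ∀ a : ℤ, ∫ ω, capT b₀ K 0 L ω 1 (a + 1) ∂V4.law G = f a := by
    intro a
    have hmp := shift_preserving G (1, 0)
    simp only [hf]
    conv_rhs => rw [← hmp.map_eq]
    rw [integral_map hmp.measurable.aemeasurable (measurable_capT _ _ _ _).aestronglyMeasurable]
    refine integral_congr_ae (ae_of_all _ fun ω => ?_)
    simp [capT_shift]
  have hi := capT_integrable (b₀ := b₀) G h0 hK L
  simp only [incH, zero_add]
  rw [integral_div]
  congr 1
  rw [integral_finsetSum (Finset.range (winN k2 k3 L))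
    fun i _ => (hi 0 (winL k2 L + i + 1)).sub' (hi 1 (winL k2 L + i + 1))]
  have hterm : ∀ i : ℕ, (∫ ω, (capT b₀ K 0 L ω 0 (winL k2 L + i + 1) -
      capT b₀ K 0 L ω 1 (winL k2 L + i + 1)) ∂V4.law G) =
      f (winL k2 L + (i + 1 : ℕ)) - f (winL k2 L + i) := by
    intro i
    rw [integral_sub (hi 0 _) (hi 1 _), key, Nat.cast_succ, ← add_assoc]
  rw [Finset.sum_congr rfl fun i _ => hterm i,
    Finset.sum_range_sub (fun i : ℕ => f (winL k2 L + i)), Nat.cast_zero, add_zero,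
    integral_sub (hi 0 _) (hi 0 _)]

omit [IsProbabilityMeasure G] in
theorem lowH_le_of_eventually {K c0 a : ℝ}
    (hint : Integrable (fun ω => bnd b₀ c0 ω (0, 0)) (V4.law G))
    (hev : ∀ᶠ L : ℕ in atTop, ∫ ω, cincH b₀ k2 k3 K c0 L ω (0, 0) ∂V4.law G ≤ a) :
    ∫ ω, lowH b₀ k2 k3 K c0 ω (0, 0) ∂V4.law G ≤ a := by
  obtain ⟨L0, hL0⟩ := eventually_atTop.1 hev
  have hbd : ∀ (k : ℕ) (ω : Cfg),
      ‖⨅ j, cincH b₀ k2 k3 K c0 (k + j) ω (0, 0)‖ ≤ bnd b₀ c0 ω (0, 0) := fun k ω => by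
    rw [Real.norm_eq_abs]
    exact abs_inf_cincH_le k ω _
  have hint' : ∀ k, Integrable (fun ω => ⨅ j, cincH b₀ k2 k3 K c0 (k + j) ω (0, 0)) (V4.law G) :=
    fun k => hint.mono' (Measurable.iInf fun _ => measurable_cincH _ _).aestronglyMeasurable
      (ae_of_all _ (hbd k))
  have hlim : Tendsto (fun k => ∫ ω, ⨅ j, cincH b₀ k2 k3 K c0 (k + j) ω (0, 0) ∂V4.law G) atTop
      (𝓝 (∫ ω, lowH b₀ k2 k3 K c0 ω (0, 0) ∂V4.law G)) := by
    refine tendsto_integral_of_dominated_convergence (fun ω => bnd b₀ c0 ω (0, 0))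
      (fun k => (hint' k).aestronglyMeasurable) hint
      (fun k => ae_of_all _ (hbd k)) (ae_of_all _ fun ω => ?_)
    refine tendsto_atTop_ciSup (fun i j hij => le_ciInf fun l => ?_) (bddAbove_inf_cincH ω _)
    refine (ciInf_le (bddBelow_cincH i ω _) (j + l - i)).trans_eq ?_
    rw [show i + (j + l - i) = j + l by omega]
  refine le_of_tendsto hlim (Eventually.of_forall fun k => ?_)
  exact le_trans (integral_mono (hint' k) (hint.mono' (measurable_cincH (k + L0) _).aestronglyMeasurable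
    (ae_of_all _ fun ω => by rw [Real.norm_eq_abs]; exact abs_cincH_le _ ω _))
    fun ω => ciInf_le (bddBelow_cincH k ω _) L0) (hL0 (k + L0) (by omega))

/-- The mean of the lower limit of the increments is at most the slope. -/
theorem low_mean_le (h0 : ∀ᵐ ω ∂V4.law G, ∀ e, 0 ≤ ω e) (hb : 0 ≤ b₀) (hrate : rate G b₀ ≤ 1 / 2)
    (hμ : IsLatticeNorm μ) (hC : 0 ≤ C₀)
    (hshape : ∀ ε > 0, Tendsto (fun r : ℕ => V4.law G {ω | ¬ HShape μ b₀ C₀ ε r ω (0, 0)}) atTop (𝓝 0))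
    (h2 : 0 ≤ k2) (h23 : k2 < k3) (h3 : k3 < κ')
    (ha : a < μ (1, 0)) (hsup : ∀ s ρ, |s| ≤ κ' → Supports μ (s, 1) ρ → |ρ.1| ≤ a) :
    ∫ ω, lowH b₀ k2 k3 (capK μ C₀ k3) (75 * b₀) ω (0, 0) ∂V4.law G ≤ a := by
  set K := capK μ C₀ k3 with hKdef
  have hm := hμ.axis_pos
  have hE : 0 ≤ stripErr μ C₀ := by rw [stripErr]; linarith
  have hK : 0 ≤ K := by
    have : 0 ≤ μ (1, 0) * (k3 + 3) := mul_nonneg hm.le (by linarith)
    rw [hKdef, capK]
    linarith
  set c0 := 75 * b₀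
  have hX := integrable_bnd G hb hrate h0 (0, 0)
  refine le_of_forall_pos_le_add fun γ hγ => lowH_le_of_eventually G hX ?_
  obtain ⟨c, hc0, hc⟩ := hμ.pos
  have hk : 0 < k3 - k2 := sub_pos.2 h23
  set w := γ * (k3 - k2) / 8 with hw
  obtain ⟨C, ε, N, hCpos, hε, hsc⟩ := exists_scales hμ hC hc0 hc hsup ha (by linarith : (0 : ℝ) ≤ k3) h3
    (show 0 < w by rw [hw]; positivity)
  set π := w / (K + 1) with hπ
  have hπ0 : 0 < π := by rw [hπ]; positivity
  obtain ⟨r, hr⟩ : ∃ r : ℕ, (V4.law G).real {ω | ¬ HShape μ b₀ C₀ ε r ω (0, 0)} ≤ π := by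
    obtain ⟨r, hr⟩ := ((hshape ε hε).eventually_le_const (ENNReal.ofReal_pos.2 hπ0)).exists
    exact ⟨r, ENNReal.toReal_le_of_le_ofReal hπ0.le hr⟩
  set bad := toMeasurable (V4.law G) {ω | ¬ HShape μ b₀ C₀ ε r ω (0, 0)} with hbad
  have hbadm : MeasurableSet bad := measurableSet_toMeasurable _ _
  have hbadp : (V4.law G).real bad ≤ π := by
    rw [hbad, measureReal_def, measure_toMeasurable, ← measureReal_def]
    exact hr
  -- the error of the clamp
  set Y : Cfg → ℝ := fun ω => bnd b₀ c0 ω (0, 0) + K * (4 * (nextZ b₀ c0 ω (0, 0) : ℝ) + 9) with hY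
  have hYi : Integrable Y (V4.law G) :=
    hX.add ((((integrable_nextZ G hb hrate h0 (0, 0)).const_mul 4).add (integrable_const 9)).const_mul K)
  have hYm : ∀ L : ℕ, MeasurableSet {ω : Cfg | L < 4 * nextZ b₀ c0 ω (0, 0) + 9} := fun L =>
    measurableSet_lt measurable_const
      ((measurable_from_top (f := fun n : ℕ => 4 * n + 9)).comp (measurable_nextZ c0 _))
  set g : ℕ → Cfg → ℝ := fun L => {ω : Cfg | L < 4 * nextZ b₀ c0 ω (0, 0) + 9}.indicator Y with hg
  have hY0 : ∀ ω, 0 ≤ Y ω := fun ω => by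
    have := bnd_nonneg (b := b₀) (c0 := c0) ω (0, 0)
    simp only [hY]
    positivity
  have hglim : Tendsto (fun L => ∫ ω, g L ω ∂V4.law G) atTop (𝓝 0) := by
    have := tendsto_integral_of_dominated_convergence (μ := V4.law G) (F := g) (f := fun _ => (0 : ℝ)) Y
      (fun L => (hYi.indicator (hYm L)).aestronglyMeasurable) hYi
      (fun L => ae_of_all _ fun ω => by
        simp only [hg]
        by_cases hω : ω ∈ {x : Cfg | L < 4 * nextZ b₀ c0 x (0, 0) + 9}
        · rw [Set.indicator_of_mem hω, Real.norm_eq_abs, abs_of_nonneg (hY0 ω)]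
        · rw [Set.indicator_of_notMem hω, norm_zero]; exact hY0 ω)
      (ae_of_all _ fun ω => tendsto_const_nhds.congr' (eventually_atTop.2
        ⟨4 * nextZ b₀ c0 ω (0, 0) + 9, fun L hL =>
          (Set.indicator_of_notMem (s := {x : Cfg | L < 4 * nextZ b₀ c0 x (0, 0) + 9})
            (not_lt.2 hL) Y).symm⟩))
    simpa using this
  have hne := ae_next_ne G hb hrate h0
  filter_upwards [hglim.eventually_le_const (half_pos hγ), eventually_ge_atTop N, eventually_ge_atTop 2,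
    eventually_ge_atTop ⌈(r : ℝ) / C⌉₊, eventually_ge_atTop ⌈2 / (k3 - k2)⌉₊] with L hgL hLN hL2 hLr hLk
  have hLr' : (r : ℝ) ≤ C * L := by
    have := (div_le_iff₀ hCpos).1 ((Nat.le_ceil _).trans (Nat.cast_le.2 hLr))
    linarith
  have hLk' := (div_le_iff₀ hk).1 ((Nat.le_ceil _).trans (Nat.cast_le.2 hLk))
  obtain ⟨M, d, hML, hMw, hQ⟩ := hsc L hLN r hLr'
  set P := winL k2 L
  set n := winN k2 k3 L
  have hn : (k3 - k2) * L / 2 ≤ (n : ℝ) := by
    have h1 : ⌈k2 * L⌉ ≤ ⌈k3 * L⌉ := Int.ceil_le_ceil (mul_le_mul_of_nonneg_right h23.le L.cast_nonneg)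
    have h2' : ((n : ℤ) : ℝ) = (⌈k3 * L⌉ : ℝ) - ⌈k2 * L⌉ := by
      rw [← Int.cast_sub]
      congr 1
      simp only [n, winN]
      omega
    push_cast at h2'
    rw [h2']
    linarith [Int.le_ceil (k3 * L), Int.ceil_lt_add_one (k2 * L)]
  have hn0 : (0 : ℝ) < n := lt_of_lt_of_le (by positivity) hn
  obtain ⟨hbQ, hQ0⟩ := target_bound h2 h23 L n le_rfl
  obtain ⟨hbP, hP0⟩ := target_bound h2 h23 L 0 (Nat.zero_le _)
  simp only [Nat.cast_zero, add_zero] at hbP hP0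
  -- the clamped increment is below the averaged one plus a small error
  have hci : Integrable (fun ω => cincH b₀ k2 k3 K c0 L ω (0, 0)) (V4.law G) :=
    hX.mono' (measurable_cincH L _).aestronglyMeasurable
      (ae_of_all _ fun ω => by rw [Real.norm_eq_abs]; exact abs_cincH_le _ ω _)
  have hii : Integrable (fun ω => incH b₀ k2 k3 K L ω (0, 0)) (V4.law G) :=
    Integrable.of_bound (measurable_incH L _).aestronglyMeasurable (K * L) (by
      filter_upwards [h0] with ω hω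
      rw [Real.norm_eq_abs]
      exact abs_incH_le hω hK L _)
  have hgi : Integrable (g L) (V4.law G) := hYi.indicator (hYm L)
  have h1 : ∫ ω, cincH b₀ k2 k3 K c0 L ω (0, 0) ∂V4.law G ≤
      ∫ ω, incH b₀ k2 k3 K L ω (0, 0) ∂V4.law G + γ / 2 := by
    refine le_trans (integral_mono_ae hci (hii.add hgi) ?_) ?_
    · filter_upwards [h0, hne] with ω hω hωne
      show cincH b₀ k2 k3 K c0 L ω (0, 0) ≤ incH b₀ k2 k3 K L ω (0, 0) + g L ω
      simp only [hg]
      by_cases hZ : ω ∈ {x : Cfg | L < 4 * nextZ b₀ c0 x (0, 0) + 9}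
      · rw [Set.indicator_of_mem hZ]
        have hL4 : (L : ℝ) ≤ 4 * (nextZ b₀ c0 ω (0, 0) : ℝ) + 9 := by
          exact_mod_cast (show L ≤ 4 * nextZ b₀ c0 ω (0, 0) + 9 from (show L < _ from hZ).le)
        have x1 := le_of_abs_le (abs_cincH_le (b := b₀) (k2 := k2) (k3 := k3) (K := K) (c0 := c0) L ω (0, 0))
        have x2 := neg_le_of_abs_le (abs_incH_le (b := b₀) (k2 := k2) (k3 := k3) hω hK L (0, 0))
        have x3 := mul_le_mul_of_nonneg_left hL4 hK
        simp only [hY]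
        linarith
      · rw [Set.indicator_of_notMem hZ, add_zero, cincH_eq hω (hωne (0, 0)) (not_lt.1 hZ)]
    · simp only [Pi.add_apply]
      rw [integral_add hii hgi]
      linarith
  refine h1.trans ?_
  suffices h : ∫ ω, incH b₀ k2 k3 K L ω (0, 0) ∂V4.law G ≤ a + γ / 2 by linarith
  rw [integral_incH G h0 hK, div_le_iff₀ hn0]
  have hi := capT_integrable (b₀ := b₀) G h0 hK L
  refine le_trans (integral_mono_ae (g := fun ω => a * n + 2 * stripErr μ C₀ * M +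
    bad.indicator (fun _ => K * L) ω) ((hi 0 _).sub' (hi 0 _))
    ((integrable_const _).add ((integrable_const _).indicator hbadm)) ?_) ?_
  · filter_upwards [h0] with ω hω
    by_cases hωb : ω ∈ bad
    · rw [Set.indicator_of_mem hωb]
      have x1 := (capT_bounds (b := b₀) hω hK 0 L 0 (P + n)).2
      have x2 := (capT_bounds (b := b₀) hω hK 0 L 0 P).1
      have ha0 : 0 ≤ a := by
        obtain ⟨ρ, hρ⟩ := hμ.exists_supports (0, 1)
        exact (abs_nonneg ρ.1).trans (hsup 0 ρ (by rw [abs_zero]; linarith) hρ)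
      have x3 : 0 ≤ a * (n : ℝ) + 2 * stripErr μ C₀ * M := by positivity
      linarith
    · rw [Set.indicator_of_notMem hωb, add_zero]
      have hsh : HShape μ b₀ C₀ ε r ω (0, 0) :=
        by_contra fun h => hωb (subset_toMeasurable _ _ h)
      obtain ⟨q1, q2, q3⟩ := hQ _ hbQ
      have hup := strip_le d hω hsh q1 q2 q3
      have hlo := strip_ge d hω hsh (hQ _ hbP).1
      have hcapP := norm_le_cap hμ hML hC hbP hL2
      have hmu : μ ((((P + n : ℤ)) : ℝ), (L : ℝ)) - μ ((P : ℝ), (L : ℝ)) ≤ a * n := by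
        obtain ⟨ρ, hρ⟩ := hμ.exists_supports ((((P + n : ℤ)) : ℝ), (L : ℝ))
        have hLpos : (0 : ℝ) < L := by exact_mod_cast (show 0 < L by omega)
        have hs : |(((P + n : ℤ)) : ℝ) / L| ≤ κ' := by
          rw [abs_div, Nat.abs_cast, div_le_iff₀ hLpos]
          have := mul_nonneg (show (0 : ℝ) ≤ κ' by linarith) (Nat.cast_nonneg M : (0 : ℝ) ≤ M)
          have : (0 : ℝ) ≤ M := Nat.cast_nonneg M
          linarith
        have hρa := le_of_abs_le (hsup _ ρ hs ((hμ.supports_of_dir hLpos).1 hρ))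
        have e' : ((P : ℝ), (L : ℝ)) + ((n : ℝ), 0) = ((((P + n : ℤ)) : ℝ), (L : ℝ)) := by simp
        have := hμ.increment_le (z := ((P : ℝ), (L : ℝ))) (d := ((n : ℝ), 0)) (by rw [e']; exact hρ)
        rw [e'] at this
        have := mul_le_mul_of_nonneg_right hρa (Nat.cast_nonneg n : (0 : ℝ) ≤ n)
        simp only [mul_zero, add_zero] at *
        linarith
      have hc1 : capT b₀ K 0 L ω 0 (P + n) ≤ μ ((((P + n : ℤ)) : ℝ), (L : ℝ)) + stripErr μ C₀ * M := by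
        refine (min_le_left _ _).trans ?_
        rw [zero_add]
        exact hup
      have hc2 : μ ((P : ℝ), (L : ℝ)) - stripErr μ C₀ * M ≤ capT b₀ K 0 L ω 0 P := by
        have hM0 : (0 : ℝ) ≤ M := Nat.cast_nonneg M
        have hEm : (μ (1, 0) + 1) * M ≤ stripErr μ C₀ * M :=
          mul_le_mul_of_nonneg_right (by rw [stripErr]; linarith) hM0
        refine le_min ?_ ?_
        · rw [zero_add]
          linarith
        · have := mul_nonneg hE hM0
          linarith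
      linarith
  · rw [integral_add (integrable_const _) ((integrable_const _).indicator hbadm), integral_const,
      probReal_univ, one_smul, integral_indicator_const _ hbadm, smul_eq_mul]
    have x1 : (V4.law G).real bad * (K * L) ≤ w * L := by
      refine (mul_le_mul_of_nonneg_right hbadp (by positivity)).trans ?_
      rw [← mul_assoc]
      refine mul_le_mul_of_nonneg_right ?_ L.cast_nonneg
      rw [hπ, div_mul_eq_mul_div, div_le_iff₀ (by linarith)]
      have : 0 ≤ w := by rw [hw]; positivity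
      nlinarith
    have x2 := mul_le_mul_of_nonneg_left hn (half_pos hγ).le
    have x3 : w * (L : ℝ) * 2 = γ / 2 * ((k3 - k2) * L / 2) := by rw [hw]; ring
    linarith

end Vale.Agent.P158.Any
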