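import Mathlib
import Vale.Agent.P158.V4.Regular
import Vale.Agent.P158.Any.StripMean
import Vale.Agent.P158.Any.Exceed

/-!
P158, arbitrary laws (note 1452, U5): module Regular. Where the shape property and the averaged increment
bounds hold, every cone ray is calibrated only inside a cone. Busemann functions are compared through
gates and first hubs, so no weight needs a bound.
-/

namespace Vale.Agent.P158.Any

open MeasureTheory Filter Topology V4

variable {μ : ℝ × ℝ → ℝ} {b₀ C₀ k2 k3 Kc c0 κ ε η K m1 : ℝ} {ω : Cfg} {j0 : ℕ} {u : Pt}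

/-- The increments from `u` to the right have averages at most `m1` beyond the distance `j0`. -/
def FwdS (b₀ k2 k3 Kc c0 m1 : ℝ) (j0 : ℕ) (ω : Cfg) (u : Pt) : Prop :=
  ∀ j : ℕ, j0 ≤ j → ∑ i ∈ Finset.range j, lowH b₀ k2 k3 Kc c0 ω (u.1 + i, u.2) ≤ m1 * j

/-- The deterministic event at a site. -/
def CoreH (μ : ℝ × ℝ → ℝ) (b₀ C₀ k2 k3 Kc c0 η m1 : ℝ) (j0 : ℕ) (ω : Cfg) (u : Pt) : Prop :=
  HShape μ b₀ C₀ η j0 ω u ∧ HShape μ b₀ C₀ η j0 (ω ∘ Sym2.map V4.flipX) (V4.flipX u) ∧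
    FwdS b₀ k2 k3 Kc c0 m1 j0 ω u ∧
    FwdS b₀ k2 k3 Kc c0 m1 j0 (ω ∘ Sym2.map V4.flipX) (V4.flipX u)

/-- The hypotheses of the steering estimates. -/
structure SteerH (μ : ℝ × ℝ → ℝ) (b₀ C₀ k2 k3 Kc c0 κ ε η K : ℝ) (ω : Cfg) (j0 : ℕ) (u : Pt) : Prop where
  nonneg : ∀ e, 0 ≤ ω e
  ok : ∀ v : Pt, IncOK b₀ k2 k3 Kc c0 ω v
  okF : ∀ v : Pt, IncOK b₀ k2 k3 Kc c0 (ω ∘ Sym2.map V4.flipX) v
  norm : IsLatticeNorm μ
  hC : 0 ≤ C₀
  κ0 : 0 ≤ κ
  hκ : κ < k2
  h23 : k2 < k3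
  hε : 0 < ε
  slope : 0 ≤ μ (1, 0) - 8 * ε
  hη : 0 < η
  hη8 : η ≤ 1 / 8
  hηε : η * (4 * μ (1, 0) + 80 * C₀ + 8) ≤ ε
  hK : 4 ≤ K
  hK' : 2 * μ (1, 0) + 60 * C₀ + 4 ≤ ε * K
  j1 : 1 ≤ j0
  core : CoreH μ b₀ C₀ k2 k3 Kc c0 η (μ (1, 0) - 8 * ε) j0 ω u

theorem norm_cast_le (hμ : IsLatticeNorm μ) (p q : Pt) :
    μ (1, 0) * |((q.1 - p.1 : ℤ) : ℝ)| ≤ μ (toR (q - p)) := by
  have := norm_ge_hor hμ (toR (q - p)).1 (toR (q - p)).2
  simpa [toR] using this

variable {ray : V4.Ray} {R : ℝ}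

theorem SteerH.floor_le (d : SteerH μ b₀ C₀ k2 k3 Kc c0 κ ε η K ω j0 u) (hR : 0 ≤ R) :
    (⌊η * R⌋₊ : ℝ) ≤ η * R :=
  Nat.floor_le (mul_nonneg d.hη.le hR)

/-- A site of the upper half-plane is followed on its line by a hub nearby, also to the left. -/
theorem SteerH.hubs_near (d : SteerH μ b₀ C₀ k2 k3 Kc c0 κ ε η K ω j0 u) (hR : (j0 : ℝ) ≤ R) {x : ℤ}
    (hx : |((x - u.1 : ℤ) : ℝ)| ≤ R) :
    (Hub b₀ ω (upper u.2) (upHub b₀ ω (x, u.2)) ∧
      (l1 (x, u.2) (upHub b₀ ω (x, u.2)) : ℝ) ≤ η * R + 1) ∧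
    (Hub b₀ ω (upper u.2) (V4.flipX (upHub b₀ (ω ∘ Sym2.map V4.flipX) (-x, u.2))) ∧
      (l1 (x, u.2) (V4.flipX (upHub b₀ (ω ∘ Sym2.map V4.flipX) (-x, u.2))) : ℝ) ≤ η * R + 1) := by
  have hR0 : 0 ≤ R := le_trans (Nat.cast_nonneg j0) hR
  have hfl := d.floor_le hR0
  have hl : (l1 u (x, u.2) : ℝ) ≤ R := by simpa [l1, Nat.cast_natAbs, abs_sub_comm] using hx
  have hl' : (l1 (V4.flipX u) ((-x, u.2) : Pt) : ℝ) ≤ R := by
    have e : l1 (V4.flipX u) ((-x, u.2) : Pt) = l1 u (x, u.2) := by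
      show (-u.1 - -x).natAbs + (u.2 - u.2).natAbs = (u.1 - x).natAbs + (u.2 - u.2).natAbs
      omega
    rw [e]
    exact hl
  obtain ⟨h1, h2, -⟩ := d.core.1.firstHub_spec (S := upper u.2) hR (reg_upper u.2)
    (p := ((x, u.2) : Pt)) (show u.2 ≤ u.2 from le_rfl) hl
  obtain ⟨h3, h4, -⟩ := d.core.2.1.firstHub_spec (S := upper u.2) hR (reg_upper u.2)
    (p := ((-x, u.2) : Pt)) (show u.2 ≤ u.2 from le_rfl) hl'
  refine ⟨⟨h1, ?_⟩, ?_, ?_⟩
  · have := (Nat.cast_le (α := ℝ)).2 h2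
    push_cast at this
    exact this.trans (by linarith)
  · have h := latSym_flipX.hub_iff (b := b₀) (ω := ω) (S := upper u.2)
      (p := firstHub b₀ (ω ∘ Sym2.map V4.flipX) (upper u.2) (-x, u.2))
    exact h.1 h3
  · have e : l1 (x, u.2) (V4.flipX (upHub b₀ (ω ∘ Sym2.map V4.flipX) (-x, u.2))) =
        l1 ((-x, u.2) : Pt) (upHub b₀ (ω ∘ Sym2.map V4.flipX) (-x, u.2)) := by
      set P := upHub b₀ (ω ∘ Sym2.map V4.flipX) (-x, u.2)
      show (x - -P.1).natAbs + (u.2 - P.2).natAbs = (-x - P.1).natAbs + (u.2 - P.2).natAbs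
      omega
    rw [e]
    have := (Nat.cast_le (α := ℝ)).2 h4
    push_cast at this
    exact this.trans (by linarith)

/-- The Busemann functions of hubs of the half-plane differ by at most the time between them. -/
theorem SteerH.seg_bus (d : SteerH μ b₀ C₀ k2 k3 Kc c0 κ ε η K ω j0 u) (hr : IsTail ω ray)
    (hrise : Rises ray) (hR : (j0 : ℝ) ≤ R) {p q : Pt} (hp : Hub b₀ ω (upper u.2) p)
    (hq : Hub b₀ ω (upper u.2) q) (hpR : (l1 u p : ℝ) ≤ 2 * R) (hqR : (l1 u q : ℝ) ≤ 2 * R) :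
    busIn (upper u.2) ω ray p ≤ C₀ * (l1 p q + η * (2 * R)) + busIn (upper u.2) ω ray q := by
  have h1 := hr.busIn_le_add d.nonneg (linked_upper' u.2) (hrise.eventually_upper u.2)
    (p := p) (q := q) hp.1 hq.1
  have h2 := d.core.1.seg (2 * R) (by linarith [(Nat.cast_nonneg j0 : (0 : ℝ) ≤ j0)]) (upper u.2)
    (reg_upper u.2) p q hpR hqR hp hq
  linarith

/-- The drop of the Busemann function along the line, between first hubs. -/
theorem SteerH.drop (d : SteerH μ b₀ C₀ k2 k3 Kc c0 κ ε η K ω j0 u) (hr : IsTail ω ray)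
    (hcone : ConeRay κ ray) (hrise : Rises ray) (hR : (j0 : ℝ) ≤ R) (hR8 : 4 ≤ R) {x : ℤ}
    (hx : |((x - u.1 : ℤ) : ℝ)| ≤ R) :
    busIn (upper u.2) ω ray (upHub b₀ ω u) ≤ busIn (upper u.2) ω ray (upHub b₀ ω (x, u.2)) +
      (μ (1, 0) - 8 * ε) * |((x - u.1 : ℤ) : ℝ)| + C₀ * (j0 + 10 * (η * R + 1)) := by
  set m1 := μ (1, 0) - 8 * ε
  have hηR : η * R + 1 ≤ R := by
    have := mul_le_mul_of_nonneg_right d.hη8 (show (0 : ℝ) ≤ R by linarith)
    linarith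
  have hηR0 : 0 ≤ η * R := mul_nonneg d.hη.le (by linarith)
  have hj : (0 : ℝ) ≤ j0 := Nat.cast_nonneg _
  obtain ⟨⟨hPu, hPul⟩, hQu, hQul⟩ := d.hubs_near hR (x := u.1) (by simp; linarith)
  obtain ⟨⟨hPx, hPxl⟩, hQx, hQxl⟩ := d.hubs_near hR hx
  rw [show ((u.1, u.2) : Pt) = u from rfl] at hPu hPul
  set Pu := upHub b₀ ω u
  set Px := upHub b₀ ω (x, u.2)
  set Qu := V4.flipX (upHub b₀ (ω ∘ Sym2.map V4.flipX) (-u.1, u.2))
  set Qx := V4.flipX (upHub b₀ (ω ∘ Sym2.map V4.flipX) (-x, u.2))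
  have hxl : (l1 u (x, u.2) : ℝ) = |((x - u.1 : ℤ) : ℝ)| := by
    simp [l1, Nat.cast_natAbs, abs_sub_comm]
  have tri : ∀ a b c : Pt, (l1 a c : ℝ) ≤ (l1 a b : ℝ) + (l1 b c : ℝ) := fun a b c => by
    exact_mod_cast l1_triangle a b c
  have comm : ∀ a b : Pt, (l1 a b : ℝ) = l1 b a := fun a b => by
    exact_mod_cast (by simp only [l1]; omega : l1 a b = l1 b a)
  have hab := abs_nonneg ((x - u.1 : ℤ) : ℝ)
  have huu : (l1 ((u.1, u.2) : Pt) Qu : ℝ) = l1 u Qu := rfl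
  have bPu : (l1 u Pu : ℝ) ≤ 2 * R := by linarith
  have bPx : (l1 u Px : ℝ) ≤ 2 * R := by linarith [tri u (x, u.2) Px]
  have bQu : (l1 u Qu : ℝ) ≤ 2 * R := by linarith
  have bQx : (l1 u Qx : ℝ) ≤ 2 * R := by linarith [tri u (x, u.2) Qx]
  have hslope : 0 ≤ m1 * |((x - u.1 : ℤ) : ℝ)| := mul_nonneg d.slope hab
  have hC0 : 0 ≤ C₀ * (η * R) := mul_nonneg d.hC hηR0
  rcases lt_or_ge |((x - u.1 : ℤ) : ℝ)| (j0 : ℝ) with hlt | hge
  · have h1 := d.seg_bus hr hrise hR hPu hPx bPu bPx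
    have h2 : (l1 Pu Px : ℝ) + η * (2 * R) ≤ j0 + 10 * (η * R + 1) := by
      linarith [tri Pu u Px, tri u (x, u.2) Px, comm Pu u]
    have h3 := mul_le_mul_of_nonneg_left h2 d.hC
    linarith
  rcases le_total u.1 x with hle | hle
  · obtain ⟨j, hj'⟩ := Int.le.dest hle
    have hjj : j0 ≤ j := by
      rw [show x - u.1 = (j : ℤ) by omega] at hge
      exact_mod_cast (by simpa using hge : (j0 : ℝ) ≤ j)
    have h := fwd_bound d.nonneg hr hrise hcone d.κ0 d.hκ d.h23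
      (u := u) (m1 := m1) ⟨fun i => d.ok _, d.core.2.2.1⟩ hjj
    rw [hj'] at h
    rw [show x - u.1 = (j : ℤ) by omega, Int.cast_natCast, Nat.abs_cast]
    have : 0 ≤ C₀ * (j0 + 10 * (η * R + 1)) := mul_nonneg d.hC (by linarith)
    linarith
  · obtain ⟨j, hj'⟩ := Int.le.dest hle
    have hjj : j0 ≤ j := by
      rw [show x - u.1 = -(j : ℤ) by omega] at hge
      exact_mod_cast (by simpa using hge : (j0 : ℝ) ≤ j)
    have hcone' : ConeRay κ (ray.map V4.flipX) := hcone.mono fun n hn => by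
      show |((-(ray.pt n).1 : ℤ) : ℝ)| ≤ κ * |(((ray.pt n).2 : ℤ) : ℝ)|
      rwa [Int.cast_neg, abs_neg]
    have hset : V4.flipX ⁻¹' upper u.2 = upper u.2 := rfl
    have h := fwd_bound (ω := ω ∘ Sym2.map V4.flipX) (fun e => d.nonneg _)
      (hr.map d.nonneg V4.flipX V4.flipX_flipX) (show Rises (ray.map V4.flipX) from hrise) hcone'
      d.κ0 d.hκ d.h23 (u := V4.flipX u) (m1 := m1) ⟨fun i => d.okF _, d.core.2.2.2⟩ hjj
    rw [show (((V4.flipX u).1 + (j : ℤ), (V4.flipX u).2) : Pt) = (-x, u.2) from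
        Prod.ext (by show -u.1 + (j : ℤ) = -x; omega) rfl,
      show V4.flipX u = ((-u.1, u.2) : Pt) from rfl] at h
    dsimp only at h
    have e1 := busIn_map (ω := ω) V4.flipX V4.flipX_flipX (upper u.2) ray Qu
    have e2 := busIn_map (ω := ω) V4.flipX V4.flipX_flipX (upper u.2) ray Qx
    rw [hset] at e1 e2
    simp only [Qu, Qx, V4.flipX_flipX] at e1 e2
    rw [e1, e2] at h
    have s1 := d.seg_bus hr hrise hR hPu hQu bPu bQu
    have s2 := d.seg_bus hr hrise hR hQx hPx bQx bPx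
    have h2 : (l1 Pu Qu : ℝ) + η * (2 * R) + ((l1 Qx Px : ℝ) + η * (2 * R)) ≤
        j0 + 10 * (η * R + 1) := by
      linarith [tri Pu u Qu, comm Pu u, tri Qx (x, u.2) Px, comm Qx (x, u.2)]
    have h3 := mul_le_mul_of_nonneg_left h2 d.hC
    rw [show x - u.1 = -(j : ℤ) by omega, Int.cast_neg, abs_neg, Int.cast_natCast, Nat.abs_cast]
    linarith

/-- A site is above one of its gates. -/
theorem SteerH.gate_bus (d : SteerH μ b₀ C₀ k2 k3 Kc c0 κ ε η K ω j0 u) (hr : IsTail ω ray)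
    (hrise : Rises ray) (hR : (j0 : ℝ) ≤ R) {p : Pt} (hp : p ∈ upper u.2) (hpR : (l1 u p : ℝ) ≤ R) :
    ∃ g, Hub b₀ ω (upper u.2) g ∧ (l1 p g : ℝ) ≤ 2 * (η * R) + 2 ∧
      busIn (upper u.2) ω ray g ≤ busIn (upper u.2) ω ray p := by
  classical
  have hR0 : 0 ≤ R := le_trans (Nat.cast_nonneg j0) hR
  set S := upper u.2
  set H := busIn S ω ray
  set N := ⌊η * R⌋₊ with hN
  have hlink : Linked S := linked_upper' u.2
  have hev := hrise.eventually_upper u.2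
  set D := (square (2 * N + 2) p).filter fun g => Hub b₀ ω S g ∧ l1 p g ≤ 2 * N + 2
  obtain ⟨M, hM⟩ := hr.busIn_le d.nonneg hlink hev
  have hfar : ∀ᶠ n in atTop, ¬ Near N p (ray.pt n) := by
    have := hrise.eventually (eventually_gt_atTop (p.2 + N))
    refine this.mono fun n hn h => ?_
    simp only [Near, abs_le] at h
    omega
  have hge : ∀ᶠ n in atTop, ∀ (w : grid.Walk p (ray.pt n)), (∀ z ∈ w.support, z ∈ S) →
      ∃ g ∈ D, H g + ray.acc n ≤ wt ω w := by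
    filter_upwards [hfar, eventually_ge_atTop M] with n hn hnM w hw
    obtain ⟨g, hg, hgw, hgd, -⟩ := d.core.1.gate hR (S := S) (reg_upper u.2) hp hpR w hw hn
    obtain ⟨w1, w2, rfl⟩ := SimpleGraph.Walk.mem_support_iff_exists_append.1 hgw
    refine ⟨g, Finset.mem_filter.2 ⟨mem_square_of_l1 hgd, hg, hgd⟩, ?_⟩
    have h1 := hM g hg.1 n hnM
    have h2 := ttS_le d.nonneg w2 (S := S) fun z hz =>
      hw z ((SimpleGraph.Walk.mem_support_append_iff _ _).2 (Or.inr hz))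
    have h3 := wt_nonneg d.nonneg w1
    rw [wt_append]
    simp only [ttIn_eq] at *
    linarith
  have hne : D.Nonempty := by
    obtain ⟨n, hn, hnS⟩ := (hge.and hev).exists
    obtain ⟨w, hw⟩ := hlink p hp (ray.pt n) hnS
    obtain ⟨g, hg, -⟩ := hn w hw
    exact ⟨g, hg⟩
  obtain ⟨g, hg, hmin⟩ := D.exists_min_image H hne
  obtain ⟨hgH, hgd⟩ := (Finset.mem_filter.1 hg).2
  refine ⟨g, hgH, ?_, ge_of_tendsto (hr.tendsto_busIn d.nonneg hlink hev hp) ?_⟩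
  · have := (Nat.cast_le (α := ℝ)).2 hgd
    push_cast at this
    linarith [d.floor_le hR0]
  · filter_upwards [hge, hev] with n hn hnS
    rw [le_sub_iff_add_le]
    refine le_ttS hlink hp hnS fun w hw => ?_
    obtain ⟨g', hg', hle⟩ := hn w hw
    linarith [hmin g' hg']

/-- The lower bound on the half-plane Busemann function of a site. -/
theorem SteerH.bus_low_upper (d : SteerH μ b₀ C₀ k2 k3 Kc c0 κ ε η K ω j0 u) (hr : IsTail ω ray)
    (hcone : ConeRay κ ray) (hrise : Rises ray) (hR : (j0 : ℝ) ≤ R) (hR8 : 4 ≤ R) {p : Pt}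
    (hp : p ∈ upper u.2) (hpR : (l1 u p : ℝ) ≤ R) :
    busIn (upper u.2) ω ray (upHub b₀ ω u) ≤ busIn (upper u.2) ω ray p +
      (μ (1, 0) - 8 * ε) * |((p.1 - u.1 : ℤ) : ℝ)| +
      C₀ * (j0 + |((p.2 - u.2 : ℤ) : ℝ)| + 16 * (η * R + 1)) := by
  obtain ⟨g, hg, hgl, hgb⟩ := d.gate_bus hr hrise hR hp hpR
  have hηR : η * R + 1 ≤ R := by
    have := mul_le_mul_of_nonneg_right d.hη8 (show (0 : ℝ) ≤ R by linarith)
    linarith
  have hηR0 : 0 ≤ η * R := mul_nonneg d.hη.le (by linarith)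
  have hl : (l1 u p : ℝ) = |((p.1 - u.1 : ℤ) : ℝ)| + |((p.2 - u.2 : ℤ) : ℝ)| := by
    simp [l1, Nat.cast_natAbs, abs_sub_comm]
  have hx : |((p.1 - u.1 : ℤ) : ℝ)| ≤ R := by linarith [abs_nonneg ((p.2 - u.2 : ℤ) : ℝ)]
  obtain ⟨⟨hP, hPl⟩, -⟩ := d.hubs_near hR hx
  set P := upHub b₀ ω (p.1, u.2)
  have tri : ∀ a b c : Pt, (l1 a c : ℝ) ≤ (l1 a b : ℝ) + (l1 b c : ℝ) := fun a b c => by
    exact_mod_cast l1_triangle a b c
  have hpp : (l1 p ((p.1, u.2) : Pt) : ℝ) = |((p.2 - u.2 : ℤ) : ℝ)| := by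
    simp [l1, Nat.cast_natAbs]
  have hup : (l1 u ((p.1, u.2) : Pt) : ℝ) = |((p.1 - u.1 : ℤ) : ℝ)| := by
    simp [l1, Nat.cast_natAbs, abs_sub_comm]
  have hgp : (l1 g p : ℝ) = l1 p g := by
    exact_mod_cast (by simp only [l1]; omega : l1 g p = l1 p g)
  have bg : (l1 u g : ℝ) ≤ 2 * R := by
    have := mul_le_mul_of_nonneg_right d.hη8 (show (0 : ℝ) ≤ R by linarith)
    linarith [tri u p g]
  have bP : (l1 u P : ℝ) ≤ 2 * R := by linarith [tri u (p.1, u.2) P]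
  have h1 := d.seg_bus hr hrise hR hP hg bP bg
  have h2 := d.drop hr hcone hrise hR hR8 hx
  have h3 : (l1 P g : ℝ) + η * (2 * R) + (j0 + 10 * (η * R + 1)) ≤
      j0 + |((p.2 - u.2 : ℤ) : ℝ)| + 16 * (η * R + 1) := by
    have e : (l1 P ((p.1, u.2) : Pt) : ℝ) = l1 ((p.1, u.2) : Pt) P := by
      exact_mod_cast (by simp only [l1]; omega : l1 P ((p.1, u.2) : Pt) = l1 ((p.1, u.2) : Pt) P)
    have e' : (l1 ((p.1, u.2) : Pt) p : ℝ) = l1 p ((p.1, u.2) : Pt) := by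
      exact_mod_cast (by simp only [l1]; omega : l1 ((p.1, u.2) : Pt) p = l1 p ((p.1, u.2) : Pt))
    linarith [tri P (p.1, u.2) g, tri (p.1, u.2) p g]
  have h4 := mul_le_mul_of_nonneg_left h3 d.hC
  linarith

theorem SteerH.outside (d : SteerH μ b₀ C₀ k2 k3 Kc c0 κ ε η K ω j0 u) {z : Pt}
    (hz : ¬ InCone K j0 u z) :
    (2 * μ (1, 0) + 60 * C₀ + 4) * |((z.2 - u.2 : ℤ) : ℝ)| ≤ ε * |((z.1 - u.1 : ℤ) : ℝ)| ∧
      |((z.2 - u.2 : ℤ) : ℝ)| ≤ |((z.1 - u.1 : ℤ) : ℝ)| ∧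
      (2 * μ (1, 0) + 60 * C₀ + 4) * j0 ≤ ε * |((z.1 - u.1 : ℤ) : ℝ)| ∧
        4 * (j0 : ℝ) ≤ |((z.1 - u.1 : ℤ) : ℝ)| := by
  unfold InCone at hz
  rw [not_le] at hz
  set A := |((z.1 - u.1 : ℤ) : ℝ)|
  set B := |((z.2 - u.2 : ℤ) : ℝ)|
  have h1 : K * B < A := lt_of_le_of_lt (mul_le_mul_of_nonneg_left (le_max_left _ _) (by linarith [d.hK])) hz
  have h2 : K * j0 < A := lt_of_le_of_lt (mul_le_mul_of_nonneg_left (le_max_right _ _) (by linarith [d.hK])) hz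
  have hB : 0 ≤ B := abs_nonneg _
  have hj : (0 : ℝ) ≤ j0 := Nat.cast_nonneg _
  refine ⟨?_, ?_, ?_, ?_⟩
  · have x1 := mul_le_mul_of_nonneg_right d.hK' hB
    have x2 := mul_le_mul_of_nonneg_left h1.le d.hε.le
    linarith
  · have := mul_le_mul_of_nonneg_right d.hK hB
    linarith
  · have x1 := mul_le_mul_of_nonneg_right d.hK' hj
    have x2 := mul_le_mul_of_nonneg_left h2.le d.hε.le
    linarith
  · have := mul_le_mul_of_nonneg_right d.hK hj
    linarith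

/-- The lower bound on the Busemann function far outside the cone. -/
theorem SteerH.bus_low (d : SteerH μ b₀ C₀ k2 k3 Kc c0 κ ε η K ω j0 u) (hr : IsTail ω ray)
    (hcone : ConeRay κ ray) (hrise : Rises ray) {z : Pt} (hz : ¬ InCone K j0 u z) :
    busIn (upper u.2) ω ray (upHub b₀ ω u) ≤ bus ω ray z +
      (μ (1, 0) - 8 * ε) * |((z.1 - u.1 : ℤ) : ℝ)| +
      (2 * η * (1 + 16 * C₀) * |((z.1 - u.1 : ℤ) : ℝ)| +
        C₀ * (j0 + |((z.2 - u.2 : ℤ) : ℝ)| + 16)) := by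
  obtain ⟨-, hBA, -, hjA⟩ := d.outside hz
  set A := |((z.1 - u.1 : ℤ) : ℝ)|
  set B := |((z.2 - u.2 : ℤ) : ℝ)|
  have hB : 0 ≤ B := abs_nonneg _
  have hA : 0 ≤ A := abs_nonneg _
  have hj : (1 : ℝ) ≤ j0 := by exact_mod_cast d.j1
  have hlink := linked_upper' u.2
  have hev := hrise.eventually_upper u.2
  obtain ⟨M, hM⟩ := hr.busIn_le d.nonneg hlink hev
  have hlz : (l1 u z : ℝ) = A + B := by simp [l1, A, B, Nat.cast_natAbs, abs_sub_comm]
  set H := busIn (upper u.2) ω ray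
  set E := 2 * η * (1 + 16 * C₀) * A + C₀ * (j0 + B + 16)
  suffices h : H (upHub b₀ ω u) - ((μ (1, 0) - 8 * ε) * A + E) ≤ bus ω ray z by linarith
  refine ge_of_tendsto (hr.tendsto_bus d.nonneg z) ?_
  filter_upwards [eventually_ge_atTop M, hev] with n hn hnS
  rw [le_sub_iff_add_le]
  refine le_tt fun p => ?_
  by_cases hex : ∃ y ∈ p.support, y.2 ≤ u.2
  · obtain ⟨C, q, s, hC, hp, hS⟩ := exists_last_visit p u.2 hnS hex
    obtain ⟨c, rfl⟩ : ∃ c : ℤ, C = (c, u.2) := ⟨C.1, Prod.ext rfl hC⟩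
    have h1 := tt_le d.nonneg q
    have h2 : H (c, u.2) + ray.acc n ≤ wt ω s := by
      have := hM (c, u.2) (show u.2 ≤ u.2 from le_rfl) n hn
      have := ttS_le (S := upper u.2) d.nonneg s hS
      simp only [ttIn_eq] at *
      linarith
    set W := |((c - z.1 : ℤ) : ℝ)|
    have hW : 0 ≤ W := abs_nonneg _
    have hcu : |((c - u.1 : ℤ) : ℝ)| ≤ A + W := by
      rw [show ((c - u.1 : ℤ) : ℝ) = ((z.1 - u.1 : ℤ) : ℝ) + ((c - z.1 : ℤ) : ℝ) by push_cast; ring]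
      exact abs_add_le _ _
    have hlc : (l1 u (c, u.2) : ℝ) = |((c - u.1 : ℤ) : ℝ)| := by
      simp [l1, Nat.cast_natAbs, abs_sub_comm]
    have h3 := d.core.1.lo (2 * A + W) (by linarith) z (c, u.2) (by linarith) (by rw [hlc]; linarith)
    have h4 := norm_cast_le d.norm z (c, u.2)
    have h5 := d.bus_low_upper hr hcone hrise (R := 2 * A + W) (by linarith) (by linarith)
      (p := ((c, u.2) : Pt)) (show u.2 ≤ u.2 from le_rfl) (by rw [hlc]; linarith)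
    simp only [sub_self, Int.cast_zero, abs_zero, add_zero] at h5
    have h6 := mul_le_mul_of_nonneg_left hcu d.slope
    have h7 : η * (1 + 16 * C₀) * W ≤ 8 * ε * W := by
      refine mul_le_mul_of_nonneg_right ?_ hW
      have := d.hηε
      have := d.hε
      have := mul_nonneg d.hη.le d.hC
      have := mul_nonneg d.hη.le d.norm.axis_pos.le
      linarith [d.hη]
    have h8 : 0 ≤ C₀ * B := mul_nonneg d.hC hB
    rw [hp, wt_append]
    linarith
  · push Not at hex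
    have hzS : z ∈ upper u.2 := (hex z p.start_mem_support).le
    have h1 := hM z hzS n hn
    have h2 := ttS_le (S := upper u.2) d.nonneg p fun y hy => (hex y hy).le
    have h5 := d.bus_low_upper hr hcone hrise (R := 2 * A) (by linarith) (by linarith) hzS
      (by linarith)
    have h6 : 0 ≤ η * A := mul_nonneg d.hη.le hA
    simp only [ttIn_eq] at *
    linarith

/-- The passage time from the first hub at the site to a hub of the plane near the site. -/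
theorem SteerH.center (d : SteerH μ b₀ C₀ k2 k3 Kc c0 κ ε η K ω j0 u) (hR : (j0 : ℝ) ≤ R) (hR8 : 4 ≤ R)
    {g : Pt} (hg : Hub b₀ ω Set.univ g) (hgl : (l1 u g : ℝ) ≤ 2 * (η * R) + 2) :
    tt ω g (upHub b₀ ω u) ≤ C₀ * (20 * (η * R + 1)) + 1 := by
  have hfl := d.floor_le (show (0 : ℝ) ≤ R by linarith)
  have hηR : η * R ≤ R / 8 := by
    have := mul_le_mul_of_nonneg_right d.hη8 (show (0 : ℝ) ≤ R by linarith)
    linarith
  have hηR0 : 0 ≤ η * R := mul_nonneg d.hη.le (by linarith)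
  set N := ⌊η * R⌋₊ with hN
  set R2 := 2 * R
  obtain ⟨⟨hP, hPl⟩, -⟩ := d.hubs_near hR (x := u.1) (by simp; linarith)
  rw [show ((u.1, u.2) : Pt) = u from rfl] at hP hPl
  set P := upHub b₀ ω u
  have hxR : |((u.1 + (2 * N + 3 : ℕ) - u.1 : ℤ) : ℝ)| ≤ R := by
    rw [add_sub_cancel_left, Int.cast_natCast, Nat.abs_cast]
    push_cast
    linarith
  obtain ⟨⟨hF, hFl⟩, -⟩ := d.hubs_near hR hxR
  set x := u.1 + ((2 * N + 3 : ℕ) : ℤ)
  set F := upHub b₀ ω (x, u.2)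
  have tri : ∀ a b c : Pt, (l1 a c : ℝ) ≤ (l1 a b : ℝ) + (l1 b c : ℝ) := fun a b c => by
    exact_mod_cast l1_triangle a b c
  have comm : ∀ a b : Pt, (l1 a b : ℝ) = l1 b a := fun a b => by
    exact_mod_cast (by simp only [l1]; omega : l1 a b = l1 b a)
  have hux : (l1 u (x, u.2) : ℝ) ≤ 2 * (η * R) + 3 := by
    have e : l1 u (x, u.2) = 2 * N + 3 := by simp only [l1, x]; omega
    rw [e]
    push_cast
    linarith
  have bP : (l1 u P : ℝ) ≤ R := by linarith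
  have bF : (l1 u F : ℝ) ≤ R2 := by simp only [R2]; linarith [tri u (x, u.2) F]
  obtain ⟨w, hw, hwt⟩ := exists_walk_lt (linked_upper' u.2) hP.1 hF.1
    (lt_of_le_of_lt (d.core.1.seg R2 (by simp only [R2]; linarith) (upper u.2) (reg_upper u.2) P F
      (by simp only [R2]; linarith) bF hP hF) (lt_add_one _))
  have hNear : ¬ Near N P F := by
    have hk : (firstK b₀ ω (upper u.2) u : ℝ) ≤ η * R + 1 := by
      rw [← l1_firstHub]
      exact hPl
    have hk' : firstK b₀ ω (upper u.2) u ≤ N + 1 := by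
      have : (firstK b₀ ω (upper u.2) u : ℝ) < (N : ℝ) + 2 := by
        have := Nat.lt_floor_add_one (η * R)
        rw [← hN] at this
        linarith
      have : firstK b₀ ω (upper u.2) u < N + 2 := by exact_mod_cast this
      omega
    have e1 : P.1 = u.1 + (firstK b₀ ω (upper u.2) u : ℤ) := rfl
    have e2 : x ≤ F.1 := le_firstHub_fst
    simp only [Near, abs_le]
    simp only [x] at e2
    omega
  obtain ⟨g', hg', -, hg'd, w', hw', -⟩ := d.core.1.gate hR reg_univ (Set.mem_univ P) bP w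
    (fun y _ => Set.mem_univ y) hNear
  have hg'l : (l1 P g' : ℝ) ≤ 2 * (η * R) + 2 := by
    have := (Nat.cast_le (α := ℝ)).2 hg'd
    push_cast at this
    linarith
  have h1 : wt ω w' ≤ wt ω w := (hw'.map ω).sum_le_sum fun a ha => by
    obtain ⟨e, -, rfl⟩ := List.mem_map.1 ha
    exact d.nonneg e
  have h2 : tt ω g' P ≤ wt ω w' := (tt_le d.nonneg w'.reverse).trans_eq (wt_reverse w')
  have bg : (l1 u g : ℝ) ≤ R2 := by simp only [R2]; linarith
  have bg' : (l1 u g' : ℝ) ≤ R2 := by simp only [R2]; linarith [tri u P g']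
  have hlinku : Linked (Set.univ : Set Pt) := fun a _ c _ =>
    (exists_short a c).imp fun p _ => fun y _ => Set.mem_univ y
  have h3 := (tt_le_ttS d.nonneg hlinku (Set.mem_univ g) (Set.mem_univ g')).trans
    (d.core.1.seg R2 (by simp only [R2]; linarith) Set.univ reg_univ g g' bg bg' hg hg')
  have h4 := tt_triangle d.nonneg g g' P
  have h5 : (l1 g g' : ℝ) + η * R2 + ((l1 P F : ℝ) + η * R2) ≤ 20 * (η * R + 1) := by
    simp only [R2]
    linarith [tri g u g', comm g u, tri u P g', tri P u F, comm P u, tri u (x, u.2) F]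
  have h6 := mul_le_mul_of_nonneg_left h5 d.hC
  linarith

theorem SteerH.full (d : SteerH μ b₀ C₀ k2 k3 Kc c0 κ ε η K ω j0 u) (hr : IsTail ω ray)
    (hcone : ConeRay κ ray) (hrise : Rises ray) (z : Pt) (hz : ¬ InCone K j0 u z) :
    bus ω ray u + 1 ≤ tt ω u z + bus ω ray z := by
  obtain ⟨hB1, hBA, hj1', hjA⟩ := d.outside hz
  have hlow := d.bus_low hr hcone hrise hz
  set A := |((z.1 - u.1 : ℤ) : ℝ)| with hAdef
  set B := |((z.2 - u.2 : ℤ) : ℝ)|
  have hA : 0 ≤ A := abs_nonneg _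
  have hB : 0 ≤ B := abs_nonneg _
  have hj : (1 : ℝ) ≤ j0 := by exact_mod_cast d.j1
  rw [← sub_le_iff_le_add]
  refine le_tt fun w => ?_
  set R := 2 * A
  have hR : (j0 : ℝ) ≤ R := by simp only [R]; linarith
  have hR8 : 4 ≤ R := by simp only [R]; linarith
  have hfl := d.floor_le (show (0 : ℝ) ≤ R by linarith)
  have hηR : η * R ≤ R / 8 := by
    have := mul_le_mul_of_nonneg_right d.hη8 (show (0 : ℝ) ≤ R by linarith)
    linarith
  have hfar : ¬ Near ⌊η * R⌋₊ u z := fun h => by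
    have h' : ((|z.1 - u.1| : ℤ) : ℝ) ≤ ((⌊η * R⌋₊ : ℤ) : ℝ) := Int.cast_le.2 h.1
    rw [Int.cast_abs, Int.cast_natCast, ← hAdef] at h'
    simp only [R] at hηR hfl h'
    linarith
  obtain ⟨g, hg, hgw, hgd, -⟩ := d.core.1.gate hR reg_univ (Set.mem_univ u) (by simp [l1]; linarith) w
    (fun y _ => Set.mem_univ y) hfar
  obtain ⟨w1, w2, rfl⟩ := SimpleGraph.Walk.mem_support_iff_exists_append.1 hgw
  have hgl : (l1 u g : ℝ) ≤ 2 * (η * R) + 2 := by
    have := (Nat.cast_le (α := ℝ)).2 hgd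
    push_cast at this
    linarith
  have hg1 : A - (2 * (η * R) + 2) ≤ |((z.1 - g.1 : ℤ) : ℝ)| := by
    have : |((g.1 - u.1 : ℤ) : ℝ)| ≤ (l1 u g : ℝ) := by
      simp [l1, Nat.cast_natAbs, abs_sub_comm]
    have e : ((z.1 - u.1 : ℤ) : ℝ) = ((z.1 - g.1 : ℤ) : ℝ) + ((g.1 - u.1 : ℤ) : ℝ) := by
      push_cast; ring
    have := abs_add_le ((z.1 - g.1 : ℤ) : ℝ) ((g.1 - u.1 : ℤ) : ℝ)
    rw [← e, ← hAdef] at this
    linarith
  have h1 := tt_le d.nonneg w1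
  have h2 := tt_le d.nonneg w2
  have h3 := hr.bus_le_add d.nonneg u g
  have h4 := hr.bus_le_add d.nonneg g (upHub b₀ ω u)
  have h5 := d.center hR hR8 hg hgl
  have h6 := hr.bus_le_busIn d.nonneg (linked_upper' u.2) (hrise.eventually_upper u.2)
    (p := upHub b₀ ω u) (show u.2 ≤ u.2 from le_rfl)
  have hlz : (l1 u z : ℝ) = A + B := by simp [l1, A, B, Nat.cast_natAbs, abs_sub_comm]
  have h7 := d.core.1.lo R hR g z (by simp only [R] at *; linarith) (by simp only [R]; linarith)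
  have h8 := (mul_le_mul_of_nonneg_left hg1 d.norm.axis_pos.le).trans (norm_cast_le d.norm g z)
  have h9 := mul_le_mul_of_nonneg_right d.hηε hA
  have hm := d.norm.axis_pos
  have hC := d.hC
  have i1 : 0 ≤ η * A := mul_nonneg d.hη.le hA
  have i2 : 0 ≤ C₀ * B := mul_nonneg hC hB
  have i3 : 0 ≤ C₀ * ((j0 : ℝ) - 1) := mul_nonneg hC (by linarith)
  have i4 : 0 ≤ μ (1, 0) * ((j0 : ℝ) - 1) := mul_nonneg hm.le (by linarith)
  have i5 : 0 ≤ μ (1, 0) * B := mul_nonneg hm.le hB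
  have i6 : 0 ≤ ε * A := mul_nonneg d.hε.le hA
  have i7 : 0 ≤ C₀ * (η * A) := mul_nonneg hC i1
  rw [wt_append]
  simp only [R] at *
  linarith

theorem SteerH.above (d : SteerH μ b₀ C₀ k2 k3 Kc c0 κ ε η K ω j0 u) (hr : IsTail ω ray)
    (hcone : ConeRay κ ray) (hrise : Rises ray) (x : ℤ) (hx : |((x - u.1 : ℤ) : ℝ)| ≤ j0)
    (z : Pt) (hzu : z ∈ upper u.2) (hz : ¬ InCone K j0 u z) :
    busIn (upper u.2) ω ray (x, u.2) + 1 ≤
      ttIn (upper u.2) ω (x, u.2) z + busIn (upper u.2) ω ray z := by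
  obtain ⟨hB1, hBA, hj1', hjA⟩ := d.outside hz
  set A := |((z.1 - u.1 : ℤ) : ℝ)| with hAdef
  set B := |((z.2 - u.2 : ℤ) : ℝ)|
  have hA : 0 ≤ A := abs_nonneg _
  have hB : 0 ≤ B := abs_nonneg _
  have hj : (1 : ℝ) ≤ j0 := by exact_mod_cast d.j1
  set R := 2 * A
  have hR : (j0 : ℝ) ≤ R := by simp only [R]; linarith
  have hR8 : 4 ≤ R := by simp only [R]; linarith
  have hlz : (l1 u z : ℝ) = A + B := by simp [l1, A, B, Nat.cast_natAbs, abs_sub_comm]
  have hlow := d.bus_low_upper hr hcone hrise hR hR8 hzu (by simp only [R]; linarith)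
  have hfl := d.floor_le (show (0 : ℝ) ≤ R by linarith)
  have hηR : η * R ≤ R / 8 := by
    have := mul_le_mul_of_nonneg_right d.hη8 (show (0 : ℝ) ≤ R by linarith)
    linarith
  have hlx : (l1 u (x, u.2) : ℝ) = |((x - u.1 : ℤ) : ℝ)| := by
    simp [l1, Nat.cast_natAbs, abs_sub_comm]
  have hlink := linked_upper' u.2
  have hev := hrise.eventually_upper u.2
  rw [← sub_le_iff_le_add]
  refine le_ttS hlink (show ((x, u.2) : Pt) ∈ upper u.2 from le_refl u.2) hzu fun w hw => ?_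
  have hzx : A - j0 ≤ |((z.1 - x : ℤ) : ℝ)| := by
    have e : ((z.1 - u.1 : ℤ) : ℝ) = ((z.1 - x : ℤ) : ℝ) + ((x - u.1 : ℤ) : ℝ) := by push_cast; ring
    have := abs_add_le ((z.1 - x : ℤ) : ℝ) ((x - u.1 : ℤ) : ℝ)
    rw [← e, ← hAdef] at this
    linarith
  have hfar : ¬ Near ⌊η * R⌋₊ (x, u.2) z := fun h => by
    have h' : ((|z.1 - x| : ℤ) : ℝ) ≤ ((⌊η * R⌋₊ : ℤ) : ℝ) := Int.cast_le.2 h.1
    rw [Int.cast_abs, Int.cast_natCast] at h'
    simp only [R] at hηR hfl h'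
    linarith
  obtain ⟨g, hg, hgw, hgd, -⟩ := d.core.1.gate hR (S := upper u.2) (reg_upper u.2)
    (show ((x, u.2) : Pt) ∈ upper u.2 from le_refl u.2) (by rw [hlx]; linarith) w hw hfar
  obtain ⟨w1, w2, rfl⟩ := SimpleGraph.Walk.mem_support_iff_exists_append.1 hgw
  have hgl : (l1 (x, u.2) g : ℝ) ≤ 2 * (η * R) + 2 := by
    have := (Nat.cast_le (α := ℝ)).2 hgd
    push_cast at this
    linarith
  have hg1 : A - j0 - (2 * (η * R) + 2) ≤ |((z.1 - g.1 : ℤ) : ℝ)| := by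
    have : |((g.1 - x : ℤ) : ℝ)| ≤ (l1 (x, u.2) g : ℝ) := by
      simp [l1, Nat.cast_natAbs, abs_sub_comm]
    have e : ((z.1 - x : ℤ) : ℝ) = ((z.1 - g.1 : ℤ) : ℝ) + ((g.1 - x : ℤ) : ℝ) := by push_cast; ring
    have := abs_add_le ((z.1 - g.1 : ℤ) : ℝ) ((g.1 - x : ℤ) : ℝ)
    rw [← e] at this
    linarith
  obtain ⟨⟨hP, hPl⟩, -⟩ := d.hubs_near hR (x := u.1) (by simp; linarith)
  rw [show ((u.1, u.2) : Pt) = u from rfl] at hP hPl
  have tri : ∀ a b c : Pt, (l1 a c : ℝ) ≤ (l1 a b : ℝ) + (l1 b c : ℝ) := fun a b c => by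
    exact_mod_cast l1_triangle a b c
  have comm : ∀ a b : Pt, (l1 a b : ℝ) = l1 b a := fun a b => by
    exact_mod_cast (by simp only [l1]; omega : l1 a b = l1 b a)
  have h1 := ttS_le (S := upper u.2) d.nonneg w1 fun y hy =>
    hw y ((SimpleGraph.Walk.mem_support_append_iff _ _).2 (Or.inl hy))
  have h2 := tt_le d.nonneg w2
  have h3 := hr.busIn_le_add d.nonneg hlink hev (p := ((x, u.2) : Pt)) (q := g)
    (show ((x, u.2) : Pt) ∈ upper u.2 from le_refl u.2) hg.1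
  have bg : (l1 u g : ℝ) ≤ 2 * R := by linarith [tri u (x, u.2) g]
  have h4 := d.seg_bus hr hrise hR hg hP bg (by linarith)
  have h5 : (l1 g (upHub b₀ ω u) : ℝ) + η * (2 * R) ≤ j0 + (5 * (η * R) + 3) := by
    linarith [tri g u (upHub b₀ ω u), comm g u, tri u (x, u.2) g]
  have h6 := mul_le_mul_of_nonneg_left h5 d.hC
  have h7 := d.core.1.lo R hR g z (by simp only [R] at *; linarith [tri u (x, u.2) g])
    (by simp only [R]; linarith)
  have h8 := (mul_le_mul_of_nonneg_left hg1 d.norm.axis_pos.le).trans (norm_cast_le d.norm g z)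
  have h9 := mul_le_mul_of_nonneg_right d.hηε hA
  have hm := d.norm.axis_pos
  have hC := d.hC
  have i1 : 0 ≤ η * A := mul_nonneg d.hη.le hA
  have i2 : 0 ≤ C₀ * B := mul_nonneg hC hB
  have i3 : 0 ≤ C₀ * ((j0 : ℝ) - 1) := mul_nonneg hC (by linarith)
  have i4 : 0 ≤ μ (1, 0) * ((j0 : ℝ) - 1) := mul_nonneg hm.le (by linarith)
  have i5 : 0 ≤ μ (1, 0) * B := mul_nonneg hm.le hB
  have i6 : 0 ≤ ε * A := mul_nonneg d.hε.le hA
  have i7 : 0 ≤ C₀ * (η * A) := mul_nonneg hC i1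
  rw [wt_append]
  simp only [R, ttIn_eq] at *
  linarith

variable (G : Measure ℝ) [IsProbabilityMeasure G]

theorem tendsto_fwdS (hlow : ∫ ω, lowH b₀ k2 k3 Kc c0 ω (0, 0) ∂V4.law G < m1)
    (hint : Integrable (fun ω => lowH b₀ k2 k3 Kc c0 ω (0, 0)) (V4.law G)) (u : Pt) :
    Tendsto (fun r : ℕ => V4.law G {ω | ¬ FwdS b₀ k2 k3 Kc c0 m1 r ω u}) atTop (𝓝 0) := by
  set T : Cfg → Cfg := fun ω => ω ∘ eShift (1, 0)
  set f : Cfg → ℝ := fun ω => lowH b₀ k2 k3 Kc c0 ω (0, 0)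
  have hmeas : Measurable f := measurable_lowH _
  have h := Any.tendsto_exceed (shift_preserving G (1, 0)) (fun A hA hinv => shift_ergodic G hA hinv)
    hmeas hint hlow
  refine h.congr fun r => ?_
  have hmp := shift_preserving G u
  have key : ∀ ω i, f (T^[i] (ω ∘ eShift u)) = lowH b₀ k2 k3 Kc c0 ω (u.1 + (i : ℤ), u.2) := by
    intro ω i
    simp only [f, T, iterate_reindex, eShift_iterate, lowH_shift]
    congr 1
    ext <;> simp [add_comm]
  have hset : {ω : Cfg | ¬ FwdS b₀ k2 k3 Kc c0 m1 r ω u} = (fun ω : Cfg => ω ∘ eShift u) ⁻¹'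
      {ω | ∃ j, r ≤ j ∧ m1 * j < ∑ i ∈ Finset.range j, f (T^[i] ω)} := by
    ext ω
    simp only [FwdS, Set.mem_ofPred_eq, Set.mem_preimage, key]
    push Not
    rfl
  rw [hset, hmp.measure_preimage]
  refine MeasurableSet.nullMeasurableSet ?_
  simp only [Set.ofPred_exists]
  exact MeasurableSet.iUnion fun j => MeasurableSet.inter (MeasurableSet.const _)
    (measurableSet_lt measurable_const
      (measurable_sum_orbit (shift_preserving G (1, 0)).measurable hmeas j))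

theorem tendsto_coreH
    (hfwd : ∀ u, Tendsto (fun r : ℕ => V4.law G {ω | ¬ FwdS b₀ k2 k3 Kc c0 m1 r ω u}) atTop (𝓝 0))
    (hshape : ∀ u : Pt, Tendsto (fun r : ℕ => V4.law G {ω | ¬ HShape μ b₀ C₀ η r ω u}) atTop (𝓝 0))
    (u : Pt) :
    Tendsto (fun r : ℕ => V4.law G {ω | ¬ CoreH μ b₀ C₀ k2 k3 Kc c0 η m1 r ω u}) atTop (𝓝 0) := by
  have h := (((hshape u).add (hshape (V4.flipX u))).add (hfwd u)).add (hfwd (V4.flipX u))
  rw [add_zero, add_zero, add_zero] at h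
  refine tendsto_of_tendsto_of_tendsto_of_le_of_le tendsto_const_nhds h (fun r => zero_le)
    fun r => ?_
  have hmp := map_preserving G V4.flipX V4.flipX_flipX
  set f : Cfg → Cfg := fun ω => ω ∘ Sym2.map V4.flipX
  refine le_trans (b := V4.law G (((({ω | ¬ HShape μ b₀ C₀ η r ω u}) ∪
    f ⁻¹' {ω | ¬ HShape μ b₀ C₀ η r ω (V4.flipX u)}) ∪ {ω | ¬ FwdS b₀ k2 k3 Kc c0 m1 r ω u}) ∪
    f ⁻¹' {ω | ¬ FwdS b₀ k2 k3 Kc c0 m1 r ω (V4.flipX u)})) (measure_mono fun ω hω => ?_) ?_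
  · simp only [CoreH, Set.mem_ofPred_eq] at hω
    simp only [Set.mem_union, Set.mem_ofPred_eq, Set.mem_preimage, f]
    tauto
  · refine (measure_union_le _ _).trans (add_le_add ((measure_union_le _ _).trans (add_le_add
      ((measure_union_le _ _).trans (add_le_add le_rfl ?_)) le_rfl)) ?_)
    exacts [hmp.measure_preimage_le _, hmp.measure_preimage_le _]

/-- Module Regular for every law without mass at zero. -/
theorem steerStmt (hG : ∀ᵐ t ∂G, 0 < t) (hb : 0 ≤ b₀) (hC : 0 ≤ C₀) (hrate : rate G b₀ ≤ 1 / 2)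
    (hμ : IsLatticeNorm μ)
    (hshape : ∀ ε > 0, ∀ u : Pt,
      Tendsto (fun r : ℕ => V4.law G {ω | ¬ HShape μ b₀ C₀ ε r ω u}) atTop (𝓝 0)) :
    SteerStmt G μ := by
  intro κ hκ
  obtain ⟨κ', hκ', a, ha0, ha, hsup⟩ := hμ.strictSlope_bound hκ
  have hκ0 := hκ.1
  set k2 := (2 * κ + κ') / 3 with hk2
  set k3 := (κ + 2 * κ') / 3 with hk3
  have hm := hμ.axis_pos
  have h0 : ∀ᵐ ω ∂V4.law G, ∀ e, 0 ≤ ω e :=
    (V4.law_all G measurableSet_Ioi hG).mono fun ω h e => (h e).le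
  set Kc := capK μ C₀ k3
  set c0 := 75 * b₀
  have k20 : 0 ≤ k2 := by rw [hk2]; linarith
  have k23 : k2 < k3 := by rw [hk2, hk3]; linarith
  have k3' : k3 < κ' := by rw [hk3]; linarith
  have hlow := low_mean_le G h0 hb hrate hμ hC (fun ε hε => hshape ε hε (0, 0)) k20 k23 k3' ha hsup
  set ε := (μ (1, 0) - a) / 16 with hεdef
  have hε : 0 < ε := by rw [hεdef]; linarith
  have hslope : 0 ≤ μ (1, 0) - 8 * ε := by rw [hεdef]; linarith
  have hlow' : ∫ ω, lowH b₀ k2 k3 Kc c0 ω (0, 0) ∂V4.law G < μ (1, 0) - 8 * ε := by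
    rw [hεdef]; linarith
  have hint : Integrable (fun ω => lowH b₀ k2 k3 Kc c0 ω (0, 0)) (V4.law G) :=
    (integrable_bnd G hb hrate h0 (0, 0)).mono' (measurable_lowH _).aestronglyMeasurable
      (ae_of_all _ fun ω => by rw [Real.norm_eq_abs]; exact abs_lowH_le ω _)
  have hok : ∀ᵐ ω ∂V4.law G, (∀ e, 0 ≤ ω e) ∧ ∀ v, IncOK b₀ k2 k3 Kc c0 ω v := by
    filter_upwards [h0, ae_rayOK G hrate, ae_next_ne G hb hrate h0,
      ae_cap G h0 hμ hC hshape hsup ha k20 k23 k3'] with ω w0 w1 w2 w3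
    exact ⟨w0, fun v => ⟨exists_hub_of_rayOK (p := ((v.1 + 1, v.2) : Pt)) (w1 _) (reg_upper v.2)
      (show v.2 ≤ v.2 from le_rfl), w2 v, w3 v⟩⟩
  set η := min (1 / 8) (ε / (4 * μ (1, 0) + 80 * C₀ + 8)) with hηdef
  have hη : 0 < η := lt_min (by norm_num) (by positivity)
  have hηε : η * (4 * μ (1, 0) + 80 * C₀ + 8) ≤ ε :=
    (le_div_iff₀ (by positivity)).1 (min_le_right _ _)
  set K := max 4 ((2 * μ (1, 0) + 60 * C₀ + 4) / ε)
  have hK' : 2 * μ (1, 0) + 60 * C₀ + 4 ≤ ε * K := by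
    have := (div_le_iff₀ hε).1 (le_max_right 4 ((2 * μ (1, 0) + 60 * C₀ + 4) / ε))
    linarith
  set f2 : Cfg → Cfg := fun ω => ω ∘ Sym2.map flip2
  set Bad' : ℕ → Pt → Set Cfg := fun r u => {ω | ¬ (1 ≤ r ∧
    CoreH μ b₀ C₀ k2 k3 Kc c0 η (μ (1, 0) - 8 * ε) r ω u ∧
    CoreH μ b₀ C₀ k2 k3 Kc c0 η (μ (1, 0) - 8 * ε) r (f2 ω) (flip2 u))}
  have hq := fun (φ : grid →g grid) (h : ∀ z, φ (φ z) = z) =>
    (map_preserving G φ h).quasiMeasurePreserving
  refine ⟨K, le_trans (by norm_num) (le_max_left _ _), fun r u => (toMeasurable (V4.law G) (Bad' r u))ᶜ,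
    fun r u => (measurableSet_toMeasurable _ _).compl, ?_, fun u => ?_⟩
  · filter_upwards [hok, (hq V4.flipX V4.flipX_flipX).ae hok, (hq flip2 flip2_flip2).ae hok,
      (hq flip2 flip2_flip2).ae ((hq V4.flipX V4.flipX_flipX).ae hok)] with ω o1 o2 o3 o4 r u hA
    obtain ⟨hr1, hcu, hcd⟩ := not_not.1 fun h => hA (subset_toMeasurable _ (Bad' r u) h)
    have h0' := o1.1
    have d : SteerH μ b₀ C₀ k2 k3 Kc c0 κ ε η K ω r u := ⟨h0', o1.2, o2.2, hμ, hC, hκ0,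
      by rw [hk2]; linarith, k23, hε, hslope, hη, min_le_left _ _, hηε, le_max_left _ _, hK', hr1, hcu⟩
    have d' : SteerH μ b₀ C₀ k2 k3 Kc c0 κ ε η K (ω ∘ Sym2.map flip2) r (flip2 u) := ⟨fun e => h0' _,
      o3.2, o4.2, hμ, hC, hκ0, by rw [hk2]; linarith, k23, hε, hslope, hη, min_le_left _ _, hηε,
      le_max_left _ _, hK', hr1, hcd⟩
    have hcone' : ∀ ray, ConeRay κ ray → ConeRay κ (ray.map flip2) := fun ray h => h.mono fun n hn => by
      show |(((ray.pt n).1 : ℤ) : ℝ)| ≤ κ * |((-(ray.pt n).2 : ℤ) : ℝ)|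
      rwa [Int.cast_neg, abs_neg]
    have hrise' : ∀ ray, Falls ray → Rises (ray.map flip2) := fun ray h =>
      tendsto_neg_atBot_atTop.comp h
    have hin : ∀ z, InCone K (r : ℝ) (flip2 u) (flip2 z) → InCone K (r : ℝ) u z := fun z hz => by
      unfold InCone at hz ⊢
      rw [show (flip2 z).1 = z.1 from rfl, show (flip2 u).1 = u.1 from rfl,
        show (flip2 z).2 - (flip2 u).2 = -(z.2 - u.2) by
          show -z.2 - -u.2 = _
          ring, Int.cast_neg, abs_neg] at hz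
      exact hz
    refine ⟨fun ray hr hcone hdir z hz => ?_, fun ray hr hcone hrise x hx z hzu hz =>
      d.above hr hcone hrise x hx z hzu hz, fun ray hr hcone hfall x hx z hzl hz => ?_⟩
    · rcases hdir with h | h
      · exact d.full hr hcone h z hz
      · have := d'.full (hr.map h0' flip2 flip2_flip2) (hcone' ray hcone) (hrise' ray h) (flip2 z)
          fun h' => hz (hin z h')
        rwa [bus_map h0' flip2 flip2_flip2, bus_map h0' flip2 flip2_flip2,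
          tt_map h0' flip2 flip2 flip2_flip2 flip2_flip2, flip2_flip2, flip2_flip2] at this
    · have hset : flip2 ⁻¹' lower u.2 = upper (flip2 u).2 := by
        ext w
        show -w.2 ≤ u.2 ↔ -u.2 ≤ w.2
        omega
      have := d'.above (hr.map h0' flip2 flip2_flip2) (hcone' ray hcone) (hrise' ray hfall) x hx
        (flip2 z) (show -u.2 ≤ -z.2 by have := V4.mem_lower.1 hzl; omega) fun h' => hz (hin z h')
      rw [show ((x, (flip2 u).2) : Pt) = flip2 (x, u.2) from rfl, ← hset,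
        busIn_map flip2 flip2_flip2, busIn_map flip2 flip2_flip2,
        ttIn_map flip2 flip2 flip2_flip2 flip2_flip2, flip2_flip2, flip2_flip2] at this
      exact this
  · simp only [compl_compl, measure_toMeasurable]
    have hc := tendsto_coreH G (tendsto_fwdS G hlow' hint) (fun v => hshape η hη v)
    have h := (hc u).add (hc (flip2 u))
    rw [add_zero] at h
    refine tendsto_of_tendsto_of_tendsto_of_le_of_le' tendsto_const_nhds h
      (Eventually.of_forall fun r => zero_le) ?_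
    filter_upwards [eventually_ge_atTop 1] with r hr
    refine le_trans (le_trans (measure_mono (t := {ω | ¬ CoreH μ b₀ C₀ k2 k3 Kc c0 η (μ (1, 0) - 8 * ε) r ω u} ∪
      f2 ⁻¹' {ω | ¬ CoreH μ b₀ C₀ k2 k3 Kc c0 η (μ (1, 0) - 8 * ε) r ω (flip2 u)}) fun ω hω => ?_)
      (measure_union_le _ _)) (add_le_add le_rfl ((map_preserving G flip2 flip2_flip2).measure_preimage_le _))
    simp only [Bad', Set.mem_ofPred_eq] at hω
    simp only [Set.mem_union, Set.mem_ofPred_eq, Set.mem_preimage]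
    tauto

end Vale.Agent.P158.Any
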