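import Vale.Agent.P158.V4.Main
import Vale.Agent.P158.V4.MainLane
import Vale.Agent.P158.V4.LaneNullStrict
import Vale.Agent.P158.V4.FacesEncl
import Vale.Agent.P158.Any.AxisCost
import Vale.Agent.P158.Any.Regular

/-!
P158, arbitrary laws (note 1452, U6): good configurations, and null classes from the absence of stars.
-/

namespace Vale.Agent.P158.Any

open MeasureTheory Filter Topology

variable (G : Measure ℝ) [IsProbabilityMeasure G]

/-- Almost every configuration is good. -/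
theorem exists_good (hG : ∀ᵐ t ∂G, 0 < t) (hatom : ∀ x, G {x} = 0) :
    ∃ c, 0 < c ∧ ∀ᵐ ω ∂V4.law G, V4.Good 0 c ω := by
  obtain ⟨c, hc, h⟩ := V4.exists_growth G hG hatom
  exact ⟨c, hc, h.mono fun ω hω => ⟨hω.1, hω.2.1, hω.2.2⟩⟩

/-- Without stars the classes of strict slope are null. -/
theorem null_classes_of_noStar (hG : ∀ᵐ t ∂G, 0 < t) (hatom : ∀ x, G {x} = 0)
    (hstar : ∀ κ, V4.StrictSlope (muA G) κ → ∀ᵐ ω ∂V4.law G, ∀ (w : Pt) (a b c : V4.Ray),
      V4.ClassRays κ ω a b c → ¬ V4.StarAt ω a.pt b.pt c.pt w) :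
    ∀ κ, V4.StrictSlope (muA G) κ → ∀ rr : ℕ → ℕ,
      V4.law G {ω | V4.InClass (muA G) κ rr ω (0, 0)} = 0 := by
  obtain ⟨b₀, C₀, hb, hC₀, hr, hμ, hs⟩ := exists_shape G hG
  obtain ⟨C, hC, hcost⟩ := exists_axisCost G hG
  exact V4.null_classes_of_cost hatom hG (exists_good G hG hatom) hC hcost
    (steerStmt G hG hb hC₀ (hr.trans (by norm_num)) hμ hs) (V4.laneNullStmt_strict hatom hstar)
    V4.mainLaneStmt

end Vale.Agent.P158.Any
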