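import Mathlib
import Vale.Agent.P158.Any.Regular
import Vale.Agent.P158.V4.Stars2Slope

/-!
P158, arbitrary laws (note 1452, U7): slopes of limit rays without a bound on the weights. Sites are
compared through gates on the limit ray and first hubs on the line of the site.
-/

namespace Vale.Agent.P158.Any

open MeasureTheory Filter Topology V4

variable {μ : ℝ × ℝ → ℝ} {b₀ C₀ k k2 k3 κ1 Kc c0 κ κ' α ε η γ K KH bb cg : ℝ} {ω : Cfg} {j0 rad : ℕ}
  {w : Pt} {ray : V4.Ray} {r : ℕ → Pt} {R : ℝ}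

theorem SteerH.norm_move (d : SteerH μ b₀ C₀ k2 k3 Kc c0 κ ε η KH ω j0 w) (a b v : Pt) :
    μ (toR (a - v)) ≤ μ (toR (b - v)) + μ (1, 0) * (l1 a b : ℝ) := by
  have h := d.norm.sub_le (toR (a - v)) (toR (b - v))
  have e : |(toR (a - v)).1 - (toR (b - v)).1| + |(toR (a - v)).2 - (toR (b - v)).2| = (l1 a b : ℝ) := by
    simp [toR, l1, Nat.cast_natAbs]
  rw [e] at h
  linarith

/-- The lower bound for the Busemann function on the line of a site. -/
theorem SteerH.line_low (d : SteerH μ b₀ C₀ k2 k3 Kc c0 κ ε η KH ω j0 w) (hr : IsTail ω ray)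
    (hcone : ConeRay κ ray) (hrise : Rises ray) (hR : (j0 : ℝ) ≤ R) (hR8 : 4 ≤ R) {x : ℤ}
    (hx : |((x - w.1 : ℤ) : ℝ)| ≤ R) :
    bus ω ray w ≤ bus ω ray (x, w.2) + (μ (1, 0) - 8 * ε) * |((x - w.1 : ℤ) : ℝ)| +
      η * (1 + 16 * C₀) * R + (tt ω w (upHub b₀ ω w) + C₀ * (j0 + 16)) := by
  have hlink := linked_upper' w.2
  have hev := hrise.eventually_upper w.2
  have hU : upHub b₀ ω w ∈ upper w.2 := show w.2 ≤ w.2 from le_rfl
  have h1 := hr.bus_le_add d.nonneg w (upHub b₀ ω w)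
  have h2 := hr.bus_le_busIn d.nonneg hlink hev hU
  set α := μ (1, 0) - 8 * ε
  set θ := η * (1 + 16 * C₀)
  set D := |((x - w.1 : ℤ) : ℝ)|
  suffices busIn (upper w.2) ω ray (upHub b₀ ω w) - (α * D + θ * R + C₀ * (j0 + 16)) ≤
      bus ω ray (x, w.2) by linarith
  obtain ⟨M, hM⟩ := hr.busIn_le d.nonneg hlink hev
  refine ge_of_tendsto (hr.tendsto_bus d.nonneg (x, w.2)) ?_
  filter_upwards [eventually_ge_atTop M, hev] with n hn hnS
  rw [le_sub_iff_add_le]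
  refine le_tt fun p => ?_
  obtain ⟨C, q, s, hC, hp, hS⟩ :=
    exists_last_visit p w.2 hnS ⟨(x, w.2), p.start_mem_support, le_refl w.2⟩
  obtain ⟨c, rfl⟩ : ∃ c : ℤ, C = (c, w.2) := ⟨C.1, Prod.ext rfl hC⟩
  have h3 : busIn (upper w.2) ω ray (c, w.2) + ray.acc n ≤ wt ω s := by
    have := hM (c, w.2) (le_refl w.2) n hn
    have := ttS_le (S := upper w.2) d.nonneg s hS
    simp only [ttIn_eq] at *
    linarith
  set W := |((c - x : ℤ) : ℝ)|
  have hW : 0 ≤ W := abs_nonneg _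
  have hcu : |((c - w.1 : ℤ) : ℝ)| ≤ D + W := by
    rw [show ((c - w.1 : ℤ) : ℝ) = ((x - w.1 : ℤ) : ℝ) + ((c - x : ℤ) : ℝ) by push_cast; ring]
    exact abs_add_le _ _
  have hlx : (l1 w (x, w.2) : ℝ) = D := by simp [l1, D, Nat.cast_natAbs, abs_sub_comm]
  have hlc : (l1 w (c, w.2) : ℝ) = |((c - w.1 : ℤ) : ℝ)| := by
    simp [l1, Nat.cast_natAbs, abs_sub_comm]
  have h4 := d.core.1.lo (R + W) (by linarith) (x, w.2) (c, w.2) (by rw [hlx]; linarith)
    (by rw [hlc]; linarith)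
  have h5 := norm_cast_le d.norm (x, w.2) (c, w.2)
  have h6 := d.bus_low_upper hr hcone hrise (R := R + W) (by linarith) (by linarith)
    (p := ((c, w.2) : Pt)) (show w.2 ≤ w.2 from le_rfl) (by rw [hlc]; linarith)
  simp only [sub_self, Int.cast_zero, abs_zero, add_zero] at h6
  have h7 := mul_le_mul_of_nonneg_left hcu d.slope
  have h8 : θ * W ≤ 8 * ε * W := by
    refine mul_le_mul_of_nonneg_right ?_ hW
    have := d.hηε
    have := d.hε
    have := mul_nonneg d.hη.le d.hC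
    have := mul_nonneg d.hη.le d.norm.axis_pos.le
    linarith [d.hη]
  have h9 := tt_le d.nonneg q
  rw [hp, wt_append]
  simp only [θ, α] at *
  linarith

/-- A limit of geodesics to far points of a rising ray rises inside the enclosing aperture. -/
theorem upPath_of_approach (d : Margins μ κ k k2 k3 κ1 α 0 γ K)
    (dH : SteerH μ b₀ C₀ k2 k3 Kc c0 κ ε η KH ω j0 w) (hα : α = μ (1, 0) - 8 * ε)
    (hη : η * (2 * (K + 1) * (6 * μ (1, 0) + 16 * C₀ + 3)) ≤ γ / 2) (hg : Good bb cg ω) (hc : 0 < cg)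
    (hst : Steered κ K rad ω w) (hlt : κ1 < κ') (hr : IsTail ω ray) (hcone : ConeRay κ ray)
    (hrise : Rises ray) (hinj : Function.Injective r) (hadj : ∀ n, grid.Adj (r n) (r (n + 1)))
    (happ : ∀ m, ∃ᶠ N in atTop, OnGeo ω w (ray.pt N) (r m)) : UpPath κ' r := by
  obtain ⟨hris, hin⟩ := rises_of_approach hg hc (zero_le_one.trans d.hK) (Nat.cast_nonneg rad)
    hst hr hcone hrise hinj happ
  refine ⟨hris, ?_⟩
  have hm := d.norm.axis_pos
  set C := tt ω w (upHub b₀ ω w) + C₀ * (j0 + 16) with hC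
  set Cst := C + 8 * μ (1, 0) with hCst
  obtain ⟨M, hM⟩ : ∃ M : ℤ, ∀ Y : ℤ, M ≤ Y →
      (rad : ℝ) ≤ Y ∧ (j0 : ℝ) ≤ Y ∧ 8 ≤ (Y : ℝ) ∧ Cst < γ / 2 * Y ∧
      |(w.1 : ℝ)| + κ' * |(w.2 : ℝ)| ≤ (κ' - κ1) * Y := by
    refine ⟨max (max (rad : ℤ) (max (j0 : ℤ) 8)) (max ⌈Cst / (γ / 2) + 1⌉
      ⌈(|(w.1 : ℝ)| + κ' * |(w.2 : ℝ)|) / (κ' - κ1)⌉), fun Y hY => ?_⟩
    simp only [max_le_iff, Int.ceil_le] at hY
    obtain ⟨⟨h1, h2, h3⟩, h4, h5⟩ := hY
    refine ⟨by exact_mod_cast h1, by exact_mod_cast h2, by exact_mod_cast h3, ?_,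
      by rwa [div_le_iff₀' (sub_pos.2 hlt)] at h5⟩
    have h6 : Cst / (γ / 2) < Y := by linarith
    rwa [div_lt_iff₀' (half_pos d.γ0)] at h6
  show ∀ᶠ n in atTop, |((r n).1 : ℝ)| ≤ κ' * |((r n).2 : ℝ)|
  refine (tendsto_atTop.1 hris (w.2 + max M 1)).mono fun m hm' => ?_
  change w.2 + max M 1 ≤ (r m).2 at hm'
  obtain ⟨Y, hY⟩ : ∃ Y : ℤ, (r m).2 = w.2 + Y := ⟨(r m).2 - w.2, by ring⟩
  obtain ⟨X, hX⟩ : ∃ X : ℤ, (r m).1 = w.1 + X := ⟨(r m).1 - w.1, by ring⟩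
  obtain ⟨hYr, hYj, hY8, hYC, hYw⟩ := hM Y (by omega)
  have hY0 : (0 : ℝ) ≤ Y := by linarith
  have hcz := hin m
  unfold InCone at hcz
  rw [hX, hY, add_sub_cancel_left, add_sub_cancel_left, abs_of_pos (by linarith : (0 : ℝ) < Y),
    max_eq_left hYr] at hcz
  suffices hsl : |(X : ℝ)| < κ1 * Y by
    have h1 : |((r m).1 : ℝ)| ≤ |(w.1 : ℝ)| + |(X : ℝ)| := by
      rw [hX, Int.cast_add]; exact abs_add_le _ _
    have h2 : (Y : ℝ) - |(w.2 : ℝ)| ≤ |((r m).2 : ℝ)| := by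
      rw [hY, Int.cast_add]
      linarith [le_abs_self ((w.2 : ℝ) + Y), neg_abs_le (w.2 : ℝ)]
    have h4 := mul_le_mul_of_nonneg_left h2 (show 0 ≤ κ' by linarith [d.hk, d.hk1])
    linarith
  by_contra hge
  push Not at hge
  set x := |(X : ℝ)| / Y with hx
  have hxY : |(X : ℝ)| = x * Y := by rw [hx, div_mul_cancel₀ _ (by linarith : (Y : ℝ) ≠ 0)]
  have hx1 : κ1 ≤ x := by rw [hx, le_div_iff₀ (by linarith)]; exact hge
  have hx2 : x ≤ K := by rw [hx, div_le_iff₀ (by linarith)]; exact hcz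
  have hfar := d.far x ⟨hx1, hx2⟩
  set R := 2 * (K + 1) * (Y : ℝ) with hRdef
  have hKY : (Y : ℝ) ≤ K * Y := le_mul_of_one_le_left hY0 d.hK
  have hR : (j0 : ℝ) ≤ R := by simp only [hRdef]; linarith
  have hηR0 : 0 ≤ η * R := mul_nonneg dH.hη.le (by simp only [hRdef]; linarith)
  have hηR : η * R ≤ R / 8 := by
    have := mul_le_mul_of_nonneg_right dH.hη8 (show (0 : ℝ) ≤ R by simp only [hRdef]; linarith)
    linarith
  have hfl : (⌊η * R⌋₊ : ℝ) ≤ η * R := Nat.floor_le hηR0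
  have hlz : (l1 w (r m) : ℝ) = |(X : ℝ)| + Y := by
    simp only [l1, hX, hY, Nat.cast_add, Nat.cast_natAbs, sub_add_cancel_left, Int.cast_abs,
      Int.cast_neg, abs_neg]
    rw [abs_of_pos (by linarith : (0 : ℝ) < (Y : ℝ))]
  -- a gate on the limit ray
  obtain ⟨n, hn⟩ := exists_not_near (f := fun i => r (m + i))
    (fun a c e => by simpa using hinj e) ⌊η * R⌋₊ (r m)
  obtain ⟨p, -, hps, -⟩ := exists_walk_Ico ω hadj m n
  obtain ⟨g, hg', hgp, hgd, -⟩ := dH.core.1.gate hR reg_univ (Set.mem_univ (r m))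
    (by rw [hlz]; simp only [hRdef]; linarith) p (fun z _ => Set.mem_univ z) hn
  obtain ⟨i, -, -, rfl⟩ := hps g hgp
  have hgd' : (l1 (r m) (r i) : ℝ) ≤ 2 * (η * R) + 2 := by
    have := (Nat.cast_le (α := ℝ)).2 hgd
    push_cast at this
    linarith
  -- the comparison point on the line
  set c1 : ℤ := ⌊|(X : ℝ)| - k * Y⌋ with hc1
  have hc0 : 0 ≤ c1 := by
    refine Int.floor_nonneg.2 ?_
    linarith [mul_le_mul_of_nonneg_right d.hk1.le hY0]
  have hc0' : (0 : ℝ) ≤ c1 := by exact_mod_cast hc0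
  have hcl : (c1 : ℝ) ≤ |(X : ℝ)| - k * Y := Int.floor_le _
  have hcu : |(X : ℝ)| - k * Y < c1 + 1 := Int.lt_floor_add_one _
  have hkY : 0 ≤ k * (Y : ℝ) := mul_nonneg d.hk hY0
  obtain ⟨c, hcabs, hdiff⟩ : ∃ c : ℤ, |(c : ℝ)| = c1 ∧
      μ ((X : ℝ) - c, Y) = μ (|(X : ℝ)| - c1, Y) := by
    rcases le_or_gt 0 X with h | h
    · exact ⟨c1, abs_of_nonneg hc0', by rw [abs_of_nonneg (show (0 : ℝ) ≤ X by exact_mod_cast h)]⟩
    · refine ⟨-c1, by rw [Int.cast_neg, abs_neg, abs_of_nonneg hc0'], ?_⟩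
      rw [abs_of_neg (show (X : ℝ) < 0 by exact_mod_cast h), ← d.norm.flip]
      congr 2
      push_cast
      ring
  set q : Pt := (w.1 + c, w.2) with hq
  have hlq : (l1 w q : ℝ) = c1 := by rw [← hcabs]; simp [hq, l1, Nat.cast_natAbs]
  obtain ⟨hP, hPl, -⟩ := dH.core.1.firstHub_spec hR reg_univ (Set.mem_univ q)
    (by rw [hlq]; simp only [hRdef]; linarith)
  set P := firstHub b₀ ω Set.univ q with hPdef
  have hPl' : (l1 q P : ℝ) ≤ η * R + 1 := by
    have := (Nat.cast_le (α := ℝ)).2 hPl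
    push_cast at this
    linarith
  have tri : ∀ a b v : Pt, (l1 a v : ℝ) ≤ (l1 a b : ℝ) + (l1 b v : ℝ) := fun a b v => by
    exact_mod_cast l1_triangle a b v
  have hwg : (l1 w (r i) : ℝ) ≤ R := by
    have := tri w (r m) (r i)
    rw [hlz] at this
    simp only [hRdef] at hgd' hηR ⊢
    linarith
  have hwP : (l1 w P : ℝ) ≤ c1 + (η * R + 1) := by linarith [tri w q P]
  have hwP' : (l1 w P : ℝ) ≤ R := by
    simp only [hRdef] at hwP hηR ⊢
    linarith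
  have e0 : P = (P.1, w.2) := Prod.ext rfl (by rw [hPdef, firstHub_snd])
  have hPx : |((P.1 - w.1 : ℤ) : ℝ)| = (l1 w P : ℝ) := by
    rw [e0]; simp [l1, Nat.cast_natAbs, abs_sub_comm]
  -- times
  have s1 := dH.core.1.lo R hR w (r i) (by simp [l1]; simp only [hRdef]; linarith) hwg
  have s2 := dH.core.1.hi R hR P (r i) hwP' hwg hP hg'
  have hbw : bus ω ray w = tt ω w (r i) + bus ω ray (r i) :=
    tendsto_nhds_unique_of_frequently_eq (hr.tendsto_bus dH.nonneg w)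
      ((hr.tendsto_bus dH.nonneg (r i)).const_add _) ((happ i).mono fun N hN => by
        unfold OnGeo at hN
        linarith)
  have hl := dH.line_low hr hcone hrise hR (by simp only [hRdef]; linarith) (x := P.1)
    (by rw [hPx]; exact hwP')
  rw [← e0, ← hα, hPx] at hl
  have hadd := hr.bus_le_add dH.nonneg P (r i)
  -- norms
  have m1 := dH.norm_move (r m) (r i) w
  have m2 := dH.norm_move (r i) (r m) P
  have hcomm : (l1 (r i) (r m) : ℝ) = l1 (r m) (r i) := by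
    exact_mod_cast (by simp only [l1]; omega : l1 (r i) (r m) = l1 (r m) (r i))
  rw [hcomm] at m2
  have m3 : μ (toR (r m - P)) ≤ μ ((X : ℝ) - c, Y) + μ (1, 0) * (η * R + 1) := by
    have h := d.norm.sub_le (toR (r m - P)) ((X : ℝ) - c, Y)
    have e : |(toR (r m - P)).1 - ((X : ℝ) - c)| + |(toR (r m - P)).2 - (Y : ℝ)| = (l1 q P : ℝ) := by
      rw [e0, hq]
      simp [toR, l1, hX, hY, Nat.cast_natAbs]
      congr 1
      ring
    rw [e] at h
    have := mul_le_mul_of_nonneg_left hPl' hm.le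
    linarith
  have e1 : toR (r m - w) = ((X : ℝ), (Y : ℝ)) := by simp [toR, hX, hY]
  have hn1 : μ (|(X : ℝ)| - c1, Y) ≤ Y * μ (k, 1) + μ (1, 0) := by
    have h1 := d.norm.tri (k * Y, Y) (|(X : ℝ)| - c1 - k * Y, 0)
    rw [Prod.mk_add_mk, add_zero, d.norm.horizontal,
      show k * Y + (|(X : ℝ)| - c1 - k * Y) = |(X : ℝ)| - c1 by ring] at h1
    have h2 : μ (k * Y, (Y : ℝ)) = Y * μ (k, 1) := by
      rw [← d.norm.homog Y hY0]
      congr 1
      ext <;> simp [mul_comm]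
    have h3 : μ (1, 0) * |(|(X : ℝ)| - c1 - k * Y)| ≤ μ (1, 0) :=
      mul_le_of_le_one_right d.norm.axis_pos.le (abs_le.2 ⟨by linarith, by linarith⟩)
    linarith
  have hn2 : μ ((X : ℝ), (Y : ℝ)) = Y * μ (x, 1) := by
    have : μ ((X : ℝ), (Y : ℝ)) = μ (|(X : ℝ)|, Y) := by
      rcases le_or_gt 0 (X : ℝ) with h | h
      · rw [abs_of_nonneg h]
      · rw [abs_of_neg h, d.norm.flip]
    rw [this, ← d.norm.homog Y hY0, hxY]
    congr 1
    ext <;> simp [mul_comm]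
  rw [e1, hn2] at m1
  rw [hdiff] at m3
  have a0 := mul_le_mul_of_nonneg_left hgd' hm.le
  have a1 : α * (l1 w P : ℝ) ≤ α * (x * Y - k * Y) + μ (1, 0) * (η * R + 1) := by
    have h1 := mul_le_mul_of_nonneg_left hwP d.α0
    have h2 := mul_le_mul_of_nonneg_left hcl d.α0
    have h3 := mul_le_mul_of_nonneg_right (show α ≤ μ (1, 0) by linarith [d.hαm])
      (show (0 : ℝ) ≤ η * R + 1 by linarith)
    rw [← hxY]
    linarith
  have a2 := mul_le_mul_of_nonneg_left hfar hY0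
  have a3 := mul_le_mul_of_nonneg_right hη hY0
  have a4 : η * (1 + 16 * C₀) * R + η * R * (2 + 6 * μ (1, 0)) ≤ γ / 2 * Y := by
    refine le_trans (le_of_eq ?_) a3
    rw [hRdef]
    ring
  linarith

end Vale.Agent.P158.Any
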