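import Mathlib
import Vale.Agent.P158.Any.Stars2Slope
import Vale.Agent.P158.V4.Stars2Limit

/-!
P158, arbitrary laws (note 1452, U7): no stars of three rays of an enclosed class, without a bound on
the weights.
-/

namespace Vale.Agent.P158.Any

open MeasureTheory Filter Topology V4

variable (G : Measure ℝ) [IsProbabilityMeasure G] {μ : ℝ × ℝ → ℝ} {b cg C b₀ C₀ : ℝ}

/-- There are no stars of three rays of an enclosed class, for every law without mass at zero. -/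
theorem ae_no_starAt_any (hatom : ∀ x, G {x} = 0) (hG : ∀ᵐ t ∂G, 0 < t) (hc : 0 < cg)
    (hgood : ∀ᵐ ω ∂V4.law G, Good b cg ω) (hC : 0 ≤ C) (hcost : AxisCost G C) (hb : 0 ≤ b₀)
    (hC₀ : 0 ≤ C₀) (hrate : rate G b₀ ≤ 1 / 2) (hμ : IsLatticeNorm μ)
    (hshape : ∀ ε > 0, ∀ u : Pt,
      Tendsto (fun r : ℕ => V4.law G {ω | ¬ HShape μ b₀ C₀ ε r ω u}) atTop (𝓝 0)) :
    ∀ κ, Encl μ κ → ∀ᵐ ω ∂V4.law G, ∀ (w : Pt) (a b' c : V4.Ray), IsTail ω a → IsTail ω b' →
      IsTail ω c → Falls a → Rises b' → Rises c → ConeRay κ a → ConeRay κ b' → ConeRay κ c →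
      ¬ StarAt ω a.pt b'.pt c.pt w := by
  intro κ hE
  rcases lt_or_ge κ 0 with hneg | hκ0
  · refine ae_of_all _ fun ω w a b' c _ _ _ _ hrb _ _ hcb _ => ?_
    obtain ⟨n, hn, hn'⟩ := ((tendsto_atTop.1 hrb 1).and hcb).exists
    have : (1 : ℝ) ≤ |((b'.pt n).2 : ℝ)| := le_trans (by exact_mod_cast hn) (le_abs_self _)
    exact absurd hn' (not_le.2 (lt_of_lt_of_le (mul_neg_of_neg_of_pos hneg (by linarith)) (abs_nonneg _)))
  have hsteer := steerStmt G hG hb hC₀ hrate hμ hshape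
  obtain ⟨κ₁, hs₁, k₁, hk₁, hk₁', -⟩ := hE.margin hμ hκ0 0
  obtain ⟨-, κ'', hκ'', hsup⟩ := hs₁
  obtain ⟨K, hK, A, -, hA, hAlim⟩ := exists_regular G hG hsteer hκ0
    (show κ < (κ + κ₁) / 2 by linarith) ⟨by linarith, κ'', by linarith, hsup⟩
  obtain ⟨κ1, hs, k, hk, hk1, a₀, ha0, ham, hwin, γ, hγ, hfar⟩ := hE.margin hμ hκ0 K
  obtain ⟨hκ1, κf, hκf, hsupf⟩ := hs
  set D := max K κ1 + 1 with hD
  have hD0 : 0 < D := by linarith [le_max_left K κ1]
  set δ := min (γ / (2 * D)) ((μ (1, 0) - a₀) / 2) with hδ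
  have hδ0 : 0 < δ := lt_min (by positivity) (by linarith)
  have hδm : δ ≤ (μ (1, 0) - a₀) / 2 := min_le_right _ _
  have hδD : δ * D ≤ γ / 2 := by
    have := (le_div_iff₀ (show (0 : ℝ) < 2 * D by positivity)).1
      (min_le_left (γ / (2 * D)) ((μ (1, 0) - a₀) / 2))
    linarith
  set k2 := (3 * κ + k) / 4 with hk2
  set k3 := (κ + k) / 2 with hk3
  set α := a₀ + δ with hα
  have d : Margins μ κ k k2 k3 κ1 α 0 (γ / 2) K :=
    ⟨hμ, hκ0, by linarith, by linarith, by linarith, hk1, hK, by linarith, le_rfl, by linarith,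
      by linarith, fun x hx => by
        have h1 := hfar x hx
        have h2 : δ * (x - k) ≤ δ * D := by
          gcongr
          linarith [hx.2, le_max_left K κ1]
        rw [hα]
        linarith⟩
  have hm := hμ.axis_pos
  have h0 : ∀ᵐ ω ∂V4.law G, ∀ e, 0 ≤ ω e :=
    (V4.law_all G measurableSet_Ioi hG).mono fun ω h e => (h e).le
  set Kc := capK μ C₀ k3
  set c0 := 75 * b₀
  have k20 : 0 ≤ k2 := by linarith
  have k23 : k2 < k3 := by linarith
  have k3' : k3 < (κ + 3 * k) / 4 := by linarith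
  have hlow : ∫ ω, lowH b₀ k2 k3 Kc c0 ω (0, 0) ∂V4.law G < α :=
    lt_of_le_of_lt (low_mean_le G h0 hb hrate hμ hC₀ (fun ε hε => hshape ε hε (0, 0)) k20 k23 k3' ham
      hwin) (by linarith)
  have hint : Integrable (fun ω => lowH b₀ k2 k3 Kc c0 ω (0, 0)) (V4.law G) :=
    (integrable_bnd G hb hrate h0 (0, 0)).mono' (measurable_lowH _).aestronglyMeasurable
      (ae_of_all _ fun ω => by rw [Real.norm_eq_abs]; exact abs_lowH_le ω _)
  set ε := (μ (1, 0) - α) / 8 with hεdef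
  have hε : 0 < ε := by linarith
  have hαε : α = μ (1, 0) - 8 * ε := by linarith
  have hlow' : ∫ ω, lowH b₀ k2 k3 Kc c0 ω (0, 0) ∂V4.law G < μ (1, 0) - 8 * ε := by linarith
  set Λ := 2 * (K + 1) * (6 * μ (1, 0) + 16 * C₀ + 3) with hΛ
  have hΛ0 : 0 < Λ := by positivity
  set η := min (min (1 / 8) (ε / (4 * μ (1, 0) + 80 * C₀ + 8))) (γ / (4 * Λ)) with hηdef
  have hη : 0 < η := lt_min (lt_min (by norm_num) (by positivity)) (by positivity)
  have hη8 : η ≤ 1 / 8 := (min_le_left _ _).trans (min_le_left _ _)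
  have hηε : η * (4 * μ (1, 0) + 80 * C₀ + 8) ≤ ε :=
    (le_div_iff₀ (by positivity)).1 ((min_le_left _ _).trans (min_le_right _ _))
  have hηΛ : η * Λ ≤ γ / 2 / 2 := by
    have := (le_div_iff₀ (show (0 : ℝ) < 4 * Λ by positivity)).1
      (min_le_right (min (1 / 8) (ε / (4 * μ (1, 0) + 80 * C₀ + 8))) (γ / (4 * Λ)))
    linarith
  set KH := max 4 ((2 * μ (1, 0) + 60 * C₀ + 4) / ε)
  have hKH : 2 * μ (1, 0) + 60 * C₀ + 4 ≤ ε * KH := by
    have := (div_le_iff₀ hε).1 (le_max_right 4 ((2 * μ (1, 0) + 60 * C₀ + 4) / ε))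
    linarith
  have hflipmp := (map_preserving G flip2 flip2_flip2).quasiMeasurePreserving
  have hok : ∀ᵐ ω ∂V4.law G, ∀ v, IncOK b₀ k2 k3 Kc c0 ω v := by
    filter_upwards [ae_rayOK G hrate, ae_next_ne G hb hrate h0,
      ae_cap G h0 hμ hC₀ hshape hwin ham k20 k23 k3'] with ω w1 w2 w3
    exact fun v => ⟨exists_hub_of_rayOK (p := ((v.1 + 1, v.2) : Pt)) (w1 _) (reg_upper v.2)
      (show v.2 ≤ v.2 from le_rfl), w2 v, w3 v⟩
  -- every site is regular
  have htilt : ∀ w : Pt, ∀ᵐ ω ∂V4.law G, ∃ rad j0 : ℕ, Steered κ K rad ω w ∧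
      SteerH μ b₀ C₀ k2 k3 Kc c0 κ ε η KH ω j0 w := by
    intro w
    set X : ℕ → Set Cfg := fun r => {ω | ¬ CoreH μ b₀ C₀ k2 k3 Kc c0 η (μ (1, 0) - 8 * ε) (r + 1) ω w}
    have hX : V4.law G (⋂ r, X r) = 0 := by
      have hlim := (tendsto_coreH G (tendsto_fwdS G hlow' hint) (fun v => hshape η hη v) w).comp
        (tendsto_add_atTop_nat 1)
      exact le_antisymm (ge_of_tendsto' hlim fun r => measure_mono (Set.iInter_subset X r)) zero_le
    have hAnull : V4.law G (⋂ r, (A r w)ᶜ) = 0 := by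
      rw [← measureReal_eq_zero_iff]
      refine le_antisymm (le_of_forall_pos_le_add fun e he => ?_) measureReal_nonneg
      obtain ⟨N, hN⟩ := hAlim e he
      rw [zero_add]
      exact (measureReal_mono (Set.iInter_subset _ N)).trans (hN N le_rfl w)
    filter_upwards [measure_eq_zero_iff_ae_notMem.1 hX, measure_eq_zero_iff_ae_notMem.1 hAnull, hA, h0,
      hok, (map_preserving G V4.flipX V4.flipX_flipX).quasiMeasurePreserving.ae hok]
      with ω h1 h2 h3 hw hok1 hok2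
    simp only [X, Set.mem_iInter, Set.mem_ofPred_eq, not_forall, not_not, Set.mem_compl_iff] at h1 h2
    obtain ⟨r, hr⟩ := h1
    obtain ⟨rad, hrad⟩ := h2
    exact ⟨rad, r + 1, h3 rad w hrad, hw, hok1, hok2, hμ, hC₀, hκ0, by linarith, k23, hε, by linarith,
      hη, hη8, hηε, le_max_left _ _, hKH, r.succ_pos, hr⟩
  filter_upwards [ae_all_iff.2 htilt, hflipmp.ae (ae_all_iff.2 htilt), hgood, hflipmp.ae hgood,
    ae_forall_not_gapped_of_cost G hatom hG hc hgood hC hcost hsteer (κ := (κ1 + κf) / 2)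
      ⟨by linarith, κf, by linarith, hsupf⟩] with ω ht ht' hg hg' hgap
  intro w a b' c ha hb' hc' hfa hrb hrc hca hcb hcc hstar
  obtain ⟨rad, j0, hst, hT⟩ := ht w
  obtain ⟨rad', j0', hst', hT'⟩ := ht' (flip2 w)
  have hlt : κ1 < (κ1 + κf) / 2 := by linarith
  obtain ⟨σ, hσ, hG'⟩ := gapped_of_starAt hg hc
    (fun ray r h1 h2 h3 h4 h5 h6 => upPath_of_approach d hT hαε hηΛ hg hc hst hlt h1 h2 h3 h4 h5 h6)
    (fun ray r h1 h2 h3 h4 h5 h6 => upPath_of_approach d hT' hαε hηΛ hg' hc hst' hlt h1 h2 h3 h4 h5 h6)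
    ha hb' hc' hfa hrb hrc hca hcb hcc hstar
  exact hgap w σ hσ hG'

end Vale.Agent.P158.Any
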