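import Vale.Agent.P158.Any.LaneShape

/-!
P158, arbitrary laws (note 1453): the absence of lanes in the terms of the problem.
-/

namespace Vale.Agent.P158.Any

open MeasureTheory Filter Topology

/-- A law on `[0, ∞)` without atoms has no mass on `(-∞, 0]`. -/
theorem ae_pos (G : Measure ℝ) (h : G (Set.Iio 0) = 0) (hatom : ∀ x, G {x} = 0) : ∀ᵐ t ∂G, 0 < t := by
  rw [ae_iff]
  refine measure_mono_null (t := Set.Iio 0 ∪ {0}) (fun t ht => ?_) (measure_union_null h (hatom 0))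
  simp only [Set.mem_ofPred_eq, not_lt] at ht
  rcases ht.lt_or_eq with h' | h'
  · exact Or.inl h'
  · exact Or.inr h'

/-- Without lanes there is no bigeodesic in the sense of the problem. -/
theorem statement_of_no_lane (G : Measure ℝ) [IsProbabilityMeasure G] (hG : ∀ᵐ t ∂G, 0 < t)
    (h : ∀ᵐ ω ∂V4.law G, ¬ ∃ v : ℤ → Pt, V4.IsLane ω v) :
    ∀ᵐ ω ∂Measure.infinitePi (fun _ : Sym2 (ℤ × ℤ) => G),
      ¬ ∃ v : ℤ → ℤ × ℤ, Function.Injective v ∧
        (∀ i, |(v i).1 - (v (i + 1)).1| + |(v i).2 - (v (i + 1)).2| = 1) ∧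
        ∀ (i : ℤ) (n : ℕ), ∑ k ∈ Finset.range n, ω s(v (i + k), v (i + k + 1)) =
          sInf (Set.range fun p : (SimpleGraph.fromRel fun a c : ℤ × ℤ =>
            |a.1 - c.1| + |a.2 - c.2| = 1).Walk (v i) (v (i + n)) => (p.edges.map ω).sum) := by
  filter_upwards [h, V4.law_all G measurableSet_Ioi hG] with ω hω hp
  rintro ⟨v, hinj, hadj, hgeo⟩
  have hadj' : ∀ i, grid.Adj (v i) (v (i + 1)) := fun i => by
    rw [grid_adj_iff]
    exact hadj i
  refine hω ⟨v, hadj', hinj, fun i n p => ?_⟩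
  rw [hgeo i n]
  exact V4.tt_le (fun e => (hp e : 0 < ω e).le) p

end Vale.Agent.P158.Any
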