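import Vale.Agent.P158.V4.Top6
import Vale.Agent.P158.Any.Main
import Vale.Agent.P158.Any.Barrier
import Vale.Agent.P158.Any.LaneShape
import Vale.Agent.P158.Any.Stars2Limit
import Vale.Agent.P158.Any.Corners
import Vale.Agent.P158.Any.Statement

/-!
P158, arbitrary laws (note 1452, U6–U8): if no facet of the limit shape joins two corners, there is
almost surely no bigeodesic.
-/

namespace Vale.Agent.P158.Any

open MeasureTheory Filter Topology

variable (G : Measure ℝ) [IsProbabilityMeasure G]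

/-- Without facets no three class rays form a star. -/
theorem ae_no_star_class (hG : ∀ᵐ t ∂G, 0 < t) (hatom : ∀ x, G {x} = 0)
    (hnf : V4.NoFacet (muA G)) {κ : ℝ} (hκ : V4.StrictSlope (muA G) κ) :
    ∀ᵐ ω ∂V4.law G, ∀ (w : Pt) (a b c : V4.Ray),
      V4.ClassRays κ ω a b c → ¬ V4.StarAt ω a.pt b.pt c.pt w := by
  obtain ⟨b₀, C₀, hb, hC₀, hr, hμ, hs⟩ := exists_shape G hG
  obtain ⟨C, hC, hcost⟩ := exists_axisCost G hG
  obtain ⟨c, hc, hgood⟩ := exists_good G hG hatom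
  refine (ae_no_starAt_any G hatom hG hc hgood hC.le hcost hb hC₀ (hr.trans (by norm_num)) hμ hs κ
    (hμ.encl hnf hκ)).mono fun ω hω w a b c h => ?_
  obtain ⟨h1, h2, h3, h4, h5, h6, h7, h8, h9⟩ := h
  exact hω w a b c h1 h2 h3 h4 h5 h6 h7 h8 h9

/-- Without facets there is no bigeodesic. -/
theorem ae_no_lane_of_noFacet (hG : ∀ᵐ t ∂G, 0 < t) (hatom : ∀ x, G {x} = 0)
    (hnf : V4.NoFacet (muA G)) :
    ∀ᵐ ω ∂V4.law G, ¬ ∃ v : ℤ → Pt, V4.IsLane ω v := by
  obtain ⟨-, -, -, -, -, hn, -⟩ := exists_shape G hG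
  obtain ⟨c, hc, hgood⟩ := exists_good G hG hatom
  refine V4.no_lane_of_directed G hn (hgood.mono fun ω hg => hg.nonneg) (ae_laneShape G hG) ?_
    fun q hq => V4.ae_no_cone G fun r =>
      measure_mono_null (t := {ω | V4.InClass (muA G) q (fun _ => r) ω (0, 0)})
        (fun _ ⟨v, hv, h0, hcl⟩ => ⟨v, hv, h0, fun _ i hi => hcl i hi⟩)
        (null_classes_of_noStar G hG hatom (fun κ hκ => ae_no_star_class G hG hatom hnf hκ) q hq
          fun _ => r)
  filter_upwards [ae_barriers_any hG, hgood, ae_laneShape G hG] with ω ⟨b₁, b₂, b₃, b₄⟩ hg hsh v hv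
  exact hn.directed hnf (hn.diag_ne_axis_of_noFacet hnf) (hn.diag_ne_two_axis_of_noFacet hnf) hg hc hv (hsh v hv) b₁ b₂ b₃ b₄

end Vale.Agent.P158.Any
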