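import Vale.Agent.P158.Geometry

/-!
P158, arbitrary laws (note 1452, U1): regions, and the parity lemma which replaces planar duality.
A weighting mod 2 of the edges of a region that has even sum on every square is a potential
difference, so the outer boundary of a finite king-connected set is connected.
-/

namespace Vale.Agent.P158.Any

open SimpleGraph

/-- Sites. -/
abbrev Pt : Type := ℤ × ℤ

/-- The regions: the plane and the closed horizontal half-planes. -/
def Reg (S : Set Pt) : Prop :=
  S = Set.univ ∨ (∃ h : ℤ, S = {z | h ≤ z.2}) ∨ ∃ h : ℤ, S = {z | z.2 ≤ h}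

theorem reg_univ : Reg Set.univ := Or.inl rfl

theorem reg_upper (h : ℤ) : Reg {z : Pt | h ≤ z.2} := Or.inr (Or.inl ⟨h, rfl⟩)

theorem reg_lower (h : ℤ) : Reg {z : Pt | z.2 ≤ h} := Or.inr (Or.inr ⟨h, rfl⟩)

theorem Reg.between {S : Set Pt} (hS : Reg S) {p q z : Pt} (hp : p ∈ S) (hq : q ∈ S)
    (h₁ : min p.2 q.2 ≤ z.2) (h₂ : z.2 ≤ max p.2 q.2) : z ∈ S := by
  rcases hS with rfl | ⟨h, rfl⟩ | ⟨h, rfl⟩
  · trivial
  · simp only [Set.mem_ofPred_eq] at *; omega
  · simp only [Set.mem_ofPred_eq] at *; omega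

theorem Reg.level {S : Set Pt} (hS : Reg S) {p z : Pt} (hp : p ∈ S) (h : z.2 = p.2) : z ∈ S :=
  hS.between hp hp (by omega) (by omega)

/-- Neighbours for the king's move. -/
def Star (u v : Pt) : Prop := |u.1 - v.1| ≤ 1 ∧ |u.2 - v.2| ≤ 1

theorem Star.symm {u v : Pt} (h : Star u v) : Star v u := by
  unfold Star at *; rwa [abs_sub_comm v.1, abs_sub_comm v.2]

theorem star_self (u : Pt) : Star u u := by simp [Star]

theorem star_of_adj {u v : Pt} (h : grid.Adj u v) : Star u v := by
  rw [grid_adj_iff] at h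
  constructor <;> linarith [abs_nonneg (u.1 - v.1), abs_nonneg (u.2 - v.2)]

theorem adj_cases {u v : Pt} (h : grid.Adj u v) :
    v = (u.1 + 1, u.2) ∨ u = (v.1 + 1, v.2) ∨ v = (u.1, u.2 + 1) ∨ u = (v.1, v.2 + 1) := by
  rw [grid_adj_iff] at h
  obtain ⟨a, b⟩ := u
  obtain ⟨c, d⟩ := v
  simp only [abs_eq_max_neg, Prod.mk.injEq] at h ⊢
  omega

/-- A primitive mod 2 of a function on the integers. -/
noncomputable def prim (g : ℤ → ZMod 2) (a x : ℤ) : ZMod 2 :=
  ∑ i ∈ Finset.Ico (min a x) (max a x), g i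

theorem prim_self (g : ℤ → ZMod 2) (a : ℤ) : prim g a a = 0 := by simp [prim]

theorem prim_succ (g : ℤ → ZMod 2) (a x : ℤ) : prim g a (x + 1) = prim g a x + g x := by
  unfold prim
  rcases le_or_gt a x with h | h
  · rw [min_eq_left h, max_eq_right h, min_eq_left (by omega), max_eq_right (by omega),
      ← Finset.insert_Ico_right_eq_Ico_add_one h, Finset.sum_insert (by simp), add_comm]
  · rw [min_eq_right h.le, max_eq_left h.le, min_eq_right (by omega), max_eq_left (by omega),
      ← Finset.insert_Ico_add_one_left_eq_Ico h, Finset.sum_insert (by simp)]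
    rw [show ∀ s t : ZMod 2, t + s + t = s from by decide]

variable {S : Set Pt} {ψ : Sym2 Pt → ZMod 2}

/-- Every square of the region has even sum. -/
def Closed (S : Set Pt) (ψ : Sym2 Pt → ZMod 2) : Prop :=
  ∀ x y : ℤ, (x, y) ∈ S → (x, y + 1) ∈ S →
    ψ s((x, y), (x + 1, y)) + ψ s((x + 1, y), (x + 1, y + 1)) +
      ψ s((x, y + 1), (x + 1, y + 1)) + ψ s((x, y), (x, y + 1)) = 0

theorem exists_potential (hS : Reg S) (hc : Closed S ψ) {o : Pt} (ho : o ∈ S) :
    ∃ f : Pt → ZMod 2, ∀ u v : Pt, u ∈ S → v ∈ S → grid.Adj u v → ψ s(u, v) = f u + f v := by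
  refine ⟨fun z => prim (fun i => ψ s((i, o.2), (i + 1, o.2))) o.1 z.1 +
    prim (fun j => ψ s((z.1, j), (z.1, j + 1))) o.2 z.2, ?_⟩
  set F : Pt → ZMod 2 := fun z => prim (fun i => ψ s((i, o.2), (i + 1, o.2))) o.1 z.1 +
    prim (fun j => ψ s((z.1, j), (z.1, j + 1))) o.2 z.2 with hF
  have two : ∀ a c : ZMod 2, c = a + (a + c) := by decide
  have ver : ∀ x y : ℤ, ψ s((x, y), (x, y + 1)) = F (x, y) + F (x, y + 1) := fun x y => by
    simp only [F, prim_succ _ o.2 y]
    have e : ∀ a c d : ZMod 2, d = a + c + (a + (c + d)) := by decide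
    exact e _ _ _
  have hor : ∀ y x : ℤ, (x, y) ∈ S → ψ s((x, y), (x + 1, y)) = F (x, y) + F (x + 1, y) := by
    intro y x hy
    have base : ψ s((x, o.2), (x + 1, o.2)) = F (x, o.2) + F (x + 1, o.2) := by
      simp only [F, prim_self, add_zero, prim_succ _ o.1 x]
      exact two _ _
    -- the squares transport the identity from the base level
    have step : ∀ j : ℤ, (x, j) ∈ S → (x, j + 1) ∈ S →
        (ψ s((x, j), (x + 1, j)) + (F (x, j) + F (x + 1, j)) =
          ψ s((x, j + 1), (x + 1, j + 1)) + (F (x, j + 1) + F (x + 1, j + 1))) := by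
      intro j h1 h2
      have h := hc x j h1 h2
      rw [ver x j, ver (x + 1) j] at h
      revert h
      generalize ψ s((x, j), (x + 1, j)) = a
      generalize ψ s((x, j + 1), (x + 1, j + 1)) = c
      generalize F (x, j) = p
      generalize F (x + 1, j) = q
      generalize F (x, j + 1) = r
      generalize F (x + 1, j + 1) = t
      revert a c p q r t
      decide
    have zero : ψ s((x, y), (x + 1, y)) + (F (x, y) + F (x + 1, y)) = 0 := by
      have key : ∀ j, min o.2 y ≤ j → j ≤ max o.2 y → (x, j) ∈ S := fun j h1 h2 =>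
        hS.between ho hy h1 h2
      rcases le_total o.2 y with h | h
      · obtain ⟨n, rfl⟩ := Int.le.dest h
        clear hy h
        induction n with
        | zero => rw [Nat.cast_zero, add_zero, ← base]; exact CharTwo.add_self_eq_zero _
        | succ n ih =>
          have h1 : (x, o.2 + (n : ℤ)) ∈ S := key _ (by omega) (by omega)
          have h2 : (x, o.2 + (n : ℤ) + 1) ∈ S := key _ (by omega) (by omega)
          rw [Nat.cast_succ, show o.2 + ((n : ℤ) + 1) = o.2 + n + 1 by ring, ← step _ h1 h2]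
          exact ih fun j a b => key j (by omega) (by omega)
      · obtain ⟨n, rfl⟩ : ∃ n : ℕ, y = o.2 - n := ⟨(o.2 - y).toNat, by omega⟩
        clear hy h
        induction n with
        | zero => rw [Nat.cast_zero, sub_zero, ← base]; exact CharTwo.add_self_eq_zero _
        | succ n ih =>
          have h1 : (x, o.2 - (n : ℤ) - 1) ∈ S := key _ (by omega) (by omega)
          have h2 : (x, o.2 - (n : ℤ) - 1 + 1) ∈ S := key _ (by omega) (by omega)
          rw [Nat.cast_succ, show o.2 - ((n : ℤ) + 1) = o.2 - n - 1 by ring, step _ h1 h2, sub_add_cancel]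
          exact ih fun j a b => key j (by omega) (by omega)
    exact CharTwo.add_eq_zero.1 zero
  intro u v hu hv h
  rcases adj_cases h with rfl | rfl | rfl | rfl
  · exact hor u.2 u.1 hu
  · rw [Sym2.eq_swap, hor v.2 v.1 hv, add_comm]
  · exact ver u.1 u.2
  · rw [Sym2.eq_swap, ver v.1 v.2, add_comm]

/-- The sum along a walk. -/
def psum (ψ : Sym2 Pt → ZMod 2) {u v : Pt} (p : grid.Walk u v) : ZMod 2 := (p.edges.map ψ).sum

/-- Walks of the region with common ends have the same sum. -/
theorem psum_eq (hS : Reg S) (hc : Closed S ψ) {u v : Pt} (p q : grid.Walk u v)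
    (hp : ∀ z ∈ p.support, z ∈ S) (hq : ∀ z ∈ q.support, z ∈ S) : psum ψ p = psum ψ q := by
  obtain ⟨f, hf⟩ := exists_potential hS hc (hp u p.start_mem_support)
  have key : ∀ {a c : Pt} (r : grid.Walk a c), (∀ z ∈ r.support, z ∈ S) → psum ψ r = f a + f c := by
    intro a c r hr
    induction r with
    | nil => simp [psum, CharTwo.add_self_eq_zero]
    | @cons a m c hadj r ih =>
      have hm : ∀ z ∈ r.support, z ∈ S := fun z hz => hr z (List.mem_cons_of_mem _ hz)
      have e : psum ψ (Walk.cons hadj r) = ψ s(a, m) + psum ψ r := by simp [psum]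
      rw [e, ih hm, hf a m (hr a (by simp)) (hm m r.start_mem_support) hadj]
      have cancel : ∀ s t w : ZMod 2, s + t + (t + w) = s + w := by decide
      exact cancel _ _ _
  rw [key p hp, key q hq]

end Vale.Agent.P158.Any
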